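import Mathlib

/-!
# P347, exponent zero: flows of fields of linear growth and the continuity equation

For a field `V` on `[a, b]`, continuously differentiable in space and of linear growth, trajectories
through every point exist, the flow is differentiable in the starting point and its Jacobian
satisfies Liouville's formula. A positive density solving the continuity equation is carried by
the flow.
-/

open MeasureTheory Real Set Filter
open scoped Topology NNReal ENNReal

namespace Vale.Agent.P347.Zero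

variable {F : Type*} [NormedAddCommGroup F] [NormedSpace ℝ F]

/-- Regularity of a field on a time interval. -/
structure FieldReg (V : ℝ → F → F) (a b : ℝ) : Prop where
  cont : ContinuousOn (fun q : ℝ × F => V q.1 q.2) (Icc a b ×ˢ univ)
  diff : ∀ t ∈ Icc a b, Differentiable ℝ (V t)
  contD : ContinuousOn (fun q : ℝ × F => fderiv ℝ (V q.1) q.2) (Icc a b ×ˢ univ)
  growth : ∃ C : ℝ, 1 ≤ C ∧ ∀ t ∈ Icc a b, ∀ x, ‖V t x‖ ≤ C * (1 + ‖x‖)

/-- A trajectory of the field on the interval. -/
def IsTraj (V : ℝ → F → F) (a b : ℝ) (γ : ℝ → F) : Prop :=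
  ∀ t ∈ Icc a b, HasDerivWithinAt γ (V t (γ t)) (Icc a b) t

open Classical in
/-- The trajectory started from `x` at time `a`, frozen outside `[a, b]`. -/
noncomputable def odeFlow (V : ℝ → F → F) (a b : ℝ) (x : F) (t : ℝ) : F :=
  if h : ∃ γ, IsTraj V a b γ ∧ γ a = x then Classical.choose h (max a (min b t)) else x

/-- Radial retraction onto the ball of radius `R`. -/
noncomputable def retr (R : ℝ) (x : F) : F := (R / max R ‖x‖) • x

theorem norm_retr_le {R : ℝ} (hR : 0 < R) (x : F) : ‖retr R x‖ ≤ R ∧ ‖retr R x‖ ≤ ‖x‖ := by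
  have h : 0 < max R ‖x‖ := lt_max_of_lt_left hR
  rw [retr, norm_smul, norm_div, norm_of_nonneg hR.le, norm_of_nonneg h.le, div_mul_eq_mul_div]
  constructor
  · rw [div_le_iff₀ h]
    exact mul_le_mul_of_nonneg_left (le_max_right _ _) hR.le
  · rw [div_le_iff₀ h, mul_comm R]
    exact mul_le_mul_of_nonneg_left (le_max_left _ _) (norm_nonneg x)

theorem retr_eq {R : ℝ} (hR : 0 < R) {x : F} (hx : ‖x‖ ≤ R) : retr R x = x := by
  rw [retr, max_eq_left hx, div_self hR.ne', one_smul]

theorem lipschitz_retr {R : ℝ} (hR : 0 < R) : LipschitzWith 2 (retr (F := F) R) := by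
  refine LipschitzWith.of_dist_le_mul fun x y => ?_
  rw [dist_eq_norm, dist_eq_norm, NNReal.coe_ofNat]
  set p := max R ‖x‖
  set q := max R ‖y‖
  have hp : 0 < p := lt_max_of_lt_left hR
  have hq : 0 < q := lt_max_of_lt_left hR
  have e : retr R x - retr R y = (R / p) • (x - y) + (R / p - R / q) • y := by
    simp only [retr, smul_sub, sub_smul, p, q]; abel
  have h1 : |q - p| ≤ ‖x - y‖ := by
    refine le_trans ?_ (abs_norm_sub_norm_le x y)
    rw [abs_sub_comm ‖x‖, show q - p = max ‖y‖ R - max ‖x‖ R by simp [p, q, max_comm]]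
    exact abs_max_sub_max_le_abs _ _ _
  have h2 : R / p ≤ 1 := by rw [div_le_one hp]; exact le_max_left _ _
  have h3 : ‖y‖ / q ≤ 1 := by rw [div_le_one hq]; exact le_max_right _ _
  have h4 : |R / p - R / q| * ‖y‖ ≤ |q - p| := by
    have : R / p - R / q = R / p * ((q - p) / q) := by field_simp
    rw [this, abs_mul, abs_of_pos (div_pos hR hp), abs_div, abs_of_pos hq]
    calc R / p * (|q - p| / q) * ‖y‖ = (R / p) * (‖y‖ / q) * |q - p| := by ring
      _ ≤ 1 * |q - p| := by
          refine mul_le_mul_of_nonneg_right ?_ (abs_nonneg _)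
          exact mul_le_one₀ h2 (by positivity) h3
      _ = _ := one_mul _
  rw [e]
  refine (norm_add_le _ _).trans ?_
  rw [norm_smul, norm_smul, Real.norm_eq_abs, Real.norm_eq_abs, abs_of_pos (div_pos hR hp)]
  nlinarith [mul_le_mul_of_nonneg_right h2 (norm_nonneg (x - y))]

/-- Gronwall's bound for linear growth, forward in time. -/
theorem growth_bound {f f' : ℝ → F} {C a b : ℝ} (hC : 1 ≤ C) (hf : ContinuousOn f (Icc a b))
    (hf' : ∀ t ∈ Ico a b, HasDerivWithinAt f (f' t) (Ici t) t)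
    (hb : ∀ t ∈ Ico a b, ‖f' t‖ ≤ C * (1 + ‖f t‖)) {t : ℝ} (ht : t ∈ Icc a b) :
    ‖f t‖ ≤ (‖f a‖ + 1) * exp (C * (b - a)) := by
  have h := norm_le_gronwallBound_of_norm_deriv_right_le hf hf' le_rfl (K := C) (ε := C)
    (fun s hs => (hb s hs).trans (le_of_eq (by ring))) t ht
  rw [gronwallBound_of_K_ne_0 (by linarith)] at h
  simp only at h
  rw [div_self (by linarith), one_mul] at h
  have h1 : exp (C * (t - a)) ≤ exp (C * (b - a)) :=
    exp_le_exp.2 (mul_le_mul_of_nonneg_left (by linarith [ht.2]) (by linarith))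
  nlinarith [norm_nonneg (f a), mul_le_mul_of_nonneg_left h1 (norm_nonneg (f a))]

section Deriv

theorem hasDerivAt_of_within {γ : ℝ → F} {v : F} {a b t : ℝ} (ht : t ∈ Ioo a b)
    (h : HasDerivWithinAt γ v (Icc a b) t) : HasDerivAt γ v t :=
  h.hasDerivAt (Icc_mem_nhds ht.1 ht.2)

theorem deriv_Ici {γ : ℝ → F} {v : F} {a b t : ℝ} (ht : t ∈ Ico a b)
    (h : HasDerivWithinAt γ v (Icc a b) t) : HasDerivWithinAt γ v (Ici t) t :=
  h.mono_of_mem_nhdsWithin (Icc_mem_nhdsGE_of_mem ht)

theorem deriv_Iic {γ : ℝ → F} {v : F} {a b t : ℝ} (ht : t ∈ Ioc a b)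
    (h : HasDerivWithinAt γ v (Icc a b) t) : HasDerivWithinAt γ v (Iic t) t :=
  h.mono_of_mem_nhdsWithin (Icc_mem_nhdsLE_of_mem ht)

theorem IsTraj.continuousOn {V : ℝ → F → F} {a b : ℝ} {γ : ℝ → F} (h : IsTraj V a b γ) :
    ContinuousOn γ (Icc a b) := fun t ht => (h t ht).continuousWithinAt

end Deriv

variable [FiniteDimensional ℝ F] {V : ℝ → F → F} {a b : ℝ}

theorem FieldReg.exists_lip (hV : FieldReg V a b) (R : ℝ) :
    ∃ K : ℝ≥0, ∀ t ∈ Icc a b, LipschitzOnWith K (V t) (Metric.closedBall 0 R) := by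
  have hc := (isCompact_Icc (a := a) (b := b)).prod (isCompact_closedBall (0 : F) R)
  obtain ⟨M, hM⟩ := hc.exists_bound_of_continuousOn
    (f := fun q : ℝ × F => fderiv ℝ (V q.1) q.2) (hV.contD.mono (prod_mono le_rfl (subset_univ _)))
  refine ⟨M.toNNReal, fun t ht => Convex.lipschitzOnWith_of_nnnorm_fderiv_le
    (fun x _ => hV.diff t ht x) (fun x hx => ?_) (convex_closedBall _ _)⟩
  rw [← NNReal.coe_le_coe, coe_nnnorm, Real.coe_toNNReal']
  exact (hM (t, x) ⟨ht, hx⟩).trans (le_max_left _ _)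

omit [FiniteDimensional ℝ F] in
theorem FieldReg.mono (hV : FieldReg V a b) {a' b' : ℝ} (ha : a ≤ a') (hb : b' ≤ b) :
    FieldReg V a' b' := by
  have h : Icc a' b' ⊆ Icc a b := Icc_subset_Icc ha hb
  obtain ⟨C, hC, hg⟩ := hV.growth
  exact ⟨hV.cont.mono (prod_mono h le_rfl), fun t ht => hV.diff t (h ht),
    hV.contD.mono (prod_mono h le_rfl), C, hC, fun t ht => hg t (h ht)⟩

theorem FieldReg.traj_unique (hV : FieldReg V a b) {γ₁ γ₂ : ℝ → F} (h₁ : IsTraj V a b γ₁)
    (h₂ : IsTraj V a b γ₂) {t₁ : ℝ} (ht₁ : t₁ ∈ Icc a b) (he : γ₁ t₁ = γ₂ t₁) :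
    EqOn γ₁ γ₂ (Icc a b) := by
  obtain ⟨R₁, hR₁⟩ := isCompact_Icc.exists_bound_of_continuousOn h₁.continuousOn
  obtain ⟨R₂, hR₂⟩ := isCompact_Icc.exists_bound_of_continuousOn h₂.continuousOn
  obtain ⟨K, hK⟩ := hV.exists_lip (max R₁ R₂)
  have m₁ : ∀ t ∈ Icc a b, γ₁ t ∈ Metric.closedBall (0 : F) (max R₁ R₂) := fun t ht => by
    simpa using (hR₁ t ht).trans (le_max_left _ _)
  have m₂ : ∀ t ∈ Icc a b, γ₂ t ∈ Metric.closedBall (0 : F) (max R₁ R₂) := fun t ht => by
    simpa using (hR₂ t ht).trans (le_max_right _ _)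
  intro t ht
  rcases le_total t₁ t with h | h
  · have hs : Icc t₁ b ⊆ Icc a b := Icc_subset_Icc ht₁.1 le_rfl
    exact ODE_solution_unique_of_mem_Icc_right (s := fun _ => Metric.closedBall 0 (max R₁ R₂))
      (fun s hs' => hK s (hs (Ico_subset_Icc_self hs')))
      (h₁.continuousOn.mono hs)
      (fun s hs' => deriv_Ici ⟨ht₁.1.trans hs'.1, hs'.2⟩ (h₁ s (hs (Ico_subset_Icc_self hs'))))
      (fun s hs' => m₁ s (hs (Ico_subset_Icc_self hs')))
      (h₂.continuousOn.mono hs)
      (fun s hs' => deriv_Ici ⟨ht₁.1.trans hs'.1, hs'.2⟩ (h₂ s (hs (Ico_subset_Icc_self hs'))))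
      (fun s hs' => m₂ s (hs (Ico_subset_Icc_self hs'))) he ⟨h, ht.2⟩
  · have hs : Icc a t₁ ⊆ Icc a b := Icc_subset_Icc le_rfl ht₁.2
    exact ODE_solution_unique_of_mem_Icc_left (s := fun _ => Metric.closedBall 0 (max R₁ R₂))
      (fun s hs' => hK s (hs (Ioc_subset_Icc_self hs')))
      (h₁.continuousOn.mono hs)
      (fun s hs' => deriv_Iic ⟨hs'.1, hs'.2.trans ht₁.2⟩ (h₁ s (hs (Ioc_subset_Icc_self hs'))))
      (fun s hs' => m₁ s (hs (Ioc_subset_Icc_self hs')))
      (h₂.continuousOn.mono hs)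
      (fun s hs' => deriv_Iic ⟨hs'.1, hs'.2.trans ht₁.2⟩ (h₂ s (hs (Ioc_subset_Icc_self hs'))))
      (fun s hs' => m₂ s (hs (Ioc_subset_Icc_self hs'))) he ⟨ht.1, h⟩

/-- Trajectories through every point exist. -/
theorem FieldReg.exists_traj (hV : FieldReg V a b) {t₀ : ℝ} (ht₀ : t₀ ∈ Icc a b) (x₀ : F) :
    ∃ γ, IsTraj V a b γ ∧ γ t₀ = x₀ := by
  obtain ⟨C, hC, hg⟩ := hV.growth
  set R := (‖x₀‖ + 1) * exp (C * (b - a)) + 1
  have hR : 0 < R := by positivity
  obtain ⟨K, hK⟩ := hV.exists_lip R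
  set U : ℝ → F → F := fun t x => V t (retr R x)
  have hmem : ∀ x : F, retr R x ∈ Metric.closedBall (0 : F) R := fun x => by
    simpa using (norm_retr_le hR x).1
  have hU : ∀ t ∈ Icc a b, LipschitzWith (K * 2) (U t) := fun t ht =>
    lipschitzOnWith_univ.1 ((hK t ht).comp (lipschitz_retr hR).lipschitzOnWith fun x _ => hmem x)
  set L : ℝ≥0 := ⟨C * (1 + R), by positivity⟩
  have hUb : ∀ t ∈ Icc a b, ∀ x, ‖U t x‖ ≤ C * (1 + R) := fun t ht x =>
    (hg t ht _).trans (mul_le_mul_of_nonneg_left (by linarith [(norm_retr_le hR x).1]) (by linarith))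
  have hp : IsPicardLindelof U (⟨t₀, ht₀⟩ : Icc a b) x₀ (L * (b - a).toNNReal) 0 L (K * 2) := by
    refine ⟨fun t ht => (hU t ht).lipschitzOnWith, fun x _ => ?_, fun t ht x _ => hUb t ht x, ?_⟩
    · exact hV.cont.comp (continuousOn_id.prodMk continuousOn_const)
        fun t ht => mk_mem_prod ht (mem_univ (retr R x))
    · simp only [NNReal.coe_mul, NNReal.coe_zero, sub_zero, Real.coe_toNNReal']
      refine mul_le_mul_of_nonneg_left ?_ L.coe_nonneg
      refine le_trans ?_ (le_max_left _ _)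
      exact max_le (by linarith [ht₀.1]) (by linarith [ht₀.2])
  obtain ⟨γ, hγ0, hγ⟩ := hp.exists_eq_forall_mem_Icc_hasDerivWithinAt₀
  have hγc : ContinuousOn γ (Icc a b) := fun t ht => (hγ t ht).continuousWithinAt
  have hbd : ∀ t ∈ Icc a b, ∀ x, ‖U t x‖ ≤ C * (1 + ‖x‖) := fun t ht x =>
    (hg t ht _).trans (mul_le_mul_of_nonneg_left (by linarith [(norm_retr_le hR x).2]) (by linarith))
  have hγR : ∀ t ∈ Icc a b, ‖γ t‖ ≤ R := by
    intro t ht
    rcases le_total t₀ t with h | h
    · have hs : Icc t₀ b ⊆ Icc a b := Icc_subset_Icc ht₀.1 le_rfl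
      refine (growth_bound hC (hγc.mono hs)
        (fun s hs' => deriv_Ici ⟨ht₀.1.trans hs'.1, hs'.2⟩ (hγ s (hs (Ico_subset_Icc_self hs'))))
        (fun s hs' => hbd s (hs (Ico_subset_Icc_self hs')) _) ⟨h, ht.2⟩).trans ?_
      rw [hγ0]
      have : exp (C * (b - t₀)) ≤ exp (C * (b - a)) :=
        exp_le_exp.2 (mul_le_mul_of_nonneg_left (by linarith [ht₀.1]) (by linarith))
      simp only [R]
      nlinarith [norm_nonneg x₀, mul_le_mul_of_nonneg_left this (norm_nonneg x₀)]
    · have hm : MapsTo (fun u => t₀ - u) (Icc 0 (t₀ - a)) (Icc a b) := fun u hu =>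
        ⟨by linarith [hu.2], by linarith [hu.1, ht₀.2]⟩
      have hd : ∀ u ∈ Icc 0 (t₀ - a), HasDerivWithinAt (fun u => γ (t₀ - u))
          (-U (t₀ - u) (γ (t₀ - u))) (Icc 0 (t₀ - a)) u := fun u hu => by
        simpa [Function.comp_def] using (hγ _ (hm hu)).scomp u
          ((hasDerivWithinAt_id u _).const_sub t₀) hm
      have h1 := growth_bound hC (f := fun u => γ (t₀ - u))
        (fun u hu => (hd u hu).continuousWithinAt)
        (fun u hu => deriv_Ici hu (hd u (Ico_subset_Icc_self hu)))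
        (fun u hu => by rw [norm_neg]; exact hbd _ (hm (Ico_subset_Icc_self hu)) _)
        (t := t₀ - t) ⟨by linarith, by linarith [ht.1]⟩
      simp only [sub_sub_cancel, sub_zero, hγ0] at h1
      refine h1.trans ?_
      have : exp (C * (t₀ - a)) ≤ exp (C * (b - a)) :=
        exp_le_exp.2 (mul_le_mul_of_nonneg_left (by linarith [ht₀.2]) (by linarith))
      simp only [R]
      nlinarith [norm_nonneg x₀, mul_le_mul_of_nonneg_left this (norm_nonneg x₀)]
  refine ⟨γ, fun t ht => ?_, hγ0⟩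
  have h := hγ t ht
  simp only [U, retr_eq hR (hγR t ht)] at h
  exact h

theorem FieldReg.flow_spec (hV : FieldReg V a b) (hab : a ≤ b) (x : F) :
    IsTraj V a b (odeFlow V a b x) ∧ odeFlow V a b x a = x := by
  have h : ∃ γ, IsTraj V a b γ ∧ γ a = x := hV.exists_traj ⟨le_rfl, hab⟩ x
  have he : ∀ t ∈ Icc a b, odeFlow V a b x t = Classical.choose h t := fun t ht => by
    rw [odeFlow, dif_pos h, min_eq_right ht.2, max_eq_right ht.1]
  refine ⟨fun t ht => ?_, by rw [he a ⟨le_rfl, hab⟩]; exact (Classical.choose_spec h).2⟩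
  rw [he t ht]
  exact ((Classical.choose_spec h).1 t ht).congr he (he t ht)

theorem FieldReg.flow_eq (hV : FieldReg V a b) (hab : a ≤ b) {γ : ℝ → F} (hγ : IsTraj V a b γ) :
    EqOn (odeFlow V a b (γ a)) γ (Icc a b) :=
  hV.traj_unique (hV.flow_spec hab _).1 hγ ⟨le_rfl, hab⟩ (hV.flow_spec hab _).2

theorem FieldReg.flow_injective (hV : FieldReg V a b) (hab : a ≤ b) {t : ℝ} (ht : t ∈ Icc a b) :
    Function.Injective fun x => odeFlow V a b x t := fun x y h => by
  have he := hV.traj_unique (hV.flow_spec hab x).1 (hV.flow_spec hab y).1 ht h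
    (left_mem_Icc.2 hab)
  rwa [(hV.flow_spec hab x).2, (hV.flow_spec hab y).2] at he

theorem FieldReg.flow_surjective (hV : FieldReg V a b) (hab : a ≤ b) {t : ℝ} (ht : t ∈ Icc a b) :
    Function.Surjective fun x => odeFlow V a b x t := fun y => by
  obtain ⟨γ, hγ, hy⟩ := hV.exists_traj ht y
  exact ⟨γ a, (hV.flow_eq hab hγ ht).trans hy⟩

theorem FieldReg.norm_flow_le (hV : FieldReg V a b) (hab : a ≤ b) {C : ℝ} (hC : 1 ≤ C)
    (hg : ∀ t ∈ Icc a b, ∀ x, ‖V t x‖ ≤ C * (1 + ‖x‖)) (x : F) {t : ℝ} (ht : t ∈ Icc a b) :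
    ‖odeFlow V a b x t‖ ≤ (‖x‖ + 1) * exp (C * (b - a)) := by
  obtain ⟨h1, h2⟩ := hV.flow_spec hab x
  have h := growth_bound hC h1.continuousOn
    (fun s hs => deriv_Ici hs (h1 s (Ico_subset_Icc_self hs)))
    (fun s hs => hg s (Ico_subset_Icc_self hs) _) ht
  rwa [h2] at h

/-- The flow is Lipschitz near every starting point, uniformly in time. -/
theorem FieldReg.flow_lip (hV : FieldReg V a b) (hab : a ≤ b) (r : ℝ) :
    ∃ K : ℝ, 0 ≤ K ∧ ∀ x y : F, ‖x‖ ≤ r → ‖y‖ ≤ r → ∀ t ∈ Icc a b,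
      ‖odeFlow V a b x t - odeFlow V a b y t‖ ≤ K * ‖x - y‖ := by
  obtain ⟨C, hC, hg⟩ := hV.growth
  obtain ⟨K, hK⟩ := hV.exists_lip ((r + 1) * exp (C * (b - a)))
  refine ⟨exp (K * (b - a)), (exp_pos _).le, fun x y hx hy t ht => ?_⟩
  have hm : ∀ z : F, ‖z‖ ≤ r → ∀ s ∈ Icc a b,
      odeFlow V a b z s ∈ Metric.closedBall (0 : F) ((r + 1) * exp (C * (b - a))) := fun z hz s hs => by
    simpa using (hV.norm_flow_le hab hC hg z hs).trans (by gcongr)
  have h := dist_le_of_trajectories_ODE_of_mem (K := K)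
    (s := fun _ => Metric.closedBall (0 : F) ((r + 1) * exp (C * (b - a))))
    (fun s hs => hK s (Ico_subset_Icc_self hs)) (hV.flow_spec hab x).1.continuousOn
    (fun s hs => deriv_Ici hs ((hV.flow_spec hab x).1 s (Ico_subset_Icc_self hs)))
    (fun s hs => hm x hx s (Ico_subset_Icc_self hs)) (hV.flow_spec hab y).1.continuousOn
    (fun s hs => deriv_Ici hs ((hV.flow_spec hab y).1 s (Ico_subset_Icc_self hs)))
    (fun s hs => hm y hy s (Ico_subset_Icc_self hs))
    (δ := dist x y) (by rw [(hV.flow_spec hab x).2, (hV.flow_spec hab y).2]) t ht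
  rw [dist_eq_norm, dist_eq_norm, mul_comm] at h
  refine h.trans (mul_le_mul_of_nonneg_right (exp_le_exp.2 ?_) (norm_nonneg _))
  exact mul_le_mul_of_nonneg_left (by linarith [ht.2]) K.coe_nonneg

theorem FieldReg.continuousOn_flow (hV : FieldReg V a b) (hab : a ≤ b) :
    ContinuousOn (fun q : F × ℝ => odeFlow V a b q.1 q.2) (univ ×ˢ Icc a b) := by
  rintro ⟨x, t⟩ ⟨-, ht⟩
  obtain ⟨K, hK0, hK⟩ := hV.flow_lip hab (‖x‖ + 1)
  rw [ContinuousWithinAt, tendsto_iff_norm_sub_tendsto_zero]
  have h1 : Tendsto (fun q : F × ℝ => K * ‖q.1 - x‖ +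
      ‖odeFlow V a b x q.2 - odeFlow V a b x t‖) (𝓝[univ ×ˢ Icc a b] (x, t)) (𝓝 0) := by
    have a1 : Tendsto (fun q : F × ℝ => K * ‖q.1 - x‖) (𝓝[univ ×ˢ Icc a b] (x, t)) (𝓝 0) := by
      have : Continuous fun q : F × ℝ => K * ‖q.1 - x‖ := by fun_prop
      simpa using (this.tendsto (x, t)).mono_left nhdsWithin_le_nhds
    have a2 : Tendsto (fun q : F × ℝ => ‖odeFlow V a b x q.2 - odeFlow V a b x t‖)
        (𝓝[univ ×ˢ Icc a b] (x, t)) (𝓝 0) := by
      have c : ContinuousWithinAt (fun q : F × ℝ => odeFlow V a b x q.2) (univ ×ˢ Icc a b) (x, t) :=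
        ContinuousWithinAt.comp (g := odeFlow V a b x) (f := Prod.snd) (t := Icc a b)
          ((hV.flow_spec hab x).1 t ht).continuousWithinAt continuous_snd.continuousWithinAt
          fun q hq => hq.2
      exact tendsto_iff_norm_sub_tendsto_zero.1 c
    simpa using a1.add a2
  refine squeeze_zero' (.of_forall fun _ => norm_nonneg _) ?_ h1
  filter_upwards [self_mem_nhdsWithin, nhdsWithin_le_nhds (Metric.closedBall_mem_nhds (x, t) one_pos)]
    with q hq hq1
  rw [Metric.mem_closedBall, dist_eq_norm] at hq1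
  have hqx : ‖q.1‖ ≤ ‖x‖ + 1 :=
    (norm_le_norm_add_norm_sub' _ x).trans (by
      have h2 := (norm_fst_le (q - (x, t))).trans hq1
      simp only [Prod.fst_sub] at h2
      linarith)
  exact (norm_sub_le_norm_sub_add_norm_sub _ (odeFlow V a b x q.2) _).trans
    (add_le_add (hK _ _ hqx (by linarith) q.2 hq.2) le_rfl)

theorem FieldReg.hasFDerivAt_flow (hV : FieldReg V a b) (hab : a ≤ b) (x : F) :
    ∃ J : ℝ → F →L[ℝ] F, J a = ContinuousLinearMap.id ℝ F ∧
      (∀ t ∈ Icc a b, HasDerivWithinAt J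
        ((fderiv ℝ (V t) (odeFlow V a b x t)).comp (J t)) (Icc a b) t) ∧
      ∀ t ∈ Icc a b, HasFDerivAt (fun y => odeFlow V a b y t) (J t) x := by
  set A : ℝ → F →L[ℝ] F := fun t => fderiv ℝ (V t) (odeFlow V a b x t) with hA
  have hAc : ContinuousOn A (Icc a b) :=
    hV.contD.comp (continuousOn_id.prodMk (hV.flow_spec hab x).1.continuousOn)
      fun t ht => mk_mem_prod ht (mem_univ _)
  obtain ⟨MA, hMA⟩ := isCompact_Icc.exists_bound_of_continuousOn hAc
  set VL : ℝ → (F →L[ℝ] F) → (F →L[ℝ] F) := fun t M => (A t).comp M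
  have hLd : ∀ t M, HasFDerivAt (VL t) (ContinuousLinearMap.compL ℝ F F F (A t)) M := fun t M =>
    (ContinuousLinearMap.compL ℝ F F F (A t)).hasFDerivAt
  have hL : FieldReg VL a b := by
    refine ⟨?_, fun t _ M => (hLd t M).differentiableAt, ?_, max MA 1, le_max_right _ _,
      fun t ht M => ?_⟩
    · exact (hAc.comp continuousOn_fst fun q hq => hq.1).clm_comp continuousOn_snd
    · simp only [funext fun q : ℝ × (F →L[ℝ] F) => (hLd q.1 q.2).fderiv]
      exact (ContinuousLinearMap.compL ℝ F F F).continuous.comp_continuousOn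
        (hAc.comp continuousOn_fst fun q hq => hq.1)
    · refine (ContinuousLinearMap.opNorm_comp_le _ _).trans ?_
      exact mul_le_mul ((hMA t ht).trans (le_max_left _ _)) (by linarith [norm_nonneg M])
        (norm_nonneg _) (le_trans zero_le_one (le_max_right _ _))
  obtain ⟨J, hJ, hJa⟩ := hL.exists_traj ⟨le_rfl, hab⟩ (ContinuousLinearMap.id ℝ F)
  refine ⟨J, hJa, hJ, fun t ht => ?_⟩
  obtain ⟨C, hC, hg⟩ := hV.growth
  set R := (‖x‖ + 1 + 1) * exp (C * (b - a))
  obtain ⟨K, hK0, hK⟩ := hV.flow_lip hab (‖x‖ + 1)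
  set T := exp ((max MA 1) * (b - a))
  have huc := ((isCompact_Icc (a := a) (b := b)).prod
    (isCompact_closedBall (0 : F) (R + 1))).uniformContinuousOn_of_continuous
    (hV.contD.mono (prod_mono le_rfl (subset_univ _)))
  rw [Metric.uniformContinuousOn_iff] at huc
  rw [hasFDerivAt_iff_isLittleO_nhds_zero, Asymptotics.isLittleO_iff]
  intro ε hε
  set ε' := ε / (K + 1) / T
  have hε' : 0 < ε' := by positivity
  obtain ⟨ρ, hρ, huc⟩ := huc ε' hε'
  set δ := min 1 (min 1 (ρ / 2) / (K + 1))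
  have hδ : 0 < δ := by positivity
  filter_upwards [Metric.closedBall_mem_nhds (0 : F) hδ] with h hh
  rw [Metric.mem_closedBall, dist_zero_right] at hh
  have hxh : ‖x + h‖ ≤ ‖x‖ + 1 :=
    (norm_add_le _ _).trans (by linarith [hh.trans (min_le_left _ _)])
  have hsmall : ∀ s ∈ Icc a b,
      ‖odeFlow V a b (x + h) s - odeFlow V a b x s‖ ≤ min 1 (ρ / 2) := fun s hs => by
    refine (hK _ _ hxh (by linarith) s hs).trans ?_
    rw [add_sub_cancel_left]
    have h1 := hh.trans (min_le_right _ _)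
    rw [le_div_iff₀ (by linarith)] at h1
    nlinarith [norm_nonneg h]
  set e : ℝ → F := fun s => odeFlow V a b (x + h) s - odeFlow V a b x s - J s h
  have hed : ∀ s ∈ Icc a b, HasDerivWithinAt e (V s (odeFlow V a b (x + h) s) -
      V s (odeFlow V a b x s) - A s (J s h)) (Icc a b) s := fun s hs => by
    refine (((hV.flow_spec hab _).1 s hs).sub ((hV.flow_spec hab _).1 s hs)).sub ?_
    simpa [Function.comp_def, VL] using
      (ContinuousLinearMap.apply ℝ F h).hasFDerivAt.comp_hasDerivWithinAt s (hJ s hs)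
  have hbound : ∀ s ∈ Ico a b,
      ‖V s (odeFlow V a b (x + h) s) - V s (odeFlow V a b x s) - A s (J s h)‖ ≤
        max MA 1 * ‖e s‖ + ε' * ((K + 1) * ‖h‖) := by
    intro s hs'
    have hs := Ico_subset_Icc_self hs'
    set u := odeFlow V a b x s
    set v := odeFlow V a b (x + h) s
    have hu : ‖u‖ ≤ R := (hV.norm_flow_le hab hC hg x hs).trans
      (mul_le_mul_of_nonneg_right (by linarith) (exp_pos _).le)
    have hseg : ∀ z ∈ Metric.closedBall u (min 1 (ρ / 2)),
        ‖fderiv ℝ (V s) z - A s‖ ≤ ε' := fun z hz => by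
      rw [Metric.mem_closedBall, dist_eq_norm] at hz
      have hzR : ‖z‖ ≤ R + 1 := (norm_le_norm_add_norm_sub' _ u).trans
        (by linarith [min_le_left (1 : ℝ) (ρ / 2)])
      have := huc (s, z) ⟨hs, by simpa using hzR⟩ (s, u) ⟨hs, by simp; linarith⟩ (by
        rw [dist_eq_norm, Prod.norm_def]
        simp only [Prod.fst_sub, Prod.snd_sub, sub_self, norm_zero]
        exact max_lt hρ (by linarith [min_le_right (1 : ℝ) (ρ / 2)]))
      rw [dist_eq_norm] at this
      exact this.le
    have hmv := (convex_closedBall u (min 1 (ρ / 2))).norm_image_sub_le_of_norm_hasFDerivWithin_le'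
      (fun z _ => ((hV.diff s hs) z).hasFDerivAt.hasFDerivWithinAt) hseg
      (Metric.mem_closedBall_self (by positivity))
      (y := v) (by rw [Metric.mem_closedBall, dist_eq_norm]; exact hsmall s hs)
    have hvu : ‖v - u‖ ≤ (K + 1) * ‖h‖ :=
      (hK _ _ hxh (by linarith) s hs).trans (by rw [add_sub_cancel_left]; nlinarith [norm_nonneg h])
    have he : V s v - V s u - A s (J s h) = (V s v - V s u - A s (v - u)) + A s (e s) := by
      simp only [e, map_sub, v, u]; abel
    rw [he]
    refine (norm_add_le _ _).trans ?_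
    rw [add_comm (max MA 1 * ‖e s‖)]
    exact add_le_add (hmv.trans (mul_le_mul_of_nonneg_left hvu hε'.le))
      ((ContinuousLinearMap.le_opNorm _ _).trans (mul_le_mul_of_nonneg_right
        ((hMA s hs).trans (le_max_left _ _)) (norm_nonneg _)))
  have hg2 := norm_le_gronwallBound_of_norm_deriv_right_le (f := e)
    (fun s hs => (hed s hs).continuousWithinAt)
    (fun s hs => deriv_Ici hs (hed s (Ico_subset_Icc_self hs))) (δ := 0)
    (by simp [e, hJa, (hV.flow_spec hab _).2]) hbound t ht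
  refine (le_of_eq ?_).trans (hg2.trans ?_)
  · simp only [e]
  · rw [gronwallBound_of_K_ne_0 (by positivity)]
    simp only [zero_mul, zero_add]
    have hexp : exp (max MA 1 * (t - a)) - 1 ≤ T := by
      have : exp (max MA 1 * (t - a)) ≤ T :=
        exp_le_exp.2 (mul_le_mul_of_nonneg_left (by linarith [ht.2]) (by positivity))
      linarith
    calc ε' * ((K + 1) * ‖h‖) / max MA 1 * (exp (max MA 1 * (t - a)) - 1)
        ≤ ε' * ((K + 1) * ‖h‖) * T := by
          refine mul_le_mul (div_le_self (by positivity) (le_max_right _ _)) hexp ?_ (by positivity)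
          linarith [one_le_exp (mul_nonneg (le_trans zero_le_one (le_max_right MA 1))
            (by linarith [ht.1] : (0 : ℝ) ≤ t - a))]
      _ = ε * ‖h‖ := by
          have hT : T ≠ 0 := (exp_pos _).ne'
          simp only [ε']; field_simp

omit [FiniteDimensional ℝ F] in
/-- A derivation of a determinant is the trace. -/
theorem sum_det_update {ι : Type*} [Fintype ι] [DecidableEq ι] (e : Module.Basis ι ℝ F)
    (A : F →ₗ[ℝ] F) (v : ι → F) :
    ∑ i, e.det (Function.update v i (A (v i))) = LinearMap.trace ℝ F A * e.det v := by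
  classical
  have key : ∀ j, e.det (Function.update e j (A (e j))) = LinearMap.toMatrix e e A j j := by
    intro j
    rw [e.det_apply, e.toMatrix_update, e.toMatrix_self, LinearMap.toMatrix_apply]
    rw [← Matrix.cramer_apply, Matrix.cramer_one]
    simp
  let g : MultilinearMap ℝ (fun _ : ι => F) ℝ :=
    ∑ i, e.det.toMultilinearMap.compLinearMap fun j => if j = i then A else LinearMap.id
  have hg : ∀ v, g v = ∑ i, e.det (Function.update v i (A (v i))) := by
    intro v
    simp only [g, sum_apply, MultilinearMap.compLinearMap_apply,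
      AlternatingMap.coe_multilinearMap]
    refine Finset.sum_congr rfl fun i _ => congrArg _ (funext fun j => ?_)
    by_cases h : j = i
    · subst h; simp
    · simp [h]
  let G : F [⋀^ι]→ₗ[ℝ] ℝ :=
    { g with
      map_eq_zero_of_eq' := fun v i j hv hij => by
        change g v = 0
        rw [hg, Finset.sum_eq_add i j hij]
        · have h1 : Function.update v i (A (v i)) =
              Function.update v j (A (v j)) ∘ Equiv.swap i j := by
            funext k
            rcases eq_or_ne k i with rfl | hki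
            · simp [hv]
            · rcases eq_or_ne k j with rfl | hkj
              · simp [hij, hki, hv]
              · simp [hki, hkj, Equiv.swap_apply_of_ne_of_ne hki hkj]
          rw [h1, e.det.map_swap _ hij, neg_add_cancel]
        · intro k _ hk
          exact e.det.map_eq_zero_of_eq _
            (by simp [Function.update_of_ne hk.1.symm, Function.update_of_ne hk.2.symm, hv]) hij
        · simp
        · simp }
  have hG : ∀ v, G v = g v := fun _ => rfl
  rw [← hg, ← hG, G.eq_smul_basis_det e, AlternatingMap.smul_apply, smul_eq_mul, hG, hg]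
  congr 1
  simp only [key, LinearMap.trace_eq_matrix_trace ℝ e, Matrix.trace, Matrix.diag]

/-- Liouville's formula. -/
theorem hasDerivWithinAt_det {J : ℝ → F →L[ℝ] F} {A : F →L[ℝ] F} {s : Set ℝ} {t : ℝ}
    (hJ : HasDerivWithinAt J (A.comp (J t)) s t) :
    HasDerivWithinAt (fun u => (J u).det)
      (LinearMap.trace ℝ F A.toLinearMap * (J t).det) s t := by
  classical
  let e := Module.finBasis ℝ F
  have hdet : ∀ M : F →L[ℝ] F, M.det = e.det fun i => M (e i) := fun M => by
    have h := e.det_comp M.toLinearMap e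
    rw [e.det_self, mul_one] at h
    exact h.symm
  have hc : Continuous fun v : Fin (Module.finrank ℝ F) → F => e.det v := by
    simp only [Module.Basis.det_apply]
    refine Continuous.matrix_det (continuous_matrix fun i j => ?_)
    simp only [Module.Basis.toMatrix_apply]
    exact (e.coord i).continuous_of_finiteDimensional.comp (continuous_apply j)
  let f : ContinuousMultilinearMap ℝ (fun _ : Fin (Module.finrank ℝ F) => F) ℝ :=
    ⟨e.det.toMultilinearMap, hc⟩
  have hv : ∀ i, HasFDerivWithinAt (fun u => J u (e i))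
      ((ContinuousLinearMap.toSpanSingleton ℝ (A (J t (e i))))) s t := fun i => by
    have := (ContinuousLinearMap.apply ℝ F (e i)).hasFDerivAt.comp_hasDerivWithinAt t hJ
    simpa [Function.comp_def] using this.hasFDerivWithinAt
  have h := (HasFDerivWithinAt.multilinear_comp (f := f) hv).hasDerivWithinAt
  refine (h.congr (fun u _ => hdet _) (hdet _)).congr_deriv ?_
  rw [hdet, ← sum_det_update e A.toLinearMap fun i => J t (e i)]
  simp only [sum_apply, ContinuousLinearMap.comp_apply, ContinuousLinearMap.toSpanSingleton_apply,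
    one_smul]
  rfl

/-- The hypothesis of the continuity equation for a positive density. -/
structure ContEq (V : ℝ → F → F) (p : ℝ → F → ℝ) (a b : ℝ) : Prop where
  pos : ∀ t ∈ Icc a b, ∀ x, 0 < p t x
  diff : ∀ t ∈ Icc a b, ∀ x, DifferentiableAt ℝ (fun q : ℝ × F => p q.1 q.2) (t, x)
  eqn : ∀ t ∈ Icc a b, ∀ x, fderiv ℝ (fun q : ℝ × F => p q.1 q.2) (t, x) (1, V t x) +
    p t x * LinearMap.trace ℝ F (fderiv ℝ (V t) x).toLinearMap = 0

theorem FieldReg.density_det (hV : FieldReg V a b) (hab : a ≤ b) {p : ℝ → F → ℝ}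
    (hp : ContEq V p a b) (x : F) {t : ℝ} (ht : t ∈ Icc a b) :
    ∃ J : F →L[ℝ] F, HasFDerivAt (fun y => odeFlow V a b y t) J x ∧
      p t (odeFlow V a b x t) * |J.det| = p a x := by
  obtain ⟨J, hJa, hJ, hJd⟩ := hV.hasFDerivAt_flow hab x
  set φ := odeFlow V a b x
  have hφ := (hV.flow_spec hab x).1
  have hg : ∀ s ∈ Icc a b, HasDerivWithinAt (fun u => p u (φ u) * (J u).det) 0 (Icc a b) s := by
    intro s hs
    have h1 := (hp.diff s hs (φ s)).hasFDerivAt.comp_hasDerivWithinAt s
      ((hasDerivWithinAt_id s (Icc a b)).prodMk (hφ s hs))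
    refine (h1.mul (hasDerivWithinAt_det (hJ s hs))).congr_deriv ?_
    simp only [Function.comp_apply, id]
    linear_combination (J s).det * hp.eqn s hs (φ s)
  have hconst := constant_of_has_deriv_right_zero (fun s hs => (hg s hs).continuousWithinAt)
    (fun s hs => deriv_Ici hs (hg s (Ico_subset_Icc_self hs))) t ht
  simp only [hJa, φ, (hV.flow_spec hab x).2] at hconst
  rw [show (ContinuousLinearMap.id ℝ F).det = 1 from LinearMap.det_id, mul_one] at hconst
  have hpos : 0 < (J t).det := by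
    by_contra hneg
    have h1 := mul_nonpos_iff.2 (Or.inl ⟨(hp.pos t ht (odeFlow V a b x t)).le, not_lt.1 hneg⟩)
    linarith [hp.pos a ⟨le_rfl, hab⟩ x]
  exact ⟨J t, hJd t ht, by rw [abs_of_pos hpos]; exact hconst⟩

variable [MeasurableSpace F] [BorelSpace F] (μ : Measure F) [μ.IsAddHaarMeasure]

/-- The flow carries a positive solution of the continuity equation. -/
theorem FieldReg.map_flow (hV : FieldReg V a b) (hab : a ≤ b) {p : ℝ → F → ℝ}
    (hp : ContEq V p a b) {t : ℝ} (ht : t ∈ Icc a b) :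
    (μ.withDensity fun x => ENNReal.ofReal (p a x)).map (fun x => odeFlow V a b x t) =
      μ.withDensity fun x => ENNReal.ofReal (p t x) := by
  choose J hJ hJp using fun x => hV.density_det hab hp x ht
  set T := fun x => odeFlow V a b x t
  have hTc : Continuous T := continuous_iff_continuousAt.2 fun x => (hJ x).continuousAt
  refine Measure.ext fun S hS => ?_
  rw [Measure.map_apply hTc.measurable hS, withDensity_apply _ (hTc.measurable hS),
    withDensity_apply _ hS]
  have h := lintegral_image_eq_lintegral_abs_det_fderiv_mul μ (hTc.measurable hS)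
    (fun x _ => (hJ x).hasFDerivWithinAt) (hV.flow_injective hab ht).injOn
    (fun y => ENNReal.ofReal (p t y))
  rw [Set.image_preimage_eq S (hV.flow_surjective hab ht)] at h
  rw [h]
  refine setLIntegral_congr_fun (hTc.measurable hS) fun x _ => ?_
  rw [← ENNReal.ofReal_mul (abs_nonneg _), mul_comm, hJp]

end Vale.Agent.P347.Zero
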