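import Vale.Agent.P347.Zero.Family

/-!
# P347, exponent zero: the laws of the tilted family and its two limits
-/

open MeasureTheory ProbabilityTheory Real Set Filter
open scoped RealInnerProductSpace Topology

namespace Vale.Agent.P347.Zero

open Deriv

variable {d : ℕ} {η B : ℝ} {W : E d → ℝ}

theorem integrable_exp_gauss {U : E d → ℝ} (hd : Decay (pot U)) {G : Type*} [NormedAddCommGroup G]
    [NormedSpace ℝ G] {f : E d → G} (hf : Continuous f) (hp : PolyBd f) :
    Integrable (fun x => exp (-U x) • f x) (stdGaussian (E d)) := by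
  rw [stdGaussian_eq_withDensity, integrable_withDensity_iff_integrable_smul'
    (by unfold gPot; fun_prop) (ae_of_all _ fun x => ENNReal.ofReal_lt_top)]
  have hK := integral_exp_gPot_pos (d := d)
  refine ((hd.integrable hf.aestronglyMeasurable hp).smul (∫ y : E d, exp (-gPot y))⁻¹).congr
    (ae_of_all _ fun x => ?_)
  beta_reduce
  rw [ENNReal.toReal_ofReal (mul_nonneg (inv_nonneg.2 hK.le) (exp_pos _).le)]
  simp only [Pi.smul_apply, smul_smul]
  congr 1
  rw [mul_assoc, ← exp_add]
  simp [pot, gPot]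
  ring_nf
  simp

theorem integral_exp_pot_eq (U : E d → ℝ) {G : Type*} [NormedAddCommGroup G] [NormedSpace ℝ G]
    (f : E d → G) : ∫ x, exp (-pot U x) • f x =
      (∫ y : E d, exp (-gPot y)) • ∫ x, exp (-U x) • f x ∂stdGaussian (E d) := by
  rw [integral_stdGaussian, smul_smul, mul_inv_cancel₀ integral_exp_gPot_pos.ne', one_smul]
  refine integral_congr_ae (ae_of_all _ fun x => ?_)
  simp only [smul_smul, ← exp_add, pot, gPot, neg_add]

theorem integral_law_gauss {U : E d → ℝ} (hU : Pert η B U) {G : Type*} [NormedAddCommGroup G]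
    [NormedSpace ℝ G] (f : E d → G) :
    ∫ x, f x ∂law U = (∫ x, exp (-U x) ∂stdGaussian (E d))⁻¹ •
      ∫ x, exp (-U x) • f x ∂stdGaussian (E d) := by
  have h := integral_exp_pot_eq U fun _ => (1 : ℝ)
  simp only [smul_eq_mul, mul_one] at h
  rw [hU.integral_law, h, integral_exp_pot_eq, smul_smul, mul_inv]
  congr 1
  field_simp [integral_exp_gPot_pos.ne']

theorem sq_norm_integral_le {μ : Measure (E d)} [IsProbabilityMeasure μ] {f : E d → E d}
    (hf : Integrable f μ) (hf2 : Integrable (fun x => ‖f x‖ ^ 2) μ) :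
    ‖∫ x, f x ∂μ‖ ^ 2 ≤ ∫ x, ‖f x‖ ^ 2 ∂μ := by
  set m := ∫ x, f x ∂μ
  have h : 0 ≤ ∫ x, ‖f x - m‖ ^ 2 ∂μ := integral_nonneg fun x => sq_nonneg _
  have e : ∀ x, ‖f x - m‖ ^ 2 = ‖f x‖ ^ 2 - 2 * ⟪m, f x⟫ + ‖m‖ ^ 2 := fun x => by
    rw [norm_sub_sq_real, real_inner_comm m]
  simp only [e] at h
  rw [integral_add (hf2.sub' ((hf.const_inner m).const_mul 2)) (integrable_const _),
    integral_sub hf2 ((hf.const_inner m).const_mul 2), integral_const_mul, integral_inner hf] at h
  simp only [integral_const, probReal_univ, one_smul, m, real_inner_self_eq_norm_sq] at h ⊢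
  linarith

variable (hW : Pert η B W)
include hW

theorem isProbabilityMeasure_law_tU {t : ℝ} (ht : 0 < t) : IsProbabilityMeasure (law (tU W t)) :=
  (pert_tU hW ht).isProbabilityMeasure_law

/-- the law of `e^{-t} X + √(1 - e^{-2t}) Z` -/
theorem law_tU {t : ℝ} (ht : 0 < t) : law (tU W t) =
    ((law W).prod (stdGaussian (E d))).map (fun p => exp (-t) • p.1 + bT t • p.2) := by
  rw [← cosB_bT ht]
  exact hW.law_lsm (bT_pos ht) (bT_lt_one ht)

/-- joint laws of `(X, Y_t)` in the weight `exp (-W)` -/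
theorem gauss_tower {t : ℝ} (ht : 0 < t) {G : Type*} [NormedAddCommGroup G] [NormedSpace ℝ G]
    [CompleteSpace G] {F : E d × E d → G} (hc : Continuous F) (hp : PolyBd F) :
    ∫ p, exp (-W p.1) • F (p.1, exp (-t) • p.1 + bT t • p.2)
        ∂(stdGaussian (E d)).prod (stdGaussian (E d)) =
      ∫ y, ∫ z, exp (-post (bT t) W y z) • F (exp (-t) • y + bT t • z, y) ∂stdGaussian (E d)
        ∂stdGaussian (E d) := by
  set γ := stdGaussian (E d)
  set c := exp (-t)
  set b := bT t
  have hb := bT_pos ht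
  have hb1 := bT_lt_one ht
  set θ := -arcsin b
  have hcc : cos θ = c := by
    simp only [θ, Real.cos_neg, Real.cos_arcsin]
    exact cosB_bT ht
  have hs : sin θ = -b := by
    simp [θ, b, Real.sin_arcsin (by linarith : (-1 : ℝ) ≤ bT t) hb1.le]
  have hcs : c ^ 2 + b ^ 2 = 1 := by simp only [c, b, bT_sq ht, b2, exp_neg_sq]; ring
  set Φ : E d × E d → G := fun p => exp (-W p.1) • F (p.1, c • p.1 + b • p.2)
  have hΦc : Continuous Φ :=
    ((hW.contDiff.continuous.comp continuous_fst).neg.rexp).smul (hc.comp (by fun_prop))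
  obtain ⟨C, k, hC, hbd⟩ := hp
  have hpk : PolyBd fun x : E d => (1 + ‖x‖) ^ k := ((PolyBd.const 1).add PolyBd.id.norm).pow k
  have i1 : Integrable Φ (γ.prod γ) := by
    have h1 := integrable_exp_gauss hW.decay (f := fun x : E d => (1 + ‖x‖) ^ k) (by fun_prop) hpk
    have h2 : Integrable (fun x : E d => (1 + ‖x‖) ^ k) γ :=
      hpk.integrable _ (Continuous.aestronglyMeasurable (by fun_prop))
    refine ((h1.mul_prod h2).const_mul C).mono' hΦc.aestronglyMeasurable (ae_of_all _ fun p => ?_)
    rw [norm_smul, Real.norm_eq_abs, abs_of_pos (exp_pos _), smul_eq_mul, mul_assoc, ← mul_pow,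
      mul_left_comm C]
    refine mul_le_mul_of_nonneg_left ((hbd _).trans ?_) (exp_pos _).le
    refine mul_le_mul_of_nonneg_left (pow_le_pow_left₀ (by positivity) ?_ k) hC
    rw [Prod.norm_def]
    have hc0 : 0 ≤ c := (exp_pos _).le
    have hc1 : c ≤ 1 := exp_le_one_iff.2 (by linarith)
    have hn : ‖c • p.1 + b • p.2‖ ≤ ‖p.1‖ + ‖p.2‖ := by
      refine (norm_add_le _ _).trans (add_le_add ?_ ?_) <;>
        rw [norm_smul, Real.norm_eq_abs] <;>
        refine mul_le_of_le_one_left (norm_nonneg _) ?_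
      · rwa [abs_of_nonneg hc0]
      · simp only [b]; rw [abs_of_pos hb]; exact hb1.le
    nlinarith [max_le ((le_add_of_nonneg_right (norm_nonneg p.2)) : ‖p.1‖ ≤ _) hn,
      mul_nonneg (norm_nonneg p.1) (norm_nonneg p.2)]
  have hr := measurePreserving_rot (V := E d) θ
  have e : ∀ y z : E d, Φ (cos θ • y + sin θ • z, -sin θ • y + cos θ • z) =
      exp (-post b W y (-z)) • F (c • y + b • -z, y) := fun y z => by
    simp only [Φ, hcc, hs, neg_neg, post, b, cosB_bT ht, smul_neg, neg_smul]
    congr 3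
    simp only [c]
    match_scalars <;> simp only [c, b] at hcs <;> linarith
  calc ∫ p, Φ p ∂γ.prod γ
      = ∫ p, Φ (cos θ • p.1 + sin θ • p.2, -sin θ • p.1 + cos θ • p.2) ∂γ.prod γ := by
        conv_lhs => rw [← hr.map_eq]
        rw [integral_map hr.measurable.aemeasurable (hr.map_eq.symm ▸ i1.aestronglyMeasurable)]
    _ = ∫ y, ∫ z, exp (-post b W y (-z)) • F (c • y + b • -z, y) ∂γ ∂γ := by
        rw [integral_prod]
        · simp only [e]
        · exact (hr.integrable_comp_of_integrable i1).congr (ae_of_all _ fun p => rfl)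
    _ = _ := by
        refine integral_congr_ae (ae_of_all _ fun y => ?_)
        simp only [γ]
        conv_rhs => rw [← stdGaussian_map (E := E d) (LinearIsometryEquiv.neg ℝ)]
        rw [integral_map (LinearIsometryEquiv.neg ℝ).continuous.measurable.aemeasurable]
        · simp
        · exact (((hW.contDiff.continuous.comp (by fun_prop)).neg.rexp).smul
            (hc.comp (by fun_prop))).aestronglyMeasurable

theorem exp_neg_tU {t : ℝ} (ht : 0 < t) (y : E d) :
    exp (-tU W t y) = ∫ z, exp (-post (bT t) W y z) ∂stdGaussian (E d) := by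
  rw [tU, lsm, neg_neg, Real.exp_log (integral_exp_pos
    (integrable_exp_neg (hW.post_pert (bT_pos ht) (bT_lt_one ht) y).decay))]

theorem integral_exp_neg_tU {t : ℝ} (ht : 0 < t) :
    ∫ y, exp (-tU W t y) ∂stdGaussian (E d) = ∫ x, exp (-W x) ∂stdGaussian (E d) := by
  have h := gauss_tower hW ht (F := fun _ => (1 : ℝ)) continuous_const (PolyBd.const 1)
  simp only [smul_eq_mul, mul_one, ← exp_neg_tU hW ht] at h
  rw [← h, integral_fun_fst (f := fun x => exp (-W x))]
  simp

/-- the normalising constant does not depend on time -/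
theorem partition_tU {t : ℝ} (ht : 0 < t) :
    ∫ y, exp (-pot (tU W t) y) = ∫ y, exp (-pot W y) := by
  have h1 := integral_exp_pot_eq (tU W t) fun _ => (1 : ℝ)
  have h2 := integral_exp_pot_eq W fun _ => (1 : ℝ)
  simp only [smul_eq_mul, mul_one] at h1 h2
  rw [h1, h2, integral_exp_neg_tU hW ht]

/-- the law of `(X, Y_t)` disintegrated at `Y_t` -/
theorem tower {t : ℝ} (ht : 0 < t) {G : Type*} [NormedAddCommGroup G] [NormedSpace ℝ G]
    [CompleteSpace G] {F : E d × E d → G} (hc : Continuous F) (hp : PolyBd F) :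
    ∫ p, F (p.1, exp (-t) • p.1 + bT t • p.2) ∂(law W).prod (stdGaussian (E d)) =
      ∫ y, ∫ z, F (exp (-t) • y + bT t • z, y) ∂law (post (bT t) W y) ∂law (tU W t) := by
  set γ := stdGaussian (E d)
  have := hW.isProbabilityMeasure_law
  have hi : Integrable (fun p : E d × E d => F (p.1, exp (-t) • p.1 + bT t • p.2))
      ((law W).prod γ) :=
    integrable_mu hW (hp.comp (g := fun p : E d × E d => (p.1, exp (-t) • p.1 + bT t • p.2))
      (PolyBd.of_lipschitz (L := 1 + ‖exp (-t)‖ + ‖bT t‖) (by positivity) fun x y => by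
        simp only [Prod.norm_def, Prod.fst_sub, Prod.snd_sub]
        have e : exp (-t) • x.1 + bT t • x.2 - (exp (-t) • y.1 + bT t • y.2) =
            exp (-t) • (x.1 - y.1) + bT t • (x.2 - y.2) := by module
        refine max_le ?_ ?_
        · exact (le_max_left _ _).trans (le_mul_of_one_le_left (by positivity)
            (by linarith [norm_nonneg (exp (-t)), norm_nonneg (bT t)]))
        · rw [e]
          refine (norm_add_le _ _).trans ?_
          rw [norm_smul, norm_smul]
          nlinarith [le_max_left ‖x.1 - y.1‖ ‖x.2 - y.2‖, le_max_right ‖x.1 - y.1‖ ‖x.2 - y.2‖,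
            norm_nonneg (exp (-t)), norm_nonneg (bT t), norm_nonneg (x.1 - y.1)])) (by fun_prop)
  have hZ : (∫ x, exp (-W x) ∂γ) ≠ 0 := (integral_exp_pos (integrable_exp_neg hW.decay)).ne'
  rw [integral_prod _ hi, integral_law_gauss hW, integral_law_gauss (pert_tU hW ht),
    integral_exp_neg_tU hW ht]
  congr 1
  calc ∫ x, exp (-W x) • ∫ z, F (x, exp (-t) • x + bT t • z) ∂γ ∂γ
      = ∫ p, exp (-W p.1) • F (p.1, exp (-t) • p.1 + bT t • p.2) ∂γ.prod γ := by
        rw [integral_prod]
        · simp only [integral_smul, γ]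
        · obtain ⟨C, k, hC, hbd⟩ := hp
          have hpk : PolyBd fun x : E d => (1 + ‖x‖) ^ k :=
            ((PolyBd.const 1).add PolyBd.id.norm).pow k
          have h1 := integrable_exp_gauss hW.decay (f := fun x : E d => (1 + ‖x‖) ^ k)
            (by fun_prop) hpk
          have h2 : Integrable (fun x : E d => (1 + ‖x‖) ^ k) γ :=
            hpk.integrable _ (Continuous.aestronglyMeasurable (by fun_prop))
          refine ((h1.mul_prod h2).const_mul C).mono'
            ((((hW.contDiff.continuous.comp continuous_fst).neg.rexp).smul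
              (hc.comp (by fun_prop))).aestronglyMeasurable) (ae_of_all _ fun p => ?_)
          rw [norm_smul, Real.norm_eq_abs, abs_of_pos (exp_pos _), smul_eq_mul, mul_assoc,
            ← mul_pow, mul_left_comm C]
          refine mul_le_mul_of_nonneg_left ((hbd _).trans ?_) (exp_pos _).le
          refine mul_le_mul_of_nonneg_left (pow_le_pow_left₀ (by positivity) ?_ k) hC
          rw [Prod.norm_def]
          have hn : ‖exp (-t) • p.1 + bT t • p.2‖ ≤ ‖p.1‖ + ‖p.2‖ := by
            refine (norm_add_le _ _).trans (add_le_add ?_ ?_) <;>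
              rw [norm_smul, Real.norm_eq_abs] <;>
              refine mul_le_of_le_one_left (norm_nonneg _) ?_
            · rw [abs_of_pos (exp_pos _)]; exact exp_le_one_iff.2 (by linarith)
            · rw [abs_of_pos (bT_pos ht)]; exact (bT_lt_one ht).le
          nlinarith [max_le ((le_add_of_nonneg_right (norm_nonneg p.2)) : ‖p.1‖ ≤ _) hn,
            mul_nonneg (norm_nonneg p.1) (norm_nonneg p.2)]
    _ = _ := by
        rw [gauss_tower hW ht hc hp]
        refine integral_congr_ae (ae_of_all _ fun y => ?_)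
        dsimp only
        rw [integral_law_gauss (hW.post_pert (bT_pos ht) (bT_lt_one ht) y), smul_smul,
          ← exp_neg_tU hW ht, mul_inv_cancel₀ (exp_pos _).ne', one_smul]

theorem integral_tv {t : ℝ} (ht : 0 < t) :
    ∫ y, tv W t y ∂law (tU W t) = ∫ x, grad W x ∂law W := by
  have h := tower hW ht (F := fun p => grad W p.1) (hW.contDiff_grad.continuous.comp continuous_fst)
    (hW.polyBd_grad.comp (PolyBd.id.of_le fun p => norm_fst_le p))
  have := hW.isProbabilityMeasure_law
  simp only [tv, cosB_bT ht]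
  rw [← h, integral_fun_fst (f := grad W)]
  simp

/-- near time zero, `tv` is close to the gradient -/
theorem tv_sub_grad_sq_le' {t : ℝ} (ht : 0 < t) :
    ∫ y, ‖tv W t y - grad W y‖ ^ 2 ∂law (tU W t) ≤
      η ^ 2 * ((1 - exp (-t)) ^ 2 * ∫ x, ‖x‖ ^ 2 ∂law W + b2 t * d) := by
  set F : E d × E d → ℝ := fun p => ‖grad W p.1 - grad W p.2‖ ^ 2
  have hg := hW.contDiff_grad.continuous
  have hF : Continuous F := by fun_prop
  have hFp : PolyBd F := ((hW.polyBd_grad.comp (PolyBd.id.of_le fun p => norm_fst_le p)).sub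
    (hW.polyBd_grad.comp (PolyBd.id.of_le fun p => norm_snd_le p))).norm.pow 2
  have hpost := fun y => hW.post_pert (bT_pos ht) (bT_lt_one ht) y
  have h1 : ∀ y, ‖tv W t y - grad W y‖ ^ 2 ≤
      ∫ z, F (exp (-t) • y + bT t • z, y) ∂law (post (bT t) W y) := fun y => by
    have := (hpost y).isProbabilityMeasure_law
    have hp : PolyBd fun z => grad W (exp (-t) • y + bT t • z) :=
      hW.polyBd_grad.comp ((PolyBd.const _).add ((PolyBd.const (bT t)).smul PolyBd.id))
    have i1 := (hpost y).integrable_law hp (by fun_prop)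
    have h := sq_norm_integral_le (i1.sub' (integrable_const (grad W y)))
      ((hpost y).integrable_law ((hp.sub (PolyBd.const (grad W y))).norm.pow 2) (by fun_prop))
    rw [integral_sub i1 (integrable_const _)] at h
    simpa [tv, cosB_bT ht, F] using h
  have h2 := tower hW ht hF hFp
  have := isProbabilityMeasure_law_tU hW ht
  have := hW.isProbabilityMeasure_law
  have hi : Integrable (fun y => ∫ z, F (exp (-t) • y + bT t • z, y) ∂law (post (bT t) W y))
      (law (tU W t)) := by
    have e : ∀ y, ∫ z, F (exp (-t) • y + bT t • z, y) ∂law (post (bT t) W y) =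
        fmean W (fun x => ‖grad W x - grad W y‖ ^ 2) (par2 t y) := fun y => by
      have h1 := integral_post W ht y fun x => ‖grad W x - grad W y‖ ^ 2
      have h0 := integral_post W ht y fun _ => (1 : ℝ)
      simp only [smul_eq_mul, mul_one] at h0 h1
      simp only [F]
      rw [(hpost y).integral_law]
      simp only [smul_eq_mul]
      rw [h1, h0, fmean, smul_eq_mul]
      have : 0 < bT t := bT_pos ht
      field_simp
    have hc : Continuous fun y => fmean W (fun x => ‖grad W x‖ ^ 2) (par2 t y) -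
        2 * ⟪fmean W (grad W) (par2 t y), grad W y⟫ + ‖grad W y‖ ^ 2 := by
      have hc1 : ∀ {K : Type} [NormedAddCommGroup K] [NormedSpace ℝ K] [CompleteSpace K]
          {k : E d → K}, Continuous k → PolyBd k →
          Continuous fun y => fmean W k (par2 t y) := fun {K} _ _ _ {k} hk kp =>
        continuous_iff_continuousAt.2 fun y =>
          (hasFDerivAt_fmean_snd hW hk kp ht y).choose_spec.1.continuousAt
      exact ((hc1 (hg.norm.pow 2) (hW.polyBd_grad.norm.pow 2)).sub
        (((hc1 hg hW.polyBd_grad).inner hg).const_smul (2 : ℝ))).add (hg.norm.pow 2)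
    have e2 : ∀ y, fmean W (fun x => ‖grad W x - grad W y‖ ^ 2) (par2 t y) =
        fmean W (fun x => ‖grad W x‖ ^ 2) (par2 t y) -
          2 * ⟪fmean W (grad W) (par2 t y), grad W y⟫ + ‖grad W y‖ ^ 2 := fun y => by
      have hθ := par2_mem ht y
      have p1 := hW.polyBd_grad.norm.pow 2
      have c2 : Continuous fun x => (-2 : ℝ) • ⟪grad W x, grad W y⟫ := by fun_prop
      have p2 : PolyBd fun x => (-2 : ℝ) • ⟪grad W x, grad W y⟫ :=
        (PolyBd.const (-2 : ℝ)).smul ((polyBd_inner (grad W y)).comp hW.polyBd_grad)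
      have hfun : (fun x => ‖grad W x - grad W y‖ ^ 2) =
          fun x => ‖grad W x‖ ^ 2 + (-2 : ℝ) • ⟪grad W x, grad W y⟫ + ‖grad W y‖ ^ 2 := by
        funext x; rw [norm_sub_sq_real, smul_eq_mul]; ring
      rw [hfun, fmean_add hW (h := fun x => ‖grad W x‖ ^ 2 + (-2 : ℝ) • ⟪grad W x, grad W y⟫)
        (k := fun _ => ‖grad W y‖ ^ 2) ((hg.norm.pow 2).add c2) (p1.add p2) continuous_const
        (PolyBd.const _) hθ, fmean_add hW (h := fun x => ‖grad W x‖ ^ 2)
        (k := fun x => (-2 : ℝ) • ⟪grad W x, grad W y⟫) (hg.norm.pow 2) p1 c2 p2 hθ, fmean_smul,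
        fmean_const hW _ hθ]
      have h := fmean_clm hW (innerSL ℝ (grad W y)) hg hW.polyBd_grad hθ
      simp only [innerSL_apply_apply] at h
      simp only [real_inner_comm (grad W y), h, smul_eq_mul]
      ring
    refine (pert_tU hW ht).integrable_law ?_ ((continuous_congr fun y => (e y).trans (e2 y)).2 hc)
    have hB' : PolyBd fun y =>
        η ^ 2 * (2 * ‖y‖ ^ 2 + 4 * (1 + ‖grad W (exp (-t) • y)‖ / √d) ^ 2 * d) := by
      have hp1 : PolyBd fun y => ‖grad W (exp (-t) • y)‖ :=
        (hW.polyBd_grad.comp ((PolyBd.const (exp (-t))).smul PolyBd.id)).norm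
      exact (PolyBd.const (η ^ 2)).mul (((PolyBd.const 2).mul (PolyBd.id.norm.pow 2)).add
        (((PolyBd.const 4).mul (((PolyBd.const 1).add
          (hp1.mul (PolyBd.const (√(d : ℝ))⁻¹))).pow 2)).mul (PolyBd.const (d : ℝ))))
    refine hB'.of_le fun y => ?_
    have := (hpost y).isProbabilityMeasure_law
    have hb := bT_pos ht
    have hb1 := (bT_lt_one ht).le
    have hsec : PolyBd fun z => F (exp (-t) • y + bT t • z, y) :=
      ((hW.polyBd_grad.comp ((PolyBd.const _).add ((PolyBd.const (bT t)).smul PolyBd.id))).sub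
        (PolyBd.const (grad W y))).norm.pow 2
    have iz : Integrable (fun z => ‖z‖ ^ 2) (law (post (bT t) W y)) :=
      (hpost y).integrable_law (PolyBd.id.norm.pow 2) (by fun_prop)
    rw [Real.norm_of_nonneg (integral_nonneg fun z => sq_nonneg _),
      Real.norm_of_nonneg (by positivity)]
    calc ∫ z, F (exp (-t) • y + bT t • z, y) ∂law (post (bT t) W y)
        ≤ ∫ z, η ^ 2 * (2 * ‖y‖ ^ 2 + 2 * ‖z‖ ^ 2) ∂law (post (bT t) W y) := by
          refine integral_mono ((hpost y).integrable_law hsec (by fun_prop))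
            (((integrable_const _).add (iz.const_mul 2)).const_mul _) fun z => ?_
          refine (pow_le_pow_left₀ (norm_nonneg _) (hW.grad_lipschitz _ _) 2).trans ?_
          rw [mul_pow]
          refine mul_le_mul_of_nonneg_left ?_ (sq_nonneg η)
          have e3 : exp (-t) • y + bT t • z - y = (exp (-t) - 1) • y + bT t • z := by module
          have h4 : ‖exp (-t) • y + bT t • z - y‖ ≤ ‖y‖ + ‖z‖ := by
            rw [e3]
            refine (norm_add_le _ _).trans (add_le_add ?_ ?_) <;>
              rw [norm_smul, Real.norm_eq_abs] <;>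
              refine mul_le_of_le_one_left (norm_nonneg _) ?_
            · rw [abs_le]
              constructor <;> linarith [exp_pos (-t), exp_le_one_iff.2 (by linarith : -t ≤ 0)]
            · rwa [abs_of_pos hb]
          nlinarith [sq_nonneg (‖y‖ - ‖z‖), norm_nonneg (exp (-t) • y + bT t • z - y)]
      _ ≤ _ := by
          rw [integral_const_mul, integral_add (integrable_const _) (iz.const_mul 2)]
          simp only [integral_const, probReal_univ, one_smul, integral_const_mul]
          refine mul_le_mul_of_nonneg_left ?_ (sq_nonneg η)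
          have h4 := (hpost y).integral_norm_sq_law_le
          have h5 : ‖bT t • grad W (cosB (bT t) • y)‖ ≤ ‖grad W (exp (-t) • y)‖ := by
            rw [cosB_bT ht, norm_smul, Real.norm_eq_abs, abs_of_pos hb]
            exact mul_le_of_le_one_left (norm_nonneg _) hb1
          have h6 : (1 + ‖bT t • grad W (cosB (bT t) • y)‖ / √d) ^ 2 ≤
              (1 + ‖grad W (exp (-t) • y)‖ / √d) ^ 2 := by gcongr
          nlinarith [mul_le_mul_of_nonneg_right h6 (d.cast_nonneg (α := ℝ))]
  refine (integral_mono_of_nonneg (ae_of_all _ fun y => sq_nonneg _) hi (ae_of_all _ h1)).trans ?_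
  rw [← h2]
  have hp2 : PolyBd fun p : E d × E d =>
      η ^ 2 * ‖(1 - exp (-t)) • p.1 - bT t • p.2‖ ^ 2 :=
    (PolyBd.const (η ^ 2)).mul ((((PolyBd.const (1 - exp (-t))).smul
      (PolyBd.id.of_le fun p => norm_fst_le p)).sub ((PolyBd.const (bT t)).smul
      (PolyBd.id.of_le fun p => norm_snd_le p))).norm.pow 2)
  have hi2 : Integrable (fun p : E d × E d => η ^ 2 * ‖(1 - exp (-t)) • p.1 - bT t • p.2‖ ^ 2)
      ((law W).prod (stdGaussian (E d))) := integrable_mu hW hp2 (by fun_prop)
  refine (integral_mono_of_nonneg (g := fun p : E d × E d =>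
    η ^ 2 * ‖(1 - exp (-t)) • p.1 - bT t • p.2‖ ^ 2) (ae_of_all _ fun p => sq_nonneg _) hi2
      (ae_of_all _ fun p => ?_)).trans_eq ?_
  · refine (pow_le_pow_left₀ (norm_nonneg _) (hW.grad_lipschitz _ _) 2).trans_eq ?_
    rw [mul_pow]
    congr 3
    module
  · have i2 : Integrable (fun x : E d => ‖x‖ ^ 2) (stdGaussian (E d)) :=
      (PolyBd.id.norm.pow 2).integrable _ (Continuous.aestronglyMeasurable (by fun_prop))
    have iW : Integrable (fun x : E d => ‖x‖ ^ 2) (law W) :=
      hW.integrable_law (PolyBd.id.norm.pow 2) (by fun_prop)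
    rw [integral_const_mul]
    congr 1
    have hi3 : Integrable (fun p : E d × E d => ‖(1 - exp (-t)) • p.1 - bT t • p.2‖ ^ 2)
        ((law W).prod (stdGaussian (E d))) := integrable_mu hW
      ((((PolyBd.const (1 - exp (-t))).smul (PolyBd.id.of_le fun p => norm_fst_le p)).sub
        ((PolyBd.const (bT t)).smul (PolyBd.id.of_le fun p => norm_snd_le p))).norm.pow 2)
      (by fun_prop)
    rw [integral_prod _ hi3]
    have e3 : ∀ x, ∫ z, ‖(1 - exp (-t)) • x - bT t • z‖ ^ 2 ∂stdGaussian (E d) =
        (1 - exp (-t)) ^ 2 * ‖x‖ ^ 2 + b2 t * d := fun x => by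
      have i0 : Integrable (fun z => ⟪z, x⟫) (stdGaussian (E d)) :=
        (polyBd_inner x).integrable _ (Continuous.aestronglyMeasurable (by fun_prop))
      have e4 : ∀ z, ‖(1 - exp (-t)) • x - bT t • z‖ ^ 2 = (1 - exp (-t)) ^ 2 * ‖x‖ ^ 2 -
          2 * ((1 - exp (-t)) * bT t) * ⟪z, x⟫ + b2 t * ‖z‖ ^ 2 := fun z => by
        rw [norm_sub_sq_real, real_inner_smul_left, real_inner_smul_right, real_inner_comm z x,
          norm_smul, norm_smul, mul_pow, mul_pow, Real.norm_eq_abs, Real.norm_eq_abs, sq_abs,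
          sq_abs, bT_sq ht]
        ring
      simp only [e4]
      rw [integral_add ((integrable_const _).sub' (i0.const_mul _)) (i2.const_mul _),
        integral_sub (integrable_const _) (i0.const_mul _)]
      simp [integral_const_mul, integral_inner_stdGaussian, integral_norm_sq_stdGaussian]
    simp only [e3]
    rw [integral_add (iW.const_mul _) (integrable_const _), integral_const_mul]
    simp

/-- near time zero, `tv` is close to the gradient -/
theorem tv_sub_grad_sq_le {t : ℝ} (ht : 0 < t) :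
    ∫ y, ‖tv W t y - grad W y‖ ^ 2 ∂law (tU W t) ≤
      η ^ 2 * (2 * t + 2 * t ^ 2 * (1 + B) ^ 2) * d := by
  refine (tv_sub_grad_sq_le' hW ht).trans ?_
  rw [mul_assoc]
  refine mul_le_mul_of_nonneg_left ?_ (sq_nonneg η)
  have h1 : 1 - exp (-t) ≤ t := by linarith [add_one_le_exp (-t)]
  have h2 : b2 t ≤ 2 * t := by
    unfold b2; linarith [add_one_le_exp (-(2 * t))]
  have h3 : 0 ≤ 1 - exp (-t) := by linarith [exp_le_one_iff.2 (by linarith : -t ≤ 0)]
  have h4 := hW.integral_norm_sq_law_le
  have h5 : (1 - exp (-t)) ^ 2 ≤ t ^ 2 := pow_le_pow_left₀ h3 h1 2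
  nlinarith [mul_le_mul h5 h4 (integral_nonneg fun x => sq_nonneg _) (sq_nonneg t),
    mul_le_mul_of_nonneg_right h2 (d.cast_nonneg (α := ℝ))]

/-- at large times, `tv` is close to the mean gradient -/
theorem tv_sub_mean_sq_le {t : ℝ} (ht : 0 < t) :
    ∫ y, ‖tv W t y - ∫ x, grad W x ∂law W‖ ^ 2 ∂law (tU W t) ≤
      η ^ 2 * exp (-(2 * t)) * d := by
  have hU := pert_tU hW ht
  have := isProbabilityMeasure_law_tU hW ht
  have hTc : Continuous (tv W t) := (contDiff_tv hW ht (n := 0)).continuous
  have hTp : PolyBd (tv W t) := by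
    rw [tv_eq_grad hW ht]
    exact (PolyBd.const (exp t)).smul hU.polyBd_grad
  rw [← integral_tv hW ht]
  set m := ∫ y, tv W t y ∂law (tU W t) with hm
  set f : Fin d → E d → ℝ := fun i y => ⟪tv W t y, bas i⟫
  have hf : ∀ i, Good 2 (f i) := fun i => by
    have e : f i = fun y => exp t * dd (bas i) (tU W t) y := by
      funext y
      simp only [f, tv_eq_grad hW ht, real_inner_smul_left, inner_grad, dd]
    rw [e]
    exact ((good_tU hW ht 3).dd (bas i)).const_mul _
  have i1 : ∀ i, Integrable (f i) (law (tU W t)) := fun i =>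
    hU.integrable_law (hf i).polyBd (hf i).continuous
  have i2 : ∀ i, Integrable (fun y => f i y ^ 2) (law (tU W t)) := fun i =>
    hU.integrable_law ((hf i).polyBd.pow 2) ((hf i).continuous.pow 2)
  have hD : ∀ i y, ‖fderiv ℝ (f i) y‖ ≤ η * exp (-t) := fun i y => by
    refine ContinuousLinearMap.opNorm_le_bound _ (mul_nonneg hW.eta_nonneg (exp_pos _).le)
      fun v => ?_
    rw [show f i = fun y => ⟪tv W t y, bas i⟫ from rfl, fderiv_inner_apply (𝕜 := ℝ)
      ((contDiff_tv hW ht (n := 1)).differentiable one_ne_zero y) (differentiableAt_const _)]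
    simp only [fderiv_fun_const, Pi.zero_apply, _root_.zero_apply, inner_zero_right, zero_add]
    refine (abs_real_inner_le_norm _ _).trans ?_
    rw [show ‖bas i‖ = 1 from (EuclideanSpace.basisFun (Fin d) ℝ).orthonormal.1 i, mul_one]
    exact ((fderiv ℝ (tv W t) y).le_opNorm v).trans
      (mul_le_mul_of_nonneg_right (norm_fderiv_tv_le hW ht y) (norm_nonneg v))
  have e : ∀ y, ‖tv W t y - m‖ ^ 2 = ∑ i, (f i y - ∫ x, f i x ∂law (tU W t)) ^ 2 := fun y => by
    rw [← (EuclideanSpace.basisFun (Fin d) ℝ).sum_sq_inner_left (tv W t y - m)]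
    refine Finset.sum_congr rfl fun i _ => ?_
    rw [inner_sub_left]
    congr 2
    simp only [f, real_inner_comm (bas i), hm]
    rw [integral_inner (hU.integrable_law hTp hTc)]
    exact real_inner_comm _ _
  simp only [e]
  rw [integral_finsetSum _ fun i _ => hU.integrable_law
    (((hf i).polyBd.sub (PolyBd.const _)).pow 2) (((hf i).continuous.sub continuous_const).pow 2)]
  calc ∑ i, ∫ y, (f i y - ∫ x, f i x ∂law (tU W t)) ^ 2 ∂law (tU W t)
      ≤ ∑ _i : Fin d, η ^ 2 * exp (-(2 * t)) := by
        refine Finset.sum_le_sum fun i _ => ?_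
        have h3 := integral_sq_sub_mean (i1 i) (i2 i) 0
        simp only [sub_zero] at h3
        have h := hU.poincare_exact (hf i)
        have h2 : ∫ y, ‖fderiv ℝ (f i) y‖ ^ 2 ∂law (tU W t) ≤ η ^ 2 * exp (-(2 * t)) := by
          refine (integral_mono_of_nonneg (ae_of_all _ fun y => sq_nonneg _) (integrable_const _)
            (ae_of_all _ fun y => pow_le_pow_left₀ (norm_nonneg _) (hD i y) 2)).trans_eq ?_
          rw [mul_pow, exp_neg_sq]
          simp
        linarith
    _ = _ := by simp; ring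

/-- the equation of a coordinate of `tv` -/
theorem hasDerivAt_tv_coord {t : ℝ} (ht : 0 < t) (y e : E d) :
    HasDerivAt (fun s => ⟪tv W s y, e⟫)
      ((∑ i, dd (bas i) (dd (bas i) fun x => ⟪tv W t x, e⟫) y) -
        dd (y + (2 : ℝ) • flowField W t y) (fun x => ⟪tv W t x, e⟫) y) t := by
  have hd : Differentiable ℝ (tv W t) := (contDiff_tv hW ht (n := 1)).differentiable one_ne_zero
  have hdd : ∀ v x, dd v (fun x => ⟪tv W t x, e⟫) x = ⟪fderiv ℝ (tv W t) x v, e⟫ := fun v x => by
    rw [dd, fderiv_inner_apply (𝕜 := ℝ) (hd x) (differentiableAt_const e)]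
    simp
  refine ((hasDerivAt_tv hW ht y).inner ℝ (hasDerivAt_const t e)).congr_deriv ?_
  rw [inner_zero_right, zero_add, inner_sub_left, sum_inner, hdd]
  refine congrArg₂ _ (Finset.sum_congr rfl fun i _ => ?_) rfl
  have h2 : Differentiable ℝ fun x => fderiv ℝ (tv W t) x (bas i) :=
    (((contDiff_tv hW ht (n := 2)).fderiv_right (m := 1)
      (by simp [one_add_one_eq_two])).differentiable one_ne_zero).clm_apply (differentiable_const _)
  rw [show dd (bas i) (fun x => ⟪tv W t x, e⟫) = fun x => ⟪fderiv ℝ (tv W t) x (bas i), e⟫ from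
    funext (hdd (bas i)), dd, fderiv_inner_apply (𝕜 := ℝ) (h2 y) (differentiableAt_const e)]
  simp

/-- `tv` along a curve -/
theorem hasDerivWithinAt_tv_comp {t : ℝ} (ht : 0 < t) {y : ℝ → E d} {u : E d} {s : Set ℝ}
    (hy : HasDerivWithinAt y u s t) :
    HasDerivWithinAt (fun r => tv W r (y r))
      ((∑ i, fderiv ℝ (fun x => fderiv ℝ (tv W t) x (bas i)) (y t) (bas i)) -
        fderiv ℝ (tv W t) (y t) (y t + (2 : ℝ) • flowField W t (y t)) +
        fderiv ℝ (tv W t) (y t) u) s t := by
  set F := fun p : ℝ × E d => tv W p.1 p.2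
  have hd : HasFDerivAt F (fderiv ℝ F (t, y t)) (t, y t) :=
    (((contDiffOn_tv hW (n := 1)).differentiableOn one_ne_zero).differentiableAt
      (x := (t, y t)) ((isOpen_Ioi.prod isOpen_univ).mem_nhds ⟨ht, trivial⟩)).hasFDerivAt
  have h1 : fderiv ℝ F (t, y t) ((1 : ℝ), (0 : E d)) = _ :=
    (hd.comp_hasDerivAt (f := fun r => (r, y t)) t
      ((hasDerivAt_id t).prodMk (hasDerivAt_const t (y t)))).unique (hasDerivAt_tv hW ht (y t))
  have h2 : fderiv ℝ F (t, y t) ((0 : ℝ), u) = fderiv ℝ (tv W t) (y t) u := by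
    rw [fderiv_snd_eq (n := 0) (f := tv W) ((contDiffOn_tv hW (n := 1)).of_le (by simp)) ht]
    rfl
  refine (hd.comp_hasDerivWithinAt (f := fun r => (r, y r)) t
    ((hasDerivWithinAt_id t s).prodMk hy)).congr_deriv ?_
  rw [show ((1 : ℝ), u) = ((1 : ℝ), (0 : E d)) + ((0 : ℝ), u) by simp, map_add, h1, h2]

/-- the derivative of the `w` coordinate along the coupling field -/
theorem hasDerivWithinAt_wOf (g : ℝ) {t : ℝ} (ht : 0 < t) {p : ℝ → E d × E d} {s : Set ℝ}
    (hp : HasDerivWithinAt p (coupleField W g t (p t)) s t) :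
    HasDerivWithinAt (fun r => wOf W g r (p r))
      (-(g⁻¹ • ((∑ i, fderiv ℝ (fun x => fderiv ℝ (tv W t) x (bas i)) (p t).1 (bas i)) -
        fderiv ℝ (tv W t) (p t).1 ((p t).1 + flowField W t (p t).1)))) s t := by
  have h1 : HasDerivWithinAt (fun r => (p r).1) (coupleField W g t (p t)).1 s t :=
    (ContinuousLinearMap.fst ℝ (E d) (E d)).hasFDerivAt.comp_hasDerivWithinAt t hp
  have h2 : HasDerivWithinAt (fun r => (p r).2) (coupleField W g t (p t)).2 s t :=
    (ContinuousLinearMap.snd ℝ (E d) (E d)).hasFDerivAt.comp_hasDerivWithinAt t hp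
  refine (h2.fun_sub ((hasDerivWithinAt_tv_comp hW ht h1).const_smul g⁻¹)).congr_deriv ?_
  simp only [coupleField, tA, map_sub, map_add, map_smul, _root_.smul_apply]
  module

end Vale.Agent.P347.Zero
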