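import Vale.Agent.P347.Zero.GeoHolds
import Vale.Agent.P347.Zero.FamilyLaw

/-!
# P347, exponent zero: the residuals of a band

The mean residual of every point, and of the correction, is at most a multiple of
`T θ₀ (Λ² K / g) (e ^ m + (θ₀ κ) ^ m + exp (-T))`.
-/

open MeasureTheory ProbabilityTheory Set Real
open scoped BigOperators

namespace Vale.Agent.P347.Zero.BandData

variable {d m : ℕ} {q : GPar m} {W : E d → ℝ} {T K κ : ℝ}
  (D : BandData W q.g T q.e q.θ₀ m K κ) (hq : q.Ok T) (hm : 1 ≤ m) (hK : 0 ≤ K) (hκ : 0 ≤ κ)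
  (hθκ : q.θ₀ * κ ≤ 1)
include hq hm hK hκ hθκ

/-- The unit of the residual bounds. -/
noncomputable def unitB (_D : BandData W q.g T q.e q.θ₀ m K κ) : ℝ :=
  q.ρ.Λ ^ 2 * K / q.g * (q.e ^ m + (q.θ₀ * κ) ^ m + exp (-T))

omit hm hθκ in
theorem facts :
    q.ρ.Λ ^ 2 * K / q.g * q.e ^ m ≤ D.unitB ∧ q.ρ.Λ ^ 2 * K / q.g * (q.θ₀ * κ) ^ m ≤ D.unitB ∧
      q.ρ.Λ ^ 2 * K / q.g * exp (-T) ≤ D.unitB ∧ 0 ≤ D.unitB ∧
      q.ρ.Λ * K * q.e ^ m ≤ D.unitB ∧ K * exp (-T) ≤ D.unitB := by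
  have hθ : 0 ≤ q.θ₀ * κ := mul_nonneg (zero_le_one.trans hq.one_le_θ₀) hκ
  have hΛ := q.ρ.one_le_Λ
  have hg := hq.g_pos
  have he := hq.e_pos
  have h0 : 0 ≤ q.ρ.Λ ^ 2 * K / q.g := by positivity
  have hΛK : q.ρ.Λ * K ≤ q.ρ.Λ ^ 2 * K / q.g := by
    rw [le_div_iff₀ hg]
    refine (mul_le_of_le_one_right (by positivity) hq.g_le).trans ?_
    exact mul_le_mul_of_nonneg_right (by nlinarith) hK
  have hK1 : K ≤ q.ρ.Λ * K := le_mul_of_one_le_left hK hΛ
  have a1 : 0 ≤ q.e ^ m := by positivity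
  have a2 : 0 ≤ (q.θ₀ * κ) ^ m := pow_nonneg hθ m
  have a3 : 0 ≤ exp (-T) := (exp_pos _).le
  unfold unitB
  exact ⟨mul_le_mul_of_nonneg_left (by linarith) h0, mul_le_mul_of_nonneg_left (by linarith) h0,
    mul_le_mul_of_nonneg_left (by linarith) h0, mul_nonneg h0 (by linarith),
    mul_le_mul hΛK (by linarith) a1 h0, mul_le_mul (hK1.trans hΛK) (by linarith) a3 h0⟩

omit hK hκ hθκ in
theorem mean_jH {τ θ : ℝ} (hτ : τ ∈ Icc 1 T) (hθ : θ ∈ Icc 0 q.θ₀) :
    MeanLe (rootLaw W) (D.jH τ θ) (q.ρ.Λ * K / q.g * q.e ^ m) := by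
  have hΛ := q.ρ.one_le_Λ
  have := hq.g_pos
  have := hq.e_pos
  refine (((D.pcHv τ hτ θ hθ).mean 0 q.e hq.e_pos.le (by rw [zero_add])).const_mul
    (c := q.ρ.Λ * q.g⁻¹ * q.e ^ (m - 1)) (by positivity)).mono (le_of_eq ?_)
  rw [← pow_sub_one_mul (by omega : m ≠ 0) q.e]
  ring

omit hK hκ hθκ in
theorem mean_jF {τ θ : ℝ} (hτ : τ ∈ Icc 1 T) (hθ : θ ∈ Icc 0 q.θ₀) :
    MeanLe (rootLaw W) (D.jF τ θ) (q.ρ.Λ * K / q.g * q.e ^ m) := by
  have hΛ := q.ρ.one_le_Λ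
  have := hq.g_pos
  have := hq.e_pos
  refine (((D.pcFv τ hτ θ hθ).mean τ q.e hq.e_pos.le subset_rfl).const_mul
    (c := q.ρ.Λ * q.g⁻¹ * q.e ^ (m - 1)) (by positivity)).mono (le_of_eq ?_)
  rw [← pow_sub_one_mul (by omega : m ≠ 0) q.e]
  ring

omit hm hθκ in
theorem mean_cell {f : ℕ → ℝ → GRoot d → E d} (hf : PathChain W m 1 T K f) (i : Fin q.N) :
    MeanLe (rootLaw W) (fun r => 2 * q.ρ.Λ * q.hs ^ (m + 1) *
      ∫ s in q.cellA i..(q.cellA i + q.hs), ‖f (m + 1) s r‖) (2 * q.hs * D.unitB) := by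
  have hΛ := q.ρ.one_le_Λ
  have hh := hq.hs_pos
  refine ((hf.mean _ q.hs hh.le (GPar.cell_subset hq i)).const_mul (by positivity)).mono ?_
  have hp : q.hs ^ (m + 1) ≤ q.e ^ m :=
    (pow_le_pow_of_le_one hh.le (hq.hs_le.trans hq.e_le) (Nat.le_succ m)).trans
      (pow_le_pow_left₀ hh.le hq.hs_le m)
  calc 2 * q.ρ.Λ * q.hs ^ (m + 1) * (q.hs * K)
      ≤ 2 * q.ρ.Λ * q.e ^ m * (q.hs * K) := by gcongr
    _ = 2 * q.hs * (q.ρ.Λ * K * q.e ^ m) := by ring
    _ ≤ 2 * q.hs * D.unitB :=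
        mul_le_mul_of_nonneg_left (D.facts hq hK hκ).2.2.2.2.1 (by linarith)

omit hθκ in
theorem mean_node {φ : Fin (m + 1) → GRoot d → ℝ} {h : ℝ} (hh : 0 ≤ h)
    (hφ : ∀ j, MeanLe (rootLaw W) (φ j) (q.ρ.Λ * K / q.g * q.e ^ m)) :
    MeanLe (rootLaw W) (fun r => q.ρ.Λ * h * ∑ j, φ j r) ((m + 1) * h * D.unitB) := by
  have hΛ := q.ρ.one_le_Λ
  refine ((MeanLe.sum Finset.univ fun j _ => hφ j).const_mul (by positivity)).mono ?_
  rw [Finset.sum_const, Finset.card_univ, Fintype.card_fin, nsmul_eq_mul]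
  push_cast
  calc q.ρ.Λ * h * ((m + 1) * (q.ρ.Λ * K / q.g * q.e ^ m))
      = (m + 1) * h * (q.ρ.Λ ^ 2 * K / q.g * q.e ^ m) := by ring
    _ ≤ _ := mul_le_mul_of_nonneg_left (D.facts hq hK hκ).1 (by positivity)

omit hm hθκ in
theorem sum_hs {a : ℝ} (ha : 0 ≤ a) : ∑ _i : Fin q.N, a * q.hs * D.unitB ≤ a * T * D.unitB := by
  rw [Finset.sum_const, Finset.card_univ, Fintype.card_fin, nsmul_eq_mul]
  calc (q.N : ℝ) * (a * q.hs * D.unitB) = a * ((q.N : ℝ) * q.hs) * D.unitB := by ring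
    _ ≤ a * T * D.unitB := by
        rw [hq.N_hs]
        exact mul_le_mul_of_nonneg_right (mul_le_mul_of_nonneg_left (by linarith) ha)
          (D.facts hq hK hκ).2.2.2.1

omit hθκ in
theorem mean_bC : MeanLe (rootLaw W) D.bC ((m + 8) * T * D.unitB) := by
  obtain ⟨-, -, -, hU, -, hT⟩ := D.facts hq hK hκ
  have h1 := hq.one_le_T
  refine ((D.top.add ((MeanLe.sum Finset.univ fun i _ =>
    D.mean_cell hq hK hκ D.pcP i).const_mul zero_le_two)).add
    (MeanLe.sum Finset.univ fun i _ => ((D.mean_cell hq hK hκ D.pcC i).add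
      (D.mean_node hq hm hK hκ hq.hs_pos.le fun j => D.mean_jH hq hm
        (GPar.τn_mem hq i j) (zero_memθ hq))).mono
      (le_of_eq (show _ = ((m : ℝ) + 3) * q.hs * D.unitB by ring)))).mono ?_
  have s1 := D.sum_hs hq hK hκ (a := 2) (by norm_num)
  have s2 := D.sum_hs hq hK hκ (a := (m : ℝ) + 3) (by positivity)
  nlinarith [mul_le_mul_of_nonneg_right h1 hU]

omit hθκ in
theorem mean_bL : MeanLe (rootLaw W) D.bL ((m + 3) * T * D.unitB) := by
  refine (MeanLe.sum Finset.univ fun i _ => ((D.mean_cell hq hK hκ D.pcL i).add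
      (D.mean_node hq hm hK hκ hq.hs_pos.le fun j => D.mean_jF hq hm
        (GPar.τn_mem hq i j) (zero_memθ hq))).mono
      (le_of_eq (show _ = ((m : ℝ) + 3) * q.hs * D.unitB by ring))).mono ?_
  exact D.sum_hs hq hK hκ (by positivity)

theorem mean_aux {f : ℕ → ℝ → GRoot d → E d} {φ : Fin (m + 1) → GRoot d → ℝ}
    (hf : PathChain W m 0 q.θ₀ (K * κ ^ (m + 1)) f)
    (hφ : ∀ j, MeanLe (rootLaw W) (φ j) (q.ρ.Λ * K / q.g * q.e ^ m)) :
    MeanLe (rootLaw W) (fun r => 2 * q.ρ.Λ * q.θ₀ ^ (m + 1) *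
      (∫ s in 0..(0 + q.θ₀), ‖f (m + 1) s r‖) + q.ρ.Λ * q.θ₀ * ∑ a, φ a r)
      ((m + 3) * q.θ₀ * D.unitB) := by
  have hΛ := q.ρ.one_le_Λ
  have hθ : 0 ≤ q.θ₀ := zero_le_one.trans hq.one_le_θ₀
  obtain ⟨-, h2, -, hU, -, -⟩ := D.facts hq hK hκ
  refine (((hf.mean 0 q.θ₀ hθ (by rw [zero_add])).const_mul (by positivity)).add
    (D.mean_node hq hm hK hκ hθ hφ)).mono ?_
  have h3 : q.ρ.Λ * K * (q.θ₀ * κ) ^ (m + 1) ≤ D.unitB := by
    refine le_trans ?_ h2
    refine mul_le_mul ?_ (pow_le_pow_of_le_one (mul_nonneg hθ hκ) hθκ (Nat.le_succ m))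
      (by positivity) (by have := hq.g_pos; positivity)
    rw [le_div_iff₀ hq.g_pos]
    exact (mul_le_of_le_one_right (by positivity) hq.g_le).trans
      (mul_le_mul_of_nonneg_right (by nlinarith) hK)
  calc 2 * q.ρ.Λ * q.θ₀ ^ (m + 1) * (q.θ₀ * (K * κ ^ (m + 1))) + (m + 1) * q.θ₀ * D.unitB
      = 2 * q.θ₀ * (q.ρ.Λ * K * (q.θ₀ * κ) ^ (m + 1)) + (m + 1) * q.θ₀ * D.unitB := by
        rw [mul_pow]; ring
    _ ≤ 2 * q.θ₀ * D.unitB + (m + 1) * q.θ₀ * D.unitB := by gcongr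
    _ = _ := by ring

theorem mean_bXW (i : Fin q.N) (j : Fin (m + 1)) :
    MeanLe (rootLaw W) (D.bX i j) ((2 * m + 11) * (T * q.θ₀) * D.unitB) ∧
      MeanLe (rootLaw W) (D.bW i j) ((2 * m + 11) * (T * q.θ₀) * D.unitB) := by
  have hτ := GPar.τn_mem hq i j
  have hU := (D.facts hq hK hκ).2.2.2.1
  have hTU : T * D.unitB ≤ T * q.θ₀ * D.unitB :=
    mul_le_mul_of_nonneg_right (le_mul_of_one_le_right (by linarith [hq.one_le_T]) hq.one_le_θ₀) hU
  have hθU : q.θ₀ * D.unitB ≤ T * q.θ₀ * D.unitB :=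
    mul_le_mul_of_nonneg_right (le_mul_of_one_le_left (zero_le_one.trans hq.one_le_θ₀)
      hq.one_le_T) hU
  have hTU0 : 0 ≤ T * D.unitB := mul_nonneg (zero_le_one.trans hq.one_le_T) hU
  have hm0 : (0 : ℝ) ≤ m := m.cast_nonneg
  constructor
  · refine ((D.mean_bC hq hm hK hκ).add (D.mean_aux hq hm hK hκ hθκ (D.pcXA _ hτ) fun a =>
      D.mean_jH hq hm hτ (θ_mem hq a))).mono ?_
    nlinarith
  · refine ((D.mean_bL hq hm hK hκ).add (D.mean_aux hq hm hK hκ hθκ (D.pcXL _ hτ) fun a =>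
      D.mean_jF hq hm hτ (θ_mem hq a))).mono ?_
    nlinarith

omit hm hθκ in
theorem mean_short {a : ℝ} {f : ℕ → ℝ → GRoot d → E d} (hf : PathChain W m a (a + q.e) K f) :
    MeanLe (rootLaw W) (fun r => 2 * q.ρ.Λ * q.e ^ (m + 1) *
      ∫ s in a..(a + q.e), ‖f (m + 1) s r‖) (2 * (T * q.θ₀) * D.unitB) := by
  have hΛ := q.ρ.one_le_Λ
  have he := hq.e_pos
  obtain ⟨-, -, -, hU, h5, -⟩ := D.facts hq hK hκ
  refine ((hf.mean a q.e he.le subset_rfl).const_mul (by positivity)).mono ?_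
  calc 2 * q.ρ.Λ * q.e ^ (m + 1) * (q.e * K)
      = 2 * (q.e ^ 2 * (q.ρ.Λ * K * q.e ^ m)) := by ring
    _ ≤ 2 * ((T * q.θ₀) * D.unitB) := by
        refine mul_le_mul_of_nonneg_left (mul_le_mul ((pow_le_one₀ he.le hq.e_le).trans
          (one_le_mul_of_one_le_of_one_le hq.one_le_T hq.one_le_θ₀)) h5 (by positivity)
          (mul_nonneg (zero_le_one.trans hq.one_le_T) (zero_le_one.trans hq.one_le_θ₀))) zero_le_two
    _ = _ := by ring

theorem mean_bO : MeanLe (rootLaw W) D.bO ((m + 3) * T * D.unitB) := by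
  have hΛ := q.ρ.one_le_Λ
  have hθ : 0 ≤ q.θ₀ := zero_le_one.trans hq.one_le_θ₀
  obtain ⟨-, h2, -, -, -, -⟩ := D.facts hq hK hκ
  refine (MeanLe.sum Finset.univ fun i _ => ((D.mean_cell hq hK hκ D.pcO i).add
    (((MeanLe.sum Finset.univ fun j _ => ((D.pcXv _ (GPar.τn_mem hq i j)).mean 0 q.θ₀ hθ
      (by rw [zero_add])).const_mul (c := q.ρ.Λ * q.θ₀ ^ (m - 1)) (by positivity))).const_mul
        (mul_nonneg (by linarith) hq.hs_pos.le))).mono
    (show _ ≤ ((m : ℝ) + 3) * q.hs * D.unitB from ?_)).mono (D.sum_hs hq hK hκ (by positivity))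
  rw [Finset.sum_const, Finset.card_univ, Fintype.card_fin, nsmul_eq_mul]
  push_cast
  have h4 : q.ρ.Λ * (q.ρ.Λ * q.θ₀ ^ (m - 1) * (q.θ₀ * (K * κ ^ (m + 1)))) ≤ D.unitB := by
    refine le_trans ?_ h2
    have hκ1 : κ ≤ 1 := (le_mul_of_one_le_left hκ hq.one_le_θ₀).trans hθκ
    calc q.ρ.Λ * (q.ρ.Λ * q.θ₀ ^ (m - 1) * (q.θ₀ * (K * κ ^ (m + 1))))
        = q.ρ.Λ ^ 2 * K * (q.θ₀ * κ) ^ m * κ := by
          rw [mul_pow, ← pow_sub_one_mul (by omega : m ≠ 0) q.θ₀]; ring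
      _ ≤ q.ρ.Λ ^ 2 * K / q.g * (q.θ₀ * κ) ^ m * 1 := by
          refine mul_le_mul (mul_le_mul_of_nonneg_right ?_ (by positivity)) hκ1 hκ
            (by have := hq.g_pos; positivity)
          rw [le_div_iff₀ hq.g_pos]
          exact mul_le_of_le_one_right (by positivity) hq.g_le
      _ = _ := mul_one _
  nlinarith [mul_le_mul_of_nonneg_left h4
    (by have := hq.hs_pos; positivity : 0 ≤ ((m : ℝ) + 1) * q.hs)]

variable {η B : ℝ} (hW : Pert η B W)
include hW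

omit hm hK hκ hθκ hW in
theorem pts_law (x : q.Idx) : Measurable (D.pts x) ∧
    (rootLaw W).map (D.pts x) = law (tU W (q.tmI x)) := by
  rcases x with ⟨i, j⟩ | ⟨i, j, a, p⟩ | ⟨i, j, a, p⟩
  · exact D.lawP _ (GPar.τn_mem hq i j)
  · exact D.lawH _ (GPar.τn_mem hq i j) _ (θ_mem hq a) _ (e_mem hq p)
  · exact D.lawF _ (GPar.τn_mem hq i j) _ (θ_mem hq a) _ (s_mem hq _ p)

omit hm hK hκ hθκ in
theorem meas_vals (x : q.Idx) : Measurable fun r => D.vals r x := by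
  have h1 : 1 ≤ q.tmI x := by
    rcases x with ⟨i, j⟩ | ⟨i, j, a, p⟩ | ⟨i, j, a, p⟩
    · exact (GPar.τn_mem hq i j).1
    · exact (GPar.τn_mem hq i j).1
    · exact le_add_of_le_of_nonneg (GPar.τn_mem hq i j).1 (e_mem hq p).1
  exact (contDiff_tv hW (zero_lt_one.trans_le h1) (n := 0)).continuous.measurable.comp
    (D.pts_law hq x).1

omit hm hK hκ hθκ in
theorem meas_val (v : q.Idx → ℝ) : Measurable fun r => D.val r v := by
  simp only [val, Fintype.linearCombination_apply]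
  exact Finset.measurable_sum _ fun x _ => (D.meas_vals hq hW x).const_smul (v x)

/-- The system of a band holds. -/
theorem geo_holds (hN : 0 < q.N) :
    (q.geo hN).Holds W q.g ((4 * m + 24) * (T * q.θ₀) * D.unitB) := by
  obtain ⟨-, -, -, hU, -, hT⟩ := D.facts hq hK hκ
  have hTθ : 1 ≤ T * q.θ₀ := one_le_mul_of_one_le_of_one_le hq.one_le_T hq.one_le_θ₀
  have hTU : T * D.unitB ≤ T * q.θ₀ * D.unitB :=
    mul_le_mul_of_nonneg_right (le_mul_of_one_le_right (by linarith [hq.one_le_T]) hq.one_le_θ₀) hU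
  have hm0 : (0 : ℝ) ≤ m := m.cast_nonneg
  have hTθU : 0 ≤ T * q.θ₀ * D.unitB := mul_nonneg (by linarith) hU
  set R := ((4 : ℝ) * m + 24) * (T * q.θ₀) * D.unitB
  set ε := Fintype.equivFin q.Idx
  have hres : ∀ x : q.Idx, MeanLe (rootLaw W)
      (fun r => ‖D.pts x r - (q.kyI x • r.1.2 + q.kwI x • r.2 + D.val r (q.rowI x))‖) R := by
    intro x
    have hme : AEStronglyMeasurable
        (fun r => D.pts x r - (q.kyI x • r.1.2 + q.kwI x • r.2 + D.val r (q.rowI x))) (rootLaw W) :=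
      ((D.pts_law hq x).1.sub (((measurable_snd.comp measurable_fst).const_smul (q.kyI x)).add
        (measurable_snd.const_smul (q.kwI x)) |>.add (D.meas_val hq hW _))).aestronglyMeasurable
    rcases x with ⟨i, j⟩ | ⟨i, j, a, p⟩ | ⟨i, j, a, p⟩
    · refine MeanLe.of_norm_le ((D.top.add ((MeanLe.sum Finset.univ fun i' _ =>
        D.mean_cell hq hK hκ D.pcP i').const_mul zero_le_two)).mono ?_) hme fun r => ?_
      · have s1 := D.sum_hs hq hK hκ (a := 2) (by norm_num)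
        simp only [R]
        nlinarith
      · simp only [GPar.kyI, GPar.kwI, GPar.rowI, pts, one_smul, zero_smul, add_zero]
        exact D.err_P hq r i j
    · obtain ⟨hX, hWa⟩ := D.mean_bXW hq hm hK hκ hθκ i j
      have h3 := D.mean_short hq hK hκ (a := 0)
        (f := D.fHv (q.τn i j) (q.θ₀ * q.ρ.τ a))
        (by rw [zero_add]; exact D.pcHv _ (GPar.τn_mem hq i j) _ (θ_mem hq a))
      refine MeanLe.of_norm_le (((hX.add hWa).add h3).mono ?_) hme fun r => ?_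
      · simp only [R]
        nlinarith
      · exact D.err_H hq hm r i j a p
    · obtain ⟨hX, -⟩ := D.mean_bXW hq hm hK hκ hθκ i j
      have h3 := D.mean_short hq hK hκ
        (D.pcFd _ (GPar.τn_mem hq i j) _ (θ_mem hq a))
      refine MeanLe.of_norm_le ((hX.add h3).mono ?_) hme fun r => ?_
      · simp only [R]
        nlinarith
      · simp only [GPar.kyI, GPar.kwI, GPar.rowI, one_smul, zero_smul, add_zero]
        exact D.err_F hq hm r i j a p
  refine ⟨fun x r => D.pts (ε.symm x) r, fun x => D.pts_law hq (ε.symm x), fun x => ?_,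
    fun f hf hfb => ?_⟩
  · have e : (fun r => ‖D.pts (ε.symm x) r - ((q.geo hN).ky x • r.1.2 + (q.geo hN).kw x • r.2 +
        ∑ y, (q.geo hN).C x y • tv W ((q.geo hN).tm y) (D.pts (ε.symm y) r))‖) =
        fun r => ‖D.pts (ε.symm x) r -
          (q.kyI (ε.symm x) • r.1.2 + q.kwI (ε.symm x) • r.2 + D.val r (q.rowI (ε.symm x)))‖ := by
      funext r
      rw [val, Fintype.linearCombination_apply]
      congr 3
      exact ε.symm.sum_comp fun y => q.rowI (ε.symm x) y • D.vals r y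
    exact e ▸ ⟨(hres _).integrable, (hres _).mean_le⟩
  · have e : ∀ r : GRoot d,
        tv W 1 (D.pts (ε.symm (q.geo hN).i₀) r) + q.g • r.2 -
          ∑ y, (q.geo hN).out y • tv W ((q.geo hN).tm y) (D.pts (ε.symm y) r) =
        tv W 1 (D.yP 1 r) + q.g • r.2 - D.val r q.rowOut := by
      intro r
      rw [val, Fintype.linearCombination_apply]
      congr 1
      · congr 1
        rw [show ε.symm (q.geo hN).i₀ = q.iP ⟨0, hN⟩ 0 from ε.symm_apply_apply _]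
        show tv W 1 (D.yP (q.τn ⟨0, hN⟩ 0) r) = _
        rw [show q.τn ⟨0, hN⟩ 0 = 1 by simp [GPar.τn, GPar.cellA, q.ρ.τ_zero]]
      · exact ε.symm.sum_comp fun y => q.rowOut y • D.vals r y
    simp only [e]
    obtain ⟨M, hM⟩ := hfb
    have hhead : Measurable fun r : GRoot d => tv W 1 (D.yP 1 r) + q.g • r.2 :=
      ((contDiff_tv hW zero_lt_one (n := 0)).continuous.measurable.comp
        (D.lawP 1 ⟨le_rfl, hq.one_le_T⟩).1).add (measurable_snd.const_smul q.g)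
    have := hW.isProbabilityMeasure_law
    have : IsProbabilityMeasure (rootLaw W) := by unfold rootLaw; infer_instance
    have hiA : Integrable (fun r => f (tv W 1 (D.yP 1 r) + q.g • r.2 - D.val r q.rowOut))
        (rootLaw W) := Integrable.of_bound ((hf.continuous.measurable.comp
          (hhead.sub (D.meas_val hq hW _))).aestronglyMeasurable) M (ae_of_all _ fun r => hM _)
    have hiB : Integrable (fun r => f (tv W 1 (D.yP 1 r) + q.g • r.2 - (D.yO T r - D.yO 1 r)))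
        (rootLaw W) := Integrable.of_bound ((hf.continuous.measurable.comp
          (hhead.sub D.measO)).aestronglyMeasurable) M (ae_of_all _ fun r => hM _)
    have hO := MeanLe.of_norm_le (D.mean_bO hq hm hK hκ hθκ)
      ((D.measO.sub (D.meas_val hq hW q.rowOut)).aestronglyMeasurable) (D.err_O hq hm)
    refine (abs_sub_le _ (∫ r, f (tv W 1 (D.yP 1 r) + q.g • r.2 - (D.yO T r - D.yO 1 r))
      ∂rootLaw W) _).trans ((add_le_add ?_ (D.output f hf ⟨M, hM⟩)).trans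
        (show ((m : ℝ) + 3) * T * D.unitB + K * exp (-T) ≤ R by simp only [R]; nlinarith))
    rw [← integral_sub hiA hiB]
    refine abs_integral_le_integral_abs.trans ((integral_mono ((hiA.sub hiB).abs) hO.integrable
      fun r => ?_).trans hO.mean_le)
    refine (Real.norm_eq_abs _).ge.trans ((hf.norm_sub_le _ _).trans (le_of_eq ?_))
    rw [NNReal.coe_one, one_mul, sub_sub_sub_cancel_left]
    rfl

end Vale.Agent.P347.Zero.BandData

namespace Vale.Agent.P347.Zero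

/-- The trajectories of a band exist with a size linear in `1 + B` and ratio `η / g`. -/
def BandDataExists : Prop :=
  ∀ m : ℕ, ∃ C : ℝ, 1 ≤ C ∧ ∀ (d : ℕ) (η B : ℝ) (W : E d → ℝ) (g T e θ₀ : ℝ), 0 < d →
    Pert η B W → 0 < g → g ≤ 1 → 2 ≤ T → 0 < e → e ≤ 1 / 8 → 1 ≤ θ₀ → η * θ₀ ≤ g →
      Nonempty (BandData W g T e θ₀ m (C * (1 + B) * d / g) (η / g))

end Vale.Agent.P347.Zero
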