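import Vale.Agent.P347.Zero.Defs

/-!
# P347, exponent zero: the interfaces of a band step

`shiftW W m b` is the perturbation seen around the centre `m` at scale `b`, `aOf W b m` the mean
gradient there. A `Geo` is an affine system for the evaluation points of one band: point `i`, at
time `tm i`, equals `ky i • Z + kw i • w + ∑ j, C i j • tv W (tm j) (point j)` up to a small error
on the stationary coupled trajectory, and `out` gives the correction.
-/

open MeasureTheory ProbabilityTheory Real
open scoped RealInnerProductSpace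

namespace Vale.Agent.P347.Zero

variable {d : ℕ}

/-- The perturbation around `m` at scale `b`. -/
noncomputable def shiftW (W : E d → ℝ) (m : E d) (b : ℝ) : E d → ℝ := fun z => W (m + b • z)

/-- The mean gradient around `m` at scale `b`. -/
noncomputable def aOf (W : E d → ℝ) (b : ℝ) (m : E d) : E d :=
  ∫ z, grad W (m + b • z) ∂law (shiftW W m b)

/-- The affine system of one band; it does not depend on the potential. -/
structure Geo where
  /-- number of evaluation points -/
  n : ℕ
  /-- times of the points -/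
  tm : Fin n → ℝ
  /-- coefficient of the root `Z` -/
  ky : Fin n → ℝ
  /-- coefficient of the root `w` -/
  kw : Fin n → ℝ
  /-- coefficients of the drifts -/
  C : Fin n → Fin n → ℝ
  /-- coefficients of the correction -/
  out : Fin n → ℝ
  /-- the point at the end of the band -/
  i₀ : Fin n

/-- Sizes of the system. -/
structure Geo.Sized (G : Geo) (Γ Ωo : ℝ) : Prop where
  one_le_tm : ∀ i, 1 ≤ G.tm i
  tm_i₀ : G.tm G.i₀ = 1
  ky_i₀ : G.ky G.i₀ = 1
  kw_i₀ : G.kw G.i₀ = 0
  abs_ky : ∀ i, |G.ky i| ≤ 1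
  row : ∀ i, ∑ j, |G.C i j| ≤ Γ
  out_le : ∑ i, |G.out i| ≤ Ωo

/-- The type of the roots `((X, Z), w)`. -/
abbrev Root (d : ℕ) : Type := (E d × E d) × E d

/-- The roots of a band: `((X, Z), w)` with `X ∼ law W` and `Z`, `w` standard. -/
noncomputable def rootLaw (W : E d → ℝ) : Measure ((E d × E d) × E d) :=
  ((law W).prod (stdGaussian (E d))).prod (stdGaussian (E d))

/-- The system holds up to `R` on `W`, with noise level `g`. -/
def Geo.Holds (G : Geo) (W : E d → ℝ) (g R : ℝ) : Prop :=
  ∃ Y : Fin G.n → ((E d × E d) × E d) → E d,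
    (∀ i, Measurable (Y i) ∧ (rootLaw W).map (Y i) = law (tU W (G.tm i))) ∧
    (∀ i, Integrable (fun p => ‖Y i p - (G.ky i • p.1.2 + G.kw i • p.2 +
        ∑ j, G.C i j • tv W (G.tm j) (Y j p))‖) (rootLaw W) ∧
      ∫ p, ‖Y i p - (G.ky i • p.1.2 + G.kw i • p.2 +
        ∑ j, G.C i j • tv W (G.tm j) (Y j p))‖ ∂rootLaw W ≤ R) ∧
    ∀ f : E d → ℝ, LipschitzWith 1 f → (∃ M, ∀ x, |f x| ≤ M) →
      |∫ p, f (tv W 1 (Y G.i₀ p) + g • p.2 - ∑ j, G.out j • tv W (G.tm j) (Y j p)) ∂rootLaw W -
        ∫ z, f ((∫ x, grad W x ∂law W) + g • z) ∂stdGaussian (E d)| ≤ R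

end Vale.Agent.P347.Zero
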