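import Vale.Agent.P347.Zero.TrajFields
import Vale.Agent.P347.Zero.Band
import Vale.Agent.P347.Zero.FamilyLaw

/-!
# P347, exponent zero: the trajectories of one band

All evaluation points are functions of the roots `((X, Z), w)`: the probability flow from
`e^{-T} X + √(1 - e^{-2T}) Z`, the coupled trajectory, and from each of its points the auxiliary,
Hamiltonian and probability flows. Each has a known law, and the end of the coupled trajectory is
close to `N(E ∇W, g²)`.
-/

open MeasureTheory ProbabilityTheory Real Set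
open scoped RealInnerProductSpace Topology ENNReal

namespace Vale.Agent.P347.Zero

variable {d : ℕ}

/-- The start of the probability flow. -/
noncomputable def yTop (T : ℝ) (r : Root d) : E d := exp (-T) • r.1.1 + bT T • r.1.2

/-- The probability flow in reversed time. -/
noncomputable def revVec (W : E d → ℝ) (T u : ℝ) (x : E d) : E d :=
  (-1 : ℝ) • flowField W (T + -1 * u) x

/-- The probability flow at time `s` through `y` at time `T`. -/
noncomputable def probPt (W : E d → ℝ) (T s : ℝ) (y : E d) : E d :=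
  odeFlow (revVec W T) 0 (T - 1) y (T - s)

/-- The probability flow from the roots. -/
noncomputable def probTraj (W : E d → ℝ) (T s : ℝ) (r : Root d) : E d :=
  probPt W T s (yTop T r)

/-- The coupled trajectory `(y, Y)` from the roots. -/
noncomputable def coupTraj (W : E d → ℝ) (g T s : ℝ) (r : Root d) : E d × E d :=
  odeFlow (coupleField W g) 1 T
    (probTraj W T 1 r, g⁻¹ • tv W 1 (probTraj W T 1 r) + r.2) s

/-- The state `(y, w)` of the coupled trajectory. -/
noncomputable def coupState (W : E d → ℝ) (g T τ : ℝ) (r : Root d) : E d × E d :=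
  ((coupTraj W g T τ r).1, wOf W g τ (coupTraj W g T τ r))

/-- The auxiliary trajectory from a point of the coupled trajectory. -/
noncomputable def auxTraj (W : E d → ℝ) (g T τ θ : ℝ) (r : Root d) : E d × E d :=
  odeFlow (auxVec W g τ) 0 (max θ 0 + 1) (coupState W g T τ r) θ

/-- The Hamiltonian trajectory from a point of the auxiliary trajectory. -/
noncomputable def hmcTraj (W : E d → ℝ) (g T τ θ x : ℝ) (r : Root d) : E d × E d :=
  odeFlow (hmcVec W τ) 0 1 (auxTraj W g T τ θ r) x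

/-- The probability flow from a point of the auxiliary trajectory, at time `s ∈ [τ, τ + 1]`. -/
noncomputable def pfTraj (W : E d → ℝ) (g T τ θ s : ℝ) (r : Root d) : E d :=
  odeFlow (pfVec W τ) 0 1 (auxTraj W g T τ θ r).1 (s - τ)

theorem continuous_yTop (T : ℝ) : Continuous (yTop (d := d) T) := by
  unfold yTop; fun_prop

variable {η B : ℝ} {W : E d → ℝ} (hW : Pert η B W) {T : ℝ}
include hW

theorem isProbability_rootLaw : IsProbabilityMeasure (rootLaw W) := by
  have := hW.isProbabilityMeasure_law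
  unfold rootLaw
  infer_instance

theorem map_yTop (hT : 0 < T) : (rootLaw W).map (yTop T) = law (tU W T) := by
  have := hW.isProbabilityMeasure_law
  have hm : Measurable fun p : E d × E d => exp (-T) • p.1 + bT T • p.2 := by fun_prop
  rw [law_tU hW hT, show yTop (d := d) T = (fun p : E d × E d => exp (-T) • p.1 + bT T • p.2) ∘
    Prod.fst from rfl, ← Measure.map_map hm measurable_fst, rootLaw, ← Measure.fst,
    Measure.fst_prod]

theorem fieldReg_rev : FieldReg (revVec W T) 0 (T - 1) :=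
  (fieldReg_flow hW (b := T) one_pos).affine fun u hu =>
    ⟨by linarith [hu.2], by linarith [hu.1]⟩

theorem isTraj_probPt (hT : 1 ≤ T) (y : E d) :
    IsTraj (flowField W) 1 T fun s => probPt W T s y := fun s hs => by
  have hm : MapsTo (fun u : ℝ => T + -1 * u) (Icc 1 T) (Icc 0 (T - 1)) := fun u hu =>
    ⟨by linarith [hu.2], by linarith [hu.1]⟩
  have h := ((fieldReg_rev hW).flow_spec (sub_nonneg.2 hT) y).1.affine hm s hs
  have e : ∀ u : ℝ, T + -1 * u = T - u := fun u => by ring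
  simp only [e, revVec, sub_sub_cancel, smul_smul] at h
  simp only [probPt]
  simpa using h

theorem probPt_top (hT : 1 ≤ T) (y : E d) : probPt W T T y = y := by
  rw [probPt, sub_self]
  exact ((fieldReg_rev hW).flow_spec (sub_nonneg.2 hT) y).2

theorem continuousOn_probPt (hT : 1 ≤ T) :
    ContinuousOn (fun q : ℝ × E d => probPt W T q.1 q.2) (Icc 1 T ×ˢ univ) :=
  ((fieldReg_rev hW).continuousOn_flow (sub_nonneg.2 hT)).comp
    (f := fun q : ℝ × E d => (q.2, T - q.1)) (by fun_prop)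
    fun q hq => ⟨trivial, by linarith [hq.1.2], by linarith [hq.1.1]⟩

theorem continuous_probPt {s : ℝ} (hT : 1 ≤ T) (hs : s ∈ Icc 1 T) :
    Continuous (probPt W T s) :=
  continuousOn_univ.1 ((continuousOn_probPt hW hT).comp (f := fun y : E d => (s, y)) (by fun_prop)
    fun _ _ => ⟨hs, trivial⟩)

theorem map_probPt {s : ℝ} (hT : 1 ≤ T) (hs : s ∈ Icc 1 T) :
    (law (tU W T)).map (probPt W T s) = law (tU W s) := by
  have hV := fieldReg_flow hW (b := T) one_pos
  have hΦ : ∀ u ∈ Icc 1 T, Measurable fun y => odeFlow (flowField W) 1 T y u := fun u hu =>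
    (continuousOn_univ.1 ((hV.continuousOn_flow hT).comp (f := fun y : E d => (y, u)) (by fun_prop)
      fun _ _ => ⟨trivial, hu⟩)).measurable
  have h1 : (1 : ℝ) ∈ Icc 1 T := ⟨le_rfl, hT⟩
  have hR := (continuous_probPt hW hT h1).measurable
  have e1 : probPt W T s = (fun y => odeFlow (flowField W) 1 T y s) ∘ probPt W T 1 :=
    funext fun y => (hV.flow_eq hT (isTraj_probPt hW hT y) hs).symm
  have e2 : probPt W T 1 ∘ (fun y => odeFlow (flowField W) 1 T y T) = id := funext fun y => by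
    have h := hV.traj_unique (isTraj_probPt hW hT (odeFlow (flowField W) 1 T y T))
      (hV.flow_spec hT y).1 ⟨hT, le_rfl⟩ (probPt_top hW hT _) h1
    rwa [(hV.flow_spec hT y).2] at h
  rw [e1, ← Measure.map_map (hΦ s hs) hR, ← map_flowField hW one_pos hT (t := T) ⟨hT, le_rfl⟩,
    Measure.map_map hR (hΦ T ⟨hT, le_rfl⟩), e2, Measure.map_id, map_flowField hW one_pos hT hs]

/-! ### The probability flow from the roots -/

theorem probTraj_top (hT : 1 ≤ T) (r : Root d) : probTraj W T T r = yTop T r :=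
  probPt_top hW hT _

theorem hasDeriv_probTraj (hT : 1 ≤ T) (r : Root d) {s : ℝ} (hs : s ∈ Icc 1 T) :
    HasDerivWithinAt (fun u => probTraj W T u r) (flowField W s (probTraj W T s r)) (Icc 1 T) s :=
  isTraj_probPt hW hT _ s hs

theorem continuousOn_probTraj (hT : 1 ≤ T) :
    ContinuousOn (fun q : ℝ × Root d => probTraj W T q.1 q.2) (Icc 1 T ×ˢ univ) :=
  (continuousOn_probPt hW hT).comp (f := fun q : ℝ × Root d => (q.1, yTop T q.2))
    (continuous_fst.prodMk ((continuous_yTop T).comp continuous_snd)).continuousOn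
    fun _ hq => ⟨hq.1, trivial⟩

theorem continuous_probTraj {s : ℝ} (hT : 1 ≤ T) (hs : s ∈ Icc 1 T) :
    Continuous (probTraj W T s) :=
  (continuous_probPt hW hT hs).comp (continuous_yTop T)

theorem map_probTraj {s : ℝ} (hT : 1 ≤ T) (hs : s ∈ Icc 1 T) :
    (rootLaw W).map (probTraj W T s) = law (tU W s) := by
  rw [show probTraj W T s = probPt W T s ∘ yTop T from rfl,
    ← Measure.map_map (continuous_probPt hW hT hs).measurable (continuous_yTop T).measurable,
    map_yTop hW (zero_lt_one.trans_le hT), map_probPt hW hT hs]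

/-! ### The coupled trajectory -/

theorem continuous_coupStart (g : ℝ) (hT : 1 ≤ T) : Continuous fun r : Root d =>
    (probTraj W T 1 r, g⁻¹ • tv W 1 (probTraj W T 1 r) + r.2) := by
  have h1 := continuous_probTraj hW hT ⟨le_rfl, hT⟩
  exact h1.prodMk ((((contDiff_tv hW one_pos (n := 0)).continuous.comp h1).const_smul g⁻¹).add
    continuous_snd)

theorem map_coupStart (g : ℝ) (hT : 1 ≤ T) : (rootLaw W).map
    (fun r => (probTraj W T 1 r, g⁻¹ • tv W 1 (probTraj W T 1 r) + r.2)) = coupleLaw W g 1 := by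
  have := hW.isProbabilityMeasure_law
  have hT0 : 0 < T := zero_lt_one.trans_le hT
  have h1 : (1 : ℝ) ∈ Icc 1 T := ⟨le_rfl, hT⟩
  have := isProbabilityMeasure_law_tU hW hT0
  set F : E d × E d → E d := fun q => probPt W T 1 (exp (-T) • q.1 + bT T • q.2)
  have hF : Measurable F := ((continuous_probPt hW hT h1).comp (by fun_prop)).measurable
  have eF : ((law W).prod (stdGaussian (E d))).map F = law (tU W 1) := by
    rw [show F = probPt W T 1 ∘ fun q : E d × E d => exp (-T) • q.1 + bT T • q.2 from rfl,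
      ← Measure.map_map (continuous_probPt hW hT h1).measurable (by fun_prop), ← law_tU hW hT0,
      map_probPt hW hT h1]
  have hv : Measurable fun p : E d × E d => (p.1, g⁻¹ • tv W 1 p.1 + p.2) := by
    have := (contDiff_tv hW one_pos (n := 0)).continuous
    exact (by fun_prop : Continuous fun p : E d × E d => (p.1, g⁻¹ • tv W 1 p.1 + p.2)).measurable
  rw [coupleLaw, show (fun r : Root d => (probTraj W T 1 r, g⁻¹ • tv W 1 (probTraj W T 1 r) + r.2)) =
      (fun p : E d × E d => (p.1, g⁻¹ • tv W 1 p.1 + p.2)) ∘ Prod.map F id from rfl,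
    ← Measure.map_map hv (hF.prodMap measurable_id), rootLaw,
    ← Measure.map_prod_map _ _ hF measurable_id, eF, Measure.map_id]

theorem coupTraj_one (g : ℝ) (hT : 1 ≤ T) (r : Root d) : coupTraj W g T 1 r =
    (probTraj W T 1 r, g⁻¹ • tv W 1 (probTraj W T 1 r) + r.2) :=
  ((fieldReg_couple hW (g := g) (b := T) one_pos).flow_spec hT _).2

theorem coupState_one (g : ℝ) (hT : 1 ≤ T) (r : Root d) :
    coupState W g T 1 r = (probTraj W T 1 r, r.2) := by
  simp [coupState, coupTraj_one hW g hT, wOf]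

theorem hasDeriv_coupTraj (g : ℝ) (hT : 1 ≤ T) (r : Root d) {s : ℝ} (hs : s ∈ Icc 1 T) :
    HasDerivWithinAt (fun u => coupTraj W g T u r) (coupleField W g s (coupTraj W g T s r))
      (Icc 1 T) s :=
  ((fieldReg_couple hW (g := g) (b := T) one_pos).flow_spec hT _).1 s hs

theorem hasDeriv_coupW (g : ℝ) (hT : 1 ≤ T) (r : Root d) {s : ℝ} (hs : s ∈ Icc 1 T) :
    HasDerivWithinAt (fun u => wOf W g u (coupTraj W g T u r))
      (-(g⁻¹ • (deriv (fun u => tv W u (coupTraj W g T s r).1) s +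
        fderiv ℝ (tv W s) (coupTraj W g T s r).1
          (flowField W s (coupTraj W g T s r).1)))) (Icc 1 T) s := by
  have hs0 : 0 < s := zero_lt_one.trans_le hs.1
  refine (hasDerivWithinAt_wOf hW g hs0 (p := fun u => coupTraj W g T u r)
    (hasDeriv_coupTraj hW g hT r hs)).congr_deriv ?_
  rw [(hasDerivAt_tv hW hs0 _).deriv]
  simp only [map_add, map_smul]
  module

theorem continuousOn_coupTraj (g : ℝ) (hT : 1 ≤ T) :
    ContinuousOn (fun q : ℝ × Root d => coupTraj W g T q.1 q.2) (Icc 1 T ×ˢ univ) :=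
  ((fieldReg_couple hW (g := g) (b := T) one_pos).continuousOn_flow hT).comp
    (f := fun q : ℝ × Root d => ((probTraj W T 1 q.2, g⁻¹ • tv W 1 (probTraj W T 1 q.2) + q.2.2),
      q.1)) (((continuous_coupStart hW g hT).comp continuous_snd).prodMk
        continuous_fst).continuousOn fun _ hq => ⟨trivial, hq.1⟩

theorem continuous_coupTraj (g : ℝ) {s : ℝ} (hT : 1 ≤ T) (hs : s ∈ Icc 1 T) :
    Continuous (coupTraj W g T s) :=
  continuousOn_univ.1 ((continuousOn_coupTraj hW g hT).comp (f := fun r : Root d => (s, r))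
    (by fun_prop) fun _ _ => ⟨hs, trivial⟩)

theorem map_coupTraj (g : ℝ) {s : ℝ} (hT : 1 ≤ T) (hs : s ∈ Icc 1 T) :
    (rootLaw W).map (coupTraj W g T s) = coupleLaw W g s := by
  have hΦ : Measurable fun p => odeFlow (coupleField W g) 1 T p s :=
    (continuousOn_univ.1 (((fieldReg_couple hW (g := g) (b := T) one_pos).continuousOn_flow hT).comp
      (f := fun p : E d × E d => (p, s)) (by fun_prop) fun _ _ => ⟨trivial, hs⟩)).measurable
  rw [show coupTraj W g T s = (fun p => odeFlow (coupleField W g) 1 T p s) ∘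
      fun r => (probTraj W T 1 r, g⁻¹ • tv W 1 (probTraj W T 1 r) + r.2) from rfl,
    ← Measure.map_map hΦ (continuous_coupStart hW g hT).measurable, map_coupStart hW g hT,
    map_coupleField hW one_pos hT hs]

theorem continuousOn_coupState (g : ℝ) (hT : 1 ≤ T) :
    ContinuousOn (fun q : ℝ × Root d => coupState W g T q.1 q.2) (Icc 1 T ×ˢ univ) := by
  have hc := continuousOn_coupTraj hW g hT
  have hv : ContinuousOn (fun q : ℝ × Root d => tv W q.1 (coupTraj W g T q.1 q.2).1)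
      (Icc 1 T ×ˢ univ) :=
    ContinuousOn.comp (g := fun q : ℝ × E d => tv W q.1 q.2)
      (f := fun q : ℝ × Root d => (q.1, (coupTraj W g T q.1 q.2).1))
      (contDiffOn_tv hW (n := 0)).continuousOn (continuousOn_fst.prodMk hc.fst)
      fun q hq => mk_mem_prod (mem_Ioi.2 (zero_lt_one.trans_le hq.1.1)) (mem_univ _)
  exact hc.fst.prodMk (hc.snd.sub (hv.const_smul g⁻¹))

theorem continuous_coupState (g : ℝ) {τ : ℝ} (hT : 1 ≤ T) (hτ : τ ∈ Icc 1 T) :
    Continuous (coupState W g T τ) :=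
  continuousOn_univ.1 ((continuousOn_coupState hW g hT).comp (f := fun r : Root d => (τ, r))
    (by fun_prop) fun _ _ => ⟨hτ, trivial⟩)

theorem map_coupState (g : ℝ) {τ : ℝ} (hT : 1 ≤ T) (hτ : τ ∈ Icc 1 T) :
    (rootLaw W).map (coupState W g T τ) = (law (tU W τ)).prod (stdGaussian (E d)) := by
  have := (contDiff_tv hW (zero_lt_one.trans_le hτ.1) (n := 0)).continuous
  have h1 : Measurable fun p : E d × E d => (p.1, wOf W g τ p) :=
    (by unfold wOf; fun_prop : Continuous fun p : E d × E d => (p.1, wOf W g τ p)).measurable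
  have h2 : Measurable fun p : E d × E d => (p.1, g⁻¹ • tv W τ p.1 + p.2) :=
    (by fun_prop : Continuous fun p : E d × E d => (p.1, g⁻¹ • tv W τ p.1 + p.2)).measurable
  rw [show coupState W g T τ = (fun p : E d × E d => (p.1, wOf W g τ p)) ∘ coupTraj W g T τ from rfl,
    ← Measure.map_map h1 (continuous_coupTraj hW g hT hτ).measurable, map_coupTraj hW g hT hτ,
    coupleLaw, Measure.map_map h1 h2]
  simp only [Function.comp_def, wOf, add_sub_cancel_left]
  exact Measure.map_id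

/-! ### The auxiliary trajectories -/

variable {g τ θ θ₀ : ℝ}

theorem auxTraj_eq (hτ : τ ∈ Icc 1 T) (hθ : θ ∈ Icc 0 θ₀) (r : Root d) :
    auxTraj W g T τ θ r = odeFlow (auxVec W g τ) 0 θ₀ (coupState W g T τ r) θ := by
  have hV := (auxParam hW g (T := T) (θ₀ := max θ₀ (max θ 0 + 1))).1 τ hτ
  rw [auxTraj, hV.flow_restrict (by linarith [le_max_right θ 0]) (le_max_right _ _) _
      ⟨hθ.1, by linarith [le_max_left θ 0]⟩,
    hV.flow_restrict (hθ.1.trans hθ.2) (le_max_left _ _) _ hθ]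

theorem auxTraj_zero (hτ : τ ∈ Icc 1 T) (r : Root d) :
    auxTraj W g T τ 0 r = coupState W g T τ r := by
  rw [auxTraj_eq hW hτ (θ₀ := 0) ⟨le_rfl, le_rfl⟩]
  exact (((auxParam hW g (T := T) (θ₀ := (0 : ℝ))).1 τ hτ).flow_spec le_rfl _).2

theorem hasDeriv_auxTraj (hτ : τ ∈ Icc 1 T) (hθ : θ ∈ Icc 0 θ₀) (r : Root d) :
    HasDerivWithinAt (fun u => auxTraj W g T τ u r) (auxVec W g τ θ (auxTraj W g T τ θ r))
      (Icc 0 θ₀) θ := by
  rw [auxTraj_eq hW hτ hθ r]
  exact ((((auxParam hW g (T := T) (θ₀ := θ₀)).1 τ hτ).flow_spec (hθ.1.trans hθ.2) _).1 θ hθ).congr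
    (fun u hu => auxTraj_eq hW hτ hu r) (auxTraj_eq hW hτ hθ r)

theorem hasDeriv_tv_auxTraj (hg : g ≠ 0) (hτ : τ ∈ Icc 1 T) (h0 : 0 ≤ θ₀) (r : Root d) :
    HasDerivWithinAt (fun u => tv W τ (auxTraj W g T τ u r).1)
      (-(g • tA W g τ (coupState W g T τ r).1
        (tA W g τ (coupState W g T τ r).1 (coupState W g T τ r).2))) (Icc 0 θ₀) 0 := by
  have hd : HasFDerivAt (tv W τ) (fderiv ℝ (tv W τ) (auxTraj W g T τ 0 r).1)
      (auxTraj W g T τ 0 r).1 :=
    (((contDiff_tv hW (zero_lt_one.trans_le hτ.1) (n := 1)).differentiable one_ne_zero) _).hasFDerivAt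
  refine (hd.comp_hasDerivWithinAt (f := fun u => (auxTraj W g T τ u r).1) 0
    ((ContinuousLinearMap.fst ℝ (E d) (E d)).hasFDerivAt.comp_hasDerivWithinAt 0
      (hasDeriv_auxTraj hW hτ ⟨le_rfl, h0⟩ r))).congr_deriv ?_
  rw [auxTraj_zero hW hτ r]
  simp [auxVec, tA, smul_smul, hg]

theorem continuousOn_auxTraj (g : ℝ) (hT : 1 ≤ T) (h0 : 0 ≤ θ₀) :
    ContinuousOn (fun q : ℝ × ℝ × Root d => auxTraj W g T q.1 q.2.1 q.2.2)
      (Icc 1 T ×ˢ Icc 0 θ₀ ×ˢ univ) := by
  refine ContinuousOn.congr ?_ fun q hq => auxTraj_eq hW hq.1 hq.2.1 q.2.2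
  refine ((auxParam hW g (T := T) (θ₀ := θ₀)).2 h0).comp
    (f := fun q : ℝ × ℝ × Root d => (q.1, coupState W g T q.1 q.2.2, q.2.1)) ?_
    fun q hq => ⟨hq.1, trivial, hq.2.1⟩
  refine continuousOn_fst.prodMk (ContinuousOn.prodMk ?_ continuous_snd.fst.continuousOn)
  exact (continuousOn_coupState hW g hT).comp (f := fun q : ℝ × ℝ × Root d => (q.1, q.2.2))
    (by fun_prop) fun _ hq => ⟨hq.1, trivial⟩

theorem continuous_auxTraj (g : ℝ) (hT : 1 ≤ T) (hτ : τ ∈ Icc 1 T) (hθ : 0 ≤ θ) :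
    Continuous (auxTraj W g T τ θ) :=
  continuousOn_univ.1 ((continuousOn_auxTraj hW g hT hθ).comp (f := fun r : Root d => (τ, θ, r))
    (by fun_prop) fun _ _ => ⟨hτ, ⟨hθ, le_rfl⟩, trivial⟩)

theorem map_auxTraj (g : ℝ) (hT : 1 ≤ T) (hτ : τ ∈ Icc 1 T) (hθ : 0 ≤ θ) :
    (rootLaw W).map (auxTraj W g T τ θ) = (law (tU W τ)).prod (stdGaussian (E d)) := by
  have hτ0 : 0 < τ := zero_lt_one.trans_le hτ.1
  have hΦ : Measurable fun p => odeFlow (auxVec W g τ) 0 θ p θ :=
    (continuousOn_univ.1 ((((auxParam hW g (T := T) (θ₀ := θ)).1 τ hτ).continuousOn_flow hθ).comp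
      (f := fun p : E d × E d => (p, θ)) (by fun_prop)
      fun _ _ => ⟨trivial, hθ, le_rfl⟩)).measurable
  rw [show auxTraj W g T τ θ = (fun p => odeFlow (auxVec W g τ) 0 θ p θ) ∘ coupState W g T τ from
      funext fun r => auxTraj_eq hW hτ ⟨hθ, le_rfl⟩ r,
    ← Measure.map_map hΦ (continuous_coupState hW g hT hτ).measurable, map_coupState hW g hT hτ,
    map_auxVec hW hτ0 hθ ⟨hθ, le_rfl⟩]

/-! ### The Hamiltonian trajectories -/

variable {x : ℝ}

theorem hmcTraj_zero (hτ : τ ∈ Icc 1 T) (r : Root d) :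
    hmcTraj W g T τ θ 0 r = auxTraj W g T τ θ r :=
  (((hmcParam hW (T := T)).1 τ hτ).flow_spec zero_le_one _).2

theorem hasDeriv_hmcTraj (hτ : τ ∈ Icc 1 T) (hx : x ∈ Icc (0 : ℝ) 1) (r : Root d) :
    HasDerivWithinAt (fun u => hmcTraj W g T τ θ u r)
      ((hmcTraj W g T τ θ x r).2,
        -((hmcTraj W g T τ θ x r).1 + flowField W τ (hmcTraj W g T τ θ x r).1)) (Icc 0 1) x :=
  (((hmcParam hW (T := T)).1 τ hτ).flow_spec zero_le_one _).1 x hx

theorem hasDeriv_tv_hmcTraj (hg : g ≠ 0) (hτ : τ ∈ Icc 1 T) (r : Root d) :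
    HasDerivWithinAt (fun u => tv W τ (hmcTraj W g T τ θ u r).1)
      (g • tA W g τ (auxTraj W g T τ θ r).1 (auxTraj W g T τ θ r).2) (Icc 0 1) 0 := by
  have hd : HasFDerivAt (tv W τ) (fderiv ℝ (tv W τ) (hmcTraj W g T τ θ 0 r).1)
      (hmcTraj W g T τ θ 0 r).1 :=
    (((contDiff_tv hW (zero_lt_one.trans_le hτ.1) (n := 1)).differentiable one_ne_zero) _).hasFDerivAt
  refine (hd.comp_hasDerivWithinAt (f := fun u => (hmcTraj W g T τ θ u r).1) 0
    ((ContinuousLinearMap.fst ℝ (E d) (E d)).hasFDerivAt.comp_hasDerivWithinAt 0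
      (hasDeriv_hmcTraj hW hτ (left_mem_Icc.2 zero_le_one) r))).congr_deriv ?_
  rw [hmcTraj_zero hW hτ r]
  simp [tA, smul_smul, hg]

theorem hmcTraj_fst_eq (hτ : τ ∈ Icc 1 T) (hx : x ∈ Icc (0 : ℝ) 1) (r : Root d) :
    (hmcTraj W g T τ θ x r).1 = cos x • (auxTraj W g T τ θ r).1 +
      sin x • (auxTraj W g T τ θ r).2 -
      ∫ u in (0 : ℝ)..x, sin (x - u) • flowField W τ (hmcTraj W g T τ θ u r).1 := by
  set p := fun u => hmcTraj W g T τ θ u r with hp
  have hpc : ContinuousOn p (Icc 0 1) := fun u hu =>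
    (hasDeriv_hmcTraj hW hτ hu r).continuousWithinAt
  have hsub : Icc 0 x ⊆ Icc (0 : ℝ) 1 := Icc_subset_Icc le_rfl hx.2
  have hGc : ContinuousOn (fun u => sin (x - u) • flowField W τ (p u).1) (Icc 0 x) := by
    have hF : Continuous (flowField W τ) :=
      ((contDiff_tv hW (zero_lt_one.trans_le hτ.1) (n := 0)).continuous).const_smul (exp (-τ))
    exact (by fun_prop : Continuous fun u => sin (x - u)).continuousOn.smul
      (hF.comp_continuousOn (hpc.mono hsub).fst)
  have hφc : ContinuousOn (fun u => cos (x - u) • (p u).1 + sin (x - u) • (p u).2) (Icc 0 x) :=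
    ((by fun_prop : Continuous fun u => cos (x - u)).continuousOn.smul (hpc.mono hsub).fst).add
      ((by fun_prop : Continuous fun u => sin (x - u)).continuousOn.smul (hpc.mono hsub).snd)
  have h := intervalIntegral.integral_eq_sub_of_hasDerivAt_of_le hx.1 hφc
    (f' := fun u => -(sin (x - u) • flowField W τ (p u).1)) (fun u hu => ?_)
    (hGc.neg.intervalIntegrable_of_Icc hx.1)
  · rw [intervalIntegral.integral_neg] at h
    simp only [sub_self, cos_zero, sin_zero, one_smul, zero_smul, add_zero, sub_zero] at h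
    simp only [hp, hmcTraj_zero hW hτ r] at h ⊢
    linear_combination (norm := module) (-1 : ℝ) • h
  · have hu1 : u ∈ Ioo (0 : ℝ) 1 := ⟨hu.1, hu.2.trans_le hx.2⟩
    have hd := hasDerivAt_of_within hu1 (hasDeriv_hmcTraj hW hτ (Ioo_subset_Icc_self hu1) r
      (g := g) (θ := θ))
    have d1 : HasDerivAt (fun v => (p v).1) (p u).2 u :=
      (ContinuousLinearMap.fst ℝ (E d) (E d)).hasFDerivAt.comp_hasDerivAt u hd
    have d2 : HasDerivAt (fun v => (p v).2) (-((p u).1 + flowField W τ (p u).1)) u :=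
      (ContinuousLinearMap.snd ℝ (E d) (E d)).hasFDerivAt.comp_hasDerivAt u hd
    have hx' : HasDerivAt (fun v => x - v) (-1) u := (hasDerivAt_id u).const_sub x
    refine ((hx'.cos.smul d1).add (hx'.sin.smul d2)).congr_deriv ?_
    module

theorem continuousOn_hmcTraj (g : ℝ) (hT : 1 ≤ T) (h0 : 0 ≤ θ₀) :
    ContinuousOn (fun q : ℝ × ℝ × ℝ × Root d => hmcTraj W g T q.1 q.2.1 q.2.2.1 q.2.2.2)
      (Icc 1 T ×ˢ Icc 0 θ₀ ×ˢ Icc 0 1 ×ˢ univ) := by
  refine (hmcParam hW (T := T)).2.comp (f := fun q : ℝ × ℝ × ℝ × Root d =>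
    (q.1, auxTraj W g T q.1 q.2.1 q.2.2.2, q.2.2.1)) ?_ fun q hq => ⟨hq.1, trivial, hq.2.2.1⟩
  refine continuousOn_fst.prodMk (ContinuousOn.prodMk ?_ continuous_snd.snd.fst.continuousOn)
  exact (continuousOn_auxTraj hW g hT h0).comp
    (f := fun q : ℝ × ℝ × ℝ × Root d => (q.1, q.2.1, q.2.2.2)) (by fun_prop)
    fun q hq => ⟨hq.1, hq.2.1, trivial⟩

theorem continuous_hmcTraj (g : ℝ) (hT : 1 ≤ T) (hτ : τ ∈ Icc 1 T) (hθ : 0 ≤ θ)
    (hx : x ∈ Icc (0 : ℝ) 1) : Continuous (hmcTraj W g T τ θ x) :=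
  continuousOn_univ.1 ((continuousOn_hmcTraj hW g hT hθ).comp
    (f := fun r : Root d => (τ, θ, x, r)) (by fun_prop)
    fun _ _ => ⟨hτ, ⟨hθ, le_rfl⟩, hx, trivial⟩)

theorem map_hmcTraj (g : ℝ) (hT : 1 ≤ T) (hτ : τ ∈ Icc 1 T) (hθ : 0 ≤ θ)
    (hx : x ∈ Icc (0 : ℝ) 1) :
    (rootLaw W).map (hmcTraj W g T τ θ x) = (law (tU W τ)).prod (stdGaussian (E d)) := by
  have hV := (hmcParam hW (T := T)).1 τ hτ
  have hΦ : Measurable fun p => odeFlow (hmcVec W τ) 0 1 p x :=
    (continuousOn_univ.1 ((hV.continuousOn_flow zero_le_one).comp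
      (f := fun p : E d × E d => (p, x)) (by fun_prop) fun _ _ => ⟨trivial, hx⟩)).measurable
  rw [show hmcTraj W g T τ θ x = (fun p => odeFlow (hmcVec W τ) 0 1 p x) ∘ auxTraj W g T τ θ
      from rfl,
    ← Measure.map_map hΦ (continuous_auxTraj hW g hT hτ hθ).measurable, map_auxTraj hW g hT hτ hθ,
    map_hmcVec hW (zero_lt_one.trans_le hτ.1) hV zero_le_one hx]

theorem map_hmcTraj_fst (g : ℝ) (hT : 1 ≤ T) (hτ : τ ∈ Icc 1 T) (hθ : 0 ≤ θ)
    (hx : x ∈ Icc (0 : ℝ) 1) :
    (rootLaw W).map (fun r => (hmcTraj W g T τ θ x r).1) = law (tU W τ) := by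
  have := isProbabilityMeasure_law_tU hW (zero_lt_one.trans_le hτ.1)
  rw [show (fun r => (hmcTraj W g T τ θ x r).1) = Prod.fst ∘ hmcTraj W g T τ θ x from rfl,
    ← Measure.map_map measurable_fst (continuous_hmcTraj hW g hT hτ hθ hx).measurable,
    map_hmcTraj hW g hT hτ hθ hx, ← Measure.fst, Measure.fst_prod]

theorem map_auxTraj_fst (g : ℝ) (hT : 1 ≤ T) (hτ : τ ∈ Icc 1 T) (hθ : 0 ≤ θ) :
    (rootLaw W).map (fun r => (auxTraj W g T τ θ r).1) = law (tU W τ) := by
  simpa [hmcTraj_zero hW hτ] using map_hmcTraj_fst hW g hT hτ hθ (left_mem_Icc.2 zero_le_one)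

theorem map_coupTraj_fst (g : ℝ) (hT : 1 ≤ T) (hτ : τ ∈ Icc 1 T) :
    (rootLaw W).map (fun r => (coupTraj W g T τ r).1) = law (tU W τ) := by
  simpa [auxTraj_zero hW hτ, coupState] using map_auxTraj_fst hW g hT hτ le_rfl

/-! ### The short probability flows -/

variable {s u : ℝ}

theorem pfTraj_start (hτ : τ ∈ Icc 1 T) (r : Root d) :
    pfTraj W g T τ θ τ r = (auxTraj W g T τ θ r).1 := by
  rw [pfTraj, sub_self]
  exact (((pfParam hW (T := T)).1 τ hτ).flow_spec zero_le_one _).2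

theorem hasDeriv_pfTraj (hτ : τ ∈ Icc 1 T) (hs : s ∈ Icc τ (τ + 1)) (r : Root d) :
    HasDerivWithinAt (fun v => pfTraj W g T τ θ v r) (flowField W s (pfTraj W g T τ θ s r))
      (Icc τ (τ + 1)) s := by
  have hm : MapsTo (fun v : ℝ => -τ + 1 * v) (Icc τ (τ + 1)) (Icc 0 1) := fun v hv =>
    ⟨by linarith [hv.1], by linarith [hv.2]⟩
  have h := (((pfParam hW (T := T)).1 τ hτ).flow_spec zero_le_one
    (auxTraj W g T τ θ r).1).1.affine hm s hs
  have e : ∀ v : ℝ, -τ + 1 * v = v - τ := fun v => by ring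
  simp only [e, pfVec, one_smul, add_sub_cancel] at h
  exact h

theorem hasDeriv_tv_pfTraj (hτ : τ ∈ Icc 1 T) (hs : s ∈ Icc τ (τ + 1)) (r : Root d) :
    HasDerivWithinAt (fun v => tv W v (pfTraj W g T τ θ v r))
      (deriv (fun v => tv W v (pfTraj W g T τ θ s r)) s +
        fderiv ℝ (tv W s) (pfTraj W g T τ θ s r) (flowField W s (pfTraj W g T τ θ s r)))
      (Icc τ (τ + 1)) s := by
  have hs0 : 0 < s := (zero_lt_one.trans_le hτ.1).trans_le hs.1
  set y := pfTraj W g T τ θ s r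
  have hd : HasFDerivAt (fun q : ℝ × E d => tv W q.1 q.2)
      (fderiv ℝ (fun q : ℝ × E d => tv W q.1 q.2) (s, y)) (s, y) :=
    (((contDiffOn_tv hW (n := 1)).differentiableOn one_ne_zero).differentiableAt
      ((isOpen_Ioi.prod isOpen_univ).mem_nhds
        (mk_mem_prod (mem_Ioi.2 hs0) (mem_univ _)))).hasFDerivAt
  rw [deriv_add_fderiv_tv hW hs0]
  exact hd.comp_hasDerivWithinAt (f := fun v => (v, pfTraj W g T τ θ v r)) s
    ((hasDerivWithinAt_id s _).prodMk (hasDeriv_pfTraj hW hτ hs r))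

theorem hasDeriv_flow_pfTraj (hτ : τ ∈ Icc 1 T) (hs : s ∈ Icc τ (τ + 1)) (r : Root d) :
    HasDerivWithinAt (fun v => flowField W v (pfTraj W g T τ θ v r))
      (exp (-s) • (deriv (fun v => tv W v (pfTraj W g T τ θ s r)) s +
        fderiv ℝ (tv W s) (pfTraj W g T τ θ s r) (flowField W s (pfTraj W g T τ θ s r)) -
        tv W s (pfTraj W g T τ θ s r))) (Icc τ (τ + 1)) s := by
  have he : HasDerivWithinAt (fun v => exp (-v)) (exp (-s) * -1) (Icc τ (τ + 1)) s :=
    ((hasDerivAt_id s).neg).exp.hasDerivWithinAt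
  refine (he.smul (hasDeriv_tv_pfTraj hW hτ hs r)).congr_deriv ?_
  module

theorem continuousOn_pfTraj (g : ℝ) (hT : 1 ≤ T) (h0 : 0 ≤ θ₀) :
    ContinuousOn (fun q : ℝ × ℝ × ℝ × Root d =>
        pfTraj W g T q.1 q.2.1 (q.1 + q.2.2.1) q.2.2.2)
      (Icc 1 T ×ˢ Icc 0 θ₀ ×ˢ Icc 0 1 ×ˢ univ) := by
  simp only [pfTraj, add_sub_cancel_left]
  refine (pfParam hW (T := T)).2.comp (f := fun q : ℝ × ℝ × ℝ × Root d =>
    (q.1, (auxTraj W g T q.1 q.2.1 q.2.2.2).1, q.2.2.1)) ?_ fun q hq => ⟨hq.1, trivial, hq.2.2.1⟩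
  refine continuousOn_fst.prodMk (ContinuousOn.prodMk ?_ continuous_snd.snd.fst.continuousOn)
  exact ((continuousOn_auxTraj hW g hT h0).comp
    (f := fun q : ℝ × ℝ × ℝ × Root d => (q.1, q.2.1, q.2.2.2)) (by fun_prop)
    fun q hq => ⟨hq.1, hq.2.1, trivial⟩).fst

theorem continuous_pfTraj (g : ℝ) (hT : 1 ≤ T) (hτ : τ ∈ Icc 1 T) (hθ : 0 ≤ θ)
    (hs : s ∈ Icc τ (τ + 1)) : Continuous (pfTraj W g T τ θ s) := by
  have h := continuousOn_univ.1 ((continuousOn_pfTraj hW g hT hθ).comp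
    (f := fun r : Root d => (τ, θ, s - τ, r)) (by fun_prop)
    fun _ _ => ⟨hτ, ⟨hθ, le_rfl⟩, ⟨by linarith [hs.1], by linarith [hs.2]⟩, trivial⟩)
  simpa [Function.comp_def] using h

theorem map_pfTraj (g : ℝ) (hT : 1 ≤ T) (hτ : τ ∈ Icc 1 T) (hθ : 0 ≤ θ)
    (hs : s ∈ Icc τ (τ + 1)) :
    (rootLaw W).map (pfTraj W g T τ θ s) = law (tU W s) := by
  have hu : s - τ ∈ Icc (0 : ℝ) 1 := ⟨by linarith [hs.1], by linarith [hs.2]⟩
  have hV := (pfParam hW (T := T)).1 τ hτ
  have hΦ : Measurable fun p => odeFlow (pfVec W τ) 0 1 p (s - τ) :=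
    (continuousOn_univ.1 ((hV.continuousOn_flow zero_le_one).comp
      (f := fun p : E d => (p, s - τ)) (by fun_prop) fun _ _ => ⟨trivial, hu⟩)).measurable
  rw [show pfTraj W g T τ θ s = (fun p => odeFlow (pfVec W τ) 0 1 p (s - τ)) ∘
      (Prod.fst ∘ auxTraj W g T τ θ) from rfl,
    ← Measure.map_map hΦ (measurable_fst.comp (continuous_auxTraj hW g hT hτ hθ).measurable),
    ← Measure.map_map measurable_fst (continuous_auxTraj hW g hT hτ hθ).measurable,
    map_auxTraj hW g hT hτ hθ, ← Measure.fst, Measure.fst_prod,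
    map_pfVec hW (zero_lt_one.trans_le hτ.1) hV hu]
  simp

/-! ### The bound at the top and the output identity -/

theorem yTop_sub_le (hT : 1 ≤ T) :
    Integrable (fun r : Root d => ‖yTop T r - r.1.2‖) (rootLaw W) ∧
      ∫ r, ‖yTop T r - r.1.2‖ ∂rootLaw W ≤ 3 * (1 + B) * √d * exp (-T) := by
  have := hW.isProbabilityMeasure_law
  have hT0 : 0 < T := zero_lt_one.trans_le hT
  have iX : Integrable (fun x : E d => ‖x‖) (law W) :=
    hW.integrable_law PolyBd.id.norm continuous_norm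
  have iX2 : Integrable (fun x : E d => ‖x‖ ^ 2) (law W) :=
    hW.integrable_law (PolyBd.id.norm.pow 2) (by fun_prop)
  have iZ : Integrable (fun x : E d => ‖x‖) (stdGaussian (E d)) :=
    PolyBd.id.norm.integrable _ continuous_norm.aestronglyMeasurable
  have iZ2 : Integrable (fun x : E d => ‖x‖ ^ 2) (stdGaussian (E d)) :=
    (PolyBd.id.norm.pow 2).integrable _ (Continuous.aestronglyMeasurable (by fun_prop))
  have i1 : Integrable (fun r : Root d => exp (-T) * ‖r.1.1‖ + exp (-T) * ‖r.1.2‖) (rootLaw W) :=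
    (((iX.const_mul (exp (-T))).comp_fst _).add ((iZ.const_mul (exp (-T))).comp_snd _)).comp_fst _
  have hle : ∀ r : Root d,
      ‖yTop T r - r.1.2‖ ≤ exp (-T) * ‖r.1.1‖ + exp (-T) * ‖r.1.2‖ := fun r => by
    have h1 : 1 - bT T ≤ exp (-T) := by
      have h2 : 1 - exp (-T) ≤ bT T := by
        refine Real.le_sqrt_of_sq_le ?_
        nlinarith [exp_neg_sq T, exp_le_one_iff.2 (by linarith : -T ≤ 0), exp_pos (-T)]
      linarith
    rw [yTop, show exp (-T) • r.1.1 + bT T • r.1.2 - r.1.2 =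
      exp (-T) • r.1.1 + -((1 - bT T) • r.1.2) by module]
    refine (norm_add_le _ _).trans ?_
    rw [norm_neg, norm_smul, norm_smul, norm_of_nonneg (exp_pos _).le,
      norm_of_nonneg (by linarith [bT_lt_one hT0] : (0 : ℝ) ≤ 1 - bT T)]
    gcongr
  have hi : Integrable (fun r : Root d => ‖yTop T r - r.1.2‖) (rootLaw W) :=
    i1.mono' (by unfold yTop; fun_prop) (ae_of_all _ fun r => by rw [norm_norm]; exact hle r)
  refine ⟨hi, (integral_mono hi i1 hle).trans ?_⟩
  rw [rootLaw, integral_fun_fst (f := fun q : E d × E d => exp (-T) * ‖q.1‖ + exp (-T) * ‖q.2‖),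
    integral_add ((iX.const_mul _).comp_fst _) ((iZ.const_mul _).comp_snd _),
    integral_fun_fst (f := fun x : E d => exp (-T) * ‖x‖),
    integral_fun_snd (f := fun x : E d => exp (-T) * ‖x‖)]
  simp only [probReal_univ, one_smul, integral_const_mul]
  have hX := integral_abs_le_sqrt iX iX2
  have hZ := integral_abs_le_sqrt iZ iZ2
  simp only [abs_norm, integral_norm_sq_stdGaussian, finrank_euclideanSpace_fin] at hX hZ
  have hb := hW.bound_nonneg
  have hd := Real.sqrt_nonneg (d : ℝ)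
  have hX' : ∫ x, ‖x‖ ∂law W ≤ 2 * (1 + B) * √d := by
    refine hX.trans (Real.sqrt_le_iff.2 ⟨by positivity, ?_⟩)
    rw [mul_pow, Real.sq_sqrt d.cast_nonneg]
    nlinarith [hW.integral_norm_sq_law_le, mul_nonneg (sq_nonneg (1 + B)) d.cast_nonneg (α := ℝ)]
  calc exp (-T) * ∫ x, ‖x‖ ∂law W + exp (-T) * ∫ x, ‖x‖ ∂stdGaussian (E d)
      ≤ exp (-T) * (2 * (1 + B) * √d) + exp (-T) * √d := by gcongr
    _ ≤ _ := by nlinarith [exp_pos (-T), mul_nonneg (exp_pos (-T)).le (mul_nonneg hb hd)]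

theorem continuousOn_coupAA (g : ℝ) (hT : 1 ≤ T) (r : Root d) :
    ContinuousOn (fun s => tA W g s (coupState W g T s r).1
      (tA W g s (coupState W g T s r).1 (coupState W g T s r).2)) (Icc 1 T) := by
  have hc : ContinuousOn (fun s => coupState W g T s r) (Icc 1 T) :=
    (continuousOn_coupState hW g hT).comp (f := fun s => (s, r)) (by fun_prop)
      fun s hs => ⟨hs, trivial⟩
  have hA : ContinuousOn (fun s => tA W g s (coupState W g T s r).1) (Icc 1 T) :=
    ContinuousOn.comp (g := fun q : ℝ × E d => tA W g q.1 q.2)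
      (f := fun s => (s, (coupState W g T s r).1)) (contDiffOn_tA hW g (n := 0)).continuousOn
      (continuousOn_id.prodMk hc.fst)
      fun s hs => mk_mem_prod (mem_Ioi.2 (zero_lt_one.trans_le hs.1)) (mem_univ _)
  exact hA.clm_apply (hA.clm_apply hc.snd)

theorem output_eq (hg : g ≠ 0) (hT : 1 ≤ T) (r : Root d) :
    tv W 1 (probTraj W T 1 r) + g • r.2 -
      ∫ s in (1 : ℝ)..T, g • tA W g s (coupState W g T s r).1
        (tA W g s (coupState W g T s r).1 (coupState W g T s r).2) =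
      g • (coupTraj W g T T r).2 := by
  have hd : ∀ s ∈ Icc 1 T, HasDerivWithinAt (fun u => -(g • (coupTraj W g T u r).2))
      (g • tA W g s (coupState W g T s r).1
        (tA W g s (coupState W g T s r).1 (coupState W g T s r).2)) (Icc 1 T) s := fun s hs => by
    refine ((((ContinuousLinearMap.snd ℝ (E d) (E d)).hasFDerivAt.comp_hasDerivWithinAt s
      (hasDeriv_coupTraj hW g hT r hs)).const_smul g).neg).congr_deriv ?_
    simp [coupleField, coupState]
  rw [intervalIntegral.integral_eq_sub_of_hasDerivAt_of_le hT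
    (fun s hs => (hd s hs).continuousWithinAt)
    (fun s hs => hasDerivAt_of_within hs (hd s (Ioo_subset_Icc_self hs)))
    (((continuousOn_coupAA hW g hT r).const_smul g).intervalIntegrable_of_Icc hT),
    coupTraj_one hW g hT r]
  simp only [smul_add, smul_smul, mul_inv_cancel₀ hg, one_smul]
  abel

theorem output_close (hg : g ≠ 0) (hT : 1 ≤ T) {f : E d → ℝ} (hf : LipschitzWith 1 f)
    (hfb : ∃ M, ∀ x, |f x| ≤ M) :
    |∫ r, f (tv W 1 (probTraj W T 1 r) + g • r.2 -
        ∫ s in (1 : ℝ)..T, g • tA W g s (coupState W g T s r).1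
          (tA W g s (coupState W g T s r).1 (coupState W g T s r).2)) ∂rootLaw W -
      ∫ z, f ((∫ x, grad W x ∂law W) + g • z) ∂stdGaussian (E d)| ≤ η * √d * exp (-T) := by
  have hT0 : 0 < T := zero_lt_one.trans_le hT
  have := isProbabilityMeasure_law_tU hW hT0
  set m := ∫ x, grad W x ∂law W
  have hv : Continuous (tv W T) := (contDiff_tv hW hT0 (n := 0)).continuous
  have hφ : Continuous fun p : E d × E d => f (g • p.2) := hf.continuous.comp (by fun_prop)
  have hψ : Measurable fun p : E d × E d => (p.1, g⁻¹ • tv W T p.1 + p.2) :=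
    (by fun_prop : Continuous fun p : E d × E d => (p.1, g⁻¹ • tv W T p.1 + p.2)).measurable
  have e1 : ∫ r, f (g • (coupTraj W g T T r).2) ∂rootLaw W =
      ∫ p, f (tv W T p.1 + g • p.2) ∂(law (tU W T)).prod (stdGaussian (E d)) := by
    rw [← integral_map (continuous_coupTraj hW g hT ⟨hT, le_rfl⟩).measurable.aemeasurable
      (f := fun p : E d × E d => f (g • p.2)) hφ.aestronglyMeasurable,
      map_coupTraj hW g hT ⟨hT, le_rfl⟩, coupleLaw,
      integral_map hψ.aemeasurable hφ.aestronglyMeasurable]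
    simp only [smul_add, smul_smul, mul_inv_cancel₀ hg, one_smul]
  have e2 : ∫ z, f (m + g • z) ∂stdGaussian (E d) =
      ∫ p, f (m + g • p.2) ∂(law (tU W T)).prod (stdGaussian (E d)) := by
    rw [integral_fun_snd (f := fun z => f (m + g • z))]
    simp
  simp only [output_eq hW hg hT]
  rw [e1, e2]
  obtain ⟨M, hM⟩ := hfb
  have hib : ∀ k : E d × E d → E d, Continuous k →
      Integrable (fun p => f (k p)) ((law (tU W T)).prod (stdGaussian (E d))) := fun k hk =>
    (integrable_const M).mono' (hf.continuous.comp hk).aestronglyMeasurable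
      (ae_of_all _ fun p => hM _)
  have hp : PolyBd fun y => ‖tv W T y - m‖ := by
    rw [tv_eq_grad hW hT0]
    exact (((PolyBd.const (exp T)).smul (pert_tU hW hT0).polyBd_grad).sub (PolyBd.const m)).norm
  have i1 : Integrable (fun y => ‖tv W T y - m‖) (law (tU W T)) :=
    (pert_tU hW hT0).integrable_law hp (by fun_prop)
  have i2 : Integrable (fun y => ‖tv W T y - m‖ ^ 2) (law (tU W T)) :=
    (pert_tU hW hT0).integrable_law (hp.pow 2) (by fun_prop)
  rw [← integral_sub (hib _ (by fun_prop)) (hib _ (by fun_prop))]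
  refine abs_integral_le_integral_abs.trans ((integral_mono
    (((hib _ (by fun_prop)).sub (hib _ (by fun_prop))).abs) (i1.comp_fst _) fun p => ?_).trans ?_)
  · refine (hf.dist_le_mul _ _).trans_eq ?_
    rw [NNReal.coe_one, one_mul, dist_eq_norm, add_sub_add_right_eq_sub]
  · rw [integral_fun_fst (f := fun y => ‖tv W T y - m‖), probReal_univ, one_smul]
    have h := integral_abs_le_sqrt i1 i2
    simp only [abs_norm] at h
    refine h.trans ((Real.sqrt_le_sqrt (tv_sub_mean_sq_le hW hT0)).trans_eq ?_)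
    rw [show η ^ 2 * exp (-(2 * T)) * d = (η * exp (-T)) ^ 2 * d by rw [mul_pow, exp_neg_sq],
      Real.sqrt_mul (sq_nonneg _), Real.sqrt_sq (mul_nonneg hW.eta_nonneg (exp_pos _).le)]
    ring

end Vale.Agent.P347.Zero
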