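import Vale.Agent.P347.Zero.GeoChain
import Vale.Agent.P347.Zero.GeoMain
import Vale.Agent.P347.Zero.Trajectory

/-!
# P347, exponent zero: the trajectory data of a band

`BandChains` is what the calculus provides (chains along the four flows); with the trajectories it
gives `BandDataExists`.
-/

open MeasureTheory ProbabilityTheory Set Real
open scoped BigOperators

namespace Vale.Agent.P347.Zero

variable {d : ℕ}

/-- Some chain of order `m + 1` starts at `G₀` and has top size at most `K`. -/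
def HasChain {X : Type} [NormedAddCommGroup X] [NormedSpace ℝ X] [MeasurableSpace X]
    [OpensMeasurableSpace X] (m : ℕ) (S : Set ℝ) (V : ℝ → X → X) (μ : ℝ → Measure X)
    (G₀ : ℝ → X → E d) (K : ℝ) : Prop :=
  ∃ (G : ℕ → ℝ → X → E d) (M : ℕ → ℝ), Chain (m + 1) S V μ G M ∧ M (m + 1) ≤ K ∧
    ∀ t ∈ S, ∀ x, G 0 t x = G₀ t x

/-- The coupled field in `(y, w)`. -/
noncomputable def coupYW (W : E d → ℝ) (g t : ℝ) (p : E d × E d) : E d × E d :=
  (flowField W t p.1 - tA W g t p.1 p.2, wVel W g t p.1)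

/-- The chains along the four flows. -/
def BandChains : Prop :=
  ∀ m : ℕ, ∃ C : ℝ, 0 ≤ C ∧ ∀ (d : ℕ) (η B g : ℝ) (W : E d → ℝ), Pert η B W → 0 < g → η ≤ g →
    let base := ‖∫ x, grad W x ∂law W‖ + η * √d
    let μP := fun t => law (tU W t)
    let μZ := fun t => (law (tU W t)).prod (stdGaussian (E d))
    (HasChain m (Ici 1) (flowField W) μP (tv W) (C * base) ∧
      HasChain m (Ici 1) (flowField W) μP (flowField W) (C * base) ∧
      HasChain m (Ici 1) (coupYW W g) μZ (fun t p => flowField W t p.1) (C * base) ∧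
      HasChain m (Ici 1) (coupYW W g) μZ (fun t p => tA W g t p.1 p.2) (C * ((η / g) * √d)) ∧
      HasChain m (Ici 1) (coupYW W g) μZ (fun t p => wVel W g t p.1) (C * ((η / g) * √d)) ∧
      HasChain m (Ici 1) (coupYW W g) μZ (fun t p => tA W g t p.1 (tA W g t p.1 p.2))
        (C * ((η / g) ^ 2 * √d))) ∧
    ∀ τ : ℝ, 1 ≤ τ →
      (HasChain m univ (auxVec W g τ) (fun _ => μZ τ) (fun _ p => tv W τ p.1)
          (C * ((η / g) ^ (m + 1) * base)) ∧
        HasChain m univ (auxVec W g τ) (fun _ => μZ τ) (fun _ p => tA W g τ p.1 p.2)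
          (C * ((η / g) ^ (m + 2) * √d)) ∧
        HasChain m univ (auxVec W g τ) (fun _ => μZ τ) (fun _ p => wVel W g τ p.1)
          (C * ((η / g) ^ (m + 2) * √d)) ∧
        HasChain m univ (hmcVec W τ) (fun _ => μZ τ) (fun _ p => tv W τ p.1) (C * base))

theorem norm_mean_grad_le {η B : ℝ} {W : E d → ℝ} (hW : Pert η B W) :
    ‖∫ x, grad W x ∂law W‖ ≤ 3 * (1 + B) * √d := by
  have := hW.isProbabilityMeasure_law
  have iX : Integrable (fun x : E d => ‖x‖) (law W) :=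
    hW.integrable_law PolyBd.id.norm continuous_norm
  have iX2 : Integrable (fun x : E d => ‖x‖ ^ 2) (law W) :=
    hW.integrable_law (PolyBd.id.norm.pow 2) (by fun_prop)
  have hb := hW.bound_nonneg
  have hη := hW.eta_nonneg
  have hsd := Real.sqrt_nonneg (d : ℝ)
  have hX : ∫ x, ‖x‖ ∂law W ≤ 2 * (1 + B) * √d := by
    have h := integral_abs_le_sqrt iX iX2
    simp only [abs_norm] at h
    refine h.trans (Real.sqrt_le_iff.2 ⟨by positivity, ?_⟩)
    rw [mul_pow, Real.sq_sqrt d.cast_nonneg]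
    nlinarith [hW.integral_norm_sq_law_le, mul_nonneg (sq_nonneg (1 + B)) d.cast_nonneg (α := ℝ)]
  refine (norm_integral_le_integral_norm _).trans ((integral_mono_of_nonneg
    (ae_of_all _ fun _ => norm_nonneg _) ((iX.const_mul η).add (integrable_const (η * (B * √d))))
    (ae_of_all _ fun x => (hW.norm_grad_le x).trans (le_of_eq ?_))).trans ?_)
  · simp only [Pi.add_apply]; ring
  · simp only [Pi.add_apply]
    rw [integral_add (iX.const_mul η) (integrable_const _), integral_const_mul, integral_const,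
      probReal_univ, one_smul]
    have h0 : 0 ≤ ∫ x, ‖x‖ ∂law W := integral_nonneg fun _ => norm_nonneg _
    nlinarith [mul_le_mul_of_nonneg_right hW.eta_le_one h0,
      mul_le_mul_of_nonneg_right hW.eta_le_one (mul_nonneg hb hsd)]

theorem PathChain.zero_eq {W : E d → ℝ} {m : ℕ} {a b K : ℝ} {f : ℕ → ℝ → GRoot d → E d}
    (hf : PathChain W m a b K f) {φ : ℝ → GRoot d → E d}
    (hφ : ∀ t ∈ Icc a b, ∀ r, f 0 t r = φ t r) {t : ℝ} (ht : t ∈ Icc a b) (hab : a < b)
    {r : GRoot d} {v : E d} (hv : HasDerivWithinAt (fun s => φ s r) v (Icc a b) t) :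
    f 1 t r = v :=
  UniqueDiffWithinAt.eq_deriv _ (uniqueDiffOn_Icc hab t ht)
    ((hf.deriv r 0 (Nat.zero_le m) t ht).congr (fun s hs => (hφ s hs r).symm) (hφ t ht r).symm) hv

theorem bandData_of_chains (h : BandChains) : BandDataExists := by
  intro m
  obtain ⟨C, hC, h⟩ := h m
  refine ⟨5 * C + 4, by linarith, fun d η B W g T e θ₀ hd hW hg hg1 hT he he1 hθ hηθ => ?_⟩
  have hη := hW.eta_nonneg
  have hηg : η ≤ g := (le_mul_of_one_le_right hη hθ).trans hηθ
  have hB := hW.bound_nonneg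
  have hT1 : 1 ≤ T := by linarith
  have he1' : e ≤ 1 := by linarith
  set κ := η / g
  have hκ : 0 ≤ κ := div_nonneg hη hg.le
  have hκ1 : κ ≤ 1 := (div_le_one hg).2 hηg
  set base := ‖∫ x, grad W x ∂law W‖ + η * √d
  set K := (5 * C + 4) * (1 + B) * d / g
  obtain ⟨⟨⟨Gv, Mv, cv, kv, zv⟩, ⟨Gf, Mf, cf, kf, zf⟩, ⟨Gc, Mc, cc, kc, zc⟩, ⟨Ga, Ma, ca, ka, za⟩,
    ⟨Gl, Ml, cl, kl, zl⟩, ⟨Go, Mo, co, ko, zo⟩⟩, hτch⟩ := h d η B g W hW hg hηg
  choose h1 h2 h3 h4 using hτch
  -- the sizes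
  have hsd : √(d : ℝ) ≤ d := Real.sqrt_le_iff.2 ⟨d.cast_nonneg, by
    have : (1 : ℝ) ≤ d := by exact_mod_cast hd
    nlinarith⟩
  have hsd0 : 0 ≤ √(d : ℝ) := Real.sqrt_nonneg _
  have hbase : base ≤ 4 * (1 + B) * √d := by
    have := norm_mean_grad_le hW
    nlinarith [mul_le_mul_of_nonneg_right hW.eta_le_one hsd0, mul_nonneg hB hsd0]
  have hK0 : ∀ a : ℝ, a ≤ (5 * C + 4) * ((1 + B) * √d) → a ≤ K := fun a ha => by
    refine ha.trans ?_
    rw [show K = (5 * C + 4) * ((1 + B) * d) / g by simp only [K]; ring, le_div_iff₀ hg]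
    refine (mul_le_of_le_one_right (by positivity) hg1).trans ?_
    gcongr
  have hbase0 : 0 ≤ base := by positivity
  have kB : C * base ≤ C * (4 * (1 + B) * √d) := mul_le_mul_of_nonneg_left hbase hC
  have hsB : √(d : ℝ) ≤ (1 + B) * √d := le_mul_of_one_le_left hsd0 (by linarith)
  have kD : ∀ n : ℕ, C * (κ ^ n * √d) ≤ C * ((1 + B) * √d) := fun n =>
    mul_le_mul_of_nonneg_left ((mul_le_of_le_one_left hsd0 (pow_le_one₀ hκ hκ1)).trans hsB) hC
  have kK : ∀ n : ℕ, C * (κ ^ n * √d) ≤ K := fun n =>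
    hK0 _ ((kD n).trans (mul_le_mul_of_nonneg_right (by linarith) (by positivity)))
  have bK : C * base ≤ K := hK0 _ (kB.trans (by nlinarith))
  -- the trajectories
  let P : ℝ → GRoot d → E d := fun s r => probTraj W T s r
  let Z : ℝ → GRoot d → E d × E d := fun s r => coupState W g T s r
  have hCZ : ∀ s ∈ Icc 1 T, Measurable (Z s) := fun s hs =>
    (continuous_coupState hW g hT1 hs).measurable
  have dZ : ∀ r, ∀ s ∈ Icc 1 T,
      HasDerivWithinAt (fun u => Z u r) (coupYW W g s (Z s r)) (Icc 1 T) s := fun r s hs =>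
    ((ContinuousLinearMap.fst ℝ (E d) (E d)).hasFDerivAt.comp_hasDerivWithinAt s
      (hasDeriv_coupTraj hW g hT1 r hs)).prodMk (hasDeriv_coupW hW g hT1 r hs)
  have hsub : Icc 1 T ⊆ Ici 1 := fun s hs => hs.1
  have cZ := fun {G : ℕ → ℝ → E d × E d → E d} {M : ℕ → ℝ}
      (c : Chain (m + 1) (Ici 1) (coupYW W g) (fun t => (law (tU W t)).prod (stdGaussian (E d))) G M)
      (K' : ℝ) (k : M (m + 1) ≤ K') => c.pathChain hW hsub Z hCZ
        (fun s hs => map_coupState hW g hT1 hs) dZ k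
  have pP := cf.pathChain hW hsub P (fun s hs => (continuous_probTraj hW hT1 hs).measurable)
    (fun s hs => map_probTraj hW hT1 hs) (fun r s hs => hasDeriv_probTraj hW hT1 r hs)
    (kf.trans bK)
  have pC := cZ (cc.sub ca) K ((add_le_add kc ka).trans (hK0 _ (by
    have := kD 1
    rw [pow_one] at this
    nlinarith)))
  have pL := cZ cl K (kl.trans (by simpa using kK 1))
  have pO := cZ (co.const_smul g) K (by
    rw [abs_of_pos hg]
    refine (mul_le_mul_of_nonneg_left ko hg.le).trans ((mul_le_of_le_one_left ?_ hg1).trans (kK 2))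
    positivity)
  let X : ℝ → ℝ → GRoot d → E d × E d := fun τ θ r => auxTraj W g T τ θ r
  have cX := fun (τ : ℝ) (hτ : τ ∈ Icc 1 T) {G : ℕ → ℝ → E d × E d → E d} {M : ℕ → ℝ}
      (c : Chain (m + 1) univ (auxVec W g τ)
        (fun _ => (law (tU W τ)).prod (stdGaussian (E d))) G M)
      (K' : ℝ) (k : M (m + 1) ≤ K') => c.pathChain hW (subset_univ (Icc 0 θ₀)) (X τ)
        (fun θ hθ' => (continuous_auxTraj hW g hT1 hτ hθ'.1).measurable)
        (fun θ hθ' => map_auxTraj hW g hT1 hτ hθ'.1)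
        (fun r θ hθ' => hasDeriv_auxTraj hW hτ hθ' r) k
  have kX : ∀ a : ℝ, a ≤ (5 * C + 4) * ((1 + B) * √d) →
      κ ^ (m + 1) * a ≤ K * κ ^ (m + 1) := fun a ha => by
    rw [mul_comm K]; exact mul_le_mul_of_nonneg_left (hK0 a ha) (pow_nonneg hκ _)
  have kXA : C * (κ ^ (m + 2) * √d) ≤ K * κ ^ (m + 1) := by
    refine (le_of_eq ?_).trans (kX (C * (κ ^ 1 * √d)) ((kD 1).trans
      (mul_le_mul_of_nonneg_right (by linarith) (by positivity))))
    ring
  have kXv : C * (κ ^ (m + 1) * base) ≤ K * κ ^ (m + 1) :=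
    (le_of_eq (by ring)).trans (kX (C * base) (kB.trans (by nlinarith)))
  let H : ℝ → ℝ → ℝ → GRoot d → E d × E d := fun τ θ x r => hmcTraj W g T τ θ x r
  have hxe : ∀ {x : ℝ}, x ∈ Icc 0 e → x ∈ Icc (0 : ℝ) 1 := fun hx => ⟨hx.1, hx.2.trans he1'⟩
  have cH := fun (τ θ : ℝ) (hτ : τ ∈ Icc 1 T) (hθ' : 0 ≤ θ) {G : ℕ → ℝ → E d × E d → E d}
      {M : ℕ → ℝ} (c : Chain (m + 1) univ (hmcVec W τ)
        (fun _ => (law (tU W τ)).prod (stdGaussian (E d))) G M)
      (k : M (m + 1) ≤ K) => c.pathChain hW (subset_univ (Icc 0 e)) (H τ θ)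
        (fun x hx => (continuous_hmcTraj hW g hT1 hτ hθ' (hxe hx)).measurable)
        (fun x hx => map_hmcTraj hW g hT1 hτ hθ' (hxe hx))
        (fun r x hx => ((hasDeriv_hmcTraj hW hτ (hxe hx) r).mono fun _ hy => hxe hy)) k
  let F : ℝ → ℝ → ℝ → GRoot d → E d := fun τ θ s r => pfTraj W g T τ θ s r
  have hse : ∀ {τ s : ℝ}, s ∈ Icc τ (τ + e) → s ∈ Icc τ (τ + 1) :=
    fun hs => ⟨hs.1, by linarith [hs.2]⟩
  have cF := fun (τ θ : ℝ) (hτ : τ ∈ Icc 1 T) (hθ' : 0 ≤ θ) {G : ℕ → ℝ → E d → E d} {M : ℕ → ℝ}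
      (c : Chain (m + 1) (Ici 1) (flowField W) (fun t => law (tU W t)) G M) (k : M (m + 1) ≤ K) =>
      c.pathChain hW (S := Ici 1) (a := τ) (b := τ + e) (fun s hs => hτ.1.trans hs.1) (F τ θ)
        (fun s hs => (continuous_pfTraj hW g hT1 hτ hθ' (hse hs)).measurable)
        (fun s hs => map_pfTraj hW g hT1 hτ hθ' (hse hs))
        (fun r s hs => ((hasDeriv_pfTraj hW hτ (hse hs) r).mono fun _ hy => hse hy)) k
  choose Gxv Mxv cxv kxv zxv using h1
  choose Gxa Mxa cxa kxa zxa using h2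
  choose Gxl Mxl cxl kxl zxl using h3
  choose Gh Mh ch kh zh using h4
  let sel := fun (G : (τ : ℝ) → 1 ≤ τ → ℕ → ℝ → E d × E d → E d) (τ : ℝ) =>
    if hτ : 1 ≤ τ then G τ hτ else 0
  have hsel : ∀ (G : (τ : ℝ) → 1 ≤ τ → ℕ → ℝ → E d × E d → E d) (τ : ℝ) (hτ : τ ∈ Icc 1 T),
      sel G τ = G τ hτ.1 := fun G τ hτ => dif_pos hτ.1
  refine ⟨{
    yP := P
    yC := fun s r => (Z s r).1
    wC := fun s r => (Z s r).2
    yO := fun s r => -(g • (coupTraj W g T s r).2)
    yX := fun τ θ r => (X τ θ r).1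
    wX := fun τ θ r => (X τ θ r).2
    yH := fun τ θ x r => (H τ θ x r).1
    yF := F
    fP := fun k t r => Gf k t (P t r)
    fC := fun k t r => Gc k t (Z t r) - Ga k t (Z t r)
    fL := fun k t r => Gl k t (Z t r)
    fO := fun k t r => g • Go k t (Z t r)
    fXA := fun τ k θ r => -sel Gxa τ k θ (X τ θ r)
    fXL := fun τ k θ r => sel Gxl τ k θ (X τ θ r)
    fXv := fun τ k θ r => sel Gxv τ k θ (X τ θ r)
    fHv := fun τ θ k x r => sel Gh τ k x (H τ θ x r)
    fFd := fun τ θ k s r => Gf k s (F τ θ s r)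
    fFv := fun τ θ k s r => Gv k s (F τ θ s r)
    pcP := pP
    pcC := pC
    pcL := pL
    pcO := pO
    pcXA := fun τ hτ => by
      simp only [hsel _ τ hτ]
      exact cX τ hτ (cxa τ hτ.1).neg _ ((kxa τ hτ.1).trans kXA)
    pcXL := fun τ hτ => by
      simp only [hsel _ τ hτ]
      exact cX τ hτ (cxl τ hτ.1) _ ((kxl τ hτ.1).trans kXA)
    pcXv := fun τ hτ => by
      simp only [hsel _ τ hτ]
      exact cX τ hτ (cxv τ hτ.1) _ ((kxv τ hτ.1).trans kXv)
    pcHv := fun τ hτ θ hθ' => by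
      simp only [hsel _ τ hτ]
      exact cH τ θ hτ hθ'.1 (ch τ hτ.1) ((kh τ hτ.1).trans bK)
    pcFd := fun τ hτ θ hθ' => cF τ θ hτ hθ'.1 cf (kf.trans bK)
    pcFv := fun τ hτ θ hθ' => cF τ θ hτ hθ'.1 cv (kv.trans bK)
    dP := fun r t ht => (hasDeriv_probTraj hW hT1 r ht).congr_deriv (zf t (hsub ht) _).symm
    dC := fun r t ht => by
      refine ((ContinuousLinearMap.fst ℝ (E d) (E d)).hasFDerivAt.comp_hasDerivWithinAt t
        (dZ r t ht)).congr_deriv ?_
      rw [zc t (hsub ht), za t (hsub ht)]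
      rfl
    dW := fun r t ht => by
      refine ((ContinuousLinearMap.snd ℝ (E d) (E d)).hasFDerivAt.comp_hasDerivWithinAt t
        (dZ r t ht)).congr_deriv ?_
      rw [zl t (hsub ht)]
      rfl
    dO := fun r t ht => by
      refine ((((ContinuousLinearMap.snd ℝ (E d) (E d)).hasFDerivAt.comp_hasDerivWithinAt t
        (hasDeriv_coupTraj hW g hT1 r ht)).const_smul g).neg).congr_deriv ?_
      rw [zo t (hsub ht)]
      simp [coupleField, coupState, Z]
    dX := fun τ hτ r t ht => by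
      refine ((ContinuousLinearMap.fst ℝ (E d) (E d)).hasFDerivAt.comp_hasDerivWithinAt t
        (hasDeriv_auxTraj hW hτ ht r)).congr_deriv ?_
      rw [hsel _ τ hτ, zxa τ hτ.1 t trivial]
      rfl
    dXW := fun τ hτ r t ht => by
      refine ((ContinuousLinearMap.snd ℝ (E d) (E d)).hasFDerivAt.comp_hasDerivWithinAt t
        (hasDeriv_auxTraj hW hτ ht r)).congr_deriv ?_
      rw [hsel _ τ hτ, zxl τ hτ.1 t trivial]
      rfl
    dF := fun τ hτ θ _ r t ht =>
      ((hasDeriv_pfTraj hW hτ (hse ht) r).mono fun _ hy => hse hy).congr_deriv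
        (zf t (mem_Ici.2 (hτ.1.trans ht.1)) _).symm
    rot := fun τ hτ θ _ r x hx => hmcTraj_fst_eq hW hτ (hxe hx) r
    vP := fun t ht r => zf t (hsub ht) _
    vC := fun t ht r => by rw [zc t (hsub ht), za t (hsub ht)]; rfl
    vL := fun t ht r => zl t (hsub ht) _
    vO := fun t ht r => by rw [zo t (hsub ht)]
    vXA := fun τ hτ θ _ r => by rw [hsel _ τ hτ, zxa τ hτ.1 θ trivial]
    vXL := fun τ hτ θ _ r => by rw [hsel _ τ hτ, zxl τ hτ.1 θ trivial]
    vXv := fun τ hτ θ _ r => by rw [hsel _ τ hτ, zxv τ hτ.1 θ trivial]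
    vXv1 := fun τ hτ r => ?_
    vHv := fun τ hτ θ _ x _ r => by rw [hsel _ τ hτ, zh τ hτ.1 x trivial]
    vHv1 := fun τ hτ θ hθ' r => ?_
    vFd := fun τ hτ θ _ s hs r => zf s (mem_Ici.2 (hτ.1.trans hs.1)) _
    vFv := fun τ hτ θ _ s hs r => zv s (mem_Ici.2 (hτ.1.trans hs.1)) _
    vFv1 := fun τ hτ θ hθ' r => ?_
    yC_one := fun r => by simp [Z, P, coupState_one hW g hT1]
    wC_one := fun r => by simp [Z, coupState_one hW g hT1]
    yX_zero := fun τ hτ r => by simp [X, Z, auxTraj_zero hW hτ]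
    wX_zero := fun τ hτ r => by simp [X, Z, auxTraj_zero hW hτ]
    yH_zero := fun τ hτ θ _ r => by simp [H, X, hmcTraj_zero hW hτ]
    yF_zero := fun τ hτ θ _ r => pfTraj_start hW hτ r
    lawP := fun t ht => ⟨(continuous_probTraj hW hT1 ht).measurable, map_probTraj hW hT1 ht⟩
    lawH := fun τ hτ θ hθ' x hx =>
      ⟨(continuous_hmcTraj hW g hT1 hτ hθ'.1 (hxe hx)).fst.measurable,
        map_hmcTraj_fst hW g hT1 hτ hθ'.1 (hxe hx)⟩
    lawF := fun τ hτ θ hθ' s hs => ⟨(continuous_pfTraj hW g hT1 hτ hθ'.1 (hse hs)).measurable,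
      map_pfTraj hW g hT1 hτ hθ'.1 (hse hs)⟩
    top := ?_
    measO := (((continuous_coupTraj hW g hT1 ⟨hT1, le_rfl⟩).snd.const_smul g).neg.sub
      ((continuous_coupTraj hW g hT1 ⟨le_rfl, hT1⟩).snd.const_smul g).neg).measurable
    output := fun f hf hfb => ?_ }⟩
  · have hp := cX τ hτ (cxv τ hτ.1) _ (kxv τ hτ.1)
    rw [hsel _ τ hτ]
    refine hp.zero_eq (φ := fun θ r => tv W τ (X τ θ r).1)
      (fun θ _ r => zxv τ hτ.1 θ trivial _) (left_mem_Icc.2 (by linarith)) (by linarith)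
      ?_
    exact hasDeriv_tv_auxTraj hW hg.ne' hτ (by linarith) r
  · have hp := cH τ θ hτ hθ'.1 (ch τ hτ.1) ((kh τ hτ.1).trans bK)
    rw [hsel _ τ hτ]
    refine hp.zero_eq (φ := fun x r => tv W τ (H τ θ x r).1)
      (fun x _ r => zh τ hτ.1 x trivial _) (left_mem_Icc.2 he.le) he ?_
    exact (hasDeriv_tv_hmcTraj hW hg.ne' hτ r).mono fun _ hy => hxe hy
  · have hp := cF τ θ hτ hθ'.1 cv (kv.trans bK)
    have hs : τ ∈ Icc τ (τ + e) := left_mem_Icc.2 (by linarith)
    have e1 := hp.zero_eq (φ := fun s r => tv W s (F τ θ s r))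
      (fun s hs' r => zv s (mem_Ici.2 (hτ.1.trans hs'.1)) _) hs (by linarith)
      ((hasDeriv_tv_pfTraj hW hτ (hse hs) r).mono fun _ hy => hse hy)
    rw [e1]
    simp [wVel, X, pfTraj_start hW hτ]
  · obtain ⟨hi, hle⟩ := yTop_sub_le hW hT1
    refine ⟨fun r => norm_nonneg _, ?_, ?_⟩ <;> simp only [P, probTraj_top hW hT1]
    · exact hi
    · refine hle.trans (mul_le_mul_of_nonneg_right (hK0 _ ?_) (exp_pos _).le)
      nlinarith
  · have e : ∀ r : GRoot d,
        tv W 1 (P 1 r) + g • r.2 - (-(g • (coupTraj W g T T r).2) - -(g • (coupTraj W g T 1 r).2)) =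
        tv W 1 (probTraj W T 1 r) + g • r.2 -
          ∫ s in (1 : ℝ)..T, g • tA W g s (coupState W g T s r).1
            (tA W g s (coupState W g T s r).1 (coupState W g T s r).2) := fun r => by
      rw [output_eq hW hg.ne' hT1, coupTraj_one hW g hT1]
      simp only [P, smul_add, smul_smul, mul_inv_cancel₀ hg.ne', one_smul]
      abel
    simp only [e]
    refine (output_close hW hg.ne' hT1 hf hfb).trans (mul_le_mul_of_nonneg_right (hK0 _ ?_)
      (exp_pos _).le)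
    nlinarith [mul_le_mul_of_nonneg_right hW.eta_le_one hsd0]

end Vale.Agent.P347.Zero
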