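import Vale.Agent.P347.Zero.Chains
import Vale.Agent.P347.Zero.GeoTraj

/-!
# P347, exponent zero: the chains of one band
-/

open MeasureTheory ProbabilityTheory Real Set
open scoped RealInnerProductSpace

namespace Vale.Agent.P347.Zero

theorem coupYW_eq {d : ℕ} (W : E d → ℝ) (g : ℝ) : coupYW W g = coupVec W g := rfl

/-- The calculus gives the chains of a band. -/
theorem bandChains : BandChains := by
  intro m
  obtain ⟨C₁, h₁, c₁⟩ := chain_flow (m + 1)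
  obtain ⟨C₂, h₂, c₂⟩ := chain_couple (m + 1)
  obtain ⟨C₃, h₃, c₃⟩ := chain_aux (m + 1)
  obtain ⟨C₄, h₄, c₄⟩ := chain_hmc (m + 1)
  refine ⟨C₁ + C₂ + C₃ + C₄, by positivity, fun d η B g W hW hg hηg => ?_⟩
  have hρ : 0 ≤ η / g := div_nonneg hW.eta_nonneg hg.le
  have hs : (0 : ℝ) ≤ √(d : ℝ) := Real.sqrt_nonneg _
  have hb : 0 ≤ gradBase η W := gradBase_nonneg hW
  have hρk : ∀ k, 0 ≤ (η / g) ^ k := fun k => pow_nonneg hρ k
  obtain ⟨⟨Gv, a1, b1⟩, Gf, a2, b2⟩ := c₁ d η B W hW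
  obtain ⟨-, ⟨Hf, a3, b3⟩, ⟨Ha, a4, b4⟩, ⟨Hl, a5, b5⟩, Ho, a6, b6⟩ := c₂ d η B g W hW hg hηg
  refine ⟨⟨⟨Gv, _, a1, mul_le_mul_of_nonneg_right (by linarith) hb, b1⟩,
    ⟨Gf, _, a2, mul_le_mul_of_nonneg_right (by linarith) hb, b2⟩,
    ⟨Hf, _, a3, mul_le_mul_of_nonneg_right (by linarith) hb, b3⟩,
    ⟨Ha, _, a4, mul_le_mul_of_nonneg_right (by linarith) (mul_nonneg hρ hs), b4⟩,
    ⟨_, _, a5.const_smul (-1), ?_, fun t ht z => by
      simp only [b5 t ht z, wVel, matTv, neg_smul, one_smul]⟩,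
    ⟨Ho, _, a6, mul_le_mul_of_nonneg_right (by linarith) (mul_nonneg (hρk 2) hs), b6⟩⟩,
    fun τ hτ => ?_⟩
  · simp only [abs_neg, abs_one, one_mul]
    exact mul_le_mul_of_nonneg_right (by linarith) (mul_nonneg hρ hs)
  obtain ⟨⟨Av, e1, f1⟩, ⟨Aa, e2, f2⟩, Al, e3, f3⟩ := c₃ d η B g W hW hg hηg τ hτ
  obtain ⟨⟨Kv, e4, f4⟩, -⟩ := c₄ d η B W hW τ hτ
  refine ⟨⟨Av, _, e1, mul_le_mul_of_nonneg_right (by linarith) (mul_nonneg (hρk _) hb),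
      fun x _ => f1 x⟩,
    ⟨Aa, _, e2, mul_le_mul_of_nonneg_right (by linarith) (mul_nonneg (hρk _) hs), fun x _ => f2 x⟩,
    ⟨_, _, e3.const_smul (-1), ?_, fun x _ z => by
      simp only [f3 x z, wVel, matTv, neg_smul, one_smul]⟩,
    ⟨Kv, _, e4, mul_le_mul_of_nonneg_right (by linarith) hb, fun x _ => f4 x⟩⟩
  simp only [abs_neg, abs_one, one_mul]
  exact mul_le_mul_of_nonneg_right (by linarith) (mul_nonneg (hρk _) hs)

end Vale.Agent.P347.Zero
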