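import Vale.Agent.P347.Zero.Steps

/-!
# P347, exponent zero: the bottom of the recursions

The gradient at the draw is a primitive for one query, and the draw itself is a sampler of no band.
-/

open MeasureTheory ProbabilityTheory Real Set
open scoped RealInnerProductSpace

namespace Vale.Agent.P347.Zero

variable {d : ℕ}

/-- A bounded `1`-Lipschitz test sees at most the mean distance. -/
theorem abs_test_sub_le {μ : Measure (E d)} [IsProbabilityMeasure μ] {A : E d → E d}
    (hA : Continuous A) (a : E d) (g : ℝ) {f : E d → ℝ} (hf : LipschitzWith 1 f) {M : ℝ}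
    (hM : ∀ x, |f x| ≤ M) (hi : Integrable (fun ζ => ‖A ζ - a‖) μ) :
    |(∫ p, f (A p.1 + g • p.2) ∂μ.prod (stdGaussian (E d))) -
        ∫ z, f (a + g • z) ∂stdGaussian (E d)| ≤ ∫ ζ, ‖A ζ - a‖ ∂μ := by
  have hc := hf.continuous
  have i1 : Integrable (fun p : E d × E d => f (A p.1 + g • p.2)) (μ.prod (stdGaussian (E d))) :=
    Integrable.of_bound (by fun_prop) M (ae_of_all _ fun p => hM _)
  have i2 : Integrable (fun p : E d × E d => f (a + g • p.2)) (μ.prod (stdGaussian (E d))) :=
    Integrable.of_bound (by fun_prop) M (ae_of_all _ fun p => hM _)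
  have e : ∫ z, f (a + g • z) ∂stdGaussian (E d) =
      ∫ p, f (a + g • p.2) ∂μ.prod (stdGaussian (E d)) := by
    rw [integral_fun_snd (fun z => f (a + g • z))]
    simp
  rw [e, ← integral_sub i1 i2]
  refine abs_integral_le_integral_abs.trans ?_
  refine (integral_mono_of_nonneg (ae_of_all _ fun p => abs_nonneg _) (hi.comp_fst _)
    (ae_of_all _ fun p => ?_)).trans ?_
  · have h := hf.dist_le_mul (A p.1 + g • p.2) (a + g • p.2)
    simpa [Real.dist_eq, dist_eq_norm] using h
  · rw [integral_fun_fst (fun ζ => ‖A ζ - a‖)]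
    simp

/-- The gradient at the draw. -/
theorem prim_base {η b V g : ℝ} (hb : 0 < b) (hb1 : b ≤ 1) :
    Prim d 1 η b V g η (2 * η * (√V + b)) := by
  refine ⟨E d, inferInstance, inferInstance, inferInstance, stdGaussian (E d),
    fun O p => (O p.1).2 - p.1 + g • p.2, inferInstance, ?_, fun B W hW => ⟨fun ω x y => ?_, ?_⟩⟩
  · have h1 := (QC.pure (d := d) (q := 0) (fun p : E d × E d => p) measurable_id).query Prod.fst
      measurable_fst
    exact h1.map (fun y : (E d × E d) × (ℝ × E d) => y.2.2 - y.1.1 + g • y.1.2) (by fun_prop)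
  · dsimp only
    rw [hW.oracle_sub, hW.oracle_sub, add_sub_add_right_eq_sub]
    exact hW.grad_lipschitz x y
  · rintro m f hf ⟨M, hM⟩
    have hg := hW.contDiff_grad.continuous
    have hA : Continuous fun ζ : E d => grad W (m + √V • ζ) := by fun_prop
    have hi : Integrable (fun ζ => ‖grad W (m + √V • ζ) - aOf W b m‖) (stdGaussian (E d)) :=
      (((hW.polyBd_grad.comp ((PolyBd.const m).add ((PolyBd.const √V).smul PolyBd.id))).sub
        (PolyBd.const (aOf W b m))).norm).integrable _
          (hA.sub continuous_const).norm.aestronglyMeasurable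
    have hc := hf.continuous
    rw [drawLaw, integral_map (by fun_prop)]
    · simp only [hW.oracle_sub]
      refine (abs_test_sub_le hA _ g hf hM hi).trans ?_
      exact aOf_zero_err hW m hb hb1 (Real.sqrt_nonneg V)
    · simp only [hW.oracle_sub]
      exact (hc.comp ((hg.comp continuous_fst).add
        (continuous_snd.const_smul g))).aestronglyMeasurable

/-- The draw itself. -/
theorem samp_base {η b I : ℝ} (hb : 0 < b) (hb1 : b ≤ 1) : Samp d 0 η b 0 I 1 0 := by
  refine ⟨PUnit, inferInstance, inferInstance, inferInstance, Measure.dirac PUnit.unit,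
    fun _ p => p.1, inferInstance, QC.pure _ measurable_fst, fun B W hW => ⟨fun ω x y => ?_, ?_⟩⟩
  · simp
  · rintro m f hf ⟨M, hM⟩
    have hc := hf.continuous
    rw [tgt_zero hW hb hb1 m, drawLaw, integral_map (by fun_prop) (by fun_prop),
      Measure.dirac_prod, integral_map (by fun_prop) (by fun_prop),
      integral_fun_fst (fun z : E d => f (m + √(b ^ 2 / I) • z))]
    have hs : √(b ^ 2 / I) = b * gam 0 / √I := by
      rw [Real.sqrt_div (sq_nonneg b), Real.sqrt_sq hb.le]
      simp [gam]
    simp [hs]

end Vale.Agent.P347.Zero
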