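import Vale.Agent.P347.Zero.Outer

/-!
# P347, exponent zero: the exponent is nonnegative
-/

open MeasureTheory Real Filter

namespace Vale.Agent.P347.Zero

theorem gammaStar_nonneg : ((0 : ℝ) : EReal) ≤ gammaStar := by
  refine le_limsup_of_frequently_le (Frequently.of_forall fun d => ?_) (by isBoundedDefault)
  exact EReal.coe_le_coe_iff.2 (div_nonneg (Real.log_natCast_nonneg _) (Real.log_natCast_nonneg _))

/-- The inner sampler settles the exponent. -/
theorem gammaStar_eq_zero (hB : SmallBlur) : gammaStar = 0 :=
  le_antisymm (by simpa using gammaStar_le_zero hB) (by simpa using gammaStar_nonneg)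

end Vale.Agent.P347.Zero
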