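import Vale.Agent.P347.Zero.ProxChain
import Vale.Agent.P347.Step
import Vale.Agent.P347.SecondOrder

/-!
# P347, exponent zero: the outer reduction

`Blurs` samples a blurred law. If it is possible with `d ^ o(1)` queries for perturbations with
`η ≤ d ^ (-θ)` (`SmallBlur`), the proximal chain samples the whole class with `d ^ o(1)` queries.
-/

open MeasureTheory ProbabilityTheory Real Set Filter
open scoped RealInnerProductSpace Topology

namespace Vale.Agent.P347.Zero

open Deriv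

variable {d : ℕ}

/-- `q` queries sample every `blur s (law W)` with `Pert η B W`, up to `ε`. -/
def Blurs (d q : ℕ) (η B s ε : ℝ) : Prop :=
  ∃ (Ω : Type) (_ : MeasurableSpace Ω) (_ : StandardBorelSpace Ω) (_ : Nonempty Ω) (P : Measure Ω)
    (f : (E d → ℝ × E d) → Ω → E d), IsProbabilityMeasure P ∧ QC d q f ∧
      ∀ W : E d → ℝ, Pert η B W → TVLe (P.map (f (oracleOf (pot W)))) (blur s (law W)) ε

/-- The inner sampler: weakly perturbed Gaussians, blurred, for few queries. -/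
def SmallBlur : Prop :=
  ∀ θ δ : ℝ, 0 < θ → θ ≤ 1 / 4 → 0 < δ → δ ≤ 1 / 4 →
    ∀ᶠ d : ℕ in atTop, ∀ η B : ℝ, 0 ≤ η → η ≤ (d : ℝ) ^ (-θ) → 0 ≤ B → B ≤ d →
      ∃ q : ℕ, (q : ℝ) ≤ (d : ℝ) ^ θ ∧ Blurs d q η B ((d : ℝ) ^ (-δ)) ((d : ℝ) ^ (-1 : ℝ))

theorem samples_step_blurs : ∃ C : ℝ, 0 ≤ C ∧
    ∀ (d q₁ q₂ : ℕ) (η B η' B' s A ε₁ ε₂ : ℝ), 0 < s → s ≤ 1 → η' ≤ 1 → η * s ≤ η' →
      (B + A) * √s ≤ B' → 0 < A → 0 ≤ ε₂ → Blurs d q₁ η B s ε₁ → Samples d q₂ η' B' ε₂ →
      Samples d (q₁ + 1 + q₂) η B (2 * ε₁ + ε₂ + C * (1 + B) ^ 2 / A ^ 2) := by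
  obtain ⟨C, hC, h⟩ := combine_tv
  refine ⟨C, hC, fun d q₁ q₂ η B η' B' s A ε₁ ε₂ hs hs1 hη' hηη' hBB' hA hε₂ h₁ h₂ => ?_⟩
  obtain ⟨Ω₁, i1, i2, i3, P₁, f₁, hP₁, hf₁, hst⟩ := h₁
  obtain ⟨Ω₂, j1, j2, j3, P₂, f₂, hP₂, hf₂, hin⟩ := h₂
  exact ⟨Ω₁ × Ω₂, inferInstance, inferInstance, inferInstance, P₁.prod P₂, combine s f₁ f₂,
    inferInstance, qc_combine hf₁ hf₂, fun W hW =>
      h d η B η' B' s A ε₁ ε₂ W hW hs hs1 hη' hηη' hBB' hA hε₂ P₁ P₂ q₁ q₂ f₁ f₂ hf₁ hf₂
        (hst W hW) hin⟩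

/-- Iterating the stages at a fixed `B`. -/
theorem samples_chain : ∃ C : ℝ, 0 ≤ C ∧
    ∀ (d q : ℕ) (η₀ B s A ε₁ : ℝ), 0 ≤ η₀ → η₀ ≤ 1 → 0 ≤ B → 0 < s → s ≤ 1 →
      (B + A) * √s ≤ B → 0 < A → 0 ≤ ε₁ →
      (∀ η, 0 ≤ η → η ≤ η₀ → Blurs d q η B s ε₁) →
      ∀ (J : ℕ) (η : ℝ), 0 ≤ η → η ≤ η₀ →
        Samples d (J * (q + 1)) η B
          (J * (2 * ε₁ + C * (1 + B) ^ 2 / A ^ 2) + C * (1 + B) * η * s ^ J * √d) := by
  obtain ⟨C₁, hC₁, hstep⟩ := samples_step_blurs
  obtain ⟨C₂, hC₂, hbase⟩ := samples_base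
  refine ⟨C₁ + C₂, by positivity, fun d q η₀ B s A ε₁ hη₀ hη₀1 hB hs hs1 hBA hA hε₁ hbl J => ?_⟩
  induction J with
  | zero =>
    intro η hη _
    refine ((hbase d η B hη hB).mono (by simp) ?_)
    simp only [Nat.cast_zero, zero_mul, zero_add, pow_zero, mul_one]
    gcongr; linarith
  | succ J ih =>
    intro η hη hη1
    have hs' : η * s ≤ η₀ := le_trans (mul_le_of_le_one_right hη hs1) hη1
    refine (hstep d q (J * (q + 1)) η B (η * s) B s A ε₁ _ hs hs1 (hs'.trans hη₀1) le_rfl hBA hA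
      (by positivity) (hbl η hη hη1) (ih (η * s) (mul_nonneg hη hs.le) hs')).mono
      (le_of_eq (by ring)) ?_
    have h2 : C₁ * (1 + B) ^ 2 / A ^ 2 ≤ (C₁ + C₂) * (1 + B) ^ 2 / A ^ 2 := by
      gcongr; linarith
    rw [pow_succ s J]
    push_cast
    linarith

theorem tvLe_prod_left {α β : Type*} [MeasurableSpace α] [MeasurableSpace β] {μ ν : Measure α}
    [IsProbabilityMeasure μ] [IsProbabilityMeasure ν] (P : Measure β) [IsProbabilityMeasure P]
    {ε : ℝ} (h : TVLe μ ν ε) : TVLe (μ.prod P) (ν.prod P) ε := fun S hS => by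
  have e : ∀ ρ : Measure α, IsProbabilityMeasure ρ →
      (ρ.prod P).real S = ∫ x, P.real (Prod.mk x ⁻¹' S) ∂ρ := fun ρ _ => by
    rw [measureReal_def, Measure.prod_apply hS, ← integral_toReal]
    · rfl
    · exact (measurable_measure_prodMk_left hS).aemeasurable
    · exact ae_of_all _ fun x => measure_lt_top _ _
  rw [e μ ‹_›, e ν ‹_›]
  exact h.integral_le (measurable_measure_prodMk_left hS).ennreal_toReal
    fun x => ⟨measureReal_nonneg, measureReal_le_one⟩

theorem good_inv_quad {R : ℝ} (hR : 0 < R) :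
    ∀ n, Good n (fun x : E d => (R ^ 2 + ‖x‖ ^ 2)⁻¹) := by
  have hp : PolyBd fun x : E d => (R ^ 2 + ‖x‖ ^ 2)⁻¹ := PolyBd.of_bound (B := (R ^ 2)⁻¹) fun x => by
    rw [Real.norm_eq_abs, abs_of_pos (by positivity)]
    exact inv_anti₀ (by positivity) (le_add_of_nonneg_right (sq_nonneg _))
  have hpos : ∀ x : E d, (R ^ 2 + ‖x‖ ^ 2) ≠ 0 := fun x => by positivity
  have hd : Differentiable ℝ fun x : E d => (R ^ 2 + ‖x‖ ^ 2)⁻¹ :=
    ((differentiable_const _).add (differentiable_id.norm_sq ℝ)).inv hpos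
  intro n
  induction n with
  | zero => exact ⟨hd.continuous, hp⟩
  | succ n ih =>
    refine ⟨hd, hp, fun u => ?_⟩
    have e : Deriv.dd u (fun x : E d => (R ^ 2 + ‖x‖ ^ 2)⁻¹) = fun x => -2 *
        (innerSL ℝ u x * ((R ^ 2 + ‖x‖ ^ 2)⁻¹ * (R ^ 2 + ‖x‖ ^ 2)⁻¹)) := by
      funext x
      have h := (((hasStrictFDerivAt_norm_sq x).hasFDerivAt.const_add (R ^ 2)))
      have h' := (hasDerivAt_inv (hpos x)).comp_hasFDerivAt x h
      simp only [Function.comp_def] at h'
      rw [Deriv.dd, h'.fderiv]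
      simp [real_inner_comm u x]
      field_simp
    rw [e]
    exact ((good_linear n (innerSL ℝ u)).mul (ih.mul ih)).const_mul _

theorem good_two_of_compact {f : E d → ℝ} (hf : ContDiff ℝ 2 f) (hs : HasCompactSupport f) :
    Good 2 f := by
  have bd : ∀ {g : E d → ℝ}, Continuous g → HasCompactSupport g → PolyBd g := fun hg hgs => by
    obtain ⟨M, hM⟩ := hg.bounded_above_of_compact_support hgs
    exact PolyBd.of_bound hM
  refine ⟨hf.differentiable (by norm_num), bd hf.continuous hs, fun u => ?_⟩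
  have h1 : ContDiff ℝ 1 (Deriv.dd u f) := by
    have := (hf.fderiv_right (m := 1) (by norm_num)).clm_apply (contDiff_const (c := u))
    exact this
  have hs1 : HasCompactSupport (Deriv.dd u f) := hs.fderiv_apply ℝ u
  refine ⟨h1.differentiable one_ne_zero, bd h1.continuous hs1, fun w => ?_⟩
  have h0 : Continuous (Deriv.dd w (Deriv.dd u f)) :=
    (h1.continuous_fderiv one_ne_zero).clm_apply continuous_const
  exact ⟨h0, bd h0 (hs1.fderiv_apply ℝ w)⟩

section
variable {W : E d → ℝ} (hW : Pert 1 0 W)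
include hW

/-- Markov for the blurred laws of the chain. -/
theorem proxLaw_tail {h A : ℝ} (hh : 0 < h) (hh1 : h ≤ 1) (hA : 0 < A) (hd : 0 < d) (k : ℕ) :
    (blur h (proxLaw W h k)).real {y | A * √d < ‖y‖} ≤ 22 / A := by
  have := isProb_proxLaw hW hh k
  have := hW.isProbabilityMeasure_law
  set R := A / 2 * √d
  have hR : 0 < R := by positivity
  set φ : E d → ℝ := fun x => 1 - R ^ 2 * (R ^ 2 + ‖x‖ ^ 2)⁻¹
  have hφg : Good 2 φ := (good_const 2 1).sub ((good_inv_quad hR 2).const_mul _)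
  have hφe : ∀ x : E d, φ x = ‖x‖ ^ 2 / (R ^ 2 + ‖x‖ ^ 2) := fun x => by
    simp only [φ]
    field_simp
    ring
  have hφ0 : ∀ x, 0 ≤ φ x := fun x => by rw [hφe]; positivity
  have hφ1 : ∀ x, |φ x| ≤ 1 := fun x => by
    rw [abs_of_nonneg (hφ0 x), hφe, div_le_one (by positivity)]
    exact le_add_of_nonneg_left (sq_nonneg R)
  have hφd : ∀ x, ‖fderiv ℝ φ x‖ ≤ R⁻¹ := fun x => by
    have hh2 := (((hasDerivAt_inv (by positivity : R ^ 2 + ‖x‖ ^ 2 ≠ 0)).comp_hasFDerivAt x
      ((hasStrictFDerivAt_norm_sq x).hasFDerivAt.const_add (R ^ 2))).const_mul (R ^ 2)).const_sub 1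
    simp only [Function.comp_def] at hh2
    refine ContinuousLinearMap.opNorm_le_bound _ (by positivity) fun v => ?_
    rw [show φ = fun y => 1 - R ^ 2 * (R ^ 2 + ‖y‖ ^ 2)⁻¹ from rfl, hh2.fderiv]
    simp only [neg_apply, smul_apply, innerSL_apply_apply,
      smul_eq_mul, nsmul_eq_mul, Nat.cast_ofNat, Real.norm_eq_abs, neg_mul, mul_neg, neg_neg]
    rw [show R ^ 2 * (((R ^ 2 + ‖x‖ ^ 2) ^ 2)⁻¹ * (2 * ⟪x, v⟫)) =
      2 * R ^ 2 / (R ^ 2 + ‖x‖ ^ 2) ^ 2 * ⟪x, v⟫ by ring, abs_mul, abs_of_nonneg (by positivity)]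
    refine (mul_le_mul_of_nonneg_left (abs_real_inner_le_norm x v) (by positivity)).trans ?_
    rw [← mul_assoc]
    refine mul_le_mul_of_nonneg_right ?_ (norm_nonneg _)
    rw [div_mul_eq_mul_div, inv_eq_one_div, div_le_div_iff₀ (by positivity) hR]
    nlinarith [sq_nonneg (R - ‖x‖), sq_nonneg R, sq_nonneg ‖x‖, norm_nonneg x,
      mul_nonneg (mul_nonneg hR.le hR.le) (sq_nonneg (R - ‖x‖))]
  obtain ⟨hni, hne⟩ := hW.integral_norm_law_le le_rfl
  have hφl : ∫ x, φ x ∂law W ≤ √d / R := by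
    refine (integral_mono_of_nonneg (ae_of_all _ hφ0) (hni.const_mul (2 * R)⁻¹)
      (ae_of_all _ fun x => ?_)).trans ?_
    · dsimp only
      rw [hφe, inv_mul_eq_div, div_le_div_iff₀ (by positivity) (by positivity)]
      nlinarith [mul_nonneg (norm_nonneg x) (sq_nonneg (R - ‖x‖))]
    · rw [integral_const_mul, inv_mul_eq_div, div_le_div_iff₀ (by positivity) hR]
      nlinarith
  have hφp : ∫ x, φ x ∂proxLaw W h k ≤ 5 * (√d / R) := by
    have hf := (abs_le.1 (proxLaw_forget hW hh k φ R⁻¹ hφg (by positivity) hφd hφ1)).2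
    have h2 : R⁻¹ / (1 + h) ^ k * ((1 + √h) * √d + ∫ x, ‖x‖ ∂law W) ≤ 4 * (√d / R) := by
      calc R⁻¹ / (1 + h) ^ k * ((1 + √h) * √d + ∫ x, ‖x‖ ∂law W)
          ≤ R⁻¹ * ((1 + 1) * √d + 2 * (1 + 0) * √d) := by
            gcongr
            · exact div_le_self (by positivity) (one_le_pow₀ (by linarith))
            · exact Real.sqrt_le_one.2 hh1
        _ = 4 * (√d / R) := by ring
    linarith
  set T := {y : E d | A * √d < ‖y‖}
  have hT : MeasurableSet T := measurableSet_lt measurable_const measurable_norm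
  have hm : Measurable fun p : E d × E d => p.1 + √h • p.2 := by fun_prop
  rw [blur, map_measureReal_apply hm hT, ← integral_indicator_one (hm hT)]
  have hφi : Integrable φ (proxLaw W h k) := integrable_proxT_aux hφg.continuous hφ1
  have hzi : Integrable (fun z : E d => ‖z‖) (stdGaussian (E d)) :=
    PolyBd.id.norm.integrable _ continuous_norm.aestronglyMeasurable
  refine (integral_mono ((integrable_const 1).indicator (hm hT))
    (((hφi.comp_fst (stdGaussian (E d))).const_mul 2).add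
      ((hzi.comp_snd (proxLaw W h k)).const_mul R⁻¹)) fun p => ?_).trans ?_
  · by_cases hp : p ∈ (fun p : E d × E d => p.1 + √h • p.2) ⁻¹' T
    · rw [indicator_of_mem hp, Pi.one_apply]
      simp only [Pi.add_apply]
      have hp' : 2 * R < ‖p.1‖ + ‖p.2‖ := by
        have : A * √d < ‖p.1 + √h • p.2‖ := hp
        refine lt_of_le_of_lt (le_of_eq (by simp only [R]; ring)) (this.trans_le
          ((norm_add_le _ _).trans (add_le_add le_rfl ?_)))
        rw [norm_smul, Real.norm_eq_abs, abs_of_nonneg (Real.sqrt_nonneg h)]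
        exact mul_le_of_le_one_left (norm_nonneg _) (Real.sqrt_le_one.2 hh1)
      have h0 := hφ0 p.1
      have hz0 : 0 ≤ R⁻¹ * ‖p.2‖ := by positivity
      rcases le_or_gt R ‖p.1‖ with h1 | h1
      · have : 1 / 2 ≤ φ p.1 := by
          rw [hφe, div_le_div_iff₀ two_pos (by positivity)]
          nlinarith
        linarith
      · have : 1 ≤ R⁻¹ * ‖p.2‖ := by
          rw [inv_mul_eq_div, le_div_iff₀ hR]; linarith
        linarith
    · rw [indicator_of_notMem hp]
      simp only [Pi.add_apply]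
      have := hφ0 p.1
      positivity
  · rw [integral_add' ((hφi.comp_fst _).const_mul 2) ((hzi.comp_snd _).const_mul _),
      integral_const_mul, integral_const_mul, integral_fun_fst (f := φ),
      integral_fun_snd (f := fun z : E d => ‖z‖)]
    simp only [probReal_univ, one_smul]
    have h3 : R⁻¹ * ∫ z, ‖z‖ ∂stdGaussian (E d) ≤ √d / R := by
      rw [inv_mul_eq_div]; exact div_le_div_of_nonneg_right integral_norm_stdGaussian_le hR.le
    have h4 : 11 * (√d / R) = 22 / A := by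
      have : √(d : ℝ) ≠ 0 := by positivity
      simp only [R]; field_simp; ring
    linarith

/-- The kernel applied to close laws gives close laws. -/
theorem tvLe_bind_rgoK {h : ℝ} (hh : 0 < h) {μ ν : Measure (E d)} [IsProbabilityMeasure μ]
    [IsProbabilityMeasure ν] {ε : ℝ} (he : TVLe μ ν ε) :
    TVLe (μ.bind (rgoK W h)) (ν.bind (rgoK W h)) ε := fun S hS => by
  have hm := measurable_rgoK hW hh
  have e : ∀ ρ : Measure (E d), IsProbabilityMeasure ρ →
      (ρ.bind (rgoK W h)).real S = ∫ y, (rgoK W h y).real S ∂ρ := fun ρ _ => by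
    rw [measureReal_def, Measure.bind_apply hS hm.aemeasurable, ← integral_toReal]
    · rfl
    · exact ((Measure.measurable_coe hS).comp hm).aemeasurable
    · exact ae_of_all _ fun y => by have := isProb_rgoK hW hh y; exact measure_lt_top _ _
  rw [e μ ‹_›, e ν ‹_›]
  refine he.integral_le ((Measure.measurable_coe hS).comp hm).ennreal_toReal fun y => ?_
  have := isProb_rgoK hW hh y
  exact ⟨measureReal_nonneg, measureReal_le_one⟩

/-- After `N + 1` rounds the chain is close to `law W`. -/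
theorem proxLaw_close {h : ℝ} (hh : 0 < h) (hh1 : h ≤ 1) (N : ℕ) :
    TVLe (proxLaw W h (N + 1)) (law W) (4 * √d / (√h * (1 + h) ^ N)) := by
  have := isProb_proxLaw hW hh N
  have := hW.isProbabilityMeasure_law
  have hsh : 0 < √h := Real.sqrt_pos.2 hh
  have key : TVLe (blur h (proxLaw W h N)) (blur h (law W)) (4 * √d / (√h * (1 + h) ^ N)) := by
    refine tvLe_of_tests fun f hf hs hf01 => ?_
    have hg := good_two_of_compact hf hs
    have hfb : ∀ x, |f x| ≤ 1 := fun x => abs_le.2 ⟨by linarith [(hf01 x).1], (hf01 x).2⟩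
    rw [integral_blur h _ hf.continuous hfb, integral_blur h _ hf.continuous hfb]
    have hs1 : Good 2 (sm √h f) := (good_sm (n := 1) hg hsh.ne').mono (by norm_num)
    have hsd : ∀ x, ‖fderiv ℝ (sm √h f) x‖ ≤ 1 / √h := fun x =>
      ContinuousLinearMap.opNorm_le_bound _ (by positivity) fun w =>
        abs_fderiv_sm_le hg.contDiff_one hfb hg.polyBd_fderiv hsh x w
    have hsb : ∀ x, |sm √h f x| ≤ 1 := fun x => by
      rw [sm]
      exact (norm_integral_le_of_norm_le_const (μ := stdGaussian (E d))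
        (f := fun z => f (x + √h • z)) (ae_of_all _ fun z => hfb _)).trans (by simp)
    refine (proxLaw_forget hW hh N _ _ hs1 (by positivity) hsd hsb).trans ?_
    obtain ⟨-, hne⟩ := hW.integral_norm_law_le le_rfl
    calc 1 / √h / (1 + h) ^ N * ((1 + √h) * √d + ∫ x, ‖x‖ ∂law W)
        ≤ 1 / √h / (1 + h) ^ N * ((1 + 1) * √d + 2 * (1 + 0) * √d) := by
          gcongr; exact Real.sqrt_le_one.2 hh1
      _ = _ := by field_simp; ring
  have h2 := tvLe_bind_rgoK hW hh key
  rwa [blur_bind_rgoK hW hh] at h2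

end

/-- A procedure imitating the whole chain. -/
theorem samples_prox : ∀ (d q : ℕ) (h A B ε : ℝ), 0 < d → 0 < h → h ≤ 1 → 0 < A → A * √h ≤ B →
    0 ≤ ε → Samples d q h B ε → ∀ k : ℕ,
    ∃ (Ω : Type) (_ : MeasurableSpace Ω) (_ : StandardBorelSpace Ω) (_ : Nonempty Ω)
      (P : Measure Ω) (f : (E d → ℝ × E d) → Ω → E d), IsProbabilityMeasure P ∧
      QC d ((k + 1) * (q + 1)) f ∧
      ∀ W : E d → ℝ, Pert 1 0 W →
        TVLe (P.map (f (oracleOf (pot W)))) (proxLaw W h k) (ε + k * (ε + 22 / A)) := by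
  intro d q h A B ε hd hh hh1 hA hAB hε hS
  obtain ⟨Ω₂, i1, i2, i3, P₂, f₂, hP₂, hf₂, hin⟩ := hS
  set f₁ : (E d → ℝ × E d) → E d → E d := fun _ y => y
  have hf₁ : QC d 0 f₁ := QC.pure _ measurable_id
  have hΦq : QC d (q + 1) (combine h f₁ f₂) := (qc_combine hf₁ hf₂).mono (by omega)
  have hstep : ∀ W : E d → ℝ, Pert 1 0 W → ∀ y : E d, ‖y‖ ≤ A * √d →
      TVLe (P₂.map fun b => combine h f₁ f₂ (oracleOf (pot W)) (y, b)) (rgoK W h y) ε := by
    intro W hW y hy
    have hp : Pert h B (rgo W h y) := by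
      refine (hW.rgo_pert hh hA.le hy).mono ?_ hh1 ?_
      · rw [one_div]; exact inv_rgoC_le hh
      · rw [zero_add, div_eq_mul_inv, ← Real.sqrt_inv]
        exact (mul_le_mul_of_nonneg_left (Real.sqrt_le_sqrt (inv_rgoC_le hh)) hA.le).trans hAB
    have hmap : Measurable (rgoMap W h y) := by unfold rgoMap; fun_prop
    have hfm : Measurable (f₂ (oracleOf (pot (rgo W h y)))) := hf₂.measurable hp.measurable_oracle
    have h1 := (hin _ hp).map hmap
    rw [Measure.map_map hmap hfm] at h1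
    rw [show (fun b => combine h f₁ f₂ (oracleOf (pot W)) (y, b)) =
      rgoMap W h y ∘ f₂ (oracleOf (pot (rgo W h y))) from
        funext fun b => combine_eq hW hh f₁ f₂ y b rfl hp]
    exact h1
  intro k
  induction k with
  | zero =>
    refine ⟨Ω₂, i1, i2, i3, P₂, fun O b => combine h f₁ f₂ O (0, b), hP₂, ?_, fun W hW => ?_⟩
    · refine ((hΦq.comap (Measurable.prodMk (measurable_const (a := (0 : E d)))
        measurable_id)).mono (by omega)).congr fun O b => rfl
    · simp only [Nat.cast_zero, zero_mul, add_zero]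
      exact hstep W hW 0 (by simp only [norm_zero]; positivity)
  | succ k ih =>
    obtain ⟨Ω, j1, j2, j3, P, f, hP, hf, hlaw⟩ := ih
    set g : (E d → ℝ × E d) → Ω × E d → E d := fun O ω => f O ω.1 + √h • ω.2
    have hg : QC d ((k + 1) * (q + 1)) g :=
      ((hf.comap measurable_fst).withSeed.map (fun y : (Ω × E d) × E d => y.2 + √h • y.1.2)
        (by fun_prop)).congr fun O ω => rfl
    refine ⟨(Ω × E d) × Ω₂, inferInstance, inferInstance, inferInstance,
      (P.prod (stdGaussian (E d))).prod P₂, combine h g f₂, inferInstance,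
      (qc_combine hg hf₂).mono (le_of_eq (by ring)), fun W hW => ?_⟩
    have hO := hW.measurable_oracle
    set O := oracleOf (pot W)
    have hfm := hf.measurable hO
    have hgm := hg.measurable hO
    have hΦm := hΦq.measurable hO
    have := isProb_proxLaw hW hh k
    have : IsProbabilityMeasure (P.map (f O)) := Measure.isProbabilityMeasure_map hfm.aemeasurable
    set ν := blur h (proxLaw W h k)
    have e1 : (P.prod (stdGaussian (E d))).map (g O) = blur h (P.map (f O)) := by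
      rw [blur, ← Measure.map_id (μ := stdGaussian (E d)), Measure.map_prod_map _ _ hfm measurable_id,
        Measure.map_map (by fun_prop) (hfm.prodMap measurable_id), Measure.map_id]
      rfl
    have hclose : TVLe ((P.prod (stdGaussian (E d))).map (g O)) ν
        (ε + k * (ε + 22 / A)) := by
      rw [e1]; exact (hlaw W hW).blur h
    have : IsProbabilityMeasure ((P.prod (stdGaussian (E d))).map (g O)) :=
      Measure.isProbabilityMeasure_map hgm.aemeasurable
    have e2 : ((P.prod (stdGaussian (E d))).prod P₂).map (combine h g f₂ O) =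
        (((P.prod (stdGaussian (E d))).map (g O)).prod P₂).map (combine h f₁ f₂ O) := by
      conv_rhs => rw [← Measure.map_id (μ := P₂)]
      rw [Measure.map_prod_map _ _ hgm measurable_id,
        Measure.map_map hΦm (hgm.prodMap measurable_id)]
      rfl
    rw [e2]
    refine (((tvLe_prod_left P₂ hclose).map hΦm).trans (?_ :
      TVLe ((ν.prod P₂).map (combine h f₁ f₂ O)) (proxLaw W h (k + 1)) (ε + 22 / A))).mono
        (le_of_eq (by push_cast; ring))
    intro S hS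
    set T := {y : E d | A * √d < ‖y‖}
    have hT : MeasurableSet T := measurableSet_lt measurable_const measurable_norm
    have hK := measurable_rgoK hW hh
    have hG : Measurable fun y => P₂.real (Prod.mk y ⁻¹' (combine h f₁ f₂ O ⁻¹' S)) :=
      (measurable_measure_prodMk_left (hΦm hS)).ennreal_toReal
    have hF : Measurable fun y => (rgoK W h y).real S :=
      ((Measure.measurable_coe hS).comp hK).ennreal_toReal
    have hK1 : ∀ y, IsProbabilityMeasure (rgoK W h y) := isProb_rgoK hW hh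
    have l1 : ((ν.prod P₂).map (combine h f₁ f₂ O)).real S =
        ∫ y, P₂.real (Prod.mk y ⁻¹' (combine h f₁ f₂ O ⁻¹' S)) ∂ν := by
      rw [map_measureReal_apply hΦm hS, measureReal_def, Measure.prod_apply (hΦm hS),
        ← integral_toReal]
      · rfl
      · exact (measurable_measure_prodMk_left (hΦm hS)).aemeasurable
      · exact ae_of_all _ fun x => measure_lt_top _ _
    have l2 : (proxLaw W h (k + 1)).real S = ∫ y, (rgoK W h y).real S ∂ν := by
      rw [proxLaw, measureReal_def, Measure.bind_apply hS hK.aemeasurable, ← integral_toReal]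
      · rfl
      · exact ((Measure.measurable_coe hS).comp hK).aemeasurable
      · exact ae_of_all _ fun y => measure_lt_top _ _
    have iG : Integrable (fun y => P₂.real (Prod.mk y ⁻¹' (combine h f₁ f₂ O ⁻¹' S))) ν :=
      Integrable.of_bound hG.aestronglyMeasurable 1 (ae_of_all _ fun y => by
        rw [Real.norm_eq_abs, abs_of_nonneg measureReal_nonneg]; exact measureReal_le_one)
    have iF : Integrable (fun y => (rgoK W h y).real S) ν :=
      Integrable.of_bound hF.aestronglyMeasurable 1 (ae_of_all _ fun y => by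
        rw [Real.norm_eq_abs, abs_of_nonneg measureReal_nonneg]; exact measureReal_le_one)
    rw [l1, l2, ← integral_sub iG iF, ← Real.norm_eq_abs]
    refine (norm_integral_le_of_norm_le ((integrable_const ε).add
      ((integrable_const 1).indicator hT)) (ae_of_all _ fun y => ?_)).trans ?_
    · simp only [Pi.add_apply, Real.norm_eq_abs]
      by_cases hy : y ∈ T
      · rw [indicator_of_mem hy]
        rw [abs_le]
        have a1 : P₂.real (Prod.mk y ⁻¹' (combine h f₁ f₂ O ⁻¹' S)) ≤ 1 := measureReal_le_one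
        have a2 : (rgoK W h y).real S ≤ 1 := measureReal_le_one
        have a3 : 0 ≤ P₂.real (Prod.mk y ⁻¹' (combine h f₁ f₂ O ⁻¹' S)) := measureReal_nonneg
        have a4 : 0 ≤ (rgoK W h y).real S := measureReal_nonneg
        constructor <;> linarith
      · rw [indicator_of_notMem hy, add_zero]
        have := hstep W hW y (not_lt.1 hy) S hS
        rw [map_measureReal_apply (f := fun b => combine h f₁ f₂ O (y, b))
          (hΦm.comp (measurable_const.prodMk measurable_id)) hS] at this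
        exact this
    · rw [integral_add' (integrable_const ε) ((integrable_const 1).indicator hT), integral_const,
        integral_indicator hT, setIntegral_const]
      simp only [probReal_univ, smul_eq_mul, one_mul, mul_one]
      exact add_le_add le_rfl (proxLaw_tail hW hh hh1 hA hd k)

/-- The reduced problems of the proximal chain. -/
theorem samples_reduced (hB : SmallBlur) {δ : ℝ} (hδ : 0 < δ) (hδ1 : δ ≤ 1 / 64) :
    ∃ (J : ℕ) (C : ℝ), 0 ≤ C ∧ ∀ᶠ d : ℕ in atTop, ∃ qb : ℕ, (qb : ℝ) ≤ (d : ℝ) ^ δ ∧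
      ∃ εin : ℝ, 0 ≤ εin ∧ εin ≤ C * (d : ℝ) ^ (-(4 * δ)) ∧
        Samples d (J * (qb + 1)) ((d : ℝ) ^ (-δ)) ((d : ℝ) ^ (3 * δ)) εin := by
  set J := ⌈1 / δ⌉₊
  have hJ : 1 ≤ (J : ℝ) * δ := (div_le_iff₀ hδ).1 (Nat.le_ceil _)
  obtain ⟨Cc, hCc, hchain⟩ := samples_chain
  refine ⟨J, (J : ℝ) * (2 + 4 * Cc) + 2 * Cc, by positivity, ?_⟩
  filter_upwards [hB δ (6 * δ) hδ (by linarith) (by positivity) (by linarith), eventually_ge_atTop 2,
    rpow_neg_eventually_le (a := δ / 2) (by positivity) (show (0 : ℝ) < 1 / 3 by norm_num)]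
    with d hblur hd2 hsmall
  have hd : 0 < d := by omega
  have hd1 : (1 : ℝ) ≤ d := by exact_mod_cast (show 1 ≤ d by omega)
  have hd0 : (0 : ℝ) < d := by linarith
  have hp : ∀ x y : ℝ, (d : ℝ) ^ x * (d : ℝ) ^ y = (d : ℝ) ^ (x + y) :=
    fun x y => (Real.rpow_add hd0 x y).symm
  have hmono : ∀ {x y : ℝ}, x ≤ y → (d : ℝ) ^ x ≤ (d : ℝ) ^ y :=
    fun hxy => Real.rpow_le_rpow_of_exponent_le hd1 hxy
  have hge1 : ∀ {x : ℝ}, 0 ≤ x → 1 ≤ (d : ℝ) ^ x := fun hx => Real.one_le_rpow hd1 hx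
  set h := (d : ℝ) ^ (-δ) with hh_def
  have hh : 0 < h := Real.rpow_pos_of_pos hd0 _
  have hh1 : h ≤ 1 := Real.rpow_le_one_of_one_le_of_nonpos hd1 (by linarith)
  set s := (d : ℝ) ^ (-(6 * δ))
  have hs : 0 < s := Real.rpow_pos_of_pos hd0 _
  have hs1 : s ≤ 1 := Real.rpow_le_one_of_one_le_of_nonpos hd1 (by linarith)
  set B₀ := (d : ℝ) ^ (3 * δ)
  have hB0 : 0 < B₀ := Real.rpow_pos_of_pos hd0 _
  have hB1 : 1 ≤ B₀ := hge1 (by positivity)
  set A' := (1 + B₀) * (d : ℝ) ^ (2 * δ)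
  have hA' : 0 < A' := by positivity
  set x := (d : ℝ) ^ (-(δ / 2))
  have hx0 : 0 < x := Real.rpow_pos_of_pos hd0 _
  have h3x : 3 * x ≤ 1 := by linarith
  set qb := ⌊(d : ℝ) ^ δ⌋₊
  have hqb : (qb : ℝ) ≤ (d : ℝ) ^ δ := Nat.floor_le (by positivity)
  have hbl : ∀ η, 0 ≤ η → η ≤ h → Blurs d qb η B₀ s ((d : ℝ) ^ (-1 : ℝ)) := by
    intro η hη hη1
    obtain ⟨q, hq, Ω, i1, i2, i3, P, f, hP, hf, hlaw⟩ := hblur η B₀ hη hη1 hB0.le
      ((hmono (by linarith : 3 * δ ≤ 1)).trans_eq (Real.rpow_one _))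
    exact ⟨Ω, i1, i2, i3, P, f, hP, hf.mono (Nat.le_floor hq), hlaw⟩
  have hsq : √s = (d : ℝ) ^ (-(3 * δ)) := by
    rw [Real.sqrt_eq_rpow, ← Real.rpow_mul hd0.le]; ring_nf
  have hBA : (B₀ + A') * √s ≤ B₀ := by
    have h2 : B₀ + A' ≤ 3 * B₀ * (d : ℝ) ^ (2 * δ) := by
      have := hge1 (x := 2 * δ) (by positivity)
      simp only [A']; nlinarith
    refine (mul_le_mul_of_nonneg_right h2 (Real.sqrt_nonneg _)).trans ?_
    rw [hsq, mul_assoc, hp]
    have : (d : ℝ) ^ (2 * δ + -(3 * δ)) ≤ x := hmono (by linarith)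
    nlinarith [mul_le_mul_of_nonneg_left this hB0.le]
  set e4 := (d : ℝ) ^ (-(4 * δ))
  set εin := (J : ℝ) * (2 * (d : ℝ) ^ (-1 : ℝ) + Cc * (1 + B₀) ^ 2 / A' ^ 2) +
    Cc * (1 + B₀) * h * s ^ J * √d
  have hεin0 : 0 ≤ εin := by positivity
  have hin : εin ≤ ((J : ℝ) * (2 + 4 * Cc) + 2 * Cc) * e4 := by
    have u1 : (d : ℝ) ^ (-1 : ℝ) ≤ e4 := hmono (by linarith)
    have u2 : Cc * (1 + B₀) ^ 2 / A' ^ 2 = Cc * e4 := by
      have : A' ^ 2 * e4 = (1 + B₀) ^ 2 := by
        simp only [A', e4, mul_pow]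
        rw [← Real.rpow_natCast ((d : ℝ) ^ (2 * δ)) 2, ← Real.rpow_mul hd0.le, mul_assoc, hp]
        norm_num
        rw [show 2 * δ * 2 + -(4 * δ) = 0 by ring, Real.rpow_zero, mul_one]
      rw [← this]; field_simp
    have u3 : Cc * (1 + B₀) * h * s ^ J * √d ≤ 2 * Cc * e4 := by
      have e : s ^ J = (d : ℝ) ^ (-(6 * δ) * J) := by
        rw [← Real.rpow_natCast s J, ← Real.rpow_mul hd0.le]
      calc Cc * (1 + B₀) * h * s ^ J * √d ≤ Cc * (2 * B₀) * 1 * s ^ J * √d := by
            gcongr; linarith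
        _ = 2 * Cc * (B₀ * (s ^ J * √d)) := by ring
        _ ≤ 2 * Cc * e4 := by
            refine mul_le_mul_of_nonneg_left ?_ (by positivity)
            rw [e, sqrt_eq_rpow' d, hp, hp]
            exact hmono (by nlinarith)
    have u4 : 0 ≤ (J : ℝ) * Cc * e4 := by positivity
    have u5 := mul_le_mul_of_nonneg_left u1 (Nat.cast_nonneg J : (0 : ℝ) ≤ J)
    simp only [εin, u2]
    linarith
  exact ⟨qb, hqb, εin, hεin0, hin,
    hchain d qb h B₀ s A' _ hh.le hh1 hB0.le hs hs1 hBA hA' (by positivity) hbl J h hh.le le_rfl⟩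

/-- The inner sampler gives `d ^ ε` queries for the whole class, for every `ε > 0`. -/
theorem sampleable_of_smallBlur (hB : SmallBlur) {ε : ℝ} (hε : 0 < ε) :
    ∀ᶠ d : ℕ in atTop, ∃ q : ℕ, (q : ℝ) ≤ (d : ℝ) ^ ε ∧ Sampleable d q := by
  set δ := min ε 1 / 64 with hδdef
  have hm : 0 < min ε 1 := lt_min hε one_pos
  have hδ : 0 < δ := by positivity
  have hδ1 : δ ≤ 1 / 64 := div_le_div_of_nonneg_right (min_le_right _ _) (by norm_num)
  have hδε : 3 * δ ≤ ε := by simp only [δ]; linarith [min_le_left ε 1]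
  obtain ⟨J, Ci, hCi, hin_ev⟩ := samples_reduced hB hδ hδ1
  set c0 := 8 / δ + 3
  set D := (2 * J + 1) * c0 + c0 * (Ci + 23) + 4 + 3
  have hc0 : 3 ≤ c0 := le_add_of_nonneg_left (by positivity)
  have hD : 1 ≤ D := by
    have : 0 ≤ (2 * (J : ℝ) + 1) * c0 + c0 * (Ci + 23) := by positivity
    simp only [D]; linarith
  filter_upwards [hin_ev,
    eventually_ge_atTop 2,
    rpow_neg_eventually_le (a := δ / 2) (by positivity) (show (0 : ℝ) < 1 / (10 * D) by positivity)]
    with d hinner' hd2 hsmall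
  have hd : 0 < d := by omega
  have hd1 : (1 : ℝ) ≤ d := by exact_mod_cast (show 1 ≤ d by omega)
  have hd0 : (0 : ℝ) < d := by linarith
  have hp : ∀ x y : ℝ, (d : ℝ) ^ x * (d : ℝ) ^ y = (d : ℝ) ^ (x + y) :=
    fun x y => (Real.rpow_add hd0 x y).symm
  have hmono : ∀ {x y : ℝ}, x ≤ y → (d : ℝ) ^ x ≤ (d : ℝ) ^ y :=
    fun hxy => Real.rpow_le_rpow_of_exponent_le hd1 hxy
  have hge1 : ∀ {x : ℝ}, 0 ≤ x → 1 ≤ (d : ℝ) ^ x := fun hx => Real.one_le_rpow hd1 hx
  set h := (d : ℝ) ^ (-δ) with hh_def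
  have hh : 0 < h := Real.rpow_pos_of_pos hd0 _
  have hh1 : h ≤ 1 := Real.rpow_le_one_of_one_le_of_nonpos hd1 (by linarith)
  set B₀ := (d : ℝ) ^ (3 * δ)
  have hB0 : 0 < B₀ := Real.rpow_pos_of_pos hd0 _
  have hB1 : 1 ≤ B₀ := hge1 (by positivity)
  set x := (d : ℝ) ^ (-(δ / 2))
  have hx0 : 0 < x := Real.rpow_pos_of_pos hd0 _
  have hDx : D * x ≤ 1 / 10 := by
    calc D * x ≤ D * (1 / (10 * D)) := mul_le_mul_of_nonneg_left hsmall (by linarith)
      _ = 1 / 10 := by field_simp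
  obtain ⟨qb, hqb, εin, hεin0, hin, hinner⟩ := hinner'
  set e4 := (d : ℝ) ^ (-(4 * δ))
  set N := ⌈4 * Real.log d / h⌉₊
  have hlog : 0 ≤ Real.log d := Real.log_nonneg hd1
  have hN : (N : ℝ) + 2 ≤ c0 * (d : ℝ) ^ (3 / 2 * δ) := by
    have hl : Real.log d ≤ (d : ℝ) ^ (δ / 2) / (δ / 2) :=
      Real.log_le_rpow_div hd0.le (by positivity)
    have hc := natCeil_le_add_one (by positivity : 0 ≤ 4 * Real.log d / h)
    have e : 4 * Real.log d / h ≤ 8 / δ * (d : ℝ) ^ (3 / 2 * δ) := by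
      rw [div_le_iff₀ hh, mul_assoc, hp]
      refine (mul_le_mul_of_nonneg_left hl (by norm_num)).trans (le_of_eq ?_)
      ring_nf
    have := hge1 (x := 3 / 2 * δ) (by positivity)
    simp only [c0, N]; nlinarith
  obtain ⟨Ω, i1, i2, i3, P, f, hP, hf, hlaw⟩ := samples_prox d (J * (qb + 1)) h B₀ B₀ εin hd hh hh1
    hB0 (mul_le_of_le_one_right hB0.le (Real.sqrt_le_one.2 hh1)) hεin0 hinner (N + 1)
  refine ⟨(N + 1 + 1) * (J * (qb + 1) + 1), ?_, sampleable_of_qc P f hf fun V hV => ?_⟩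
  · push_cast
    have hqd : (qb : ℝ) + 1 ≤ 2 * (d : ℝ) ^ δ := by linarith [hge1 (x := δ) hδ.le]
    calc ((N : ℝ) + 1 + 1) * (J * (qb + 1) + 1)
        ≤ c0 * (d : ℝ) ^ (3 / 2 * δ) * ((2 * J + 1) * (d : ℝ) ^ δ) := by
          refine mul_le_mul (by linarith) ?_ (by positivity) (by positivity)
          nlinarith [hge1 (x := δ) hδ.le]
      _ = (2 * J + 1) * c0 * (d : ℝ) ^ (5 / 2 * δ) := by
          rw [show (5 / 2 * δ) = 3 / 2 * δ + δ by ring, ← hp]; ring
      _ ≤ (d : ℝ) ^ (δ / 2) * (d : ℝ) ^ (5 / 2 * δ) := by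
          refine mul_le_mul_of_nonneg_right ?_ (by positivity)
          have hxx : (d : ℝ) ^ (δ / 2) * x = 1 := by rw [hp]; simp
          have : (2 * (J : ℝ) + 1) * c0 * x ≤ D * x := mul_le_mul_of_nonneg_right (by
            have : 0 ≤ c0 * (Ci + 23) := by positivity
            simp only [D]; linarith) hx0.le
          exact le_of_mul_le_mul_right (by rw [hxx]; linarith) hx0
      _ ≤ (d : ℝ) ^ ε := by rw [hp]; exact hmono (by linarith)
  · have hp' := hV.pert
    have e : pot (fun x => V x - ‖x‖ ^ 2 / 2) = V := by funext x; simp [pot]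
    have hh' := (hlaw _ hp').trans (proxLaw_close hp' hh hh1 N)
    rw [e, show law (fun x => V x - ‖x‖ ^ 2 / 2) = gibbs V by rw [law, e]] at hh'
    refine hh'.mono ?_
    have hA22 : 22 / B₀ = 22 * (d : ℝ) ^ (-(3 * δ)) := by
      rw [Real.rpow_neg hd0.le, div_eq_mul_inv]
    have hlast : 4 * √d / (√h * (1 + h) ^ N) ≤ 4 * x := by
      have hN1 : (d : ℝ) ^ (2 : ℝ) ≤ (1 + h) ^ N := by
        have h1 : exp (h / 2) ≤ 1 + h := by
          have := Real.exp_bound' (x := h / 2) (by positivity) (by linarith) (n := 1) one_pos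
          norm_num at this
          linarith
        refine le_trans ?_ (pow_le_pow_left₀ (exp_pos _).le h1 N)
        rw [← exp_nat_mul, Real.rpow_def_of_pos hd0]
        refine exp_le_exp.2 ?_
        have := (div_le_iff₀ hh).1 (Nat.le_ceil (4 * Real.log d / h))
        linarith
      rw [div_le_iff₀ (by positivity), mul_assoc]
      refine mul_le_mul_of_nonneg_left ?_ (by norm_num)
      have e2 : √h = (d : ℝ) ^ (-(δ / 2)) := by
        rw [Real.sqrt_eq_rpow, ← Real.rpow_mul hd0.le]; ring_nf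
      refine le_trans ?_ (mul_le_mul_of_nonneg_left
        (mul_le_mul_of_nonneg_left hN1 (Real.sqrt_nonneg h)) hx0.le)
      rw [e2, sqrt_eq_rpow' d, hp, hp]
      exact hmono (by linarith)
    have hmain : εin + ((N + 1 : ℕ) : ℝ) * (εin + 22 / B₀) ≤
        c0 * (Ci + 23) * x := by
      rw [hA22]
      have u : εin + 22 * (d : ℝ) ^ (-(3 * δ)) ≤
          (Ci + 23) * (d : ℝ) ^ (-(3 * δ)) := by
        have : e4 ≤ (d : ℝ) ^ (-(3 * δ)) := hmono (by linarith)
        have h0 : 0 ≤ Ci := by positivity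
        have h1 : 0 ≤ (d : ℝ) ^ (-(3 * δ)) := by positivity
        nlinarith [mul_le_mul_of_nonneg_left this h0]
      have h22 : 0 ≤ 22 * (d : ℝ) ^ (-(3 * δ)) := by positivity
      refine le_trans (b := ((N : ℝ) + 2) * (εin + 22 * (d : ℝ) ^ (-(3 * δ)))) ?_ ?_
      · push_cast; nlinarith
      · refine (mul_le_mul hN u (by positivity) (by positivity)).trans ?_
        rw [show c0 * (d : ℝ) ^ (3 / 2 * δ) *
            ((Ci + 23) * (d : ℝ) ^ (-(3 * δ))) =
            c0 * (Ci + 23) *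
              ((d : ℝ) ^ (3 / 2 * δ) * (d : ℝ) ^ (-(3 * δ))) by ring, hp]
        exact mul_le_mul_of_nonneg_left (hmono (by linarith)) (by positivity)
    have : (c0 * (Ci + 23) + 4) * x ≤ D * x :=
      mul_le_mul_of_nonneg_right (by
        have : 0 ≤ (2 * (J : ℝ) + 1) * c0 := by positivity
        simp only [D]; linarith) hx0.le
    linarith

/-- The inner sampler gives exponent zero. -/
theorem gammaStar_le_zero (hB : SmallBlur) : gammaStar ≤ ((0 : ℝ) : EReal) :=
  gammaStar_le_of le_rfl fun _ hε => by simpa using sampleable_of_smallBlur hB hε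

end Vale.Agent.P347.Zero
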