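import Vale.Agent.P347.Zero.Steps
import Vale.Agent.P347.Zero.Outer

/-!
# P347, exponent zero: the sampler after the last band gives a blurred sampler
-/

open MeasureTheory ProbabilityTheory Real Set
open scoped RealInnerProductSpace

namespace Vale.Agent.P347.Zero

open Deriv

variable {d : ℕ}

/-- A scaled smoothing of a test is Lipschitz. -/
theorem abs_sm_smul_sub_le {f : E d → ℝ} (hf : ContDiff ℝ 2 f) (hs : HasCompactSupport f)
    (hfb : ∀ x, |f x| ≤ 1) {t a : ℝ} (ht : 0 < t) (ha : 0 ≤ a) (x y : E d) :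
    |sm t f (a • x) - sm t f (a • y)| ≤ a / t * ‖x - y‖ := by
  have hg := good_two_of_compact hf hs
  have h := Convex.norm_image_sub_le_of_norm_fderiv_le (s := (univ : Set (E d))) (C := 1 / t)
    (f := sm t f)
    (fun z _ => (sm_hasFDerivAt hg.contDiff_one hg.polyBd hg.polyBd_fderiv t z).differentiableAt)
    (fun z _ => ContinuousLinearMap.opNorm_le_bound _ (by positivity) fun w =>
      abs_fderiv_sm_le hg.contDiff_one hfb hg.polyBd_fderiv ht z w)
    convex_univ (mem_univ (a • y)) (mem_univ (a • x))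
  rw [Real.norm_eq_abs] at h
  refine h.trans_eq ?_
  rw [← smul_sub, norm_smul, Real.norm_eq_abs, abs_of_nonneg ha]
  ring

theorem sm_comp_smul (t a : ℝ) (g : E d → ℝ) (x : E d) :
    sm t (fun y => g (a • y)) x = sm (a * t) g (a • x) := by
  simp only [sm, smul_add, smul_smul]

/-- From a draw at the origin and the scale one to a blurred sampler. -/
theorem blurs_of_samp {q j : ℕ} {η B s I L e : ℝ} (h : Samp d q η 1 j I L e) (hI : 1 ≤ I)
    (he : 0 ≤ e) (hs : 0 < s) (hs1 : s ≤ 1 / 2) (hj : gam j ^ 2 ≤ s / 4) :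
    Blurs d q η B s (3 * e * (√d + η * B * √d) / √s) := by
  obtain ⟨Ω, i1, i2, i3, P, F, hP, hF, hsamp⟩ := h
  set c := gam j
  set a := (1 - c ^ 2)⁻¹
  set k := c / √I
  set u := a ^ 2 * (c ^ 2 * (1 - c ^ 2)) + (a * k) ^ 2
  have hI0 : 0 < I := one_pos.trans_le hI
  have hc : 7 / 8 ≤ 1 - c ^ 2 := by linarith
  have ha : 0 < a := inv_pos.2 (by linarith)
  have ha1 : a ≤ 8 / 7 := by
    rw [show (8 : ℝ) / 7 = (7 / 8)⁻¹ by norm_num]
    exact inv_anti₀ (by norm_num) hc
  have hac : a * (1 - c ^ 2) = 1 := inv_mul_cancel₀ (by linarith)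
  have hu : u ≤ 5 / 8 * s := by
    have h1 : a ^ 2 * (c ^ 2 * (1 - c ^ 2)) = a * c ^ 2 := by
      rw [show a ^ 2 * (c ^ 2 * (1 - c ^ 2)) = a * c ^ 2 * (a * (1 - c ^ 2)) by ring, hac, mul_one]
    have h2 : k ^ 2 ≤ c ^ 2 := by
      simp only [k, div_pow, Real.sq_sqrt hI0.le]
      exact div_le_self (sq_nonneg c) hI
    have h3 : a * c ^ 2 ≤ 8 / 7 * (s / 4) := mul_le_mul ha1 hj (sq_nonneg c) (by norm_num)
    have h4 : (a * k) ^ 2 ≤ 64 / 49 * (s / 4) := by
      rw [mul_pow]
      exact mul_le_mul (by nlinarith) (h2.trans hj) (sq_nonneg k) (by norm_num)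
    simp only [u, h1]
    linarith
  set t := √(s - u)
  have ht2 : t ^ 2 = s - u := Real.sq_sqrt (by linarith)
  have ht : √s / 2 ≤ t := by
    refine Real.le_sqrt_of_sq_le ?_
    rw [div_pow, Real.sq_sqrt hs.le]
    linarith
  have hss : 0 < √s := Real.sqrt_pos.2 hs
  have ht0 : 0 < t := lt_of_lt_of_le (by positivity) ht
  have hdraw : IsProbabilityMeasure (drawLaw P (0 : E d) (1 ^ 2 / I)) :=
    Measure.isProbabilityMeasure_map (by fun_prop)
  refine ⟨(E d × Ω) × E d, inferInstance, inferInstance, inferInstance,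
    (drawLaw P (0 : E d) (1 ^ 2 / I)).prod (stdGaussian (E d)),
    fun O p => a • F O p.1 + t • p.2, inferInstance, ?_, fun W hW => ?_⟩
  · exact (((hF.comap (φ := fun p : (E d × Ω) × E d => p.1) measurable_fst).withSeed).map
      (fun y => a • y.2 + t • y.1.2) (by fun_prop)).congr fun O ω => rfl
  obtain ⟨-, hS⟩ := hsamp B W hW
  have hW' : shiftW W 0 1 = W := funext fun z => by simp [shiftW]
  have hPl := hW.isProbabilityMeasure_law
  have htgt := isProbabilityMeasure_tgt hW j one_pos le_rfl (0 : E d)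
  have hG : Measurable (F (oracleOf (pot W))) := hF.measurable hW.measurable_oracle
  have hmap : IsProbabilityMeasure (((drawLaw P (0 : E d) (1 ^ 2 / I)).prod (stdGaussian (E d))).map
      fun p => a • F (oracleOf (pot W)) p.1 + t • p.2) :=
    Measure.isProbabilityMeasure_map (by fun_prop)
  refine tvLe_of_tests fun f hf hsup hf01 => ?_
  have hfb : ∀ x, |f x| ≤ 1 := fun x => abs_le.2 ⟨by linarith [(hf01 x).1], (hf01 x).2⟩
  have hfc := hf.continuous
  have hfp : PolyBd f := PolyBd.of_bound (B := 1) fun x => hfb x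
  have hsb : ∀ (t : ℝ) (x : E d), |sm t f x| ≤ 1 := fun t x => by
    rw [sm]
    exact (norm_integral_le_of_norm_le_const (μ := stdGaussian (E d))
      (f := fun z => f (x + t • z)) (ae_of_all _ fun z => hfb _)).trans (by simp)
  set h : E d → ℝ := fun x => sm t f (a • x)
  have hhc : Continuous h := (sm_continuous hfc hfp t).comp (continuous_const_smul a)
  set φ : E d → ℝ := fun x => t / a * h x
  have hφl : LipschitzWith 1 φ := LipschitzWith.of_dist_le_mul fun x y => by
    rw [Real.dist_eq, ← mul_sub, abs_mul, abs_of_pos (div_pos ht0 ha), dist_eq_norm, NNReal.coe_one,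
      one_mul]
    calc t / a * |h x - h y| ≤ t / a * (a / t * ‖x - y‖) :=
          mul_le_mul_of_nonneg_left (abs_sm_smul_sub_le hf hsup hfb ht0 ha.le x y) (by positivity)
      _ = ‖x - y‖ := by field_simp
  have hφb : ∀ x, |φ x| ≤ t / a := fun x => by
    rw [abs_mul, abs_of_pos (div_pos ht0 ha)]
    exact mul_le_of_le_one_right (by positivity) (hsb t _)
  have key := hS 0 φ hφl ⟨_, hφb⟩
  simp only [φ, integral_const_mul, one_mul] at key
  rw [← mul_sub, abs_mul, abs_of_pos (div_pos ht0 ha)] at key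
  -- the left side
  have eL : ∫ x, f x ∂((drawLaw P (0 : E d) (1 ^ 2 / I)).prod (stdGaussian (E d))).map
      (fun p => a • F (oracleOf (pot W)) p.1 + t • p.2) =
      ∫ p, h (F (oracleOf (pot W)) p) ∂drawLaw P (0 : E d) (1 ^ 2 / I) := by
    rw [integral_map (by fun_prop) hfc.aestronglyMeasurable, integral_prod]
    · rfl
    · exact Integrable.of_bound (by fun_prop) 1 (ae_of_all _ fun p => hfb _)
  -- the right side
  have eR : ∫ p, h (p.1 + k • p.2) ∂(tgt W j 1 0).prod (stdGaussian (E d)) =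
      ∫ x, f x ∂blur s (law W) := by
    have hkc : Continuous (sm k h) :=
      sm_continuous hhc (PolyBd.of_bound (B := 1) fun x => hsb t _) k
    have hkb : ∀ x, |sm k h x| ≤ 1 := fun x => by
      rw [sm]
      exact (norm_integral_le_of_norm_le_const (μ := stdGaussian (E d))
        (f := fun z => h (x + k • z)) (ae_of_all _ fun z => hsb t _)).trans (by simp)
    rw [integral_prod _ (Integrable.of_bound (by fun_prop) 1 (ae_of_all _ fun p => hsb t _))]
    change ∫ y, sm k h y ∂tgt W j 1 0 = _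
    rw [integral_tgt hW j one_pos le_rfl 0 hkc hkb, hW', integral_blur s _ hfc hfb]
    refine integral_congr_ae (ae_of_all _ fun x => ?_)
    have e1 : sm k h = fun y => sm (√((a * k) ^ 2 + t ^ 2)) f (a • y) := funext fun y => by
      rw [sm_comp_smul, sm_sm hfc hfp]
    have e2 : a • tgtPt j 1 0 x = x := by
      simp only [tgtPt, zero_add, one_smul, smul_zero, add_zero, smul_smul]
      rw [show gam j = c from rfl, hac, one_smul]
    dsimp only
    rw [e1, sm_comp_smul, sm_sm hfc hfp, e2]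
    congr 1
    congr 1
    rw [Real.sq_sqrt (by positivity), ht2]
    simp only [tgtNoise, u, mul_pow, one_mul, c]
    rw [Real.sq_sqrt (by linarith : (0 : ℝ) ≤ 1 - gam j ^ 2)]
    ring
  rw [eL, ← eR]
  have hwt : wt W 0 ≤ √d + η * B * √d := add_le_add le_rfl hW.grad_zero_le
  have hat : a / t ≤ 3 / √s := by
    rw [div_le_div_iff₀ ht0 hss]
    nlinarith
  calc _ = a / t * (t / a * |(∫ p, h (F (oracleOf (pot W)) p) ∂drawLaw P (0 : E d) (1 ^ 2 / I)) -
        ∫ p, h (p.1 + k • p.2) ∂(tgt W j 1 0).prod (stdGaussian (E d))|) := by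
          field_simp
    _ ≤ a / t * (e * wt W 0) := mul_le_mul_of_nonneg_left key (by positivity)
    _ ≤ 3 / √s * (e * (√d + η * B * √d)) :=
        mul_le_mul hat (mul_le_mul_of_nonneg_left hwt he) (mul_nonneg he (wt_nonneg W 0))
          (by positivity)
    _ = _ := by ring

end Vale.Agent.P347.Zero
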