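import Vale.Agent.P347.Zero.Levels
import Vale.Agent.P347.Zero.Top

/-!
# P347, exponent zero: the inner sampler from the primitive at the top level

The bands of the sampler run from the scale `1` down to `gam (nBands d)`; each takes the primitive
of the top level for its drifts and has `g₁ = 1`.
-/

open MeasureTheory ProbabilityTheory Real Filter
open scoped Topology

namespace Vale.Agent.P347.Zero

variable {d : ℕ}

/-- The numbers of all bands of the sampler at once. -/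
theorem samp_chain {p k : ℕ} {C : ℝ} {pT K P q' n : ℕ} {η T θ₀ e g' I I' L' e' x E : ℝ}
    (hS : ∀ (d K q₁ q' j : ℕ) (η b T θ₀ e g₁ g' I I' L₁ L' e₁ e' : ℝ),
      BandCond C d K η b T θ₀ e g₁ g' I I' L' →
      1 + 100 * bandP C T e K * I' ≤ 2 / 5 * I → 0 ≤ L₁ → 0 ≤ e₁ → 0 ≤ e' →
      Samp d q₁ η (b * bT 1) j I L₁ e₁ →
      (∀ b', 0 < b' → b' ≤ 1 → Prim d q' η b' (b' ^ 2 / I') g' L' e') →
      Samp d (q₁ + bandP C T e K * q') η b (j + 1) I
        (L₁ * (1 + C * bandΓ C T θ₀ e g₁ * L'))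
        (e₁ * (1 + 4 * η) + C * L₁ * (bandΓ C T θ₀ e g₁ *
          (e' + (bandΓ C T θ₀ e g₁ * L') ^ K) + bandRes C p pT k d η b T θ₀ e g₁)))
    (hbase : ∀ b : ℝ, 0 < b → b ≤ 1 → Samp d 0 η b 0 I 1 0)
    (hcond : ∀ i < n, BandCond C d K η (gam i) T θ₀ e 1 g' I I' L')
    (hP : bandP C T e K = P) (hI : 1 + 100 * (P : ℝ) * I' ≤ 2 / 5 * I) (he' : 0 ≤ e')
    (hprim : ∀ b', 0 < b' → b' ≤ 1 → Prim d q' η b' (b' ^ 2 / I') g' L' e')
    (hC : 0 ≤ C) (hη : 0 ≤ η) (hx : x = C * bandΓ C T θ₀ e 1 * L') (hx0 : 0 ≤ x)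
    (hxn : (n : ℝ) * x ≤ 1 / 2) (hηn : (n : ℝ) * η ≤ 1 / 8)
    (hE0 : 0 ≤ E)
    (hE : ∀ i < n, C * 2 * (bandΓ C T θ₀ e 1 * (e' + (bandΓ C T θ₀ e 1 * L') ^ K) +
      bandRes C p pT k d η (gam i) T θ₀ e 1) ≤ E)
    (hpos : ∀ i < n, 0 ≤ bandΓ C T θ₀ e 1 * (e' + (bandΓ C T θ₀ e 1 * L') ^ K) +
      bandRes C p pT k d η (gam i) T θ₀ e 1) :
    ∀ j ≤ n, ∀ i, i + j = n →
      ∃ L, 0 ≤ L ∧ L ≤ 1 + 2 * j * x ∧
        Samp d (j * (P * q')) η (gam i) j I L (2 * j * E) := by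
  intro j
  induction j with
  | zero =>
    intro _ i _
    refine ⟨1, zero_le_one, by simp, ?_⟩
    simpa using hbase (gam i) (gam_pos i) (gam_le_one i)
  | succ j ih =>
    intro hj i hij
    have hin : i < n := by omega
    have hjn : (j : ℝ) + 1 ≤ n := by exact_mod_cast hj
    have hj0 : (0 : ℝ) ≤ j := Nat.cast_nonneg j
    obtain ⟨L, hL0, hL, hsamp⟩ := ih (by omega) (i + 1) (by omega)
    rw [gam_succ, mul_comm (bT 1)] at hsamp
    have hjx : (j : ℝ) * x ≤ 1 / 2 :=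
      le_trans (mul_le_mul_of_nonneg_right (by linarith) hx0) hxn
    have hL2 : L ≤ 2 := by linarith
    have hjη : (j : ℝ) * η ≤ 1 / 8 :=
      le_trans (mul_le_mul_of_nonneg_right (by linarith) hη) hηn
    have h := hS d K _ q' j η (gam i) T θ₀ e 1 g' I I' L L' (2 * j * E) e' (hcond i hin)
      (by rw [hP]; exact hI) hL0 (by positivity) he' hsamp hprim
    obtain ⟨Ω, i1, i2, i3, Q, F, hQ, hF, hlaw⟩ := h
    refine ⟨L * (1 + x), mul_nonneg hL0 (by linarith), ?_, Ω, i1, i2, i3, Q, F, hQ,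
      hF.mono (le_of_eq (by rw [hP]; ring)), fun B W hW => ?_⟩
    · push_cast
      nlinarith [mul_le_mul_of_nonneg_right hL (by linarith : 0 ≤ 1 + x),
        mul_le_mul_of_nonneg_right hjx hx0]
    obtain ⟨h1, h2⟩ := hlaw B W hW
    refine ⟨fun ω u v => (h1 ω u v).trans_eq (by rw [hx]), fun m f hf hM =>
      (h2 m f hf hM).trans (mul_le_mul_of_nonneg_right ?_ (wt_nonneg W m))⟩
    have e1 : C * L * (bandΓ C T θ₀ e 1 * (e' + (bandΓ C T θ₀ e 1 * L') ^ K) +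
        bandRes C p pT k d η (gam i) T θ₀ e 1) ≤ E :=
      (mul_le_mul_of_nonneg_right (mul_le_mul_of_nonneg_left hL2 hC) (hpos i hin)).trans
        (hE i hin)
    push_cast
    nlinarith [mul_le_mul_of_nonneg_right hjη hE0]

/-- The inner sampler. -/
theorem smallBlur (hB : BandStep) (hS : SampStep) : SmallBlur := by
  intro θ δ hθ hθ1 hδ hδ1
  obtain ⟨p, hp⟩ := hS
  obtain ⟨C, pT, hC, hstep⟩ := hp (order θ p)
  obtain ⟨hu, hun, hu64, -, hmp, hmu, -⟩ := Large.exps hθ hθ1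
  have hmp0 := mp_pos hθ
  filter_upwards [eventually_large hθ p C pT, prim_top hB hθ hθ1, eventually_le_rpow 2 hδ,
    eventually_le_rpow 4 (show (0 : ℝ) < 13 by norm_num)] with d F htop hd2 hd4
  intro η B hη hη1 hB hBd
  obtain ⟨q', I', hI', hI'le, hq', hprim⟩ := htop
  have hd0 := F.d_pos
  have hd1 := F.one_le_d
  have hmono : ∀ {x y : ℝ}, x ≤ y → (d : ℝ) ^ x ≤ (d : ℝ) ^ y :=
    fun hxy => Real.rpow_le_rpow_of_exponent_le hd1 hxy
  have hpow : ∀ x y : ℝ, (d : ℝ) ^ x * (d : ℝ) ^ y = (d : ℝ) ^ (x + y) :=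
    fun x y => (Real.rpow_add hd0 x y).symm
  set u := uu θ θ
  set h := (d : ℝ) ^ (-θ)
  have hh0 : 0 < h := Real.rpow_pos_of_pos hd0 _
  have hh : h ≤ 1 / 1000 := F.eta_small hθ hθ1
  set e := (d : ℝ) ^ (-u)
  set θ₀ := (d : ℝ) ^ mu θ
  set T := bigT p d
  have hT : 2 ≤ T := F.two_le_T
  have he0 : 0 < e := Real.rpow_pos_of_pos hd0 _
  have hθ₀ : 1 ≤ θ₀ := Real.one_le_rpow hd1 (mu_pos hθ).le
  set G := bandΓ C T θ₀ e 1
  have hG : G ≤ (d : ℝ) ^ (mu θ + 3 * u) := by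
    have := F.gainG_le hθ hθ1 hC (a := 0) (g₁ := 1) (Real.rpow_zero _).le
    simpa using this
  have hG0 : 0 ≤ G := by simp only [G, bandΓ]; positivity
  set P := bandP C T e (rounds θ) with hPdef
  have hP : (P : ℝ) ≤ (d : ℝ) ^ (7 * u) := F.bandP_le hθ hθ1 hC
  have hP1 : (1 : ℝ) ≤ P := by exact_mod_cast F.one_le_bandP hθ hθ1 hC
  set n := nBands d
  have hn : (n : ℝ) + 1 ≤ (d : ℝ) ^ u := F.bands_le
  have hn0 : (0 : ℝ) ≤ n := Nat.cast_nonneg n
  set g' := (d : ℝ) ^ (lam θ (depth θ) - θ)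
  set I := 1000 * (P : ℝ) * I'
  have hI1 : 1 ≤ (P : ℝ) * I' := one_le_mul_of_one_le_of_one_le hP1 hI'
  -- the four small numbers
  have hGh : G * h ≤ (d : ℝ) ^ (mu θ + 3 * u - θ) := by
    rw [sub_eq_add_neg, Real.rpow_add hd0]; exact mul_le_mul_of_nonneg_right hG hh0.le
  have hsmall : ∀ {x a : ℝ}, x ≤ (d : ℝ) ^ a → a ≤ -u → x ≤ 1 / 1000 := fun hx ha => F.small hx ha
  have hcontract : G * (2 * h) ≤ 1 / 2 := by
    linarith [hsmall hGh (by linarith : mu θ + 3 * u - θ ≤ -u)]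
  have hgle : g' ^ 2 ≤ (d : ℝ) ^ (-θ) := by
    rw [pow_two, hpow]
    exact hmono (by linarith [lam_le hθ (by linarith) (le_refl (depth θ))])
  have habs : G ^ 2 * P * g' ^ 2 * (I + I') ≤ 1 / 10 := by
    have h1 : I + I' ≤ 2000 * (P : ℝ) * I' := by
      simp only [I]; nlinarith
    have h2 : G ^ 2 * (P : ℝ) * g' ^ 2 * (I + I') ≤
        (d : ℝ) ^ (mu θ + 3 * u + (mu θ + 3 * u) + 7 * u + -θ + (u + 7 * u + mp θ / 3)) := by
      rw [pow_two]
      refine F.mul (F.mul (F.mul (F.mul hG hG hG0) hP (by linarith)) hgle (sq_nonneg _))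
        (h1.trans (F.mul (F.mul (F.num le_rfl) hP (by linarith)) hI'le (by linarith))) ?_
      simp only [I]; positivity
    linarith [hsmall h2 (by linarith)]
  have hhθ : h * θ₀ ≤ 1 := by
    rw [hpow]; exact Real.rpow_le_one_of_one_le_of_nonpos hd1 (by linarith)
  have hcond : ∀ i < n, BandCond C d (rounds θ) h (gam i) T θ₀ e 1 g' I I' (2 * h) := fun i _ =>
    { d_pos := by have := F.two_le; omega
      eta_pos := hh0
      eta_le := hh.trans (by norm_num)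
      b_pos := gam_pos i
      b_le := gam_le_one i
      e_pos := he0
      e_le := F.e_small hθ hθ1
      one_le_θ₀ := hθ₀
      two_le_T := hT
      g₁_pos := one_pos
      g₁_le := le_rfl
      eta_θ₀ := hhθ
      L'_nonneg := by positivity
      g'_nonneg := Real.rpow_nonneg hd0.le _
      one_le_I' := hI'
      contract := hcontract
      absorb := habs }
  set x := C * G * (2 * h) with hx
  have hx0 : 0 ≤ x := by positivity
  have hxn : (n : ℝ) * x ≤ 1 / 2 := by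
    have h1 : (n : ℝ) * C * (G * h) ≤ (d : ℝ) ^ (u + u + (mu θ + 3 * u - θ)) :=
      F.mul (F.mul ((le_add_of_nonneg_right zero_le_one).trans hn) F.C_le (by linarith)) hGh
        (by positivity)
    have := hsmall h1 (by linarith)
    rw [hx]; linarith
  have hηn : (n : ℝ) * h ≤ 1 / 8 := by
    have h1 : (n : ℝ) * h ≤ (d : ℝ) ^ (u + -θ) :=
      F.mul ((le_add_of_nonneg_right zero_le_one).trans hn) le_rfl hh0.le
    linarith [hsmall h1 (by linarith)]
  set y := G * (2 * h) with hy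
  have hy0 : 0 ≤ y := by positivity
  have hyK : y ^ rounds θ ≤ (d : ℝ) ^ (-4 : ℝ) := by
    have h1 : y ≤ (d : ℝ) ^ (u + (mu θ + 3 * u - θ)) := by
      rw [hy, mul_left_comm]; exact F.mul (F.num (by norm_num)) hGh (by positivity)
    refine (pow_le_pow_left₀ hy0 (F.mono h1 (by linarith : u + (mu θ + 3 * u - θ) ≤ -(θ / 2)))
      _).trans ?_
    rw [← Real.rpow_natCast, ← Real.rpow_mul hd0.le]
    refine hmono ?_
    have h2 := (div_le_iff₀ hθ).1 (Nat.le_ceil (300 / θ))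
    rw [rounds]
    linarith
  set E := C * 2 * (3 * (d : ℝ) ^ (mu θ + 3 * u - 4))
  have hE0 : 0 ≤ E := by positivity
  have hres : ∀ i < n, bandRes C p pT (order θ p) d h (gam i) T θ₀ e 1 ≤ (d : ℝ) ^ (-20 : ℝ) := by
    intro i hi
    refine F.bandRes_le hθ hθ1 hC ((le_gam_nBands F.two_le).trans ?_)
      (Real.rpow_le_one_of_one_le_of_nonpos hd1 (by norm_num)) ?_
    · exact pow_le_pow_of_le_one (bT_pos one_pos).le (bT_lt_one one_pos).le hi.le
    · rw [div_one, hpow]; exact hmono (by linarith)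
  have hres0 : ∀ i < n, 0 ≤ bandRes C p pT (order θ p) d h (gam i) T θ₀ e 1 := fun i _ => by
    have := gam_pos i
    unfold bandRes
    positivity
  have hG4 : G * ((d : ℝ) ^ (-4 : ℝ) + y ^ rounds θ) ≤ 2 * (d : ℝ) ^ (mu θ + 3 * u - 4) := by
    calc G * ((d : ℝ) ^ (-4 : ℝ) + y ^ rounds θ)
        ≤ (d : ℝ) ^ (mu θ + 3 * u) * (2 * (d : ℝ) ^ (-4 : ℝ)) :=
          mul_le_mul hG (by linarith) (by positivity) (Real.rpow_nonneg hd0.le _)
      _ = _ := by rw [mul_left_comm, hpow, sub_eq_add_neg]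
  have hE : ∀ i < n, C * 2 * (G * ((d : ℝ) ^ (-4 : ℝ) + y ^ rounds θ) +
      bandRes C p pT (order θ p) d h (gam i) T θ₀ e 1) ≤ E := fun i hi => by
    refine mul_le_mul_of_nonneg_left ?_ (by positivity)
    have h20 : (d : ℝ) ^ (-20 : ℝ) ≤ (d : ℝ) ^ (mu θ + 3 * u - 4) :=
      hmono (by linarith [mu_pos hθ])
    linarith [hres i hi]
  obtain ⟨L, -, -, hsamp⟩ := samp_chain (n := n) (x := x) (E := E) hstep
    (fun b hb hb1 => samp_base hb hb1) hcond rfl (by simp only [I]; linarith)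
    (Real.rpow_nonneg hd0.le _) hprim (by linarith) hh0.le hx hx0 hxn hηn hE0 hE
    (fun i hi => add_nonneg (by positivity) (hres0 i hi)) n le_rfl 0 (zero_add n)
  rw [show gam 0 = 1 from pow_zero _] at hsamp
  have hs : 0 < (d : ℝ) ^ (-δ) := Real.rpow_pos_of_pos hd0 _
  have hs2 : (d : ℝ) ^ (-δ) ≤ 1 / 2 := by
    rw [Real.rpow_neg hd0.le, one_div]; exact inv_anti₀ two_pos hd2
  have hgam : gam n ^ 2 ≤ (d : ℝ) ^ (-δ) / 4 := by
    rw [le_div_iff₀ four_pos]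
    calc gam n ^ 2 * 4 ≤ (d : ℝ) ^ (-14 : ℝ) * (d : ℝ) ^ (13 : ℝ) :=
          mul_le_mul ((pow_le_of_le_one (gam_pos n).le (gam_le_one n) two_ne_zero).trans
            (gam_nBands_le (by have := F.two_le; omega))) hd4 (by norm_num)
            (Real.rpow_nonneg hd0.le _)
      _ ≤ (d : ℝ) ^ (-δ) := by rw [hpow]; exact hmono (by linarith)
  have hI : 1 ≤ I := by simp only [I]; linarith
  obtain ⟨Ω, i1, i2, i3, Q, f, hQ, hf, hlaw⟩ :=
    blurs_of_samp (B := B) (s := (d : ℝ) ^ (-δ)) hsamp hI (by positivity) hs hs2 hgam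
  refine ⟨n * (P * q'), ?_, Ω, i1, i2, i3, Q, f, hQ, hf, fun W hW =>
    (hlaw W (hW.mono hη1 (hh.trans (by norm_num)) le_rfl)).mono ?_⟩
  · push_cast
    refine F.mono (F.mul ((le_add_of_nonneg_right zero_le_one).trans hn)
      (F.mul hP hq' (Nat.cast_nonneg _)) (by positivity)) (by linarith)
  -- the error
  have he : 2 * (n : ℝ) * E ≤ (d : ℝ) ^ (u + u + (u + (mu θ + 3 * u - 4))) := by
    calc 2 * (n : ℝ) * E = (n : ℝ) * C * (12 * (d : ℝ) ^ (mu θ + 3 * u - 4)) := by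
          simp only [E]; ring
      _ ≤ _ := F.mul (F.mul ((le_add_of_nonneg_right zero_le_one).trans hn) F.C_le (by linarith))
          (F.mul (F.num (by norm_num)) le_rfl (Real.rpow_nonneg hd0.le _)) (by positivity)
  have hw : √d + h * B * √d ≤ (d : ℝ) ^ (u + (1 + 1 / 2 : ℝ)) := by
    have hBh : h * B ≤ (d : ℝ) :=
      (mul_le_of_le_one_left hB (hh.trans (by norm_num))).trans hBd
    calc √d + h * B * √d = (1 + h * B) * √d := by ring
      _ ≤ 2 * (d : ℝ) ^ (1 : ℝ) * (d : ℝ) ^ (1 / 2 : ℝ) := by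
          rw [Real.sqrt_eq_rpow, Real.rpow_one]
          exact mul_le_mul_of_nonneg_right (by linarith) (Real.rpow_nonneg hd0.le _)
      _ ≤ _ := by
          rw [mul_assoc, hpow]
          exact F.mul (F.num (by norm_num)) le_rfl (Real.rpow_nonneg hd0.le _)
  rw [Real.sqrt_eq_rpow ((d : ℝ) ^ (-δ)), ← Real.rpow_mul hd0.le,
    div_le_iff₀ (Real.rpow_pos_of_pos hd0 _), hpow]
  refine F.mono (F.mul (F.mul (F.num (by norm_num)) he (by positivity)) hw (by positivity)) ?_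
  linarith

end Vale.Agent.P347.Zero
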