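import Vale.Agent.P347.Zero.GeoPick
import Vale.Agent.P347.Zero.GeoTraj

/-!
# P347, exponent zero: systems for one band exist, given the chains along the flows
-/

namespace Vale.Agent.P347.Zero

/-- Band systems exist once the chains along the four flows are given. -/
theorem geoExists_of_chains (h : BandChains) : GeoExists :=
  geoExists_of_data (bandData_of_chains h)

end Vale.Agent.P347.Zero
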