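import Vale.Agent.P347.Zero.LevelFacts
import Vale.Agent.P347.Zero.Base

/-!
# P347, exponent zero: the induction over the levels of the primitive

Level `n + 1` is `nBands d` bands on top of a base band; their internal drifts come from level
`n + 1 - lvJ` (from the base when that is negative) and their corrections from level `n`.
-/

open MeasureTheory ProbabilityTheory Real Filter
open scoped Topology

namespace Vale.Agent.P347.Zero

theorem Prim.congr {d q : ℕ} {η b V V' g g' L e : ℝ} (h : Prim d q η b V g L e) (hV : V = V')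
    (hg : g = g') : Prim d q η b V' g' L e := hV ▸ hg ▸ h

theorem one_add_pow_le_two {a : ℝ} {k : ℕ} (ha : 0 ≤ a) (h : a * k ≤ 1 / 2) :
    (1 + a) ^ k ≤ 2 := by
  calc (1 + a) ^ k ≤ exp a ^ k := by
        gcongr; linarith [add_one_le_exp a]
    _ = exp (a * k) := by rw [← exp_nat_mul]; ring_nf
    _ ≤ exp (1 / 2) := exp_le_exp.2 h
    _ ≤ 2 := by
        have h1 : exp (1 / 2 : ℝ) * exp (1 / 2) = exp 1 := by rw [← exp_add]; norm_num
        nlinarith [exp_one_lt_three, exp_pos (1 / 2 : ℝ)]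

/-- One band of the primitive in dimension `d`, with all constants fixed. -/
def BandAt (C : ℝ) (p pT k d : ℕ) : Prop :=
  ∀ (K q₁ q' q'' : ℕ) (η b T θ₀ e g₁ g gn g' g'' I I' I'' L₁ L' L'' e₁ e' e'' : ℝ),
    BandCond C d K η b T θ₀ e g₁ g' I I' L' →
    bandΓ C T θ₀ e g₁ ^ 2 * bandP C T e K * g' ^ 2 * I'' ≤ 1 / 10 →
    0 ≤ g → g ^ 2 = gn ^ 2 + 2 * g₁ ^ 2 → 0 ≤ gn → 0 ≤ g'' → 1 ≤ I'' →
    1 + 100 * bandP C T e K * (I' + I'') ≤ 2 / 5 * I →
    bandΩ C T θ₀ ^ 2 * bandP C T e K * g'' ^ 2 ≤ g₁ ^ 2 →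
    0 ≤ L₁ → 0 ≤ L'' → 0 ≤ e₁ → 0 ≤ e' → 0 ≤ e'' →
    Prim d q₁ η (b * bT 1) ((b * bT 1) ^ 2 / I) gn L₁ e₁ →
    (∀ b', 0 < b' → b' ≤ 1 → Prim d q' η b' (b' ^ 2 / I') g' L' e') →
    (∀ b', 0 < b' → b' ≤ 1 → Prim d q'' η b' (b' ^ 2 / I'') g'' L'' e'') →
    Prim d (q₁ + bandP C T e K * (q' + q'')) η b (b ^ 2 / I) g
      (L₁ * (1 + C * bandΓ C T θ₀ e g₁ * L') + C * bandΩ C T θ₀ * L'')
      (e₁ * (1 + 4 * η) + C * ((L₁ + bandΩ C T θ₀ * L'') * (bandΓ C T θ₀ e g₁ *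
        (e' + (bandΓ C T θ₀ e g₁ * L') ^ K) + bandRes C p pT k d η b T θ₀ e g₁) +
        bandΩ C T θ₀ * e'' + bandRes C p pT k d η b T θ₀ e g₁))

/-- A small level: `η = d ^ (-θ)`. -/
noncomputable def etaL (θ : ℝ) (d : ℕ) : ℝ := (d : ℝ) ^ (-θ)

/-- The internal gain factor of level `n`. -/
noncomputable def gainL (θ : ℝ) (p : ℕ) (C : ℝ) (d n : ℕ) : ℝ :=
  bandΓ C (bigT p d) ((d : ℝ) ^ mu θ) ((d : ℝ) ^ (-uu θ θ)) (bandNoise θ d n)

/-- The weight of the correction of a level. -/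
noncomputable def corrL (θ : ℝ) (p : ℕ) (C : ℝ) (d : ℕ) : ℝ :=
  bandΩ C (bigT p d) ((d : ℝ) ^ mu θ)

/-- The number of nodes of a band of a level. -/
noncomputable def nodesL (θ : ℝ) (p : ℕ) (C : ℝ) (d : ℕ) : ℕ :=
  bandP C (bigT p d) ((d : ℝ) ^ (-uu θ θ)) (rounds θ)

/-- The truncation error of one level. -/
noncomputable def tailL (θ : ℝ) (p : ℕ) (C : ℝ) (d n : ℕ) : ℝ :=
  4 * etaL θ d * C * gainL θ p C d n * (gainL θ p C d n * (2 * etaL θ d)) ^ rounds θ +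
    2 * C * (d : ℝ) ^ (-20 : ℝ)

namespace Large

variable {θ C : ℝ} {p pT d : ℕ} (F : Large θ p C pT d) (hθ : 0 < θ) (hθ1 : θ ≤ 1 / 4) (hC : 1 ≤ C)
include F hθ hθ1 hC

omit hθ hθ1 hC in
theorem etaL_pos : 0 < etaL θ d := Real.rpow_pos_of_pos F.d_pos _

omit hC in
theorem etaL_le : etaL θ d ≤ 1 / 1000 := F.eta_small hθ hθ1

theorem gainL_nonneg (n : ℕ) : 0 ≤ gainL θ p C d n := by
  have := F.two_le_T
  have := (Real.rpow_pos_of_pos F.d_pos (lam θ n - θ - 2 * uu θ θ)).trans_le (F.le_bandNoise hθ hθ1 n)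
  unfold gainL bandΓ
  have := Real.rpow_nonneg F.d_pos.le (mu θ)
  positivity

theorem corrL_nonneg : 0 ≤ corrL θ p C d := by
  have := F.two_le_T
  unfold corrL bandΩ
  positivity

theorem corrL_le : C * corrL θ p C d ≤ (d : ℝ) ^ (3 * uu θ θ - mu θ) :=
  (F.mul F.C_le (F.gainO_le hθ hθ1 hC) (F.corrL_nonneg hθ hθ1 hC)).trans_eq (by ring_nf)

theorem corrL_le_one : corrL θ p C d ≤ 1 := by
  obtain ⟨hu, -, h3, -, -, h6, -⟩ := exps hθ hθ1
  exact (F.gainO_le hθ hθ1 hC).trans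
    (Real.rpow_le_one_of_one_le_of_nonpos F.one_le_d (by linarith))

theorem gain_eta (n : ℕ) :
    gainL θ p C d n * etaL θ d ≤ (d : ℝ) ^ (mu θ + 5 * uu θ θ - lam θ n) :=
  (F.mul (F.gainG_le hθ hθ1 hC (F.le_bandNoise hθ hθ1 n)) le_rfl (F.etaL_pos).le).trans_eq
    (by ring_nf)

theorem gain_lip (n : ℕ) : gainL θ p C d n * (2 * etaL θ d) ≤ (d : ℝ) ^ (-θ / 8) := by
  obtain ⟨hu, -, h3, -, h5, h6, -⟩ := exps hθ hθ1
  have := le_lam hθ n
  exact F.mono (le_of_eq_of_le (by ring) (F.mul (F.num (by norm_num : (2 : ℝ) ≤ 2000))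
    (F.gain_eta hθ hθ1 hC n) (mul_nonneg (F.gainL_nonneg hθ hθ1 hC n) (F.etaL_pos).le)))
    (by linarith)

theorem absorb_le (n : ℕ) {J : ℝ} (hJ0 : 0 ≤ J)
    (hJ : J ≤ (d : ℝ) ^ (uu θ θ + 18 / 64 * mp θ)) :
    gainL θ p C d n ^ 2 * nodesL θ p C d * ((d : ℝ) ^ (lam θ n - drop θ - θ)) ^ 2 * J ≤
      1 / 10 := by
  obtain ⟨hu, -, h3, -, h5, h6, h7⟩ := exps hθ hθ1
  have hg0 := Real.rpow_nonneg F.d_pos.le (lam θ n - drop θ - θ)
  have hG0 := F.gainL_nonneg hθ hθ1 hC n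
  have hΓg : gainL θ p C d n * (d : ℝ) ^ (lam θ n - drop θ - θ) ≤
      (d : ℝ) ^ (mu θ + 5 * uu θ θ - drop θ) :=
    (F.mul (F.gainG_le hθ hθ1 hC (F.le_bandNoise hθ hθ1 n)) le_rfl hg0).trans_eq (by ring_nf)
  have h := F.mul (F.mul (F.mul hΓg hΓg (by positivity))
    (F.bandP_le hθ hθ1 hC) (by positivity)) hJ hJ0
  refine le_trans (le_of_eq ?_) ((F.small h (by linarith)).trans (by norm_num))
  rw [nodesL]; ring

theorem ratio_le (n : ℕ) :
    etaL θ d * (d : ℝ) ^ mu θ / bandNoise θ d n ≤ (d : ℝ) ^ (-uu θ θ) := by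
  obtain ⟨hu, -, h3, -, h5, h6, -⟩ := exps hθ hθ1
  have := le_lam hθ n
  refine (div_le_div_of_nonneg_left (by have := F.etaL_pos; positivity)
    (Real.rpow_pos_of_pos F.d_pos _) (F.le_bandNoise hθ hθ1 n)).trans ?_
  rw [etaL, ← Real.rpow_add F.d_pos, ← Real.rpow_sub F.d_pos]
  exact Real.rpow_le_rpow_of_exponent_le F.one_le_d (by linarith)

theorem band_cond {n : ℕ} (hn : n ≤ depth θ) {b I I' : ℝ} (hb : 0 < b) (hb1 : b ≤ 1)
    (hI' : 1 ≤ I') (hI : I' ≤ I) (hIb : I ≤ (d : ℝ) ^ (18 / 64 * mp θ)) :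
    BandCond C d (rounds θ) (etaL θ d) b (bigT p d) ((d : ℝ) ^ mu θ) ((d : ℝ) ^ (-uu θ θ))
      (bandNoise θ d n) ((d : ℝ) ^ (lam θ n - drop θ - θ)) I I' (2 * etaL θ d) where
  d_pos := by have := F.two_le; omega
  eta_pos := F.etaL_pos
  eta_le := by linarith [F.etaL_le hθ hθ1]
  b_pos := hb
  b_le := hb1
  e_pos := Real.rpow_pos_of_pos F.d_pos _
  e_le := F.e_small hθ hθ1
  one_le_θ₀ := Real.one_le_rpow F.one_le_d (mu_pos hθ).le
  two_le_T := F.two_le_T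
  g₁_pos := (Real.rpow_pos_of_pos F.d_pos _).trans_le (F.le_bandNoise hθ hθ1 n)
  g₁_le := F.bandNoise_le_one hθ hθ1 hn
  eta_θ₀ := by
    have h := (F.ratio_le hθ hθ1 hC n).trans
      (Real.rpow_le_one_of_one_le_of_nonpos F.one_le_d (by linarith [(exps hθ hθ1).1]))
    rwa [div_le_one ((Real.rpow_pos_of_pos F.d_pos _).trans_le (F.le_bandNoise hθ hθ1 n))] at h
  L'_nonneg := by have := F.etaL_pos; positivity
  g'_nonneg := Real.rpow_nonneg F.d_pos.le _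
  one_le_I' := hI'
  contract := (F.small (F.gain_lip hθ hθ1 hC n)
    (by obtain ⟨hu, -, h3, -, h5, -, -⟩ := exps hθ hθ1; linarith)).trans (by norm_num)
  absorb := F.absorb_le hθ hθ1 hC n (by linarith) (by
    refine le_trans ?_ (F.mul (F.num (by norm_num : (2 : ℝ) ≤ 2000)) hIb (by linarith))
    linarith)

theorem corr_noise (n : ℕ) :
    corrL θ p C d ^ 2 * nodesL θ p C d * noiseL θ d n ^ 2 ≤ bandNoise θ d (n + 1) ^ 2 := by
  obtain ⟨hu, -, h3, -, h5, h6, -⟩ := exps hθ hθ1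
  have hns : noiseL θ d n ≤ (d : ℝ) ^ (lam θ (n + 1) - θ) :=
    Real.rpow_le_rpow_of_exponent_le F.one_le_d (by linarith [lam_mono hθ (Nat.le_succ n)])
  have hn0 := (noiseL_pos F.two_le n : 0 < noiseL θ d n).le
  have hΩ := F.gainO_le hθ hθ1 hC
  have hΩ0 := F.corrL_nonneg hθ hθ1 hC
  have h := F.mul (F.mul (F.mul hΩ hΩ hΩ0) (F.bandP_le hθ hθ1 hC) (by positivity))
    (F.mul hns hns hn0) (by positivity)
  have hg := F.le_bandNoise hθ hθ1 (n + 1)
  refine le_trans (le_of_eq_of_le ?_ (F.mono h (b := (lam θ (n + 1) - θ - 2 * uu θ θ) +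
    (lam θ (n + 1) - θ - 2 * uu θ θ)) (by linarith))) ?_
  · rw [corrL, nodesL]; ring
  · rw [Real.rpow_add F.d_pos, pow_two]
    exact mul_le_mul hg hg (Real.rpow_nonneg F.d_pos.le _) ((Real.rpow_nonneg F.d_pos.le _).trans hg)

theorem lip_sum (n : ℕ) : 2 * (C * (gainL θ p C d n * (2 * etaL θ d))) + 2 * (C * corrL θ p C d) ≤
    ((nBands d : ℝ) + 1)⁻¹ := by
  obtain ⟨hu, -, h3, -, h5, h6, -⟩ := exps hθ hθ1
  rw [inv_eq_one_div, le_div_iff₀ (by positivity)]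
  have := F.gainL_nonneg hθ hθ1 hC n
  have := F.etaL_pos
  have a1 := F.small (F.mul (F.mul F.C_le (F.gain_lip hθ hθ1 hC n) (by positivity)) F.bands_le
    (by positivity)) (by linarith)
  have a2 := F.small (F.mul (F.corrL_le hθ hθ1 hC) F.bands_le (by positivity)) (by linarith)
  linarith

theorem tailL_nonneg (n : ℕ) : 0 ≤ tailL θ p C d n := by
  have := F.gainL_nonneg hθ hθ1 hC n
  have := F.etaL_pos
  unfold tailL; positivity

/-- The bands of one level. -/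
theorem chain (hstep : BandAt C p pT (order θ p) d)
    (hbase : ∀ {b I g : ℝ}, 0 < b → b ≤ 1 → 1 ≤ I →
      Prim d 1 (etaL θ d) b (b ^ 2 / I) g (etaL θ d) (4 * etaL θ d * b))
    {n : ℕ} (hn : n + 1 ≤ depth θ) {q : ℕ} {I I' I'' E' E'' : ℝ} (hI' : 1 ≤ I') (hI'' : I' ≤ I'')
    (hI''I : I'' ≤ I) (hIb : I ≤ (d : ℝ) ^ (18 / 64 * mp θ))
    (hinfo : 1 + 100 * (nodesL θ p C d : ℝ) * (I' + I'') ≤ 2 / 5 * I)
    (hE' : 0 ≤ E') (hE'' : 0 ≤ E'')
    (hin : ∀ b', 0 < b' → b' ≤ 1 → Prim d q (etaL θ d) b' (b' ^ 2 / I')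
      ((d : ℝ) ^ (lam θ (n + 1) - drop θ - θ)) (2 * etaL θ d) E')
    (hout : ∀ b', 0 < b' → b' ≤ 1 → Prim d q (etaL θ d) b' (b' ^ 2 / I'') (noiseL θ d n)
      (2 * etaL θ d) E'') :
    ∀ k, k ≤ nBands d → ∀ b : ℝ, 0 < b → b ≤ 1 → b * gam k ≤ (d : ℝ) ^ (-14 : ℝ) →
      Prim d (1 + k * (nodesL θ p C d * (q + q))) (etaL θ d) b (b ^ 2 / I)
        (bandNoise θ d (n + 1) * √(2 * ((k : ℝ) + 1)))
        (etaL θ d * (1 + k / ((nBands d : ℝ) + 1)))
        (((d : ℝ) ^ (-14 : ℝ) + k * (4 * etaL θ d * C * gainL θ p C d (n + 1) * E' +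
          C * corrL θ p C d * E'' + tailL θ p C d (n + 1))) * (1 + 4 * etaL θ d) ^ k) := by
  have hη0 := F.etaL_pos
  have hη1 := F.etaL_le hθ hθ1
  have hG0 := F.gainL_nonneg hθ hθ1 hC (n + 1)
  have hS0 := F.tailL_nonneg hθ hθ1 hC (n + 1)
  have hΩ0 := F.corrL_nonneg hθ hθ1 hC
  have hΩ1 := F.corrL_le_one hθ hθ1 hC
  have hg₁low := F.le_bandNoise hθ hθ1 (n + 1)
  have hg₁0 := (Real.rpow_pos_of_pos F.d_pos _).trans_le hg₁low
  have hI1 : 1 ≤ I := hI'.trans (hI''.trans hI''I)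
  have habs := F.absorb_le hθ hθ1 hC (n + 1) (J := I'') (by linarith)
    (F.mono (hI''I.trans hIb) (by linarith [(exps hθ hθ1).1]))
  have hgap : 4 * etaL θ d ≤ 1 := by linarith
  intro k
  induction k with
  | zero =>
    intro _ b hb hb1 hbs
    refine (hbase hb hb1 hI1).mono (by simp) (by simp) ?_
    simp only [gam, pow_zero, mul_one] at hbs
    simp only [Nat.cast_zero, zero_mul, add_zero, pow_zero, mul_one]
    exact (mul_le_mul hgap hbs hb.le zero_le_one).trans_eq (one_mul _)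
  | succ k ihk =>
    intro hk b hb hb1 hbs
    have hk0 : k ≤ nBands d := by omega
    have hZ0 : 0 ≤ 4 * etaL θ d * C * gainL θ p C d (n + 1) * E' + C * corrL θ p C d * E'' +
        tailL θ p C d (n + 1) := by positivity
    rcases le_or_gt b ((d : ℝ) ^ (-14 : ℝ)) with hbase' | hbig
    · refine (hbase hb hb1 hI1).mono (Nat.le_add_right _ _)
        (le_mul_of_one_le_right hη0.le (le_add_of_nonneg_right (by positivity))) ?_
      refine ((mul_le_mul hgap hbase' hb.le zero_le_one).trans_eq (one_mul _)).trans ?_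
      exact le_trans (le_add_of_nonneg_right (by positivity))
        (le_mul_of_one_le_right (by positivity) (one_le_pow₀ (by linarith)))
    have hβ := bT_pos one_pos
    have hprev := ihk hk0 (b * bT 1) (mul_pos hb hβ)
      (mul_le_one₀ hb1 hβ.le (bT_lt_one one_pos).le) (by rwa [mul_assoc, ← gam_succ])
    have hkM : (k : ℝ) / ((nBands d : ℝ) + 1) ≤ 1 := by
      rw [div_le_one (by positivity)]; linarith [(Nat.cast_le (α := ℝ)).2 hk0]
    have hR : bandRes C p pT (order θ p) d (etaL θ d) b (bigT p d) ((d : ℝ) ^ mu θ)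
        ((d : ℝ) ^ (-uu θ θ)) (bandNoise θ d (n + 1)) ≤ (d : ℝ) ^ (-20 : ℝ) :=
      F.bandRes_le hθ hθ1 hC
        ((Real.rpow_le_rpow_of_exponent_le F.one_le_d (by norm_num)).trans hbig.le)
        ((Real.rpow_le_rpow_of_exponent_le F.one_le_d
          (by linarith [le_lam hθ (n + 1), (exps hθ hθ1).2.2.1, (exps hθ hθ1).2.2.2.2.1])).trans
            hg₁low) (F.ratio_le hθ hθ1 hC (n + 1))
    have hR0 : 0 ≤ bandRes C p pT (order θ p) d (etaL θ d) b (bigT p d) ((d : ℝ) ^ mu θ)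
        ((d : ℝ) ^ (-uu θ θ)) (bandNoise θ d (n + 1)) := by
      have := F.two_le_T
      unfold bandRes; positivity
    have hstep' := hstep (rounds θ) _ q q (etaL θ d) b (bigT p d) ((d : ℝ) ^ mu θ)
      ((d : ℝ) ^ (-uu θ θ)) (bandNoise θ d (n + 1))
      (bandNoise θ d (n + 1) * √(2 * (((k + 1 : ℕ) : ℝ) + 1))) _ _ _ I I' I'' _
      (2 * etaL θ d) (2 * etaL θ d) _ E' E''
      (F.band_cond hθ hθ1 hC hn hb hb1 hI' (hI''.trans hI''I) hIb) habs (by positivity)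
      (by
        rw [mul_pow, mul_pow, Real.sq_sqrt (by positivity), Real.sq_sqrt (by positivity)]
        push_cast; ring)
      (by positivity) (noiseL_pos F.two_le n).le (hI'.trans hI'') hinfo
      (F.corr_noise hθ hθ1 hC n)
      (by positivity) (by positivity) (by positivity) hE' hE'' hprev hin hout
    refine hstep'.mono (by rw [Nat.succ_mul, nodesL]; omega) ?_ ?_
    · have hL : etaL θ d * (1 + k / ((nBands d : ℝ) + 1)) ≤ 2 * etaL θ d :=
        (mul_le_mul_of_nonneg_left (by linarith : _ ≤ (2 : ℝ)) hη0.le).trans_eq (mul_comm _ _)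
      have e1 := mul_le_mul_of_nonneg_right hL
        (by positivity : 0 ≤ C * (gainL θ p C d (n + 1) * (2 * etaL θ d)))
      have e2 := mul_le_mul_of_nonneg_left (F.lip_sum hθ hθ1 hC (n + 1)) hη0.le
      simp only [gainL, corrL] at e1 e2 ⊢
      push_cast
      rw [add_div, one_div]
      linarith
    · have hL : etaL θ d * (1 + k / ((nBands d : ℝ) + 1)) + corrL θ p C d * (2 * etaL θ d) ≤
          4 * etaL θ d := by
        have := mul_le_mul_of_nonneg_right hΩ1 (by positivity : 0 ≤ 2 * etaL θ d)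
        have := mul_le_mul_of_nonneg_left hkM hη0.le
        linarith
      have h2 := mul_le_mul (by linarith : 1 + 4 * etaL θ d ≤ 2) hR hR0 zero_le_two
      have h1 := mul_le_mul_of_nonneg_right hL (add_nonneg (by positivity :
        0 ≤ gainL θ p C d (n + 1) * (E' + (gainL θ p C d (n + 1) * (2 * etaL θ d)) ^ rounds θ)) hR0)
      have h3 := mul_le_mul_of_nonneg_left (add_le_add_right h1
        (corrL θ p C d * E'' + bandRes C p pT (order θ p) d (etaL θ d) b (bigT p d)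
          ((d : ℝ) ^ mu θ) ((d : ℝ) ^ (-uu θ θ)) (bandNoise θ d (n + 1))))
        (by linarith : (0 : ℝ) ≤ C)
      have h4 := mul_le_mul_of_nonneg_left h2 (by linarith : (0 : ℝ) ≤ C)
      have h5 := le_mul_of_one_le_right hZ0
        (one_le_pow₀ (n := k + 1) (by linarith : (1 : ℝ) ≤ 1 + 4 * etaL θ d))
      simp only [tailL, gainL, corrL] at h1 h3 h4 h5 ⊢
      push_cast
      rw [pow_succ] at h5 ⊢
      linarith

/-- The error of a level in the form of the schedule. -/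
theorem level_err {n : ℕ} {E' E'' : ℝ} (hE' : 0 ≤ E') (hE'' : 0 ≤ E'') :
    2 * nBands d * (4 * etaL θ d * C * gainL θ p C d n * E' + C * corrL θ p C d * E'' +
        tailL θ p C d n) + 2 * (d : ℝ) ^ (-14 : ℝ) ≤
      (d : ℝ) ^ (-mp θ) * E'' + (d : ℝ) ^ (-((lvJ θ : ℝ) * mp θ)) * E' +
        1 * (d : ℝ) ^ (-(mp θ * depth θ)) := by
  obtain ⟨hu, -, h3, -, h5, h6, -⟩ := exps hθ hθ1
  have hlam := le_lam hθ n
  have hη0 := F.etaL_pos
  have hG0 := F.gainL_nonneg hθ hθ1 hC n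
  have hΩ0 := F.corrL_nonneg hθ hθ1 hC
  have hJ : (lvJ θ : ℝ) * mp θ = θ / 16 := lvJ_mul_mp hθ
  have hkb : (nBands d : ℝ) ≤ (d : ℝ) ^ uu θ θ := le_trans (by simp) F.bands_le
  have h2b := F.mul (F.num (by norm_num : (2 : ℝ) ≤ 2000)) hkb (Nat.cast_nonneg _)
  have h4c := F.mul (F.mul (F.num (by norm_num : (4 : ℝ) ≤ 2000)) F.C_le (by linarith))
    (F.gain_eta hθ hθ1 hC n) (by positivity)
  have g1 : 2 * nBands d * (C * corrL θ p C d) ≤ (d : ℝ) ^ (-mp θ) :=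
    F.mono (F.mul h2b (F.corrL_le hθ hθ1 hC) (by positivity)) (by linarith)
  have g2 : 2 * nBands d * (4 * etaL θ d * C * gainL θ p C d n) ≤
      (d : ℝ) ^ (-((lvJ θ : ℝ) * mp θ)) :=
    F.mono (F.mul h2b (le_of_eq_of_le (by ring) h4c) (by positivity)) (by linarith)
  have hKp : (gainL θ p C d n * (2 * etaL θ d)) ^ rounds θ ≤ (d : ℝ) ^ (-37 : ℝ) := by
    refine (pow_le_pow_left₀ (by positivity) (F.gain_lip hθ hθ1 hC n) _).trans ?_
    rw [← Real.rpow_natCast, ← Real.rpow_mul F.d_pos.le]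
    refine Real.rpow_le_rpow_of_exponent_le F.one_le_d ?_
    have := (div_le_iff₀ hθ).1 (Nat.le_ceil (300 / θ))
    rw [rounds]; linarith
  have s1 : 4 * etaL θ d * C * gainL θ p C d n *
      (gainL θ p C d n * (2 * etaL θ d)) ^ rounds θ ≤ (d : ℝ) ^ (-10 : ℝ) :=
    F.mono (le_of_eq_of_le (by ring) (F.mul h4c hKp (by positivity))) (by linarith)
  have s2 : 2 * C * (d : ℝ) ^ (-20 : ℝ) ≤ (d : ℝ) ^ (-10 : ℝ) :=
    F.mono (F.mul (F.mul (F.num (by norm_num : (2 : ℝ) ≤ 2000)) F.C_le (by linarith))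
      le_rfl (Real.rpow_nonneg F.d_pos.le _)) (by linarith)
  have hS2 : tailL θ p C d n ≤ (d : ℝ) ^ (uu θ θ + -10) :=
    le_trans (by rw [tailL]; linarith) (F.mul (F.num (by norm_num : (2 : ℝ) ≤ 2000))
      (le_refl ((d : ℝ) ^ (-10 : ℝ))) (Real.rpow_nonneg F.d_pos.le _))
  have s3 : 2 * nBands d * tailL θ p C d n ≤ (d : ℝ) ^ (-7 : ℝ) :=
    F.mono (F.mul h2b hS2 (F.tailL_nonneg hθ hθ1 hC n)) (by linarith)
  have s4 : 3 * (d : ℝ) ^ (-7 : ℝ) ≤ (d : ℝ) ^ (-(mp θ * depth θ)) :=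
    F.mono (F.mul (F.num (by norm_num : (3 : ℝ) ≤ 2000)) le_rfl
      (Real.rpow_nonneg F.d_pos.le _)) (by linarith [lvJ_le_depth_bound hθ (by linarith)])
  have s5 : (d : ℝ) ^ (-14 : ℝ) ≤ (d : ℝ) ^ (-7 : ℝ) :=
    Real.rpow_le_rpow_of_exponent_le F.one_le_d (by norm_num)
  have a1 := mul_le_mul_of_nonneg_right g1 hE''
  have a2 := mul_le_mul_of_nonneg_right g2 hE'
  linarith

/-- All levels. -/
theorem levels (hstep : BandAt C p pT (order θ p) d) :
    ∀ n, n ≤ depth θ → ∀ b : ℝ, 0 < b → b ≤ 1 →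
      Prim d (blockN θ p C d ^ (n + 1)) (etaL θ d) b (b ^ 2 / (blockN θ p C d : ℝ) ^ (n + 1))
        (noiseL θ d n) (2 * etaL θ d) (errB θ 3 1 d n) := by
  have hη0 := F.etaL_pos
  have hη1 := F.etaL_le hθ hθ1
  have hN := F.one_le_blockN hθ hθ1 hC
  have hN1 : (1 : ℝ) ≤ blockN θ p C d := by exact_mod_cast hN
  have hd1 : 1 ≤ d := by have := F.two_le; omega
  have hbase : ∀ {b I g : ℝ}, 0 < b → b ≤ 1 → 1 ≤ I →
      Prim d 1 (etaL θ d) b (b ^ 2 / I) g (etaL θ d) (4 * etaL θ d * b) := by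
    intro b I g hb hb1 hI
    refine (prim_base hb hb1).mono le_rfl le_rfl ?_
    have h : √(b ^ 2 / I) ≤ b := Real.sqrt_le_iff.2 ⟨hb.le, div_le_self (sq_nonneg b) hI⟩
    have := mul_le_mul_of_nonneg_left (add_le_add_right h b) (by linarith : 0 ≤ 2 * etaL θ d)
    linarith
  have hlvl0 : ∀ {b g I : ℝ}, 0 < b → b ≤ 1 → 1 ≤ I → ∀ {q : ℕ}, 1 ≤ q →
      Prim d q (etaL θ d) b (b ^ 2 / I) g (2 * etaL θ d) (errB θ 3 1 d 0) := by
    intro b g I hb hb1 hI q hq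
    refine (hbase hb hb1 hI).mono hq (by linarith) ?_
    rw [errB_zero]
    nlinarith
  intro n
  induction n using Nat.strong_induction_on with
  | _ n ih =>
    intro hn
    obtain _ | n := n
    · intro b hb hb1
      exact hlvl0 hb hb1 (one_le_pow₀ hN1) (Nat.one_le_pow _ _ hN)
    intro b hb hb1
    have hJ0 := lvJ_pos hθ
    have hIn : (1 : ℝ) ≤ (blockN θ p C d : ℝ) ^ (n + 1) := one_le_pow₀ hN1
    have hImn : (blockN θ p C d : ℝ) ^ (n + 1 - lvJ θ + 1) ≤ (blockN θ p C d : ℝ) ^ (n + 1) :=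
      pow_le_pow_right₀ hN1 (by omega)
    have hin : ∀ b', 0 < b' → b' ≤ 1 → Prim d (blockN θ p C d ^ (n + 1)) (etaL θ d) b'
        (b' ^ 2 / (blockN θ p C d : ℝ) ^ (n + 1 - lvJ θ + 1))
        ((d : ℝ) ^ (lam θ (n + 1) - drop θ - θ)) (2 * etaL θ d)
        (errB θ 3 1 d (n + 1 - lvJ θ)) := by
      intro b' hb' hb1'
      by_cases hJ : lvJ θ ≤ n + 1
      · refine (((ih (n + 1 - lvJ θ) (by omega) (by omega)) b' hb' hb1').congr rfl ?_).mono
          (Nat.pow_le_pow_right hN (by omega)) le_rfl le_rfl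
        rw [noiseL, lam_sub hθ hJ]
      · rw [show n + 1 - lvJ θ = 0 by omega]
        exact hlvl0 hb' hb1' (one_le_pow₀ hN1) (Nat.one_le_pow _ _ hN)
    have hP := F.one_le_bandP hθ hθ1 hC
    have hNdef : blockN θ p C d = 1000 * (nBands d + 1) * nodesL θ p C d := rfl
    have hinfo : 1 + 100 * (nodesL θ p C d : ℝ) *
        ((blockN θ p C d : ℝ) ^ (n + 1 - lvJ θ + 1) + (blockN θ p C d : ℝ) ^ (n + 1)) ≤
          2 / 5 * (blockN θ p C d : ℝ) ^ (n + 1 + 1) := by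
      have hP' : (1 : ℝ) ≤ nodesL θ p C d := by exact_mod_cast hP
      have h1 := one_le_mul_of_one_le_of_one_le hP' hIn
      have h2 := mul_le_mul_of_nonneg_left hImn (by linarith : (0 : ℝ) ≤ nodesL θ p C d)
      have h3 := le_mul_of_one_le_left
        (by linarith : (0 : ℝ) ≤ (nodesL θ p C d : ℝ) * (blockN θ p C d : ℝ) ^ (n + 1))
        (le_add_of_nonneg_left (Nat.cast_nonneg (nBands d)) : (1 : ℝ) ≤ (nBands d : ℝ) + 1)
      rw [pow_succ' _ (n + 1), congrArg (Nat.cast (R := ℝ)) hNdef] at *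
      push_cast at *
      linarith
    have htop := F.chain hθ hθ1 hC hstep hbase hn (one_le_pow₀ hN1) hImn
      (pow_le_pow_right₀ hN1 (by omega)) (F.blockN_pow_le hθ hθ1 hC (by omega)) hinfo
      (errB_nonneg (by norm_num) zero_le_one d _) (errB_nonneg (by norm_num) zero_le_one d _)
      hin (ih n (by omega) (by omega)) (nBands d) le_rfl b hb hb1
      ((mul_le_of_le_one_left (gam_pos _).le hb1).trans (gam_nBands_le hd1))
    refine (htop.congr rfl ?_).mono ?_ ?_ ?_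
    · rw [bandNoise, div_mul_cancel₀]
      positivity
    · have h2 := Nat.one_le_pow (n + 1) _ hN
      have h1 : 1 ≤ nodesL θ p C d * blockN θ p C d ^ (n + 1) := Nat.mul_pos hP h2
      rw [pow_succ' (blockN θ p C d) (n + 1), hNdef] at *
      nlinarith
    · have : (nBands d : ℝ) / ((nBands d : ℝ) + 1) ≤ 1 := by
        rw [div_le_one (by positivity)]; linarith
      exact (mul_le_mul_of_nonneg_left (by linarith : _ ≤ (2 : ℝ)) hη0.le).trans_eq (mul_comm _ _)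
    · have hpow2 : (1 + 4 * etaL θ d) ^ nBands d ≤ 2 := by
        refine one_add_pow_le_two (by positivity) ?_
        have := F.small (F.mul (le_refl (etaL θ d)) F.bands_le (by positivity))
          (by obtain ⟨hu, -, h3, -, h5, -, -⟩ := exps hθ hθ1; linarith)
        linarith
      have hX := F.tailL_nonneg hθ hθ1 hC (n + 1)
      have hG0 := F.gainL_nonneg hθ hθ1 hC (n + 1)
      have hΩ0 := F.corrL_nonneg hθ hθ1 hC
      have hEn : 0 ≤ errB θ 3 1 d n := errB_nonneg (by norm_num) zero_le_one d n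
      have hEm : 0 ≤ errB θ 3 1 d (n + 1 - lvJ θ) := errB_nonneg (by norm_num) zero_le_one d _
      refine (mul_le_mul_of_nonneg_left hpow2 (by positivity)).trans ?_
      have h1 := F.level_err hθ hθ1 hC (n := n + 1) hEm hEn
      have h2 := errB_step hθ (c := 1) zero_le_one (by norm_num : (1 : ℝ) ≤ 3) (by norm_num)
        zero_le_one hd1 hn (le_refl (1 * (d : ℝ) ^ (-(mp θ * depth θ))))
      linarith

end Large

/-- The primitive at the last level. -/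
theorem prim_top (hB : BandStep) {θ : ℝ} (hθ : 0 < θ) (hθ1 : θ ≤ 1 / 4) :
    ∀ᶠ d : ℕ in atTop, ∃ (q : ℕ) (I : ℝ), 1 ≤ I ∧ I ≤ (d : ℝ) ^ (mp θ / 3) ∧
      (q : ℝ) ≤ (d : ℝ) ^ (mp θ / 3) ∧ ∀ b : ℝ, 0 < b → b ≤ 1 →
        Prim d q ((d : ℝ) ^ (-θ)) b (b ^ 2 / I) ((d : ℝ) ^ (lam θ (depth θ) - θ))
          (2 * (d : ℝ) ^ (-θ)) ((d : ℝ) ^ (-4 : ℝ)) := by
  obtain ⟨p, hp⟩ := hB
  obtain ⟨C, pT, hC, hstep⟩ := hp (order θ p)
  filter_upwards [eventually_large hθ p C pT] with d F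
  obtain ⟨hu, -, h3, -, h5, -, -⟩ := Large.exps hθ hθ1
  have hmp := mp_pos hθ
  have hN1 : (1 : ℝ) ≤ blockN θ p C d := by exact_mod_cast F.one_le_blockN hθ hθ1 hC
  have hb : (blockN θ p C d : ℝ) ^ (depth θ + 1) ≤ (d : ℝ) ^ (mp θ / 3) :=
    F.mono (F.blockN_pow_le hθ hθ1 hC le_rfl) (by linarith)
  refine ⟨blockN θ p C d ^ (depth θ + 1), (blockN θ p C d : ℝ) ^ (depth θ + 1), one_le_pow₀ hN1,
    hb, (Nat.cast_pow _ _).trans_le hb, fun b hb0 hb1 => ?_⟩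
  refine (F.levels hθ hθ1 hC (hstep d) (depth θ) le_rfl b hb0 hb1).mono le_rfl le_rfl
    ((errB_depth hθ (by norm_num) zero_le_one (by have := F.two_le; omega)).trans ?_)
  rw [mul_one]
  exact F.mono (F.mul F.pow_le le_rfl (Real.rpow_nonneg F.d_pos.le _)) (by linarith)

end Vale.Agent.P347.Zero
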