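import Vale.Agent.P347.Zero.Seeded

/-!
# P347, exponent zero: one band of the sampler

The rounds of the band program, read out at the point `i₀`: the output is a draw around
`m + b e^{-1} Y_{i₀}` of variance `(b bT 1)² / I`, which is fed to the next sampler.
-/

open MeasureTheory ProbabilityTheory Real Function
open scoped RealInnerProductSpace NNReal

namespace Vale.Agent.P347.Zero

variable {d : ℕ}

theorem Samp.mono {q q' j : ℕ} {η b I L L' e e' : ℝ} (h : Samp d q η b j I L e) (hq : q ≤ q')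
    (hL : L ≤ L') (he : e ≤ e') : Samp d q' η b j I L' e' := by
  obtain ⟨Ω, i1, i2, i3, P, F, hP, hF, h⟩ := h
  exact ⟨Ω, i1, i2, i3, P, F, hP, hF.mono hq, fun B W hW => ⟨fun ω x y =>
    ((h B W hW).1 ω x y).trans (mul_le_mul_of_nonneg_right hL (norm_nonneg _)), fun m f hf hM =>
    ((h B W hW).2 m f hf hM).trans (mul_le_mul_of_nonneg_right he (wt_nonneg W m))⟩⟩

/-- A primitive as the estimator of a node of the sampler. -/
theorem exists_est_point {q : ℕ} {η b V g L e : ℝ} (hb : 0 < b) (hb1 : b ≤ 1) (hL : 0 ≤ L)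
    (h : Prim d q η b V g L e) :
    ∃ es : Est d, es.q = q ∧ ∀ (B : ℝ) (W : E d → ℝ), Pert η B W →
      es.Spec (oracleOf (pot W)) √V g (aOf W b) ⟨L, hL⟩ (fun m => e * wt W m) := by
  obtain ⟨Ω, i1, i2, i3, P, F, hP, hF, h⟩ := h
  refine ⟨{ Seed := Ω, P := P, q := q, F := F, qc := hF }, rfl, fun B W hW => ?_⟩
  obtain ⟨hl, hd⟩ := h B W hW
  refine ⟨(continuous_aOf hW hb hb1).measurable, ?_, hl, fun m f hf hM => ?_⟩
  · exact ((continuous_const.add hW.contDiff_grad.continuous.norm).const_smul e).measurable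
  · have hh := hd m f hf hM
    have hm : Measurable fun p : E d × Ω => (m + √V • p.1, p.2) := by fun_prop
    rw [drawLaw, integral_map (f := fun p => f (F (oracleOf (pot W)) p)) hm.aemeasurable
      (hf.continuous.measurable.comp (hF.measurable hW.measurable_oracle)).aestronglyMeasurable] at hh
    exact hh

/-- the variances of the roots of the sampler's program -/
noncomputable def sampV (G : Geo) (b : ℝ) (K : ℕ) (I I' : ℝ) (k : ℕ) : ℝ :=
  bandV G b K I I' I' (if k = K * G.n then (K + 1) * G.n else k)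

/-- the program of one band of the sampler -/
noncomputable def sampProg (G : Geo) (b : ℝ) (K : ℕ) (eR : Fin G.n → Est d) (I I' g' : ℝ) :
    Prog d (E d × E d) where
  n := K * G.n
  est k := eR (pointOf G K k).2
  bias k := ptBias G b (pointOf G K k).2
  coef := bandCoef G b K
  var j := (((K * G.n : ℕ) : ℝ) - ((j - 1 : ℕ) : ℝ)) * g' ^ 2
  fill k := √(bandT G b K I I' I' k ^ 2 - (bandCoef G b K k 0 ^ 2 * sampV G b K I I' k +
    ∑ j ∈ Finset.range k, bandCoef G b K k (j + 1) ^ 2 *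
      ((((K * G.n : ℕ) : ℝ) - (j : ℝ)) * g' ^ 2)))
  outBias := ptBias G b G.i₀
  outCoef := ptCoef G b K G.i₀
  outFill := √((b * bT 1 / √I) ^ 2 - (ptCoef G b K G.i₀ 0 ^ 2 * sampV G b K I I' (K * G.n) +
    ∑ j ∈ Finset.range (K * G.n), ptCoef G b K G.i₀ (j + 1) ^ 2 *
      ((((K * G.n : ℕ) : ℝ) - (j : ℝ)) * g' ^ 2)))

theorem meas_sampProg (G : Geo) (b : ℝ) (K : ℕ) (eR : Fin G.n → Est d) (I I' g' : ℝ) :
    (sampProg G b K eR I I' g').Meas :=
  ⟨fun k _ => by show Measurable (ptBias G b _); unfold ptBias; fun_prop,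
    by show Measurable (ptBias G b _); unfold ptBias; fun_prop⟩

section budget

variable {G : Geo} {b Γ Ωo : ℝ} {K : ℕ} {I I' g' : ℝ}

theorem sampV_of_lt {k : ℕ} (hk : k < K * G.n) :
    sampV G b K I I' k = b ^ 2 / (100 * I') := by
  have h : k ≠ (K + 1) * G.n := by rw [Nat.succ_mul]; omega
  simp [sampV, bandV, hk.ne, h, hk]

theorem sampV_last : sampV G b K I I' (K * G.n) = bandV G b K I I' I' ((K + 1) * G.n) := by
  simp [sampV]

/-- the registers of the sampler are smaller than those of the band -/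
theorem sum_var_le {k m : ℕ} (hkm : k ≤ m) (hk : k ≤ K * G.n) (hm : m ≤ bandN G K)
    (c : ℕ → ℝ) :
    ∑ j ∈ Finset.range k, c j ^ 2 * ((((K * G.n : ℕ) : ℝ) - (j : ℝ)) * g' ^ 2) ≤
      ∑ j ∈ Finset.range m, c j ^ 2 * bandVar G K g' g' g' (j + 1) := by
  refine le_trans (Finset.sum_le_sum fun j hj => ?_)
    (Finset.sum_le_sum_of_subset_of_nonneg (Finset.range_subset_range.2 hkm) fun j hj _ =>
      mul_nonneg (sq_nonneg _) (bandVar_succ_nonneg ((Finset.mem_range.1 hj).trans_le hm)))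
  have hj' : j < K * G.n := (Finset.mem_range.1 hj).trans_le hk
  refine mul_le_mul_of_nonneg_left ?_ (sq_nonneg _)
  simp only [bandVar, bandG, byKind, hj', if_true]
  refine mul_le_mul_of_nonneg_right (sub_le_sub_right (Nat.cast_le.2 ?_) _) (sq_nonneg _)
  rw [bandN, Nat.succ_mul]
  omega

theorem budget_sampProg (eR : Fin G.n → Est d) (hG : G.Sized (Γ / b) Ωo) (hb : 0 < b) (hI : 0 < I)
    (hI' : 0 < I') (hg : 0 ≤ g') (h1 : Γ ^ 2 * bandN G K * g' ^ 2 * I ≤ 1 / 10)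
    (h2 : Γ ^ 2 * bandN G K * g' ^ 2 * I' ≤ 1 / 10) :
    (sampProg G b K eR I I' g').Budget (sampV G b K I I') (bandT G b K I I' I') (fun _ => g')
      (b * bT 1 / √I) := by
  have hβ := bT_pos one_pos
  have hn := n_pos G
  refine ⟨fun k _ => (bandV_pos hb hI hI' hI' _).le, fun k _ => bandT_pos hG hb hI hI' hI' k,
    fun _ _ => hg, by positivity, fun k _ => by simp [sampProg], fun k hk => ?_, ?_⟩
  · have hk' : k < K * G.n := hk
    have hkN : k < bandN G K := by rw [bandN, Nat.succ_mul]; omega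
    have hu := node_used_le (gn := g') (g'' := g') hG hb hI hI' hI' h1 h2 h2 hkN
    have e : bandV G b K I I' I' k = sampV G b K I I' k := by
      simp [sampV, hk'.ne]
    simp only [sampProg, Nat.add_sub_cancel]
    rw [Fin.sum_univ_eq_sum_range fun j => bandCoef G b K k (j + 1) ^ 2 *
      ((((K * G.n : ℕ) : ℝ) - (j : ℝ)) * g' ^ 2), Real.sq_sqrt]
    · ring
    · rw [e] at hu
      have := sum_var_le (G := G) (K := K) (g' := g') le_rfl hk'.le hkN.le
        fun j => bandCoef G b K k (j + 1)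
      linarith
  · have hkN : (K + 1) * G.n < bandN G K := by rw [bandN]; omega
    have hu := node_used_le (gn := g') (g'' := g') hG hb hI hI' hI' h1 h2 h2 hkN
    have eT : bandT G b K I I' I' ((K + 1) * G.n) ^ 2 = (b * bT 1 / √I) ^ 2 := by
      have hnl := next_not_lt G K
      rw [bandT, Real.sq_sqrt]
      · simp [byKind, hnl, pointOf_next, hG.tm_i₀, div_pow, Real.sq_sqrt hI.le]
      · exact div_nonneg (sq_nonneg _) (by simp [byKind, hnl, hI.le])
    simp only [bandCoef, pointOf_next, eT] at hu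
    rw [← sampV_last (G := G) (b := b) (I := I) (I' := I')] at hu
    show ptCoef G b K G.i₀ 0 ^ 2 * sampV G b K I I' (K * G.n) +
      ∑ j : Fin (K * G.n), ptCoef G b K G.i₀ ((j : ℕ) + 1) ^ 2 *
        ((((K * G.n : ℕ) : ℝ) - (((j : ℕ) + 1 - 1 : ℕ) : ℝ)) * g' ^ 2) +
      √((b * bT 1 / √I) ^ 2 - (ptCoef G b K G.i₀ 0 ^ 2 * sampV G b K I I' (K * G.n) +
        ∑ j ∈ Finset.range (K * G.n), ptCoef G b K G.i₀ (j + 1) ^ 2 *
          ((((K * G.n : ℕ) : ℝ) - (j : ℝ)) * g' ^ 2))) ^ 2 = (b * bT 1 / √I) ^ 2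
    simp only [Nat.add_sub_cancel]
    rw [Fin.sum_univ_eq_sum_range fun j => ptCoef G b K G.i₀ (j + 1) ^ 2 *
      ((((K * G.n : ℕ) : ℝ) - (j : ℝ)) * g' ^ 2), Real.sq_sqrt]
    · ring
    · have := sum_var_le (G := G) (K := K) (g' := g')
        (Nat.mul_le_mul_right G.n (Nat.le_succ K)) le_rfl hkN.le
        fun j => ptCoef G b K G.i₀ (j + 1)
      linarith

theorem split_sampProg (hb : 0 < b) (hI : 0 < I) (hI' : 0 < I')
    (h : 1 + 100 * (bandN G K : ℝ) * I' ≤ 2 / 5 * I) :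
    b ^ 2 / I / b ^ 2 +
      ∑ k ∈ Finset.range (K * G.n + 1), b ^ 2 / I / sampV G b K I I' k ≤ 1 := by
  have hβ := bT_one_sq_ge
  have hβ0 := bT_pos one_pos
  obtain ⟨hc1, hc2⟩ := exp_neg_one_bounds
  have hs : 0 < 1 - exp (-1) := by linarith
  rw [Finset.sum_range_succ, Finset.sum_congr rfl fun k hk => by
    rw [sampV_of_lt (Finset.mem_range.1 hk)], Finset.sum_const, Finset.card_range, nsmul_eq_mul,
    sampV_last]
  have h2 : b ^ 2 / I / bandV G b K I I' I' ((K + 1) * G.n) ≤ 3 / 5 := by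
    rw [bandV, if_pos rfl]
    field_simp
    nlinarith
  have hN : ((K * G.n : ℕ) : ℝ) ≤ bandN G K := by
    rw [bandN, Nat.succ_mul]; exact Nat.cast_le.2 (by omega)
  have h3 : b ^ 2 / I / b ^ 2 + ((K * G.n : ℕ) : ℝ) * (b ^ 2 / I / (b ^ 2 / (100 * I'))) ≤ 2 / 5 := by
    rw [show b ^ 2 / I / b ^ 2 + ((K * G.n : ℕ) : ℝ) * (b ^ 2 / I / (b ^ 2 / (100 * I'))) =
      (1 + 100 * ((K * G.n : ℕ) : ℝ) * I') / I by field_simp]
    refine (div_le_iff₀ hI).2 (le_trans ?_ h)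
    nlinarith
  linarith

end budget

theorem map_bandSeed {η B : ℝ} {W : E d → ℝ} (hW : Pert η B W) (m : E d) {b : ℝ} (hb : 0 < b)
    (hb1 : b ≤ 1) : (rootLaw (shiftW W m b)).map (bandSeed m b) = seedLaw m b := by
  have := (shift_pert_one hW m hb hb1).isProbabilityMeasure_law
  have h := (((MeasurePreserving.mk (f := fun z : E d => m + b • z) (μa := stdGaussian (E d))
      (by fun_prop) rfl).comp (measurePreserving_snd (μ := law (shiftW W m b))
      (ν := stdGaussian (E d)))).prod (MeasurePreserving.id (stdGaussian (E d))))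
  exact h.map_eq

/-- the error bound of a centre from those of the registers -/
theorem centre_err_le {G : Geo} {b Γ Ωo R L' q e' w : ℝ} (hG : G.Sized (Γ / b) Ωo) (hb : 0 < b)
    (hb1 : b ≤ 1) (hΓ : 0 ≤ Γ) (hR : 0 ≤ R) (hL : 0 ≤ L') (hq : Γ * L' = q) (hq1 : q ≤ 1 / 2)
    (he : 0 ≤ e') (hw : 0 ≤ w) {r k : ℕ} (i : Fin G.n) (hk : r * G.n ≤ k) (E : ℕ → ℝ)
    (hE : ∀ i' : Fin G.n, r ≠ 0 →
      E ((r - 1) * G.n + i') ≤ L' * roundBd R Γ q e' w (r - 1) + 2 * e' * w) :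
    (R + if r = 0 then 3 * Γ * w else 0) +
      ∑ j ∈ Finset.range k, |ptCoef G b r i (j + 1)| * E j ≤ roundBd R Γ q e' w r := by
  rw [sum_ptCoef G b i hk (fun j c => |c| * E j) (by simp)]
  have hq0 : 0 ≤ q := hq ▸ mul_nonneg hΓ hL
  rcases r with _ | r
  · simp only [if_true, add_zero]
    exact roundBd_zero hR hΓ he hw
  simp only [Nat.succ_ne_zero, if_false, add_zero, Nat.add_sub_cancel]
  refine le_trans (add_le_add le_rfl ?_) (roundBd_step hR hΓ hq hq1 he hw r)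
  have hX : 0 ≤ L' * roundBd R Γ q e' w r + 2 * e' * w :=
    add_nonneg (mul_nonneg hL (roundBd_nonneg hR hΓ hq0 he hw r)) (by positivity)
  refine (Finset.sum_le_sum fun i' _ => mul_le_mul_of_nonneg_left
    (by simpa using hE i' (Nat.succ_ne_zero r)) (abs_nonneg _)).trans ?_
  rw [← Finset.sum_mul]
  refine mul_le_mul_of_nonneg_right ((sum_abs_ptReg_le hG hb i).trans ?_) hX
  exact mul_le_of_le_one_left hΓ (mul_le_one₀ hb1 (exp_pos _).le (exp_neg_le_one (hG.one_le_tm i)))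

/-- the estimators of the points -/
def SampEsts (G : Geo) (d q' : ℕ) (η b g' I' L' e' : ℝ) (hL' : 0 ≤ L') (eR : Fin G.n → Est d) : Prop :=
  (∀ i, (eR i).q = q') ∧ ∀ (i : Fin G.n) (B : ℝ) (W : E d → ℝ), Pert η B W →
    (eR i).Spec (oracleOf (pot W)) √((b * bT (G.tm i)) ^ 2 / I') g' (aPt W G b i) ⟨L', hL'⟩
      (fun m => e' * wt W m)

theorem exists_sampEsts {G : Geo} {q' : ℕ} {η b g' I' L' e' Γ Ωo : ℝ} (hb : 0 < b) (hb1 : b ≤ 1)
    (hG : G.Sized Γ Ωo) (hL' : 0 ≤ L')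
    (hP : ∀ b', 0 < b' → b' ≤ 1 → Prim d q' η b' (b' ^ 2 / I') g' L' e') :
    ∃ eR, SampEsts G d q' η b g' I' L' e' hL' eR := by
  have hbt : ∀ i, 0 < b * bT (G.tm i) ∧ b * bT (G.tm i) ≤ 1 := fun i =>
    have h := one_pos.trans_le (hG.one_le_tm i)
    ⟨mul_pos hb (bT_pos h), mul_le_one₀ hb1 (bT_pos h).le (bT_lt_one h).le⟩
  choose eR heq hspec using fun i =>
    exists_est_point (hbt i).1 (hbt i).2 hL' (hP _ (hbt i).1 (hbt i).2)
  exact ⟨eR, heq, hspec⟩

section point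

variable {G : Geo} {K q' : ℕ} {η B b g' I I' L' e' Γ Ωo : ℝ} {W : E d → ℝ}
  {eR : Fin G.n → Est d} {hL' : 0 ≤ L'}

theorem spec_sampProg (hes : SampEsts G d q' η b g' I' L' e' hL' eR) (hW : Pert η B W) {k : ℕ}
    (hk : k < K * G.n) :
    (eR (pointOf G K k).2).Spec (oracleOf (pot W)) (bandT G b K I I' I' k) g'
      (aPt W G b (pointOf G K k).2) ⟨L', hL'⟩ (fun m => e' * wt W m) := by
  have e : bandT G b K I I' I' k = √((b * bT (G.tm (pointOf G K k).2)) ^ 2 / I') := by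
    simp [bandT, byKind, hk]
  rw [e]
  exact hes.2 _ B W hW

theorem lipschitz_sampProg (hes : SampEsts G d q' η b g' I' L' e' hL' eR) (hW : Pert η B W)
    (hb : 0 < b) (hb1 : b ≤ 1) (hΓ : 0 ≤ Γ) (hG : G.Sized (Γ / b) Ωo) (hc : Γ * L' ≤ 1 / 2)
    (ω : (sampProg G b K eR I I' g').SeedRnd) (x y : E d) :
    ‖(sampProg G b K eR I I' g').seededF (b ^ 2 / I) b (sampV G b K I I') (oracleOf (pot W)) (x, ω) -
      (sampProg G b K eR I I' g').seededF (b ^ 2 / I) b (sampV G b K I I') (oracleOf (pot W)) (y, ω)‖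
      ≤ (1 + 6 * (Γ * L')) * ‖x - y‖ := by
  have hsy := abs_seedY_le hG
  have hbias : ∀ i (s s' w₁ : E d),
      ‖ptBias G b i (s, w₁) - ptBias G b i (s', w₁)‖ ≤ |seedY G i| * ‖s - s'‖ := fun i s s' w₁ => by
    simp only [ptBias, add_sub_add_right_eq_sub, ← smul_sub, norm_smul, Real.norm_eq_abs, le_refl]
  have hrow : ∀ (r k : ℕ) (i : Fin G.n), r * G.n ≤ k →
      ∑ j : Fin k, |ptCoef G b r i (j + 1)| * (L' * 6) ≤ 6 * (Γ * L') := fun r k i hk => by
    rw [Fin.sum_univ_eq_sum_range fun j => |ptCoef G b r i (j + 1)| * (L' * 6),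
      sum_ptCoef G b i hk (fun _ c => |c| * (L' * 6)) (by simp)]
    split_ifs
    · positivity
    · rw [← Finset.sum_mul, show 6 * (Γ * L') = Γ * (L' * 6) by ring]
      refine mul_le_mul_of_nonneg_right ((sum_abs_ptReg_le hG hb i).trans ?_) (by positivity)
      exact mul_le_of_le_one_left hΓ
        (mul_le_one₀ hb1 (exp_pos _).le (exp_neg_le_one (hG.one_le_tm i)))
  refine (Prog.lipschitz_seeded (p := sampProg G b K eR I I' g') (L := fun _ => ⟨L', hL'⟩)
    (l := fun _ => 6) (dK := fun k => |seedY G (pointOf G K k).2|) (dOut := |seedY G G.i₀|)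
    (fun k hk ω x y => (spec_sampProg (I := I) hes hW hk).lipschitz ω x y)
    (fun k _ s s' w₁ => hbias _ s s' w₁)
    (fun s s' w₁ => hbias _ s s' w₁) (fun k hk => ?_) _ _ _ ω x y).trans
    (mul_le_mul_of_nonneg_right ?_ (norm_nonneg _))
  · show |seedY G (pointOf G K k).2| + |1 - seedY G (pointOf G K k).2| +
      ∑ j : Fin k, |ptCoef G b (pointOf G K k).1 (pointOf G K k).2 (j + 1)| * (L' * 6) ≤ 6
    have := hrow _ _ (pointOf G K k).2 (pointOf_spec G K k).2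
    have := hsy (pointOf G K k).2
    have := abs_sub (1 : ℝ) (seedY G (pointOf G K k).2)
    rw [abs_one] at this
    linarith
  · show |seedY G G.i₀| + |1 - seedY G G.i₀| +
      ∑ j : Fin (K * G.n), |ptCoef G b K G.i₀ (j + 1)| * (L' * 6) ≤ _
    have := hrow K _ G.i₀ le_rfl
    obtain ⟨hc1, hc2⟩ := exp_neg_one_bounds
    rw [seedY_i₀ hG, abs_of_pos (exp_pos _), abs_of_nonneg (by linarith : (0 : ℝ) ≤ 1 - exp (-1))]
    linarith

/-- the mean gradient at the target of node `j` -/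
noncomputable def avPt (W : E d → ℝ) (G : Geo) (m : E d) (b : ℝ) (K : ℕ)
    (Y : Fin G.n → Root d → E d) (j : ℕ) (θ : Root d) : E d :=
  aPt W G b (pointOf G K j).2 (cand m b Y (pointOf G K j).2 θ)

theorem centre_residual (hW : Pert η B W) (hη : η ≤ 1 / 8) {R : ℝ} (hG : G.Sized (Γ / b) Ωo)
    (hΓ : 0 ≤ Γ) (hb : 0 < b) (hb1 : b ≤ 1) (m : E d) {Y : Fin G.n → Root d → E d}
    (hY : ∀ i, Measurable (Y i) ∧
      (rootLaw (shiftW W m b)).map (Y i) = law (tU (shiftW W m b) (G.tm i)))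
    (hres : ∀ i, Integrable (fun p => ‖Y i p - (G.ky i • p.1.2 + G.kw i • p.2 +
        ∑ j, G.C i j • tv (shiftW W m b) (G.tm j) (Y j p))‖) (rootLaw (shiftW W m b)) ∧
      ∫ p, ‖Y i p - (G.ky i • p.1.2 + G.kw i • p.2 +
        ∑ j, G.C i j • tv (shiftW W m b) (G.tm j) (Y j p))‖ ∂rootLaw (shiftW W m b) ≤ b * R)
    {r k : ℕ} (i : Fin G.n) (hr : r ≤ K) (hk : r * G.n ≤ k) :
    Integrable (fun θ => cand m b Y i θ - (ptBias G b i (bandSeed m b θ) +
      ptCoef G b r i 0 • m + ∑ j : Fin k, ptCoef G b r i (j + 1) • avPt W G m b K Y j θ))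
        (rootLaw (shiftW W m b)) ∧
    ∫ θ, ‖cand m b Y i θ - (ptBias G b i (bandSeed m b θ) +
      ptCoef G b r i 0 • m + ∑ j : Fin k, ptCoef G b r i (j + 1) • avPt W G m b K Y j θ)‖
        ∂rootLaw (shiftW W m b) ≤ R + if r = 0 then 3 * Γ * wt W m else 0 := by
  have hbt : ∀ i, 0 < b * bT (G.tm i) ∧ b * bT (G.tm i) ≤ 1 := fun i =>
    have h := one_pos.trans_le (hG.one_le_tm i)
    ⟨mul_pos hb (bT_pos h), mul_le_one₀ hb1 (bT_pos h).le (bT_lt_one h).le⟩
  have hcm : ∀ i, Measurable (cand m b Y i) := fun i =>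
    ((hY i).1.const_smul (b * exp (-G.tm i))).const_add m
  have haM : ∀ i, Measurable fun θ => aPt W G b i (cand m b Y i θ) := fun i =>
    (continuous_aOf hW (hbt i).1 (hbt i).2).measurable.comp (hcm i)
  have hav : ∀ (i' : Fin G.n) θ, r ≠ 0 →
      avPt W G m b K Y ((r - 1) * G.n + i') θ = aPt W G b i' (cand m b Y i' θ) := fun i' θ _ => by
    simp only [avPt, pointOf_node (G := G) (K := K) (show r - 1 ≤ K by omega)]
  have e : ∀ θ, ∑ j : Fin k, ptCoef G b r i (j + 1) • avPt W G m b K Y j θ =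
      ∑ j ∈ Finset.range k, ptCoef G b r i (j + 1) • avPt W G m b K Y j θ := fun θ =>
    Fin.sum_univ_eq_sum_range (fun j => ptCoef G b r i (j + 1) • avPt W G m b K Y j θ) k
  simp only [e]
  have hi := node_residual_le hW hη hG hΓ hb hb1 m hY hres i hk (avPt W G m b K Y) hav
  have hb₀ : Measurable fun θ : Root d => ptBias G b i (bandSeed m b θ) := by
    unfold ptBias bandSeed; fun_prop
  have hsum : Measurable fun θ : Root d =>
      ∑ j ∈ Finset.range k, ptCoef G b r i (j + 1) • avPt W G m b K Y j θ :=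
    Finset.measurable_sum _ fun j _ => (haM (pointOf G K j).2).const_smul (ptCoef G b r i (j + 1))
  have hmeas : AEStronglyMeasurable (fun θ : Root d => cand m b Y i θ -
      (ptBias G b i (bandSeed m b θ) + ptCoef G b r i 0 • m +
        ∑ j ∈ Finset.range k, ptCoef G b r i (j + 1) • avPt W G m b K Y j θ))
      (rootLaw (shiftW W m b)) :=
    ((hcm i).sub ((hb₀.add measurable_const).add hsum)).aestronglyMeasurable
  exact ⟨(integrable_norm_iff hmeas).1 hi.1, hi.2⟩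

theorem target_point (hW : Pert η B W) (hG : G.Sized Γ Ωo) (hb : 0 < b) (hb1 : b ≤ 1) (m : E d)
    {Y : Fin G.n → Root d → E d} (hY : Measurable (Y G.i₀))
    (hlaw : (rootLaw (shiftW W m b)).map (Y G.i₀) = law (tU (shiftW W m b) (G.tm G.i₀)))
    (σ : ℝ) {f : E d → ℝ} (hf : Continuous f) {M : ℝ} (hM : ∀ x, |f x| ≤ M) :
    ∫ q, f (cand m b Y G.i₀ q.1 + σ • q.2)
        ∂(rootLaw (shiftW W m b)).prod (stdGaussian (E d)) =
      ∫ y, sm σ f (m + (b * exp (-1)) • y) ∂law (tU (shiftW W m b) 1) := by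
  have := (shift_pert_one hW m hb hb1).isProbabilityMeasure_law
  have : IsProbabilityMeasure (rootLaw (shiftW W m b)) := by unfold rootLaw; infer_instance
  have hfp : PolyBd f := PolyBd.of_bound fun x => by rw [Real.norm_eq_abs]; exact hM x
  have hcm : Measurable (cand m b Y G.i₀) := (hY.const_smul (b * exp (-G.tm G.i₀))).const_add m
  rw [integral_prod (fun q => f (cand m b Y G.i₀ q.1 + σ • q.2))
    ((integrable_const M).mono' (hf.measurable.comp
    ((hcm.comp measurable_fst).add (measurable_snd.const_smul σ))).aestronglyMeasurable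
      (ae_of_all _ fun q => hM _)), ← hG.tm_i₀, ← hlaw,
    integral_map (f := fun y => sm σ f (m + (b * exp (-G.tm G.i₀)) • y)) hY.aemeasurable
      ((sm_continuous hf hfp _).comp (by fun_prop)).aestronglyMeasurable]
  rfl

theorem dual_sampProg (hes : SampEsts G d q' η b g' I' L' e' hL' eR) (hW : Pert η B W)
    (hη : η ≤ 1 / 8) (hb : 0 < b) (hb1 : b ≤ 1) (hI : 0 < I) (hI' : 0 < I') (hg' : 0 ≤ g')
    (he' : 0 ≤ e') (hΓ : 0 ≤ Γ) {R g₁ : ℝ} (hR : 0 ≤ R) (hG : G.Sized (Γ / b) Ωo)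
    (hc : Γ * L' ≤ 1 / 2)
    (h1 : Γ ^ 2 * bandN G K * g' ^ 2 * I ≤ 1 / 10) (h2 : Γ ^ 2 * bandN G K * g' ^ 2 * I' ≤ 1 / 10)
    (h3 : 1 + 100 * (bandN G K : ℝ) * I' ≤ 2 / 5 * I)
    (m : E d) (hH : G.Holds (shiftW W m b) g₁ (b * R)) {f : E d → ℝ} (hf : LipschitzWith 1 f)
    {M : ℝ} (hM : ∀ x, |f x| ≤ M) :
    |∫ z, f ((sampProg G b K eR I I' g').seededF (b ^ 2 / I) b (sampV G b K I I')
        (oracleOf (pot W)) z) ∂drawLaw (sampProg G b K eR I I' g').seededP m (b ^ 2 / I) -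
      ∫ y, sm (b * bT 1 / √I) f (m + (b * exp (-1)) • y) ∂law (tU (shiftW W m b) 1)| ≤
        roundBd R Γ (Γ * L') e' (wt W m) K := by
  obtain ⟨Y, hY, hres, -⟩ := hH
  have hw0 : 0 ≤ wt W m := wt_nonneg W m
  have := (shift_pert_one hW m hb hb1).isProbabilityMeasure_law
  have : IsProbabilityMeasure (rootLaw (shiftW W m b)) := by unfold rootLaw; infer_instance
  have : IsProbabilityMeasure (seedLaw m b) := by
    rw [← map_bandSeed hW m hb hb1]
    exact Measure.isProbabilityMeasure_map (measurable_bandSeed m b).aemeasurable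
  have hm := meas_sampProg G b K eR I I' g'
  have hO : Measurable (oracleOf (pot W)) := hW.measurable_oracle
  have hV : 0 ≤ b ^ 2 / I := by positivity
  rw [Prog.integral_seeded (p := sampProg G b K eR I I' g') hm hO m hV hb
    (w := sampV G b K I I') (fun k _ => bandV_pos hb hI hI' hI' _) (split_sampProg hb hI hI' h3)
    hf.continuous.measurable hM,
    ← target_point hW hG hb hb1 m (hY G.i₀).1 (hY G.i₀).2 (b * bT 1 / √I) hf.continuous hM]
  have herr : ∀ i, Integrable (fun θ => e' * wt W (cand m b Y i θ)) (rootLaw (shiftW W m b)) ∧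
      ∫ θ, e' * wt W (cand m b Y i θ) ∂rootLaw (shiftW W m b) ≤ 2 * e' * wt W m := fun i =>
    integral_err_point hW hη hb hb1 m (hG.one_le_tm i) (hY i).1 (hY i).2 he'
  have hcm : ∀ i, Measurable (cand m b Y i) := fun i =>
    ((hY i).1.const_smul (b * exp (-G.tm i))).const_add m
  set e : ℕ → ℝ := fun k => roundBd R Γ (Γ * L') e' (wt W m) (pointOf G K k).1 with he
  set Eb : ℕ → ℝ := fun j =>
    L' * e j + ∫ θ, e' * wt W (cand m b Y (pointOf G K j).2 θ) ∂rootLaw (shiftW W m b) with hEb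
  have hsum : ∀ (r k : ℕ) (i : Fin G.n), r ≤ K → r * G.n ≤ k →
      (R + if r = 0 then 3 * Γ * wt W m else 0) + ∑ j : Fin k, |ptCoef G b r i (j + 1)| * Eb j ≤
        roundBd R Γ (Γ * L') e' (wt W m) r := fun r k i hr hk => by
    rw [Fin.sum_univ_eq_sum_range fun j => |ptCoef G b r i (j + 1)| * Eb j]
    refine centre_err_le hG hb hb1 hΓ hR hL' rfl hc he' hw0 i hk Eb fun i' _ => ?_
    simp only [hEb, he, pointOf_node (G := G) (K := K) (show r - 1 ≤ K by omega)]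
    exact add_le_add le_rfl (herr i').2
  have hnode := fun r k (i : Fin G.n) (hr : r ≤ K) (hk : r * G.n ≤ k) =>
    centre_residual (K := K) hW hη hG hΓ hb hb1 m hY hres i hr hk
  refine (Prog.coupled_proc (p := sampProg G b K eR I I' g') (ρ := rootLaw (shiftW W m b))
    (ν := seedLaw m b) (v := sampV G b K I I') (t := bandT G b K I I' I') (g := fun _ => g')
    (a := fun k => aPt W G b (pointOf G K k).2) (L := fun _ => ⟨L', hL'⟩)
    (ε := fun _ x => e' * wt W x) (c := fun k θ => cand m b Y (pointOf G K k).2 θ)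
    (sd := bandSeed m b) (o := cand m b Y G.i₀)
    (R := fun k => R + if (pointOf G K k).1 = 0 then 3 * Γ * wt W m else 0)
    (rOut := R + if K = 0 then 3 * Γ * wt W m else 0) (e := e) hm hO
    (budget_sampProg eR hG hb hI hI' hg' h1 h2) (fun k hk => spec_sampProg hes hW hk)
    (measurable_bandSeed m b) (map_bandSeed hW m hb hb1) (fun k _ => hcm _) (hcm _)
    (fun k _ => (herr _).1)
    (fun k _ => (hnode _ k _ (pointOf_spec G K k).1 (pointOf_spec G K k).2).1)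
    (hnode K (K * G.n) G.i₀ le_rfl le_rfl).1
    (fun k _ => (hnode _ k _ (pointOf_spec G K k).1 (pointOf_spec G K k).2).2)
    (hnode K (K * G.n) G.i₀ le_rfl le_rfl).2
    (fun k _ => hsum _ k _ (pointOf_spec G K k).1 (pointOf_spec G K k).2) hf hM).trans ?_
  exact hsum K (K * G.n) G.i₀ le_rfl le_rfl

end point

/-- The point of a band. -/
theorem bandPoint {G : Geo} {K q' : ℕ} {η b g₁ g' I I' L' e' Γ Ωo Res : ℝ} (hη : η ≤ 1 / 8)
    (hb : 0 < b) (hb1 : b ≤ 1) (hI' : 1 ≤ I') (hL' : 0 ≤ L') (hg' : 0 ≤ g') (he' : 0 ≤ e')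
    (hΓ : 0 ≤ Γ) (hRes : 0 ≤ Res) (hG : G.Sized (Γ / b) Ωo) (hc : Γ * L' ≤ 1 / 2)
    (h1 : Γ ^ 2 * bandN G K * g' ^ 2 * I ≤ 1 / 10) (h2 : Γ ^ 2 * bandN G K * g' ^ 2 * I' ≤ 1 / 10)
    (h3 : 1 + 100 * (bandN G K : ℝ) * I' ≤ 2 / 5 * I)
    (hH : ∀ (B : ℝ) (W : E d → ℝ) (m : E d), Pert η B W →
      G.Holds (shiftW W m b) g₁ (b * (Res * wt W m)))
    (hP : ∀ b', 0 < b' → b' ≤ 1 → Prim d q' η b' (b' ^ 2 / I') g' L' e') :
    BandPoint d (K * G.n * q') η b I (1 + 6 * (Γ * L'))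
      (2 * Res + (4 * (Γ * e') + 3 * (Γ * (Γ * L') ^ K))) := by
  have hI0 : 0 < I' := by linarith
  have hI : 0 < I := by
    have : (0 : ℝ) ≤ 100 * (bandN G K : ℝ) * I' := by positivity
    linarith
  obtain ⟨eR, hes⟩ := exists_sampEsts hb hb1 hG hL' hP
  refine ⟨(sampProg G b K eR I I' g').SeedRnd, inferInstance,
    Prog.standardBorelSpace_seedRnd _, Prog.nonempty_seedRnd _,
    (sampProg G b K eR I I' g').seededP,
    (sampProg G b K eR I I' g').seededF (b ^ 2 / I) b (sampV G b K I I'),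
    Prog.isProbabilityMeasure_seededP _,
    (Prog.qc_seeded (meas_sampProg G b K eR I I' g') _ _ _).mono (le_of_eq ?_),
    fun B W hW => ⟨fun ω x y => lipschitz_sampProg hes hW hb hb1 hΓ hG hc ω x y,
      fun m f hf ⟨M, hM⟩ => ?_⟩⟩
  · show ∑ i ∈ Finset.range (K * G.n), (eR (pointOf G K i).2).q = _
    simp [hes.1]
  · refine (dual_sampProg hes hW hη hb hb1 hI hI0 hg' he' hΓ (mul_nonneg hRes (wt_nonneg W m)) hG hc
      h1 h2 h3 m (hH B W m hW) hf hM).trans (le_of_eq ?_)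
    simp only [roundBd]
    ring

theorem sampStep (hG : GeoExists) : SampStep := by
  obtain ⟨p, hp⟩ := geo_shift hG
  refine ⟨p, fun k => ?_⟩
  obtain ⟨C₀, pT, hC₀, hgeo⟩ := hp k
  refine ⟨C₀ + 6, pT, by linarith, fun d K q₁ q' j η b T θ₀ e g₁ g' I I' L₁ L' e₁ e' hc hI hL₁ he₁
    he' hnext hP => ?_⟩
  obtain ⟨G, hn, hs, hh⟩ := hgeo e θ₀ T g₁ b hc.e_pos hc.e_le hc.one_le_θ₀ hc.two_le_T hc.g₁_pos
    hc.g₁_le hc.b_pos hc.b_le
  set C := C₀ + 6 with hCdef
  have hC : C₀ ≤ C := by linarith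
  have hT : 0 ≤ T := by linarith [hc.two_le_T]
  have hθ : 0 ≤ θ₀ := by linarith [hc.one_le_θ₀]
  set Γ₀ := bandΓ C₀ T θ₀ e g₁
  set Γ := bandΓ C T θ₀ e g₁ with hΓdef
  have hΓ0 : 0 ≤ Γ₀ := bandΓ_nonneg (by linarith) hT hθ hc.e_pos.le hc.g₁_pos.le
  have hΓle : Γ₀ ≤ Γ := bandΓ_mono hC hT hθ hc.e_pos.le hc.g₁_pos.le
  have hN : bandN G K ≤ bandP C T e K := by
    refine le_trans (le_of_eq ?_) ((nodes_le_bandP hn (n_pos G)).trans (bandP_mono hC))
    rw [bandN]; ring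
  have hNR : (bandN G K : ℝ) ≤ bandP C T e K := Nat.cast_le.2 hN
  have hI' : 0 ≤ I' := by linarith [hc.one_le_I']
  have hI0 : 0 ≤ I := by
    have : (0 : ℝ) ≤ 100 * (bandP C T e K : ℝ) * I' := by positivity
    linarith
  have hab : ∀ J, 0 ≤ J → Γ ^ 2 * bandP C T e K * g' ^ 2 * J ≤ 1 / 10 →
      Γ₀ ^ 2 * bandN G K * g' ^ 2 * J ≤ 1 / 10 := fun J hJ h => by
    refine le_trans ?_ h
    gcongr
  have habs := hc.absorb
  rw [mul_add, ← hΓdef] at habs
  have hb1 : 0 ≤ Γ ^ 2 * bandP C T e K * g' ^ 2 * I := by positivity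
  have hb2 : 0 ≤ Γ ^ 2 * bandP C T e K * g' ^ 2 * I' := by positivity
  set Res := bandRes C₀ p pT k d η b T θ₀ e g₁
  set Res' := bandRes C p pT k d η b T θ₀ e g₁
  have hRes : 0 ≤ Res :=
    bandRes_nonneg (by linarith) hc.eta_pos.le hc.b_pos.le hT hθ hc.e_pos.le hc.g₁_pos.le
  have hResle : Res ≤ Res' :=
    bandRes_mono hC hc.eta_pos.le hc.b_pos.le hT hθ hc.e_pos.le hc.g₁_pos.le
  have hq : Γ₀ * L' ≤ Γ * L' := mul_le_mul_of_nonneg_right hΓle hc.L'_nonneg
  have hq0 : 0 ≤ Γ₀ * L' := mul_nonneg hΓ0 hc.L'_nonneg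
  have hpoint := bandPoint (K := K) (I := I) (g₁ := b * g₁) hc.eta_le hc.b_pos hc.b_le hc.one_le_I'
    hc.L'_nonneg hc.g'_nonneg he' hΓ0 hRes hs (hq.trans hc.contract)
    (hab I hI0 (by linarith)) (hab I' hI' (by linarith))
    (le_trans (by gcongr) hI) (fun B W m hW => hh d η B W m hc.d_pos hc.eta_pos hW hc.eta_θ₀) hP
  refine (Samp.band hc.b_pos hc.b_le hI0 hL₁ he₁ hpoint hnext).mono ?_
    (mul_le_mul_of_nonneg_left (add_le_add le_rfl ?_) hL₁) ?_
  · have h1 : K * G.n ≤ bandP C T e K := by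
      refine le_trans ?_ hN
      rw [bandN, Nat.succ_mul]
      omega
    have := Nat.mul_le_mul_right q' h1
    omega
  · calc 6 * (Γ₀ * L') ≤ C * (Γ₀ * L') := mul_le_mul_of_nonneg_right (by linarith) hq0
      _ ≤ C * (Γ * L') := mul_le_mul_of_nonneg_left hq (by linarith)
      _ = C * Γ * L' := by ring
  · have hX : 2 * Res + (4 * (Γ₀ * e') + 3 * (Γ₀ * (Γ₀ * L') ^ K)) ≤
        C * (Γ * (e' + (Γ * L') ^ K) + Res') := by
      have hpK : (Γ₀ * L') ^ K ≤ (Γ * L') ^ K := pow_le_pow_left₀ hq0 hq K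
      have hpK0 : 0 ≤ (Γ₀ * L') ^ K := pow_nonneg hq0 K
      have hΓ : 0 ≤ Γ := hΓ0.trans hΓle
      have h1 : Γ₀ * e' ≤ Γ * e' := mul_le_mul_of_nonneg_right hΓle he'
      have h2 : Γ₀ * (Γ₀ * L') ^ K ≤ Γ * (Γ * L') ^ K := mul_le_mul hΓle hpK hpK0 hΓ
      have h3 : (4 : ℝ) * (Γ * (e' + (Γ * L') ^ K) + Res') ≤
          C * (Γ * (e' + (Γ * L') ^ K) + Res') :=
        mul_le_mul_of_nonneg_right (by linarith)
          (add_nonneg (mul_nonneg hΓ (add_nonneg he' (hpK0.trans hpK))) (hRes.trans hResle))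
      have h4 : 0 ≤ Γ * (Γ * L') ^ K := mul_nonneg hΓ (hpK0.trans hpK)
      linarith
    have := mul_le_mul_of_nonneg_left hX hL₁
    linarith

end Vale.Agent.P347.Zero
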