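import Vale.Agent.P347.Zero.BandStep
import Vale.Agent.P347.Zero.SampStep
import Vale.Agent.P347.Zero.GeoAll
import Vale.Agent.P347.Zero.BandChains
import Vale.Agent.P347.Zero.Levels
import Vale.Agent.P347.Zero.Final
import Vale.Agent.P347.Zero.Base
import Vale.Agent.P347.Zero.Top
import Vale.Agent.P347.Zero.Exponent

/-!
# P347, exponent zero: the inner sampler holds
-/

namespace Vale.Agent.P347.Zero

theorem geoExists : GeoExists := geoExists_of_chains bandChains

theorem smallBlur_holds : SmallBlur := smallBlur (bandStep geoExists) (sampStep geoExists)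

end Vale.Agent.P347.Zero
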