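import Vale.Agent.P347.Tilt

/-!
# P347, exponent zero: all flattenings of the derivatives of a tilted mean

For a vector field `f` with an operator bound `L` on its derivative, the derivatives of
`ξ ↦ tm W (f i) 1 ξ`, split into two groups of indices, form matrices of norm `O (L)`.
The proof is an induction with the Poincaré inequality on Appell functions.
-/

open MeasureTheory ProbabilityTheory Real Set Function
open scoped RealInnerProductSpace

namespace Vale.Agent.P347.Zero

open Deriv

variable {d : ℕ}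

/-- index tuples -/
abbrev Tup (d k : ℕ) : Type := Fin k → Fin d

/-- the vectors of an index tuple -/
noncomputable def bv {k : ℕ} (I : Tup d k) : Fin k → E d := fun j => bas (I j)

theorem bv_cons {k : ℕ} (i : Fin d) (I : Tup d k) :
    bv (Fin.cons i I : Tup d (k + 1)) = (Fin.cons (bas i) (bv I) : Fin (k + 1) → E d) :=
  funext fun j => Fin.cases (by simp [bv]) (fun j => by simp [bv]) j

theorem sum_cons {k : ℕ} {M : Type*} [AddCommMonoid M] (g : Tup d (k + 1) → M) :
    ∑ I, g I = ∑ i, ∑ J, g (Fin.cons i J) := by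
  rw [← (Fin.consEquiv fun _ : Fin (k + 1) => Fin d).sum_comp, Fintype.sum_prod_type]
  rfl

theorem sum_tup_zero {M : Type*} [AddCommMonoid M] (g : Tup d 0 → M) :
    ∑ I, g I = g Fin.elim0 := by
  rw [Fintype.sum_unique]
  exact congrArg g (Subsingleton.elim _ _)

/-- two terms -/
theorem sum_sq_add_le {α : Type*} [Fintype α] (a b : α → ℝ) :
    ∑ x, (a x + b x) ^ 2 ≤ 2 * ∑ x, a x ^ 2 + 2 * ∑ x, b x ^ 2 := by
  rw [Finset.mul_sum, Finset.mul_sum, ← Finset.sum_add_distrib]
  exact Finset.sum_le_sum fun x _ => by nlinarith [sq_nonneg (a x - b x)]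

/-! ### Derivatives in the parameter -/

/-- derivatives in the parameter, outermost first -/
noncomputable def ddXi : (k : ℕ) → (Fin k → E d) → (Z d → ℝ) → Z d → ℝ
  | 0, _, H => H
  | k + 1, v, H => dd ((v 0, 0) : Z d) (ddXi k (Fin.tail v) H)

theorem good_ddXi {H : Z d → ℝ} (hH : ∀ n, Good n H) :
    ∀ (k : ℕ) (v : Fin k → E d) (n : ℕ), Good n (ddXi k v H)
  | 0, _, n => hH n
  | k + 1, _, n => (good_ddXi hH k _ (n + 1)).dd _

theorem ddXi_zero : ∀ (k : ℕ) (v : Fin k → E d), ddXi k v (fun _ : Z d => (0 : ℝ)) = fun _ => 0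
  | 0, _ => rfl
  | k + 1, v => by simp only [ddXi, ddXi_zero k]; exact dd_const _ _

theorem ddXi_sum {α : Type*} [Fintype α] (c : α → ℝ) {H : α → Z d → ℝ}
    (hH : ∀ a n, Good n (H a)) : ∀ (k : ℕ) (v : Fin k → E d),
      ddXi k v (fun p => ∑ a, c a * H a p) = fun p => ∑ a, c a * ddXi k v (H a) p
  | 0, _ => rfl
  | k + 1, v => by
    simp only [ddXi]
    rw [ddXi_sum c hH k, dd_sum _ fun a _ =>
      ((good_ddXi (hH a) k _ 1).const_mul (c a)).differentiable]
    funext p
    exact Finset.sum_congr rfl fun a _ =>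
      congrFun (dd_const_mul (good_ddXi (hH a) k _ 1).differentiable (c a) _) p

theorem dd_ddXi {H : Z d → ℝ} (hH : ∀ n, Good n H) (u : Z d) :
    ∀ (k : ℕ) (v : Fin k → E d), dd u (ddXi k v H) = ddXi k v (dd u H)
  | 0, _ => rfl
  | k + 1, v => by
    simp only [ddXi]
    rw [dd_comm (good_ddXi hH k _ 2), dd_ddXi hH u k]

theorem ddXi_const (c : ℝ) : ∀ (k : ℕ) (v : Fin (k + 1) → E d),
    ddXi (k + 1) v (fun _ : Z d => c) = fun _ => 0
  | 0, _ => by simp only [ddXi]; exact dd_const _ _
  | k + 1, v => by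
    show dd _ (ddXi (k + 1) (Fin.tail v) fun _ => c) = _
    rw [ddXi_const c k]
    exact dd_const _ _

theorem good_ddN {f : E d → ℝ} (hf : ∀ n, Good n f) :
    ∀ (r : ℕ) (v : Fin r → E d) (n : ℕ), Good n (ddN r v f)
  | 0, _, n => hf n
  | r + 1, _, n => (good_ddN hf r _ (n + 1)).dd _

theorem dd_ddN {f : E d → ℝ} (hf : ∀ n, Good n f) (u : E d) :
    ∀ (r : ℕ) (v : Fin r → E d), dd u (ddN r v f) = ddN r v (dd u f)
  | 0, _ => rfl
  | r + 1, v => by
    simp only [ddN]
    rw [dd_comm (good_ddN hf r _ 2), dd_ddN hf u r]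

theorem ddN_succ_inner {f : E d → ℝ} (hf : ∀ n, Good n f) (r : ℕ) (v : Fin (r + 1) → E d) :
    ddN (r + 1) v f = ddN r (Fin.tail v) (dd (v 0) f) := dd_ddN hf _ r _

theorem ddN_add {f g : E d → ℝ} (hf : ∀ n, Good n f) (hg : ∀ n, Good n g) :
    ∀ (r : ℕ) (v : Fin r → E d),
      ddN r v (fun x => f x + g x) = fun x => ddN r v f x + ddN r v g x
  | 0, _ => rfl
  | r + 1, v => by
    simp only [ddN]
    rw [ddN_add hf hg r]
    exact dd_add (good_ddN hf r _ 1).differentiable (good_ddN hg r _ 1).differentiable _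

theorem ddN_smul_sum {α : Type*} [Fintype α] (c : α → ℝ) {f : α → E d → ℝ}
    (hf : ∀ a n, Good n (f a)) : ∀ (r : ℕ) (v : Fin r → E d),
      ddN r v (fun x => ∑ a, c a * f a x) = fun x => ∑ a, c a * ddN r v (f a) x
  | 0, _ => rfl
  | r + 1, v => by
    simp only [ddN]
    rw [ddN_smul_sum c hf r, dd_sum _ fun a _ =>
      ((good_ddN (hf a) r _ 1).const_mul (c a)).differentiable]
    funext p
    exact Finset.sum_congr rfl fun a _ =>
      congrFun (dd_const_mul (good_ddN (hf a) r _ 1).differentiable (c a) _) p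

/-! ### Appell functions with an arbitrary start -/

/-- the recursion of `qf` started at `c` -/
noncomputable def qg (W : E d → ℝ) (c : Z d → ℝ) : (r : ℕ) → (Fin r → E d) → Z d → ℝ
  | 0, _ => c
  | r + 1, v => fun p => opD (v 0) (qg W c r (Fin.tail v)) p -
      tm W (fun _ => 1) (zc (v 0)) p.1 * qg W c r (Fin.tail v) p

theorem qg_one (W : E d → ℝ) : ∀ (r : ℕ) (v : Fin r → E d),
    qg W (fun _ => 1) r v = qf W r v
  | 0, _ => rfl
  | r + 1, v => by simp only [qg, qf, qg_one W r]

variable {η B : ℝ} {W : E d → ℝ}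

theorem good_qg (hW : Pert η B W) {c : Z d → ℝ} (hc : ∀ n, Good n c) :
    ∀ (r : ℕ) (v : Fin r → E d) (n : ℕ), Good n (qg W c r v) := by
  intro r
  induction r with
  | zero => intro v n; exact hc n
  | succ r ih =>
    intro v n
    exact (good_opD (ih _) (v 0) n).sub ((hW.good_mean_fst n (v 0)).mul (ih _ n))

/-- the mean of a product with a start function is a derivative -/
theorem ddN_tm_qg (hW : Pert η B W) {f : E d → ℝ} (hf : Continuous f) (hfp : PolyBd f)
    {c : Z d → ℝ} (hc : ∀ n, Good n c) :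
    ∀ (r : ℕ) (v : Fin r → E d), ddN r v (tm W f c) = tm W f (qg W c r v) := by
  intro r
  induction r with
  | zero => intro v; rfl
  | succ r ih =>
    intro v
    funext ξ
    simp only [ddN, ih]
    rw [(hW.hasFDerivAt_tm hf hfp (good_qg hW hc r _ 1) ξ).2]
    have i1 := hW.integrable_tm hf hfp (good_opD (good_qg hW hc r (Fin.tail v)) (v 0) 0) ξ
    have i2 := hW.integrable_tm hf hfp (good_qg hW hc r (Fin.tail v) 0) ξ
    show tm W f (opD (v 0) (qg W c r (Fin.tail v))) ξ -
        tm W f (qg W c r (Fin.tail v)) ξ * tm W (fun _ => 1) (zc (v 0)) ξ =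
      ∫ z, f z * (opD (v 0) (qg W c r (Fin.tail v)) (ξ, z) -
        tm W (fun _ => 1) (zc (v 0)) ξ * qg W c r (Fin.tail v) (ξ, z)) ∂law (tilt W ξ)
    simp_rw [mul_sub, mul_left_comm _ (tm W (fun _ => 1) (zc (v 0)) ξ)]
    rw [integral_sub i1 (i2.const_mul _), integral_const_mul]
    simp only [tm]
    ring

/-- the derivative in `z` of an Appell function lowers the order -/
theorem dd_qg (hW : Pert η B W) {c : Z d → ℝ} (hc : ∀ n, Good n c) {e : E d}
    (he : dd ((0, e) : Z d) c = fun _ => 0) :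
    ∀ (r : ℕ) (v : Fin (r + 1) → E d), dd ((0, e) : Z d) (qg W c (r + 1) v) =
      fun p => ∑ j, ⟪e, v j⟫ * qg W c r (fun i => v (j.succAbove i)) p := by
  have e1 : ∀ v : E d,
      dd ((0, e) : Z d) (fun p => zc v p - tm W (fun _ => 1) (zc v) p.1) = fun _ => ⟪e, v⟫ := by
    intro v
    funext p
    rw [dd_sub (good_zc 1 _).differentiable (hW.good_mean_fst 1 _).differentiable,
      dd_fst (hW.good_mean 1 _).differentiable]
    beta_reduce
    rw [dd_zc]
    simp [Deriv.dd]
  have gzm : ∀ v : E d, ∀ n, Good n fun p => zc v p - tm W (fun _ => 1) (zc v) p.1 :=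
    fun v n => (good_zc n _).sub (hW.good_mean_fst n v)
  have step : ∀ (r : ℕ) (v : Fin (r + 1) → E d), qg W c (r + 1) v =
      fun p => dd ((v 0, 0) : Z d) (qg W c r (Fin.tail v)) p +
        (zc (v 0) p - tm W (fun _ => 1) (zc (v 0)) p.1) * qg W c r (Fin.tail v) p := by
    intro r v
    funext p
    simp only [qg, opD]
    ring
  intro r
  induction r with
  | zero =>
    intro v
    rw [step, dd_add (((good_qg hW hc 0 _ 2).dd _).differentiable)
      ((gzm _ 1).mul (good_qg hW hc 0 _ 1)).differentiable,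
      dd_mul (gzm _ 1).differentiable (good_qg hW hc 0 _ 1).differentiable, e1,
      dd_comm (good_qg hW hc 0 _ 2) ((0, e) : Z d) ((v 0, 0) : Z d)]
    simp only [qg]
    rw [he, dd_const]
    funext p
    simp
  | succ r ih =>
    intro v
    set t := Fin.tail v
    rw [step, dd_add (((good_qg hW hc _ _ 2).dd _).differentiable)
      ((gzm _ 1).mul (good_qg hW hc _ _ 1)).differentiable,
      dd_mul (gzm _ 1).differentiable (good_qg hW hc _ _ 1).differentiable, e1,
      dd_comm (good_qg hW hc _ _ 2) ((0, e) : Z d) ((v 0, 0) : Z d), ih t]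
    funext p
    have gT : ∀ j : Fin (r + 1), Good 1
        fun p => ⟪e, t j⟫ * qg W c r (fun i => t (j.succAbove i)) p := fun j =>
      (good_qg hW hc r _ 1).const_mul _
    rw [dd_sum _ fun j _ => (gT j).differentiable, Fin.sum_univ_succ (n := r + 1)]
    simp only [dd_const_mul (good_qg hW hc r _ 1).differentiable, Finset.mul_sum]
    rw [show (fun i => v ((0 : Fin (r + 2)).succAbove i)) = t from
      funext fun i => by simp [t, Fin.tail], add_left_comm, ← Finset.sum_add_distrib]
    congr 1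
    refine Finset.sum_congr rfl fun j _ => ?_
    have hv0 : v (j.succ.succAbove 0) = v 0 := by rw [Fin.succ_succAbove_zero]
    have htl : Fin.tail (fun i => v (j.succ.succAbove i)) = fun i => t (j.succAbove i) :=
      funext fun i => by simp [t, Fin.tail]
    rw [step, htl, hv0]
    show ⟪e, t j⟫ * _ + _ * (⟪e, t j⟫ * _) = ⟪e, v j.succ⟫ * _
    simp only [t, Fin.tail]
    ring

/-- derivative of a mean with an Appell factor -/
theorem dd_tm_mul_qf (hW : Pert η B W) {f : E d → ℝ} (hf : Continuous f) (hfp : PolyBd f)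
    {H : Z d → ℝ} (hH : ∀ n, Good n H) (s : ℕ) (S : Fin s → E d) (v : E d) :
    dd v (tm W f fun p => H p * qf W s S p) = fun ξ =>
      tm W f (fun p => dd ((v, 0) : Z d) H p * qf W s S p) ξ +
        tm W f (fun p => H p * qf W (s + 1) (Fin.cons v S) p) ξ := by
  funext ξ
  have gq := hW.good_qf s S
  have gP : ∀ n, Good n fun p => H p * qf W s S p := fun n => (hH n).mul (gq n)
  rw [(hW.hasFDerivAt_tm hf hfp (gP 1) ξ).2]
  have i1 := hW.integrable_tm hf hfp (good_opD gP v 0) ξ
  have i2 := hW.integrable_tm hf hfp (gP 0) ξ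
  have i3 := hW.integrable_tm hf hfp (((hH 1).dd ((v, 0) : Z d)).mul (gq 0)) ξ
  have i4 := hW.integrable_tm hf hfp ((hH 0).mul (hW.good_qf (s + 1) (Fin.cons v S) 0)) ξ
  simp only [tm] at *
  rw [← integral_mul_const, ← integral_sub i1 (i2.mul_const _), ← integral_add i3 i4]
  refine integral_congr_ae (ae_of_all _ fun z => ?_)
  simp only [qf, opD, Fin.cons_zero, Fin.tail_cons, dd_mul (hH 1).differentiable (gq 1).differentiable,
    tm]
  ring

/-- Poincaré, for a smooth function -/
theorem second_moment_le (hW : Pert η B W) (ξ : E d) {F : E d → ℝ} (hF : Good 2 F) :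
    ∫ z, F z ^ 2 ∂law (tilt W ξ) ≤
      (∫ z, F z ∂law (tilt W ξ)) ^ 2 + ∫ z, ∑ p, dd (bas p) F z ^ 2 ∂law (tilt W ξ) := by
  have h := (hW.pert_tilt ξ).poincare_exact hF
  have e : ∀ z, ‖fderiv ℝ F z‖ ^ 2 = ∑ p, dd (bas p) F z ^ 2 := by
    intro z
    set g := (InnerProductSpace.toDual ℝ (E d)).symm (fderiv ℝ F z) with hg
    have hn : ‖g‖ = ‖fderiv ℝ F z‖ := by simp [hg]
    rw [← hn, ← (EuclideanSpace.basisFun (Fin d) ℝ).sum_sq_inner_left g]
    exact Finset.sum_congr rfl fun i _ => by
      simp [hg, Deriv.dd, Deriv.bas, InnerProductSpace.toDual_symm_apply]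
  simp only [e] at h
  linarith

theorem dd_sect {H : Z d → ℝ} (hH : Good 1 H) (ξ e : E d) :
    dd e (fun z => H (ξ, z)) = fun z => dd ((0, e) : Z d) H (ξ, z) := by
  funext z
  have h' := (hH.differentiable (ξ, z)).hasFDerivAt.comp z
    ((hasFDerivAt_const ξ z).prodMk (hasFDerivAt_id z))
  rw [Deriv.dd, show (fun z => H (ξ, z)) = H ∘ fun z => (ξ, z) from rfl, h'.fderiv]
  rfl

/-- Bessel for the Appell functions -/
theorem bessel_qf (hW : Pert η B W) (ξ : E d) (s : ℕ) {h : E d → ℝ} (hh : Continuous h)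
    (hhp : PolyBd h) :
    ∑ S : Tup d s, (∫ z, h z * qf W s (bv S) (ξ, z) ∂law (tilt W ξ)) ^ 2 ≤
      (s.factorial : ℝ) ^ 2 * ∫ z, h z ^ 2 ∂law (tilt W ξ) := by
  have hP := hW.pert_tilt ξ
  set μ := law (tilt W ξ)
  set A := fun S : Tup d s => ∫ z, h z * qf W s (bv S) (ξ, z) ∂μ with hA
  set F := fun z => ∑ S, A S * qf W s (bv S) (ξ, z)
  have hF : Good 0 F := Good.sum _ fun S _ => ((hW.good_qf _ _ 0).sect ξ).const_mul _
  set c : ℝ := (s.factorial : ℝ) ^ 2
  set V := ∫ z, h z ^ 2 ∂μ
  set S' := ∑ S, A S ^ 2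
  have hS : S' = ∫ z, h z * F z ∂μ := by
    simp only [F, Finset.mul_sum, mul_left_comm (h _) (A _)]
    rw [integral_finsetSum]
    · exact Finset.sum_congr rfl fun S _ => by rw [integral_const_mul, sq]
    · exact fun S _ => (hP.integrable_law (hhp.mul ((hW.good_qf _ _ 0).sect ξ).polyBd)
        (hh.mul ((hW.good_qf _ _ 0).sect ξ).continuous)).const_mul _
  have i1 : Integrable (fun z => h z ^ 2) μ := hP.integrable_law (hhp.pow 2) (hh.pow 2)
  have i2 : Integrable (fun z => F z ^ 2) μ := hP.integrable_law hF.sq.polyBd hF.sq.continuous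
  have i3 : Integrable (fun z => h z * F z) μ :=
    hP.integrable_law (hhp.mul hF.polyBd) (hh.mul hF.continuous)
  have hc : 0 < c := by positivity
  have h2 : 2 * S' ≤ c * V + S' := by
    calc 2 * S' = ∫ z, 2 * (h z * F z) ∂μ := by rw [integral_const_mul, hS]
      _ ≤ ∫ z, (c * h z ^ 2 + F z ^ 2 / c) ∂μ := by
          refine integral_mono (i3.const_mul 2) ((i1.const_mul c).add (i2.div_const c)) fun z => ?_
          have h1 : c * (F z / c - h z) ^ 2 =
              F z ^ 2 / c - 2 * (h z * F z) + c * h z ^ 2 := by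
            field_simp; ring
          have : 0 ≤ c * (F z / c - h z) ^ 2 := by positivity
          linarith
      _ ≤ c * V + S' := by
          rw [integral_add (i1.const_mul c) (i2.div_const c), integral_const_mul, integral_div]
          refine add_le_add le_rfl ((div_le_iff₀ hc).2 ?_)
          exact (hW.appell_sq_le ξ s A).trans_eq (mul_comm _ _)
  linarith

/-- the squares of the outer derivatives of the means of `∂^k H` against Appell functions -/
noncomputable def mN (W : E d → ℝ) (H : Z d → ℝ) (ξ : E d) (j k s : ℕ) : ℝ :=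
  ∑ T : Tup d j, ∑ R : Tup d k, ∑ S : Tup d s,
    ddN j (bv T) (tm W (fun _ => 1) fun p => ddXi k (bv R) H p * qf W s (bv S) p) ξ ^ 2

/-- the squares of the parameter derivatives of `H` -/
noncomputable def xN (W : E d → ℝ) (H : Z d → ℝ) (ξ : E d) (k : ℕ) : ℝ :=
  ∑ R : Tup d k, ∫ z, ddXi k (bv R) H (ξ, z) ^ 2 ∂law (tilt W ξ)

theorem mN_step (hW : Pert η B W) {H : Z d → ℝ} (hH : ∀ n, Good n H) (ξ : E d) (j k s : ℕ) :
    mN W H ξ (j + 1) k s ≤ 2 * mN W H ξ j (k + 1) s + 2 * mN W H ξ j k (s + 1) ∧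
    mN W H ξ j (k + 1) s ≤ 2 * mN W H ξ (j + 1) k s + 2 * mN W H ξ j k (s + 1) := by
  set a : Fin d → Tup d j → Tup d k → Tup d s → ℝ := fun i T R S =>
    ddN (j + 1) (bv (Fin.cons i T))
      (tm W (fun _ => 1) fun p => ddXi k (bv R) H p * qf W s (bv S) p) ξ
  set b : Fin d → Tup d j → Tup d k → Tup d s → ℝ := fun i T R S => ddN j (bv T)
    (tm W (fun _ => 1) fun p => ddXi (k + 1) (bv (Fin.cons i R)) H p * qf W s (bv S) p) ξ
  set c : Fin d → Tup d j → Tup d k → Tup d s → ℝ := fun i T R S => ddN j (bv T)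
    (tm W (fun _ => 1) fun p => ddXi k (bv R) H p * qf W (s + 1) (bv (Fin.cons i S)) p) ξ
  have ha : ∀ i T R S, a i T R S = b i T R S + c i T R S := by
    intro i T R S
    have gR := good_ddXi hH k (bv R)
    have gm : ∀ {G : Z d → ℝ}, (∀ n, Good n G) → ∀ n, Good n (tm W (fun _ => 1) G) := fun hG n =>
      hW.good_tm continuous_const (PolyBd.const 1) n hG
    have g1 : ∀ n, Good n fun p => ddXi k (bv R) H p * qf W s (bv S) p :=
      fun n => (gR n).mul (hW.good_qf _ _ n)
    have g2 : ∀ n, Good n fun p => dd ((bas i, 0) : Z d) (ddXi k (bv R) H) p * qf W s (bv S) p :=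
      fun n => ((gR (n + 1)).dd _).mul (hW.good_qf _ _ n)
    have g3 : ∀ n, Good n fun p =>
        ddXi k (bv R) H p * qf W (s + 1) (Fin.cons (bas i) (bv S)) p :=
      fun n => (gR n).mul (hW.good_qf _ _ n)
    simp only [a, b, c, bv_cons]
    rw [ddN_succ_inner (gm g1)]
    simp only [Fin.cons_zero, Fin.tail_cons]
    rw [dd_tm_mul_qf hW continuous_const (PolyBd.const 1) gR s (bv S) (bas i),
      ddN_add (gm g2) (gm g3) j]
    rfl
  have ea : mN W H ξ (j + 1) k s = ∑ i, ∑ T, ∑ R, ∑ S, a i T R S ^ 2 := by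
    rw [mN, sum_cons]
  have eb : mN W H ξ j (k + 1) s = ∑ i, ∑ T, ∑ R, ∑ S, b i T R S ^ 2 := by
    rw [mN, Finset.sum_comm (γ := Fin d)]
    exact Finset.sum_congr rfl fun T _ => sum_cons _
  have ec : mN W H ξ j k (s + 1) = ∑ i, ∑ T, ∑ R, ∑ S, c i T R S ^ 2 := by
    rw [mN, Finset.sum_comm (γ := Fin d)]
    refine Finset.sum_congr rfl fun T _ => ?_
    rw [Finset.sum_comm (γ := Fin d)]
    exact Finset.sum_congr rfl fun R _ => sum_cons _
  rw [ea, eb, ec]
  simp only [Finset.mul_sum, ← Finset.sum_add_distrib]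
  constructor <;>
    refine Finset.sum_le_sum fun i _ => Finset.sum_le_sum fun T _ =>
      Finset.sum_le_sum fun R _ => Finset.sum_le_sum fun S _ => ?_ <;>
    rw [ha i T R S]
  · nlinarith [sq_nonneg (b i T R S - c i T R S)]
  · nlinarith [sq_nonneg (b i T R S + 2 * c i T R S), sq_nonneg (b i T R S + c i T R S + c i T R S)]

theorem exists_mN_le : ∀ j k s : ℕ, ∃ C : ℝ, 0 ≤ C ∧
    ∀ (d : ℕ) (η B : ℝ) (W : E d → ℝ) (H : Z d → ℝ) (ξ : E d) (c : ℝ), Pert η B W →
      (∀ n, Good n H) → (∀ i ≤ j + k, xN W H ξ i ≤ c) → mN W H ξ j k (s + 1) ≤ C * c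
  | 0, k, s => by
    refine ⟨((s + 1).factorial : ℝ) ^ 2, by positivity, fun d η B W H ξ c hW hH hc => ?_⟩
    refine le_trans ?_ (mul_le_mul_of_nonneg_left (hc k (by omega)) (by positivity))
    rw [mN, sum_tup_zero, xN, Finset.mul_sum]
    refine Finset.sum_le_sum fun R _ => ?_
    have gR := (good_ddXi hH k (bv R) 0).sect ξ
    refine le_of_eq_of_le (Finset.sum_congr rfl fun S _ => ?_)
      (bessel_qf hW ξ (s + 1) gR.continuous gR.polyBd)
    simp only [ddN, tm, one_mul]
  | j + 1, k, s => by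
    obtain ⟨C1, hC1, h1⟩ := exists_mN_le j (k + 1) s
    obtain ⟨C2, hC2, h2⟩ := exists_mN_le j k (s + 1)
    refine ⟨2 * C1 + 2 * C2, by positivity, fun d η B W H ξ c hW hH hc => ?_⟩
    have a1 := h1 d η B W H ξ c hW hH (fun i hi => hc i (by omega))
    have a2 := h2 d η B W H ξ c hW hH (fun i hi => hc i (by omega))
    have a3 := (mN_step hW hH ξ j k (s + 1)).1
    linarith

theorem exists_mN_zero_le : ∀ k j : ℕ, ∃ C : ℝ, 0 ≤ C ∧
    ∀ (d : ℕ) (η B : ℝ) (W : E d → ℝ) (H : Z d → ℝ) (ξ : E d) (c : ℝ), Pert η B W →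
      (∀ n, Good n H) → (∀ x, tm W (fun _ => 1) H x = 0) → 0 ≤ c →
      (∀ i < j + k, xN W H ξ i ≤ c) → mN W H ξ j k 0 ≤ C * c
  | 0, j => by
    refine ⟨0, le_rfl, fun d η B W H ξ c hW hH h0 _ _ => le_of_eq ?_⟩
    simp only [mN, ddXi, qf, mul_one, zero_mul]
    rw [show tm W (fun _ => 1) (fun p => H p) = fun _ => 0 from funext h0]
    refine Finset.sum_eq_zero fun T _ => Finset.sum_eq_zero fun R _ => Finset.sum_eq_zero fun S _ =>
      ?_
    cases j with
    | zero => simp [ddN]
    | succ j => simp [ddN_const]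
  | k + 1, j => by
    obtain ⟨C1, hC1, h1⟩ := exists_mN_zero_le k (j + 1)
    obtain ⟨C2, hC2, h2⟩ := exists_mN_le j k 0
    refine ⟨2 * C1 + 2 * C2, by positivity, fun d η B W H ξ c hW hH h0 hc0 hc => ?_⟩
    have a1 := h1 d η B W H ξ c hW hH h0 hc0 (fun i hi => hc i (by omega))
    have a2 := h2 d η B W H ξ c hW hH (fun i hi => hc i (by omega))
    have a3 := (mN_step hW hH ξ j k 0).2
    linarith

theorem insertNth_sum {r : ℕ} (j : Fin (r + 1)) {α : Type*} [Fintype α] (A : α × Tup d (r + 1) → ℝ) :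
    ∑ p, ∑ x : α × Tup d r, A (x.1, Fin.insertNth j p x.2) ^ 2 = ∑ x, A x ^ 2 := by
  simp only [Fintype.sum_prod_type]
  rw [Finset.sum_comm]
  refine Finset.sum_congr rfl fun a _ => ?_
  rw [← (Fin.insertNthEquiv (fun _ : Fin (r + 1) => Fin d) j).sum_comp (fun I => A (a, I) ^ 2),
    Fintype.sum_prod_type]
  rfl

/-- the gradient in `z` of a combination, split along the removed index -/
theorem sum_split {r : ℕ} {α : Type*} [Fintype α] (A : α × Tup d (r + 1) → ℝ)
    (G : α × Tup d r → ℝ) (p : Fin d) :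
    ∑ x : α × Tup d (r + 1), A x * ∑ j, ⟪bas p, bv x.2 j⟫ * G (x.1, fun i => x.2 (j.succAbove i)) =
      ∑ j, ∑ y : α × Tup d r, A (y.1, Fin.insertNth j p y.2) * G y := by
  simp only [Fintype.sum_prod_type, Finset.mul_sum]
  conv_lhs => enter [2, a]; rw [Finset.sum_comm]
  conv_lhs => rw [Finset.sum_comm]
  refine Finset.sum_congr rfl fun j _ => Finset.sum_congr rfl fun a _ => ?_
  rw [← (Fin.insertNthEquiv (fun _ : Fin (r + 1) => Fin d) j).sum_comp, Fintype.sum_prod_type]
  simp only [Fin.insertNthEquiv_apply, bv, Fin.insertNth_apply_same, Fin.insertNth_apply_succAbove,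
    inner_bas, ite_mul, one_mul, zero_mul, mul_ite, mul_zero]
  rw [Finset.sum_eq_single p]
  · simp; rfl
  · intro b _ hb; simp [hb.symm]
  · simp

theorem integral_sum_sq_split {μ : Measure (E d)} {r : ℕ} {α : Type*} [Fintype α]
    (A : α × Tup d (r + 1) → ℝ) (G : α × Tup d r → E d → ℝ) {c : ℝ}
    (hi : ∀ a : α × Tup d r → ℝ, Integrable (fun z => (∑ y, a y * G y z) ^ 2) μ)
    (hb : ∀ a : α × Tup d r → ℝ, ∫ z, (∑ y, a y * G y z) ^ 2 ∂μ ≤ c * ∑ y, a y ^ 2) :
    ∫ z, ∑ p, (∑ j, ∑ y : α × Tup d r, A (y.1, Fin.insertNth j p y.2) * G y z) ^ 2 ∂μ ≤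
      ((r : ℝ) + 1) ^ 2 * c * ∑ x, A x ^ 2 := by
  calc _ ≤ ∫ z, ((r : ℝ) + 1) * ∑ p, ∑ j, (∑ y : α × Tup d r,
        A (y.1, Fin.insertNth j p y.2) * G y z) ^ 2 ∂μ := by
        refine integral_mono_of_nonneg (ae_of_all _ fun z => Finset.sum_nonneg fun p _ => sq_nonneg _)
          ((integrable_finsetSum _ fun p _ => integrable_finsetSum _ fun j _ =>
            hi _).const_mul _) (ae_of_all _ fun z => ?_)
        beta_reduce
        rw [Finset.mul_sum]
        refine Finset.sum_le_sum fun p _ => ?_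
        simpa using sq_sum_le_card_mul_sum_sq (s := Finset.univ)
          (f := fun j => ∑ y : α × Tup d r, A (y.1, Fin.insertNth j p y.2) * G y z)
    _ ≤ ((r : ℝ) + 1) * ∑ p, ∑ j : Fin (r + 1),
          c * ∑ y : α × Tup d r, A (y.1, Fin.insertNth j p y.2) ^ 2 := by
        rw [integral_const_mul, integral_finsetSum _ fun p _ => integrable_finsetSum _ fun j _ =>
          hi _]
        refine mul_le_mul_of_nonneg_left (Finset.sum_le_sum fun p _ => ?_) (by positivity)
        rw [integral_finsetSum _ fun j _ => hi _]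
        exact Finset.sum_le_sum fun j _ => hb _
    _ = _ := by
        rw [Finset.sum_comm]
        simp only [← Finset.mul_sum, insertNth_sum, Finset.sum_const, Finset.card_univ,
          Fintype.card_fin, nsmul_eq_mul]
        push_cast
        ring

/-- the parameter derivatives of a combination of Appell functions -/
theorem exists_xN_le : ∀ a k : ℕ, ∃ C : ℝ, 0 ≤ C ∧
    ∀ (d : ℕ) (η B : ℝ) (W : E d → ℝ) (ξ : E d) (A : Tup d a → ℝ), Pert η B W →
      xN W (fun p => ∑ I, A I * qf W a (bv I) p) ξ k ≤ C * ∑ I, A I ^ 2 := by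
  intro a
  induction a with
  | zero =>
    intro k
    refine ⟨1, zero_le_one, fun d η B W ξ A hW => ?_⟩
    have := (hW.pert_tilt ξ).isProbabilityMeasure_law
    cases k with
    | zero =>
      simp [xN, ddXi, qf]
    | succ k =>
      have e : ∀ R : Tup d (k + 1),
          ddXi (k + 1) (bv R) (fun p : Z d => ∑ I, A I * qf W 0 (bv I) p) = fun _ => 0 :=
        fun R => by
          simp only [qf]; exact ddXi_const _ k (bv R)
      simp only [xN, e]
      simpa using sq_nonneg (A default)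
  | succ a iha =>
    intro k
    induction k using Nat.strong_induction_on with
    | _ k ihk =>
      obtain ⟨Cg, hCg, hg⟩ := iha k
      obtain ⟨Cm, hCm, hm⟩ := exists_mN_zero_le k 0
      choose Ck hCk hk using ihk
      set C0 : ℝ := ∑ i : Fin k, Ck i i.isLt with hC0
      have hC00 : 0 ≤ C0 := Finset.sum_nonneg fun i _ => hCk i i.isLt
      refine ⟨Cm * C0 + ((a : ℝ) + 1) ^ 2 * Cg, by positivity, fun d η B W ξ A hW => ?_⟩
      have hP := hW.pert_tilt ξ
      set H := fun p => ∑ I, A I * qf W (a + 1) (bv I) p with hH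
      have gH : ∀ n, Good n H := fun n => Good.sum _ fun I _ => (hW.good_qf _ _ n).const_mul _
      have h0 : ∀ x, tm W (fun _ => 1) H x = 0 := by
        intro x
        simp only [tm, H, Finset.mul_sum, one_mul]
        rw [integral_finsetSum _ fun I _ => ?_]
        · refine Finset.sum_eq_zero fun I _ => ?_
          have h := hW.tm_qf_eq_zero a (bv I) x
          simp only [tm, one_mul] at h
          rw [integral_const_mul, h, mul_zero]
        · exact ((hW.pert_tilt x).integrable_law ((hW.good_qf _ _ 0).sect x).polyBd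
            ((hW.good_qf _ _ 0).sect x).continuous).const_mul _
      have hsum : 0 ≤ ∑ I, A I ^ 2 := Finset.sum_nonneg fun I _ => sq_nonneg _
      have hmean := hm d η B W H ξ (C0 * ∑ I, A I ^ 2) hW gH h0 (by positivity) fun i hi =>
        (hk i (by omega) d η B W ξ A hW).trans (mul_le_mul_of_nonneg_right
          (Finset.single_le_sum (f := fun j : Fin k => Ck j j.isLt)
            (fun j _ => hCk j j.isLt) (Finset.mem_univ ⟨i, by omega⟩)) hsum)
      simp only [mN, sum_tup_zero, ddN, qf, mul_one, tm, one_mul] at hmean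
      set G : Tup d k → Unit × Tup d a → E d → ℝ :=
        fun R y z => ddXi k (bv R) (qf W a (bv y.2)) (ξ, z) with hG
      have gsum : ∀ R (c : Unit × Tup d a → ℝ), Good 0 fun z => ∑ y, c y * G R y z := fun R c =>
        Good.sum _ fun y _ => ((good_ddXi (hW.good_qf a _) k _ 0).sect ξ).const_mul _
      have hgrad : ∀ R, ∀ z, ∑ p, dd (bas p) (fun z => ddXi k (bv R) H (ξ, z)) z ^ 2 =
          ∑ p, (∑ j, ∑ y : Unit × Tup d a, A (Fin.insertNth j p y.2) * G R y z) ^ 2 := by
        intro R z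
        refine Finset.sum_congr rfl fun p _ => ?_
        congr 1
        rw [dd_sect (good_ddXi gH k _ 1), ← sum_split (fun x : Unit × Tup d (a + 1) => A x.2)
          (fun y => G R y z) p]
        beta_reduce
        rw [dd_ddXi gH]
        have e : dd ((0, bas p) : Z d) H = fun q => ∑ x : Unit × Tup d (a + 1), A x.2 *
            ∑ j, ⟪bas p, bv x.2 j⟫ * qf W a (bv fun i => x.2 (j.succAbove i)) q := by
          simp only [H]
          rw [dd_sum _ fun I _ => ((hW.good_qf _ _ 1).const_mul (A I)).differentiable]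
          funext q
          simp only [Fintype.sum_prod_type, Finset.univ_unique, Finset.sum_singleton]
          refine Finset.sum_congr rfl fun I _ => ?_
          rw [dd_const_mul (hW.good_qf _ _ 1).differentiable, hW.dd_qf]
          rfl
        rw [e, ddXi_sum _ (fun x n => Good.sum _ fun j _ => (hW.good_qf _ _ n).const_mul _)]
        refine Finset.sum_congr rfl fun x _ => ?_
        rw [ddXi_sum _ (fun j n => hW.good_qf _ _ n)]
      have hb : ∀ c : Unit × Tup d a → ℝ,
          ∑ R, ∫ z, (∑ y, c y * G R y z) ^ 2 ∂law (tilt W ξ) ≤ Cg * ∑ y, c y ^ 2 := by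
        intro c
        have h := hg d η B W ξ (fun I => c ((), I)) hW
        simp only [xN, ddXi_sum _ (fun I n => hW.good_qf a (bv I) n)] at h
        simpa [G, Fintype.sum_prod_type] using h
      have ig : ∀ R (j : Fin (a + 1)) p, Integrable (fun z => (∑ y : Unit × Tup d a,
          A (Fin.insertNth j p y.2) * G R y z) ^ 2) (law (tilt W ξ)) := fun R j p =>
        hP.integrable_law (gsum R _).sq.polyBd (gsum R _).sq.continuous
      have hgr : ∑ R, ∫ z, ∑ p, dd (bas p) (fun z => ddXi k (bv R) H (ξ, z)) z ^ 2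
          ∂law (tilt W ξ) ≤ ((a : ℝ) + 1) ^ 2 * Cg * ∑ I, A I ^ 2 := by
        simp only [hgrad]
        calc _ ≤ ∑ R, ((a : ℝ) + 1) * ∑ p, ∑ j, ∫ z, (∑ y : Unit × Tup d a,
              A (Fin.insertNth j p y.2) * G R y z) ^ 2 ∂law (tilt W ξ) := by
              refine Finset.sum_le_sum fun R _ => ?_
              have hi : Integrable (fun z => ((a : ℝ) + 1) * ∑ p, ∑ j, (∑ y : Unit × Tup d a,
                  A (Fin.insertNth j p y.2) * G R y z) ^ 2) (law (tilt W ξ)) :=
                (integrable_finsetSum _ fun p _ => integrable_finsetSum _ fun j _ =>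
                  ig R j p).const_mul _
              refine (integral_mono_of_nonneg
                (ae_of_all _ fun z => Finset.sum_nonneg fun p _ => sq_nonneg _) hi
                (ae_of_all _ fun z => ?_)).trans (le_of_eq ?_)
              · beta_reduce
                rw [Finset.mul_sum]
                refine Finset.sum_le_sum fun p _ => ?_
                simpa using sq_sum_le_card_mul_sum_sq (s := Finset.univ)
                  (f := fun j => ∑ y : Unit × Tup d a, A (Fin.insertNth j p y.2) * G R y z)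
              · rw [integral_const_mul, integral_finsetSum _ fun p _ =>
                  integrable_finsetSum _ fun j _ => ig R j p]
                congr 1
                exact Finset.sum_congr rfl fun p _ => integral_finsetSum _ fun j _ => ig R j p
          _ = ((a : ℝ) + 1) * ∑ p, ∑ j, ∑ R, ∫ z, (∑ y : Unit × Tup d a,
              A (Fin.insertNth j p y.2) * G R y z) ^ 2 ∂law (tilt W ξ) := by
              rw [← Finset.mul_sum, Finset.sum_comm]
              congr 1
              exact Finset.sum_congr rfl fun p _ => Finset.sum_comm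
          _ ≤ ((a : ℝ) + 1) * ∑ p, ∑ j : Fin (a + 1),
              Cg * ∑ y : Unit × Tup d a, A (Fin.insertNth j p y.2) ^ 2 := by
              gcongr with p _ j _
              exact hb _
          _ = _ := by
              rw [Finset.sum_comm]
              simp only [← Finset.mul_sum]
              have e : ∀ j, ∑ p, ∑ y : Unit × Tup d a, A (Fin.insertNth j p y.2) ^ 2 =
                  ∑ I, A I ^ 2 := fun j => by
                have h := insertNth_sum j (fun x : Unit × Tup d (a + 1) => A x.2)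
                simpa [Fintype.sum_prod_type] using h
              simp only [e, Finset.sum_const, Finset.card_univ, Fintype.card_fin, nsmul_eq_mul]
              push_cast
              ring
      rw [xN]
      calc _ ≤ ∑ R, ((∫ z, ddXi k (bv R) H (ξ, z) ∂law (tilt W ξ)) ^ 2 +
            ∫ z, ∑ p, dd (bas p) (fun z => ddXi k (bv R) H (ξ, z)) z ^ 2 ∂law (tilt W ξ)) :=
            Finset.sum_le_sum fun R _ =>
              second_moment_le hW ξ ((good_ddXi gH k _ 2).sect ξ)
        _ ≤ Cm * (C0 * ∑ I, A I ^ 2) + ((a : ℝ) + 1) ^ 2 * Cg * ∑ I, A I ^ 2 := by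
            rw [Finset.sum_add_distrib]
            exact add_le_add hmean hgr
        _ = _ := by ring

end Vale.Agent.P347.Zero
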