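import Vale.Agent.P347.Zero.BandProg

/-!
# P347, exponent zero: the residuals of the target points of one band

The target of point `i` is `m + b e^{-t_i} Y_i`, `Y` the witness of the system on the shifted
potential.
-/

open MeasureTheory ProbabilityTheory Real
open scoped RealInnerProductSpace

namespace Vale.Agent.P347.Zero

variable {d : ℕ}

/-- the seed of a band: the first root and `w` -/
noncomputable def bandSeed (m : E d) (b : ℝ) (θ : Root d) : E d × E d := (m + b • θ.1.2, θ.2)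

/-- the law of the seed -/
noncomputable def seedLaw (m : E d) (b : ℝ) : Measure (E d × E d) :=
  ((stdGaussian (E d)).map fun z => m + b • z).prod (stdGaussian (E d))

theorem measurable_bandSeed (m : E d) (b : ℝ) : Measurable (bandSeed m b) := by
  unfold bandSeed; fun_prop

/-- the target centre of point `i` -/
noncomputable def cand {G : Geo} (m : E d) (b : ℝ) (Y : Fin G.n → Root d → E d) (i : Fin G.n)
    (θ : Root d) : E d :=
  m + (b * exp (-G.tm i)) • Y i θ

/-- the mean gradient at point `i` -/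
noncomputable def aPt (W : E d → ℝ) (G : Geo) (b : ℝ) (i : Fin G.n) (x : E d) : E d :=
  aOf W (b * bT (G.tm i)) x

/-- the bound on the error of a point of round `r` -/
noncomputable def roundBd (R Γ q e' w : ℝ) (r : ℕ) : ℝ :=
  2 * R + (4 * (Γ * e') + 3 * (Γ * q ^ r)) * w

theorem roundBd_nonneg {R Γ q e' w : ℝ} (hR : 0 ≤ R) (hΓ : 0 ≤ Γ) (hq : 0 ≤ q) (he : 0 ≤ e')
    (hw : 0 ≤ w) (r : ℕ) : 0 ≤ roundBd R Γ q e' w r := by unfold roundBd; positivity

theorem roundBd_zero {R Γ q e' w : ℝ} (hR : 0 ≤ R) (hΓ : 0 ≤ Γ) (he : 0 ≤ e') (hw : 0 ≤ w) :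
    R + 3 * Γ * w ≤ roundBd R Γ q e' w 0 := by
  unfold roundBd
  nlinarith [mul_nonneg (mul_nonneg hΓ he) hw]

/-- one more round -/
theorem roundBd_step {R Γ L' q e' w : ℝ} (hR : 0 ≤ R) (hΓ : 0 ≤ Γ) (hq : Γ * L' = q)
    (hq1 : q ≤ 1 / 2) (he : 0 ≤ e') (hw : 0 ≤ w) (r : ℕ) :
    R + Γ * (L' * roundBd R Γ q e' w r + 2 * e' * w) ≤ roundBd R Γ q e' w (r + 1) := by
  have e : Γ * (L' * roundBd R Γ q e' w r + 2 * e' * w) =
      q * roundBd R Γ q e' w r + 2 * (Γ * e') * w := by rw [← hq]; ring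
  rw [e]
  unfold roundBd
  have h1 : q * (2 * R) ≤ R := by nlinarith
  have h2 : q * (4 * (Γ * e') * w) ≤ 2 * (Γ * e') * w := by
    nlinarith [mul_nonneg (mul_nonneg hΓ he) hw]
  rw [pow_succ]
  nlinarith

variable {η B : ℝ} {W : E d → ℝ}

/-- the target of the last round is a bounded perturbation of the exact point -/
theorem node_residual_le (hW : Pert η B W) (hη : η ≤ 1 / 8) {G : Geo} {b Γ Ωo R : ℝ}
    (hs : G.Sized (Γ / b) Ωo) (hΓ : 0 ≤ Γ) (hb : 0 < b) (hb1 : b ≤ 1) (m : E d)
    {Y : Fin G.n → Root d → E d}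
    (hY : ∀ i, Measurable (Y i) ∧
      (rootLaw (shiftW W m b)).map (Y i) = law (tU (shiftW W m b) (G.tm i)))
    (hres : ∀ i, Integrable (fun p => ‖Y i p - (G.ky i • p.1.2 + G.kw i • p.2 +
        ∑ j, G.C i j • tv (shiftW W m b) (G.tm j) (Y j p))‖) (rootLaw (shiftW W m b)) ∧
      ∫ p, ‖Y i p - (G.ky i • p.1.2 + G.kw i • p.2 +
        ∑ j, G.C i j • tv (shiftW W m b) (G.tm j) (Y j p))‖ ∂rootLaw (shiftW W m b) ≤ b * R)
    {r k : ℕ} (i : Fin G.n) (hk : r * G.n ≤ k) (av : ℕ → Root d → E d)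
    (hav : ∀ (i' : Fin G.n) θ, r ≠ 0 → av ((r - 1) * G.n + i') θ = aPt W G b i' (cand m b Y i' θ)) :
    Integrable (fun θ => ‖cand m b Y i θ - (ptBias G b i (bandSeed m b θ) + ptCoef G b r i 0 • m +
      ∑ j ∈ Finset.range k, ptCoef G b r i (j + 1) • av j θ)‖) (rootLaw (shiftW W m b)) ∧
    ∫ θ, ‖cand m b Y i θ - (ptBias G b i (bandSeed m b θ) + ptCoef G b r i 0 • m +
      ∑ j ∈ Finset.range k, ptCoef G b r i (j + 1) • av j θ)‖ ∂rootLaw (shiftW W m b) ≤
        R + if r = 0 then 3 * Γ * wt W m else 0 := by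
  set μ := rootLaw (shiftW W m b)
  have hη0 := hW.eta_nonneg
  have htm : ∀ i, 0 < G.tm i := fun i => one_pos.trans_le (hs.one_le_tm i)
  have hR : 0 ≤ R :=
    nonneg_of_mul_nonneg_right ((integral_nonneg fun _ => norm_nonneg _).trans (hres i).2) hb
  set X : Root d → E d := fun θ => ∑ j, ptReg G b i j • aPt W G b j (cand m b Y j θ)
  set res : Root d → ℝ := fun p => ‖Y i p - (G.ky i • p.1.2 + G.kw i • p.2 +
    ∑ j, G.C i j • tv (shiftW W m b) (G.tm j) (Y j p))‖
  set e : Root d → E d := fun θ => cand m b Y i θ - (ptBias G b i (bandSeed m b θ) +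
    ptCoef G b r i 0 • m + ∑ j ∈ Finset.range k, ptCoef G b r i (j + 1) • av j θ)
  have hbt : ∀ j, 0 < b * bT (G.tm j) ∧ b * bT (G.tm j) ≤ 1 := fun j =>
    ⟨mul_pos hb (bT_pos (htm j)),
      mul_le_one₀ hb1 (bT_pos (htm j)).le (bT_lt_one (htm j)).le⟩
  have hcm : ∀ j, Measurable (cand m b Y j) := fun j =>
    ((hY j).1.const_smul (b * exp (-G.tm j))).const_add m
  have haM : ∀ j, Measurable fun θ => aPt W G b j (cand m b Y j θ) := fun j =>
    (continuous_aOf hW (hbt j).1 (hbt j).2).measurable.comp (hcm j)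
  have he : ∀ θ, e θ = (b * exp (-G.tm i)) • (Y i θ - (G.ky i • θ.1.2 + G.kw i • θ.2 +
      ∑ j, G.C i j • tv (shiftW W m b) (G.tm j) (Y j θ))) + if r = 0 then X θ else 0 := fun θ => by
    have h := point_residual hW m θ.1.2 θ.2 b G htm (fun j => Y j θ) i
    simp only [e]
    rw [← h, sum_ptCoef G b i hk (fun j c => c • av j θ) (fun j => zero_smul ℝ _)]
    split_ifs with h0 <;>
      simp only [cand, ptBias, seedY, seedW, bandSeed, ptCoef, X, aPt, ptReg, add_zero]
    · abel
    · rw [Finset.sum_congr rfl fun i' _ => by rw [hav i' θ h0]]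
      simp only [cand, aPt]
  have hw : ∀ j, Integrable (fun θ => wt W (cand m b Y j θ)) μ ∧
      ∫ θ, wt W (cand m b Y j θ) ∂μ ≤ (1 + 4 * η) * wt W m := fun j =>
    integral_wt_point hW m hb hb1 (hs.one_le_tm j) (hY j).1 (hY j).2
  have haI : ∀ j, Integrable (fun θ => ‖aPt W G b j (cand m b Y j θ)‖) μ := fun j =>
    ((hw j).1.const_mul 2).mono' (haM j).norm.aestronglyMeasurable (ae_of_all _ fun θ => by
      rw [norm_norm]; exact norm_aOf_le hW hη (hbt j).1 (hbt j).2 _)
  set bd : Root d → ℝ := fun θ => b * exp (-G.tm i) * res θ +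
    if r = 0 then ∑ j, |ptReg G b i j| * ‖aPt W G b j (cand m b Y j θ)‖ else 0
  have hXI : Integrable (fun θ => ∑ j, |ptReg G b i j| * ‖aPt W G b j (cand m b Y j θ)‖) μ :=
    integrable_finsetSum _ fun j _ => (haI j).const_mul _
  have hbd : Integrable bd μ := by
    refine ((hres i).1.const_mul _).add ?_
    split_ifs with h0
    · exact hXI
    · exact integrable_zero _ _ _
  have hle : ∀ θ, ‖e θ‖ ≤ bd θ := fun θ => by
    rw [he]
    refine (norm_add_le _ _).trans (add_le_add (le_of_eq ?_) ?_)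
    · rw [norm_smul, Real.norm_eq_abs, abs_of_pos (mul_pos hb (exp_pos _))]
    · split_ifs
      · refine (norm_sum_le _ _).trans_eq (Finset.sum_congr rfl fun j _ => ?_)
        rw [norm_smul, Real.norm_eq_abs]
      · simp
  have htvM : ∀ j, Measurable fun θ => tv (shiftW W m b) (G.tm j) (Y j θ) := fun j => by
    simp only [tv_shift hW m b (htm j)]
    exact ((haM j).const_smul b)
  have hem : Measurable fun θ => ‖e θ‖ := by
    simp only [he]
    refine Measurable.norm (Measurable.add ?_ ?_)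
    · refine Measurable.const_smul ((hY i).1.sub (Measurable.add
        ((measurable_fst.snd.const_smul (G.ky i)).add (measurable_snd.const_smul (G.kw i))) ?_))
        (b * exp (-G.tm i))
      exact Finset.measurable_sum _ fun j _ => (htvM j).const_smul (G.C i j)
    · split_ifs
      · exact Finset.measurable_sum _ fun j _ => (haM j).const_smul (ptReg G b i j)
      · exact measurable_const
  refine ⟨hbd.mono' hem.aestronglyMeasurable (ae_of_all _ fun θ => by
    rw [norm_norm]; exact hle θ), ?_⟩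
  refine (integral_mono_of_nonneg (ae_of_all _ fun θ => norm_nonneg _) hbd (ae_of_all _ hle)).trans ?_
  have h1 : b * exp (-G.tm i) * ∫ θ, res θ ∂μ ≤ R := by
    calc b * exp (-G.tm i) * ∫ θ, res θ ∂μ ≤ 1 * (b * R) :=
          mul_le_mul (mul_le_one₀ hb1 (exp_pos _).le (exp_neg_le_one (hs.one_le_tm i))) (hres i).2
            (integral_nonneg fun _ => norm_nonneg _) zero_le_one
      _ ≤ R := by rw [one_mul]; exact mul_le_of_le_one_left hR hb1
  by_cases h0 : r = 0
  · simp only [bd, h0, if_true]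
    rw [integral_add ((hres i).1.const_mul _) hXI, integral_const_mul]
    refine add_le_add h1 ?_
    rw [integral_finsetSum _ fun j _ => (haI j).const_mul _]
    calc ∑ j, ∫ θ, |ptReg G b i j| * ‖aPt W G b j (cand m b Y j θ)‖ ∂μ
        ≤ ∑ j, |ptReg G b i j| * (3 * wt W m) := Finset.sum_le_sum fun j _ => by
          rw [integral_const_mul]
          refine mul_le_mul_of_nonneg_left ?_ (abs_nonneg _)
          refine (integral_mono_of_nonneg (ae_of_all _ fun θ => norm_nonneg _) ((hw j).1.const_mul 2)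
            (ae_of_all _ fun θ => norm_aOf_le hW hη (hbt j).1 (hbt j).2 _)).trans ?_
          rw [integral_const_mul]
          nlinarith [(hw j).2, wt_nonneg W m]
      _ ≤ (1 * 1 * Γ) * (3 * wt W m) := by
          rw [← Finset.sum_mul]
          refine mul_le_mul_of_nonneg_right ((sum_abs_ptReg_le hs hb i).trans ?_)
            (mul_nonneg (by norm_num) (wt_nonneg W m))
          gcongr
          exact exp_neg_le_one (hs.one_le_tm i)
      _ = 3 * Γ * wt W m := by ring
  · simp only [bd, h0, if_false, add_zero]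
    rw [integral_const_mul]
    exact h1

/-- the outputs of the nodes at a target point -/
theorem integral_err_point (hW : Pert η B W) (hη : η ≤ 1 / 8) {b : ℝ} (hb : 0 < b)
    (hb1 : b ≤ 1) (m : E d) {Y : Root d → E d} {t : ℝ} (ht : 1 ≤ t) (hY : Measurable Y)
    (hlaw : (rootLaw (shiftW W m b)).map Y = law (tU (shiftW W m b) t)) {err : ℝ} (he : 0 ≤ err) :
    Integrable (fun θ => err * wt W (m + (b * exp (-t)) • Y θ)) (rootLaw (shiftW W m b)) ∧
      ∫ θ, err * wt W (m + (b * exp (-t)) • Y θ) ∂rootLaw (shiftW W m b) ≤ 2 * err * wt W m := by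
  obtain ⟨h1, h2⟩ := integral_wt_point hW m hb hb1 ht hY hlaw
  refine ⟨h1.const_mul _, ?_⟩
  rw [integral_const_mul]
  refine (mul_le_mul_of_nonneg_left h2 he).trans ?_
  nlinarith [mul_nonneg he (wt_nonneg W m)]

end Vale.Agent.P347.Zero
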