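import Vale.Agent.P347.Zero.BandErr

/-!
# P347, exponent zero: exactness of the output of one band
-/

open MeasureTheory ProbabilityTheory Real
open scoped RealInnerProductSpace

namespace Vale.Agent.P347.Zero

variable {d : ℕ}

/-- the target output of a band -/
noncomputable def outCand (W : E d → ℝ) {G : Geo} (m : E d) (b g₁ : ℝ)
    (Y : Fin G.n → Root d → E d) (θ : Root d) : E d :=
  aPt W G b G.i₀ (cand m b Y G.i₀ θ) + g₁ • θ.2 -
    ∑ j, G.out j • aPt W G b j (cand m b Y j θ)

/-- a Gaussian average of a bounded Lipschitz function -/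
theorem sm_lip {f : E d → ℝ} (hf : LipschitzWith 1 f) {M : ℝ} (hM : ∀ x, |f x| ≤ M) (t : ℝ) :
    LipschitzWith 1 (sm t f) ∧ ∀ x, |sm t f x| ≤ M := by
  have hc := hf.continuous
  have hi : ∀ x, Integrable (fun z => f (x + t • z)) (stdGaussian (E d)) := fun x =>
    (integrable_const M).mono' (hc.comp (by fun_prop)).aestronglyMeasurable
      (ae_of_all _ fun z => hM _)
  refine ⟨LipschitzWith.of_dist_le_mul fun x y => ?_, fun x => ?_⟩
  · rw [NNReal.coe_one, one_mul, Real.dist_eq, sm, sm, ← integral_sub (hi x) (hi y)]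
    refine (norm_integral_le_of_norm_le (f := fun z => f (x + t • z) - f (y + t • z))
      (integrable_const (dist x y) (μ := stdGaussian (E d))) (ae_of_all _ fun z => ?_)).trans ?_
    swap
    · simp
    have h := hf.dist_le_mul (x + t • z) (y + t • z)
    rw [NNReal.coe_one, one_mul, Real.dist_eq] at h
    simpa using h
  · exact (norm_integral_le_of_norm_le (f := fun z => f (x + t • z))
      (integrable_const M (μ := stdGaussian (E d))) (ae_of_all _ fun z => hM _)).trans_eq (by simp)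

variable {η B : ℝ} {W : E d → ℝ}

theorem measurable_outCand (hW : Pert η B W) {G : Geo} {Γ Ωo : ℝ} (hs : G.Sized Γ Ωo) (m : E d)
    {b : ℝ} (hb : 0 < b) (hb1 : b ≤ 1) (g₁ : ℝ) {Y : Fin G.n → Root d → E d}
    (hY : ∀ i, Measurable (Y i)) : Measurable (outCand W m b g₁ Y) := by
  have hbt : ∀ j, 0 < b * bT (G.tm j) ∧ b * bT (G.tm j) ≤ 1 := fun j =>
    have h := one_pos.trans_le (hs.one_le_tm j)
    ⟨mul_pos hb (bT_pos h), mul_le_one₀ hb1 (bT_pos h).le (bT_lt_one h).le⟩
  have hcm : ∀ j, Measurable (cand m b Y j) := fun j =>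
    ((hY j).const_smul (b * exp (-G.tm j))).const_add m
  have haM : ∀ j, Measurable fun θ => aPt W G b j (cand m b Y j θ) := fun j =>
    (continuous_aOf hW (hbt j).1 (hbt j).2).measurable.comp (hcm j)
  exact ((haM G.i₀).add (measurable_snd.const_smul g₁)).sub
    (Finset.measurable_sum _ fun j _ => (haM j).const_smul (G.out j))

/-- the output at the targets, with independent noise, is the mean gradient plus noise -/
theorem output_exact (hW : Pert η B W) {G : Geo} {Γ Ωo R : ℝ} (hs : G.Sized Γ Ωo) (m : E d)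
    {b g₁ g g' : ℝ} (hb : 0 < b) (hb1 : b ≤ 1) (hg : 0 ≤ g) (hg' : g' ^ 2 + g₁ ^ 2 = g ^ 2)
    {Y : Fin G.n → Root d → E d} (hY : ∀ i, Measurable (Y i))
    (hex : ∀ f : E d → ℝ, LipschitzWith 1 f → (∃ M, ∀ x, |f x| ≤ M) →
      |∫ p, f (tv (shiftW W m b) 1 (Y G.i₀ p) + (b * g₁) • p.2 -
          ∑ j, G.out j • tv (shiftW W m b) (G.tm j) (Y j p)) ∂rootLaw (shiftW W m b) -
        ∫ z, f ((∫ x, grad (shiftW W m b) x ∂law (shiftW W m b)) + (b * g₁) • z)
          ∂stdGaussian (E d)| ≤ b * R)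
    {f : E d → ℝ} (hf : LipschitzWith 1 f) (hfb : ∃ M, ∀ x, |f x| ≤ M) :
    |∫ q, f (outCand W m b g₁ Y q.1 + g' • q.2)
        ∂(rootLaw (shiftW W m b)).prod (stdGaussian (E d)) -
      ∫ z, f (aOf W b m + g • z) ∂stdGaussian (E d)| ≤ R := by
  obtain ⟨M, hM⟩ := hfb
  have := (shift_pert_one hW m hb hb1).isProbabilityMeasure_law
  have : IsProbabilityMeasure (rootLaw (shiftW W m b)) := by unfold rootLaw; infer_instance
  obtain ⟨hl, hbd⟩ := sm_lip hf hM g'
  set F : E d → ℝ := fun x => b * sm g' f (b⁻¹ • x)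
  have hF : LipschitzWith 1 F := LipschitzWith.of_dist_le_mul fun x y => by
    have h := hl.dist_le_mul (b⁻¹ • x) (b⁻¹ • y)
    rw [NNReal.coe_one, one_mul] at h ⊢
    simp only [F, Real.dist_eq] at h ⊢
    rw [← mul_sub, abs_mul, abs_of_pos hb]
    refine (mul_le_mul_of_nonneg_left h hb.le).trans_eq ?_
    rw [dist_smul₀, Real.norm_eq_abs, abs_of_pos (inv_pos.2 hb), ← mul_assoc,
      mul_inv_cancel₀ hb.ne', one_mul]
  have h := hex F hF ⟨b * M, fun x => by
    rw [abs_mul, abs_of_pos hb]; exact mul_le_mul_of_nonneg_left (hbd _) hb.le⟩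
  have hd1 : ∀ p : Root d, F (tv (shiftW W m b) 1 (Y G.i₀ p) + (b * g₁) • p.2 -
      ∑ j, G.out j • tv (shiftW W m b) (G.tm j) (Y j p)) =
      b * sm g' f (outCand W m b g₁ Y p) := fun p => by
    simp only [F, outCand, cand, aPt, hs.tm_i₀, tv_shift hW m b one_pos,
      tv_shift hW m b (one_pos.trans_le (hs.one_le_tm _)), smul_sub, smul_add, Finset.smul_sum,
      smul_smul]
    congr 2
    have e1 : b⁻¹ * (b * g₁) = g₁ := by field_simp
    rw [inv_mul_cancel₀ hb.ne', one_smul, e1]
    congr 1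
    exact Finset.sum_congr rfl fun j _ => by
      rw [show b⁻¹ * (G.out j * b) = G.out j by field_simp]
  have hd2 : ∀ z : E d, F ((∫ x, grad (shiftW W m b) x ∂law (shiftW W m b)) + (b * g₁) • z) =
      b * sm g' f (aOf W b m + g₁ • z) := fun z => by
    simp only [F, mean_shift hW m b, smul_add, smul_smul]
    rw [inv_mul_cancel₀ hb.ne', one_smul, show b⁻¹ * (b * g₁) = g₁ by field_simp]
  simp only [hd1, hd2, integral_const_mul, ← mul_sub, abs_mul, abs_of_pos hb] at h
  have h' := le_of_mul_le_mul_left h hb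
  have hfp : PolyBd f := PolyBd.of_bound fun x => by rw [Real.norm_eq_abs]; exact hM x
  have e2 : ∫ z, sm g' f (aOf W b m + g₁ • z) ∂stdGaussian (E d) =
      ∫ z, f (aOf W b m + g • z) ∂stdGaussian (E d) := by
    show sm g₁ (sm g' f) (aOf W b m) = sm g f (aOf W b m)
    rw [sm_sm hf.continuous hfp]
    congr 1
    rw [show g₁ ^ 2 + g' ^ 2 = g ^ 2 by linarith, Real.sqrt_sq hg]
  have hm := measurable_outCand hW hs m hb hb1 g₁ hY
  have hi : Integrable (fun q : Root d × E d => f (outCand W m b g₁ Y q.1 + g' • q.2))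
      ((rootLaw (shiftW W m b)).prod (stdGaussian (E d))) :=
    (integrable_const M).mono' (hf.continuous.measurable.comp
      ((hm.comp measurable_fst).add (measurable_snd.const_smul g'))).aestronglyMeasurable
      (ae_of_all _ fun q => hM _)
  rw [integral_prod _ hi]
  rw [e2] at h'
  exact h'

end Vale.Agent.P347.Zero
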