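import Vale.Agent.P347.Zero.Steps

/-!
# P347, exponent zero: what one band takes from its affine system

Numeric bounds, the system on a shifted potential, the weights of the target points.
-/

open MeasureTheory ProbabilityTheory Real
open scoped RealInnerProductSpace

namespace Vale.Agent.P347.Zero

variable {d : ℕ}

theorem exp_neg_one_bounds : 0.367 ≤ exp (-1) ∧ exp (-1) ≤ 0.369 := by
  have h1 := Real.exp_one_gt_d9
  have h2 := Real.exp_one_lt_d9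
  have h : 0 < exp 1 := exp_pos 1
  rw [exp_neg]
  constructor
  · rw [le_inv_comm₀ (by norm_num) h]; norm_num at h2 ⊢; linarith
  · rw [inv_le_comm₀ h (by norm_num)]; norm_num at h1 ⊢; linarith

theorem bT_one_sq : bT 1 ^ 2 = 1 - exp (-1) ^ 2 := by rw [bT_sq one_pos, b2, exp_neg_sq]

theorem bT_one_sq_ge : (0.86 : ℝ) ≤ bT 1 ^ 2 := by
  rw [bT_one_sq]; nlinarith [exp_neg_one_bounds.2, exp_pos (-1 : ℝ)]

theorem exp_neg_le_one {t : ℝ} (ht : 1 ≤ t) : exp (-t) ≤ 1 := exp_le_one_iff.2 (by linarith)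

theorem bT_one_sq_le {t : ℝ} (ht : 1 ≤ t) : bT 1 ^ 2 ≤ bT t ^ 2 := by
  rw [bT_sq one_pos, bT_sq (one_pos.trans_le ht), b2, b2]
  linarith [exp_le_exp.2 (by linarith : -(2 * t) ≤ -(2 * 1))]

theorem bandΓ_mono {C C' T θ₀ e g₁ : ℝ} (h : C ≤ C') (hT : 0 ≤ T) (hθ : 0 ≤ θ₀) (he : 0 ≤ e)
    (hg : 0 ≤ g₁) : bandΓ C T θ₀ e g₁ ≤ bandΓ C' T θ₀ e g₁ :=
  div_le_div_of_nonneg_right (by gcongr) (by positivity)

theorem bandΓ_nonneg {C T θ₀ e g₁ : ℝ} (hC : 0 ≤ C) (hT : 0 ≤ T) (hθ : 0 ≤ θ₀) (he : 0 ≤ e)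
    (hg : 0 ≤ g₁) : 0 ≤ bandΓ C T θ₀ e g₁ := by unfold bandΓ; positivity

theorem bandΩ_mono {C C' T θ₀ : ℝ} (h : C ≤ C') (hT : 0 ≤ T) (hθ : 0 ≤ θ₀) :
    bandΩ C T θ₀ ≤ bandΩ C' T θ₀ :=
  div_le_div_of_nonneg_right (by gcongr) hθ

/-- the number of nodes of `K` rounds, one outer round and one last node -/
theorem nodes_le_bandP {C T e : ℝ} {K n : ℕ} (hn : (n : ℝ) ≤ C * (T / e) ^ 2) (h1 : 1 ≤ n) :
    K * n + n + 1 ≤ bandP C T e K := by
  have h2 : ((K * n + n + 1 : ℕ) : ℝ) ≤ C * (T / e) ^ 2 * (K + 2) := by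
    have h3 : (1 : ℝ) ≤ n := by exact_mod_cast h1
    push_cast
    nlinarith [mul_le_mul_of_nonneg_right hn (by positivity : (0 : ℝ) ≤ (K : ℝ) + 2)]
  have h4 := h2.trans (Nat.le_ceil _)
  unfold bandP
  exact_mod_cast h4

theorem bandP_mono {C C' T e : ℝ} {K : ℕ} (h : C ≤ C') : bandP C T e K ≤ bandP C' T e K :=
  Nat.ceil_le_ceil (by gcongr)

theorem bandRes_nonneg {C : ℝ} (hC : 0 ≤ C) {p q k d : ℕ} {η b T θ₀ e g₁ : ℝ} (hη : 0 ≤ η)
    (hb : 0 ≤ b) (hT : 0 ≤ T) (hθ : 0 ≤ θ₀) (he : 0 ≤ e) (hg : 0 ≤ g₁) :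
    0 ≤ bandRes C p q k d η b T θ₀ e g₁ := by unfold bandRes; positivity

theorem bandRes_mono {C C' : ℝ} (h : C ≤ C') {p q k d : ℕ} {η b T θ₀ e g₁ : ℝ}
    (hη : 0 ≤ η) (hb : 0 ≤ b) (hT : 0 ≤ T) (hθ : 0 ≤ θ₀) (he : 0 ≤ e) (hg : 0 ≤ g₁) :
    bandRes C p q k d η b T θ₀ e g₁ ≤ bandRes C' p q k d η b T θ₀ e g₁ := by
  unfold bandRes; gcongr

variable {η B : ℝ} {W : E d → ℝ}

theorem Geo.Holds.mono {G : Geo} {g R R' : ℝ} (h : G.Holds W g R) (hR : R ≤ R') :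
    G.Holds W g R' := by
  obtain ⟨Y, h1, h2, h3⟩ := h
  exact ⟨Y, h1, fun i => ⟨(h2 i).1, (h2 i).2.trans hR⟩, fun f hf hM => (h3 f hf hM).trans hR⟩

/-- the system of one band on every shifted potential -/
theorem geo_shift (hG : GeoExists) : ∃ p : ℕ, ∀ k : ℕ, ∃ (C : ℝ) (pT : ℕ), 1 ≤ C ∧
    ∀ e θ₀ T g₁ b : ℝ, 0 < e → e ≤ 1 / 8 → 1 ≤ θ₀ → 2 ≤ T → 0 < g₁ → g₁ ≤ 1 → 0 < b → b ≤ 1 →
    ∃ G : Geo, (G.n : ℝ) ≤ C * (T / e) ^ 2 ∧
      G.Sized (bandΓ C T θ₀ e g₁ / b) (bandΩ C T θ₀) ∧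
      ∀ (d : ℕ) (η B : ℝ) (W : E d → ℝ) (m : E d), 0 < d → 0 < η → Pert η B W → η * θ₀ ≤ g₁ →
        G.Holds (shiftW W m b) (b * g₁) (b * (bandRes C p pT k d η b T θ₀ e g₁ * wt W m)) := by
  obtain ⟨p, hp⟩ := hG
  refine ⟨p + 2, fun k => ?_⟩
  obtain ⟨C, pT, hC, hk⟩ := hp k
  refine ⟨C, pT, hC, fun e θ₀ T g₁ b he he' hθ hT hg hg' hb hb' => ?_⟩
  obtain ⟨G, hn, hs, hh⟩ := hk e θ₀ T (b * g₁) he he' hθ hT (mul_pos hb hg) (mul_le_one₀ hb' hg.le hg')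
  refine ⟨G, hn, ?_, fun d η B W m hd hη hW hηθ => ?_⟩
  · have e1 : bandΓ C T θ₀ e g₁ / b = C * T * θ₀ / (e * (b * g₁)) := by
      rw [bandΓ, div_div]; ring
    rw [e1]; exact hs
  have hb2 : η * b ^ 2 * θ₀ ≤ b * g₁ := by
    calc η * b ^ 2 * θ₀ = (η * θ₀) * (b * b) := by ring
      _ ≤ g₁ * (1 * b) := mul_le_mul hηθ (mul_le_mul_of_nonneg_right hb' hb.le) (by positivity) hg.le
      _ = b * g₁ := by ring
  refine (hh d (η * b ^ 2) _ (shiftW W m b) hd (shift_pert hW hη hd m hb hb') hb2).mono ?_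
  have hd1 : (1 : ℝ) ≤ d := by exact_mod_cast hd
  have hs1 : 1 ≤ √(d : ℝ) := Real.one_le_sqrt.2 hd1
  have hη1 := hW.eta_le_one
  have hB : 1 + ‖grad W m‖ / (η * b * √d) ≤ wt W m / (η * b) := by
    rw [wt, le_div_iff₀ (mul_pos hη hb), add_mul, one_mul]
    refine add_le_add ((mul_le_one₀ hη1 hb.le hb').trans hs1) ?_
    calc ‖grad W m‖ / (η * b * √d) * (η * b) = ‖grad W m‖ / √d := by field_simp
      _ ≤ ‖grad W m‖ := div_le_self (norm_nonneg _) hs1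
  have hbase : (d : ℝ) * θ₀ / (e * (b * g₁)) ≤ d * θ₀ / (e * g₁ * b * η) := by
    refine div_le_div_of_nonneg_left (by positivity) (by positivity) ?_
    calc e * g₁ * b * η ≤ e * g₁ * b * 1 := mul_le_mul_of_nonneg_left hη1 (by positivity)
      _ = e * (b * g₁) := by ring
  have hbase2 : 1 / (η * b) ≤ d * θ₀ / (e * g₁ * b * η) := by
    rw [show (d : ℝ) * θ₀ / (e * g₁ * b * η) = (d * θ₀ / (e * g₁)) * (1 / (η * b)) by field_simp]
    refine le_mul_of_one_le_left (by positivity) ((one_le_div (by positivity)).2 ?_)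
    nlinarith [mul_le_mul he' hg' hg.le (by norm_num : (0 : ℝ) ≤ 1 / 8), mul_le_mul hd1 hθ zero_le_one
      (by positivity : (0 : ℝ) ≤ d)]
  have hrat : η * b ^ 2 * θ₀ / (b * g₁) ≤ η * θ₀ / g₁ := by
    rw [show η * b ^ 2 * θ₀ / (b * g₁) = η * θ₀ / g₁ * b by field_simp]
    exact mul_le_of_le_one_right (by positivity) hb'
  set Z := (d : ℝ) * θ₀ / (e * g₁ * b * η)
  have hZ : 0 ≤ Z := by positivity
  calc C * (1 + ‖grad W m‖ / (η * b * √d)) * T ^ pT * ((d : ℝ) * θ₀ / (e * (b * g₁))) ^ p *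
        (e ^ k + (η * b ^ 2 * θ₀ / (b * g₁)) ^ k + exp (-T))
      ≤ C * (wt W m / (η * b)) * T ^ pT * Z ^ p * (e ^ k + (η * θ₀ / g₁) ^ k + exp (-T)) := by
        have := wt_nonneg W m
        gcongr
    _ = b * (C * T ^ pT * (Z ^ p * (1 / (η * b)) * (1 / b)) *
          (e ^ k + (η * θ₀ / g₁) ^ k + exp (-T)) * wt W m) := by field_simp
    _ ≤ _ := by
        have := wt_nonneg W m
        rw [bandRes, pow_add, pow_two, ← mul_assoc (Z ^ p)]
        have h1 : 1 / b ≤ Z := le_trans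
          (one_div_le_one_div_of_le (mul_pos hη hb) (mul_le_of_le_one_left hb.le hη1)) hbase2
        gcongr

/-- the weight of a target point -/
theorem integral_wt_point (hW : Pert η B W) (m : E d) {b t : ℝ} (hb : 0 < b) (hb1 : b ≤ 1)
    (ht : 1 ≤ t) {Ω : Type*} [MeasurableSpace Ω] {ρ : Measure Ω} {Y : Ω → E d} (hY : Measurable Y)
    (hlaw : ρ.map Y = law (tU (shiftW W m b) t)) :
    Integrable (fun p => wt W (m + (b * exp (-t)) • Y p)) ρ ∧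
      ∫ p, wt W (m + (b * exp (-t)) • Y p) ∂ρ ≤ (1 + 4 * η) * wt W m := by
  have h0 : 0 < t := one_pos.trans_le ht
  have hc : Continuous fun y => wt W (m + (b * exp (-t)) • y) :=
    continuous_const.add (hW.contDiff_grad.continuous.comp (by fun_prop)).norm
  refine ⟨?_, ?_⟩
  · exact (integrable_map_measure hc.aestronglyMeasurable hY.aemeasurable).1
      (hlaw ▸ integrable_moment hW m hb hb1 h0)
  · rw [← integral_map hY.aemeasurable hc.aestronglyMeasurable, hlaw]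
    exact moment_le hW m hb hb1 h0

/-- the mean gradient at any centre is bounded by the weight -/
theorem norm_aOf_le (hW : Pert η B W) (hη : η ≤ 1 / 8) {b : ℝ} (hb : 0 < b) (hb1 : b ≤ 1)
    (x : E d) : ‖aOf W b x‖ ≤ 2 * wt W x := by
  have h := aOf_zero_err hW x hb hb1 le_rfl
  simp only [zero_smul, add_zero, integral_const, probReal_univ, one_smul, zero_add] at h
  have h1 := norm_le_norm_add_norm_sub' (aOf W b x) (grad W x)
  rw [norm_sub_rev] at h1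
  have h2 : 2 * η * b * (√d + ‖grad W x‖) ≤ 1 * wt W x :=
    mul_le_mul_of_nonneg_right (by nlinarith [hW.eta_nonneg]) (wt_nonneg W x)
  simp only [wt] at h2 ⊢
  linarith [Real.sqrt_nonneg (d : ℝ), norm_nonneg (grad W x)]

/-- the equation of the points in centre coordinates -/
theorem point_residual (hW : Pert η B W) (m Z w : E d) (b : ℝ) (G : Geo)
    (htm : ∀ i, 0 < G.tm i) (Y : Fin G.n → E d) (i : Fin G.n) :
    m + (b * exp (-G.tm i)) • Y i - ((exp (-G.tm i) * G.ky i) • (m + b • Z) +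
        (b * exp (-G.tm i) * G.kw i) • w + (1 - exp (-G.tm i) * G.ky i) • m +
        ∑ j, (b ^ 2 * exp (-G.tm i) * G.C i j) •
          aOf W (b * bT (G.tm j)) (m + (b * exp (-G.tm j)) • Y j)) =
      (b * exp (-G.tm i)) • (Y i - (G.ky i • Z + G.kw i • w +
        ∑ j, G.C i j • tv (shiftW W m b) (G.tm j) (Y j))) := by
  simp only [tv_shift hW m b (htm _), smul_sub, smul_add, Finset.smul_sum, smul_smul]
  rw [Finset.sum_congr rfl fun j _ => show (b * exp (-G.tm i) * (G.C i j * b)) •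
      aOf W (b * bT (G.tm j)) (m + (b * exp (-G.tm j)) • Y j) =
    (b ^ 2 * exp (-G.tm i) * G.C i j) • aOf W (b * bT (G.tm j)) (m + (b * exp (-G.tm j)) • Y j) by
      congr 1; ring]
  module

end Vale.Agent.P347.Zero
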