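import Vale.Agent.P347.CellQC

/-!
# P347, exponent zero: straight-line programs on Gaussian draws

An estimator is a procedure run at a Gaussian draw of an unknown centre. A program has registers:
register `0` is the hidden root (one draw for each consumer), register `k + 1` the output of node
`k`, whose centre is a known bias plus a linear combination of the earlier registers. Every register is held as one draw; when a
node is run, each draw is split into two with independent Gaussian noise, one for this node and one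
for the later consumers, so that the point given to a node is exactly Gaussian in the ideal run.
-/

open MeasureTheory ProbabilityTheory Real Function
open scoped ENNReal NNReal

namespace Vale.Agent.P347.Zero

variable {d : ℕ}

/-- A procedure with its own random seed, run at a draw. -/
structure Est (d : ℕ) where
  Seed : Type
  [ms : MeasurableSpace Seed]
  [sb : StandardBorelSpace Seed]
  [ne : Nonempty Seed]
  P : Measure Seed
  [prob : IsProbabilityMeasure P]
  q : ℕ
  F : (E d → ℝ × E d) → E d × Seed → E d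
  qc : QC d q F

attribute [instance] Est.ms Est.sb Est.ne Est.prob

/-- Against the oracle `O`: Lipschitz in the draw for fixed seeds; at a draw `m + t z` with `z`
standard Gaussian the law of the output is `ε m`-close to that of `a m + g z` for bounded
`1`-Lipschitz tests. -/
structure Est.Spec (e : Est d) (O : E d → ℝ × E d) (t g : ℝ) (a : E d → E d) (L : ℝ≥0)
    (ε : E d → ℝ) : Prop where
  measurable_target : Measurable a
  measurable_err : Measurable ε
  lipschitz : ∀ ω x y, ‖e.F O (x, ω) - e.F O (y, ω)‖ ≤ L * ‖x - y‖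
  dual : ∀ (m : E d) (f : E d → ℝ), LipschitzWith 1 f → (∃ M, ∀ x, |f x| ≤ M) →
    |∫ z, f (e.F O (m + t • z.1, z.2)) ∂(stdGaussian (E d)).prod e.P -
      ∫ z, f (a m + g • z) ∂stdGaussian (E d)| ≤ ε m

/-- A straight-line program. -/
structure Prog (d : ℕ) (S : Type) where
  n : ℕ
  est : ℕ → Est d
  bias : ℕ → S → E d
  /-- `coef k 0` multiplies the root draw of node `k`, `coef k (j + 1)` the output of node `j < k`. -/
  coef : ℕ → ℕ → ℝ
  /-- `var (j + 1)`: the variance of the noise of node `j` seen by each consumer. -/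
  var : ℕ → ℝ
  fill : ℕ → ℝ
  outBias : S → E d
  outCoef : ℕ → ℝ
  outFill : ℝ

namespace Prog

variable {S : Type} (p : Prog d S)

/-- The randomness of node `k`: splitting noise, fill and node seed. -/
abbrev Blk (k : ℕ) : Type := (Fin k → E d) × E d × (p.est k).Seed

/-- The randomness used up to node `k`: seeds, splitting noise, fills and node seeds. -/
def Rand : ℕ → Type
  | 0 => S
  | k + 1 => Rand k × p.Blk k

/-- The randomness before node `k`. -/
def pre {k : ℕ} (r : p.Rand (k + 1)) : p.Rand k := r.1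

/-- The randomness of node `k`. -/
def blk {k : ℕ} (r : p.Rand (k + 1)) : p.Blk k := r.2

/-- The seed of the program. -/
def seed : (k : ℕ) → p.Rand k → S
  | 0, r => r
  | k + 1, r => seed k (p.pre r)

/-- Replace the seed. -/
def reseed : (k : ℕ) → S → p.Rand k → p.Rand k
  | 0, s, _ => s
  | k + 1, s, r => (reseed k s (p.pre r), p.blk r)

variable [MeasurableSpace S]

instance instMeasurableSpaceRand : ∀ k, MeasurableSpace (p.Rand k)
  | 0 => inferInstanceAs (MeasurableSpace S)
  | k + 1 =>
    @Prod.instMeasurableSpace _ _ (instMeasurableSpaceRand k) inferInstance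

/-- The law of the randomness of node `k`. -/
noncomputable def blkLaw (k : ℕ) : Measure (p.Blk k) :=
  (Measure.pi fun _ : Fin k => stdGaussian (E d)).prod ((stdGaussian (E d)).prod (p.est k).P)

/-- The law of the randomness. -/
noncomputable def randLaw (ν : Measure S) : (k : ℕ) → Measure (p.Rand k)
  | 0 => ν
  | k + 1 => (randLaw ν k).prod (p.blkLaw k)

/-- The noise weight that makes the draw of node `j` into the draw used by node `k`. -/
noncomputable def nodeExtra (k j : ℕ) : ℝ :=
  √(p.var (j + 1) - p.var (j + 1) / ((p.n : ℝ) + 1 - k))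

/-- The noise weight that makes the draw of node `j` into the draw kept after node `k`. -/
noncomputable def keepExtra (k j : ℕ) : ℝ :=
  √(p.var (j + 1) / ((p.n : ℝ) - k) - p.var (j + 1) / ((p.n : ℝ) + 1 - k))

/-- The point of node `k`, from the seed, the root draw, the draws held and the node's noise. -/
noncomputable def point (k : ℕ) (s : S) (x : E d) (D : Fin k → E d) (b : p.Blk k) : E d :=
  p.bias k s + p.coef k 0 • x +
    (∑ j : Fin k, p.coef k (j + 1) • (D j + p.nodeExtra k j • b.1 j)) + p.fill k • b.2.1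

/-- The draws held after node `k`. -/
noncomputable def next (O : E d → ℝ × E d) (k : ℕ) (s : S) (x : E d) (D : Fin k → E d)
    (b : p.Blk k) : Fin (k + 1) → E d :=
  Fin.snoc (fun j => D j - p.keepExtra k j • b.1 j) ((p.est k).F O (p.point k s x D b, b.2.2))

/-- The draws held after `k` nodes; `z.1` holds the root draws of these nodes. -/
noncomputable def run (O : E d → ℝ × E d) : (k : ℕ) → (Fin k → E d) × p.Rand k → Fin k → E d
  | 0, _ => fun i => i.elim0
  | k + 1, z => p.next O k (p.seed k (p.pre z.2)) (z.1 (Fin.last k))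
      (run O k (Fin.init z.1, p.pre z.2)) (p.blk z.2)

/-- The procedure of the program; `z.1` holds one root draw per node and one for the output. -/
noncomputable def proc (O : E d → ℝ × E d) (z : (Fin (p.n + 1) → E d) × p.Rand p.n × E d) : E d :=
  p.outBias (p.seed p.n z.2.1) + p.outCoef 0 • z.1 (Fin.last p.n) +
    (∑ j : Fin p.n, p.outCoef (j + 1) • p.run O p.n (Fin.init z.1, z.2.1) j) + p.outFill • z.2.2

/-- The noise budget: variances `v` of the root draws, `t k` at the draw of node `k`, `g k` at its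
output, `g'` at the output of the program. -/
structure Budget (v t g : ℕ → ℝ) (g' : ℝ) : Prop where
  v_nonneg : ∀ k ≤ p.n, 0 ≤ v k
  t_pos : ∀ k < p.n, 0 < t k
  g_nonneg : ∀ k < p.n, 0 ≤ g k
  out_pos : 0 < g'
  var_succ : ∀ k < p.n, p.var (k + 1) = ((p.n : ℝ) - k) * g k ^ 2
  node : ∀ k < p.n, p.coef k 0 ^ 2 * v k +
    ∑ j : Fin k, p.coef k (j + 1) ^ 2 * p.var (j + 1) + p.fill k ^ 2 = t k ^ 2
  output : p.outCoef 0 ^ 2 * v p.n +
    ∑ j : Fin p.n, p.outCoef (j + 1) ^ 2 * p.var (j + 1) + p.outFill ^ 2 = g' ^ 2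

/-- The measurability of the known parts. -/
structure Meas : Prop where
  bias : ∀ k < p.n, Measurable (p.bias k)
  outBias : Measurable p.outBias

end Prog

instance isProbabilityMeasure_piGaussian (m : ℕ) :
    IsProbabilityMeasure (Measure.pi fun _ : Fin m => stdGaussian (E d)) := inferInstance

instance sFinite_piGaussian (m : ℕ) :
    SFinite (Measure.pi fun _ : Fin m => stdGaussian (E d)) :=
  have := isProbabilityMeasure_piGaussian (d := d) m
  inferInstance

section Tools

/-- A normalised combination of independent standard Gaussian vectors is standard Gaussian. -/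
theorem measurePreserving_comb {m : ℕ} (α : Fin m → ℝ) {β : ℝ}
    (h : ∑ j, α j ^ 2 + β ^ 2 = 1) :
    MeasurePreserving (fun q : (Fin m → E d) × E d => (∑ j, α j • q.1 j) + β • q.2)
      ((Measure.pi fun _ => stdGaussian (E d)).prod (stdGaussian (E d))) (stdGaussian (E d)) := by
  have hm : Measurable fun q : (Fin m → E d) × E d => (∑ j, α j • q.1 j) + β • q.2 := by fun_prop
  refine ⟨hm, ?_⟩
  have := Measure.isProbabilityMeasure_map
    (μ := (Measure.pi fun _ : Fin m => stdGaussian (E d)).prod (stdGaussian (E d))) hm.aemeasurable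
  refine Measure.ext_of_charFun (funext fun t => ?_)
  rw [charFun_apply, integral_map hm.aemeasurable (by fun_prop), charFun_stdGaussian]
  simp only [inner_add_left, sum_inner, real_inner_smul_left, Complex.ofReal_add, Complex.ofReal_sum,
    add_mul, Finset.sum_mul, Complex.exp_add, Complex.exp_sum]
  rw [integral_prod_mul (fun q : Fin m → E d => ∏ j, Complex.exp ((α j * inner ℝ (q j) t : ℝ) * Complex.I))
    (fun z : E d => Complex.exp ((β * inner ℝ z t : ℝ) * Complex.I)),
    integral_fintype_prod_eq_prod (fun j (z : E d) => Complex.exp ((α j * inner ℝ z t : ℝ) * Complex.I))]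
  have hc : ∀ a : ℝ, ∫ z, Complex.exp ((a * inner ℝ z t : ℝ) * Complex.I) ∂stdGaussian (E d) =
      Complex.exp (-((a : ℂ) ^ 2 * ((‖t‖ : ℂ)) ^ 2) / 2) := fun a => by
    have := charFun_stdGaussian (E := E d) (a • t)
    rw [charFun_apply] at this
    simp only [real_inner_smul_right, norm_smul, Real.norm_eq_abs] at this
    rw [this]
    congr 1
    have e : ((|a| : ℝ) : ℂ) ^ 2 = (a : ℂ) ^ 2 := by exact_mod_cast sq_abs a
    push_cast
    rw [mul_pow, e]
  simp only [hc, ← Complex.exp_sum, ← Complex.exp_add]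
  congr 1
  have h' : (∑ j, (α j : ℂ) ^ 2) + (β : ℂ) ^ 2 = 1 := by exact_mod_cast h
  rw [← Finset.sum_div, Finset.sum_neg_distrib, ← Finset.sum_mul, ← add_div]
  linear_combination (-((‖t‖ : ℂ)) ^ 2 / 2) * h'

/-- Rotate each pair of two Gaussian vectors. -/
theorem measurePreserving_split (m : ℕ) {c : ℝ} (hc : 0 ≤ c) (hc' : c ≤ 1) :
    MeasurePreserving (fun q : (Fin m → E d) × (Fin m → E d) =>
        ((fun j => √c • q.1 j + √(1 - c) • q.2 j), fun j => √(1 - c) • q.1 j - √c • q.2 j))
      ((Measure.pi fun _ => stdGaussian (E d)).prod (Measure.pi fun _ => stdGaussian (E d)))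
      ((Measure.pi fun _ => stdGaussian (E d)).prod (Measure.pi fun _ => stdGaussian (E d))) := by
  set θ := Real.arccos (√(1 - c))
  have hcos : Real.cos θ = √(1 - c) := Real.cos_arccos
    (le_trans (by norm_num) (Real.sqrt_nonneg _)) (Real.sqrt_le_one.2 (by linarith))
  have hsin : Real.sin θ = √c := by
    rw [Real.sin_arccos, Real.sq_sqrt (by linarith)]
    congr 1
    ring
  have h1 : MeasurePreserving (fun p : E d × E d =>
      (√c • p.1 + √(1 - c) • p.2, √(1 - c) • p.1 - √c • p.2))
      ((stdGaussian (E d)).prod (stdGaussian (E d))) ((stdGaussian (E d)).prod (stdGaussian (E d))) := by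
    convert (measurePreserving_rot (V := E d) θ).comp Measure.measurePreserving_swap using 1
    funext p
    simp only [Function.comp_apply, Prod.fst_swap, Prod.snd_swap, hcos, hsin, neg_smul,
      Prod.mk.injEq]
    exact ⟨by abel, by abel⟩
  have he := measurePreserving_arrowProdEquivProdArrow (E d) (E d) (Fin m)
    (fun _ => stdGaussian (E d)) (fun _ => stdGaussian (E d))
  exact he.comp ((measurePreserving_pi _ _ fun _ : Fin m => h1).comp
    (MeasurePreserving.symm _ he))

theorem measurePreserving_snoc (m : ℕ) :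
    MeasurePreserving (fun q : (Fin m → E d) × E d => (Fin.snoc q.1 q.2 : Fin (m + 1) → E d))
      ((Measure.pi fun _ => stdGaussian (E d)).prod (stdGaussian (E d)))
      (Measure.pi fun _ => stdGaussian (E d)) := by
  have h := (measurePreserving_piFinSuccAbove (fun _ : Fin (m + 1) => stdGaussian (E d))
    (Fin.last m)).symm
  convert h.comp Measure.measurePreserving_swap using 1
  funext q
  simp [MeasurableEquiv.piFinSuccAbove, Fin.snocEquiv]

theorem measurable_init {m : ℕ} :
    Measurable fun f : Fin (m + 1) → E d => (Fin.init f : Fin m → E d) :=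
  measurable_pi_lambda _ fun j => measurable_pi_apply j.castSucc

theorem measurable_snoc {α : Type*} [MeasurableSpace α] {m : ℕ} {f : α → Fin m → E d} {g : α → E d}
    (hf : Measurable f) (hg : Measurable g) :
    Measurable fun x => (Fin.snoc (f x) (g x) : Fin (m + 1) → E d) :=
  measurable_pi_lambda _ fun j => by
    induction j using Fin.lastCases with
    | last => simpa using hg
    | cast i => simpa [Function.comp_def] using (measurable_pi_apply i).comp hf

/-- Regroup the factors of a product. -/
theorem measurePreserving_regroup {α β γ δ : Type*} [MeasurableSpace α] [MeasurableSpace β]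
    [MeasurableSpace γ] [MeasurableSpace δ] (μa : Measure α) (μb : Measure β) (μc : Measure γ)
    (μd : Measure δ) [SFinite μa] [SFinite μb] [SFinite μc] [SFinite μd] :
    MeasurePreserving (fun q : (α × β) × γ × δ => (q.1.1, (q.1.2, q.2.1), q.2.2))
      ((μa.prod μb).prod (μc.prod μd)) (μa.prod ((μb.prod μc).prod μd)) :=
  ((MeasurePreserving.id μa).prod
    (MeasurePreserving.symm _ (measurePreserving_prodAssoc μb μc μd))).comp
    (measurePreserving_prodAssoc μa μb _)

/-- Regroup the factors of a product, moving the second of a pair to the front. -/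
theorem measurePreserving_regroup' {α β γ δ ε : Type*} [MeasurableSpace α] [MeasurableSpace β]
    [MeasurableSpace γ] [MeasurableSpace δ] [MeasurableSpace ε] (μa : Measure α) (μb : Measure β)
    (μc : Measure γ) (μd : Measure δ) (μe : Measure ε) [SFinite μa] [SFinite μb] [SFinite μc]
    [SFinite μd] [SFinite μe] :
    MeasurePreserving (fun q : α × (β × γ) × δ × ε => ((q.1, q.2.1.2), ((q.2.1.1, q.2.2.1), q.2.2.2)))
      (μa.prod ((μb.prod μc).prod (μd.prod μe))) ((μa.prod μc).prod ((μb.prod μd).prod μe)) :=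
  ((MeasurePreserving.id (μa.prod μc)).prod
    (MeasurePreserving.symm _ (measurePreserving_prodAssoc μb μd μe))).comp
    ((MeasurePreserving.symm _ (measurePreserving_prodAssoc μa μc (μb.prod (μd.prod μe)))).comp
      ((MeasurePreserving.id μa).prod ((measurePreserving_prodAssoc μc μb (μd.prod μe)).comp
        ((Measure.measurePreserving_swap (μ := μb) (ν := μc)).prod (MeasurePreserving.id _)))))

/-- Regroup two pairs. -/
theorem measurePreserving_prod_comm4 {α β γ δ : Type*} [MeasurableSpace α] [MeasurableSpace β]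
    [MeasurableSpace γ] [MeasurableSpace δ] (μa : Measure α) (μb : Measure β) (μc : Measure γ)
    (μd : Measure δ) [SFinite μa] [SFinite μb] [SFinite μc] [SFinite μd] :
    MeasurePreserving (fun q : (α × β) × γ × δ => ((q.1.1, q.2.1), (q.1.2, q.2.2)))
      ((μa.prod μb).prod (μc.prod μd)) ((μa.prod μc).prod (μb.prod μd)) :=
  ((MeasurePreserving.symm _ (measurePreserving_prodAssoc μa μc (μb.prod μd))).comp
    ((MeasurePreserving.id μa).prod ((measurePreserving_prodAssoc μc μb μd).comp
      ((Measure.measurePreserving_swap (μ := μb) (ν := μc)).prod (MeasurePreserving.id μd))))).comp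
    (measurePreserving_regroup μa μb μc μd)

/-- Bounded functions have bounded integrals. -/
theorem abs_integral_le_of_bound {α : Type*} [MeasurableSpace α] {μ : Measure α}
    [IsProbabilityMeasure μ] {h : α → ℝ} {M : ℝ} (hb : ∀ x, |h x| ≤ M) : |∫ x, h x ∂μ| ≤ M := by
  have := norm_integral_le_of_norm_le_const (μ := μ) (ae_of_all _ fun x =>
    (Real.norm_eq_abs (h x)).trans_le (hb x))
  simpa using this

theorem integrable_of_bound {α : Type*} [MeasurableSpace α] {μ : Measure α} [IsFiniteMeasure μ]
    {h : α → ℝ} (hm : Measurable h) {M : ℝ} (hb : ∀ x, |h x| ≤ M) : Integrable h μ :=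
  Integrable.of_bound hm.aestronglyMeasurable M (ae_of_all _ fun x =>
    (Real.norm_eq_abs (h x)).trans_le (hb x))

/-- The integral of a pointwise bound on a difference. -/
theorem abs_integral_sub_le {α : Type*} [MeasurableSpace α] {μ : Measure α} {h h' B : α → ℝ}
    (hh : Integrable h μ) (hh' : Integrable h' μ) (hB : Integrable B μ)
    (hle : ∀ x, |h x - h' x| ≤ B x) : |∫ x, h x ∂μ - ∫ x, h' x ∂μ| ≤ ∫ x, B x ∂μ := by
  rw [← integral_sub hh hh']
  exact abs_integral_le_integral_abs.trans (integral_mono (hh.sub hh').abs hB hle)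

/-- One node of the rotation scheme, with a combination of the noises. -/
theorem measurePreserving_nodeRot {k : ℕ} {Θ Sg : Type*} [MeasurableSpace Θ] [MeasurableSpace Sg]
    (ρ : Measure Θ) [IsProbabilityMeasure ρ] (Q : Measure Sg) [IsProbabilityMeasure Q]
    {c : ℝ} (hc : 0 ≤ c) (hc' : c ≤ 1) (α : Fin (k + 1) → ℝ) {β : ℝ}
    (hsq : ∑ i, α i ^ 2 + β ^ 2 = 1) :
    MeasurePreserving (fun q : (Θ × (Fin k → E d)) × E d × (Fin k → E d) × E d × Sg =>
        ((q.1.1, fun j => √(1 - c) • q.1.2 j - √c • q.2.2.1 j),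
          ((∑ i : Fin (k + 1), α i • (Fin.snoc (α := fun _ => E d)
              (fun j => √c • q.1.2 j + √(1 - c) • q.2.2.1 j) q.2.1 : Fin (k + 1) → E d) i) +
              β • q.2.2.2.1, q.2.2.2.2)))
      ((ρ.prod (Measure.pi fun _ : Fin k => stdGaussian (E d))).prod ((stdGaussian (E d)).prod
        ((Measure.pi fun _ : Fin k => stdGaussian (E d)).prod ((stdGaussian (E d)).prod Q))))
      ((ρ.prod (Measure.pi fun _ : Fin k => stdGaussian (E d))).prod
        ((stdGaussian (E d)).prod Q)) := by
  set πk := Measure.pi fun _ : Fin k => stdGaussian (E d)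
  set γ := stdGaussian (E d)
  have i1 : IsProbabilityMeasure πk := isProbabilityMeasure_piGaussian k
  have i2 : IsProbabilityMeasure ((Measure.pi fun _ : Fin k => stdGaussian (E d)).prod
      (Measure.pi fun _ : Fin k => stdGaussian (E d))) :=
    Measure.prod.instIsProbabilityMeasure _ _
  have h0 : MeasurePreserving (fun q : E d × (Fin k → E d) × E d × Sg =>
      (q.2.1, q.1, q.2.2.1, q.2.2.2))
      (γ.prod (πk.prod (γ.prod Q))) (πk.prod (γ.prod (γ.prod Q))) :=
    ((measurePreserving_prodAssoc πk γ (γ.prod Q)).comp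
      (((Measure.measurePreserving_swap (μ := γ) (ν := πk)).prod (MeasurePreserving.id _)))).comp
      (MeasurePreserving.symm _ (measurePreserving_prodAssoc γ πk (γ.prod Q)))
  have h1 := (measurePreserving_regroup ρ πk πk (γ.prod (γ.prod Q))).comp
    ((MeasurePreserving.id (ρ.prod πk)).prod h0)
  have h2 := (MeasurePreserving.id ρ).prod
    ((measurePreserving_split (d := d) k hc hc').prod (MeasurePreserving.id (γ.prod (γ.prod Q))))
  have h3 := measurePreserving_regroup' ρ πk πk γ (γ.prod Q)
  have h4 := (((measurePreserving_comb (d := d) α hsq).comp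
    ((measurePreserving_snoc (d := d) k).prod (MeasurePreserving.id γ))).prod
      (MeasurePreserving.id Q)).comp
    (MeasurePreserving.symm _ (measurePreserving_prodAssoc (πk.prod γ) γ Q))
  have hA := ((MeasurePreserving.id (ρ.prod πk)).prod h4).comp h3
  have hB := hA.comp (h2.comp h1)
  convert hB using 1
  funext q
  simp [MeasurableEquiv.prodAssoc]

end Tools

namespace Est.Spec

variable {e : Est d} {O : E d → ℝ × E d} {t g : ℝ} {a : E d → E d} {L : ℝ≥0} {ε : E d → ℝ}

theorem err_nonneg (h : e.Spec O t g a L ε) (m : E d) : 0 ≤ ε m :=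
  (abs_nonneg _).trans (h.dual m (fun _ => 0) (LipschitzWith.const 0 |>.weaken zero_le_one)
    ⟨0, by simp⟩)

/-- The dual bound at any Lipschitz constant. -/
theorem dual_mul (h : e.Spec O t g a L ε) (m : E d) {f : E d → ℝ} {w : ℝ} (hw : 0 ≤ w)
    (hf : ∀ x y, |f x - f y| ≤ w * ‖x - y‖) (hb : ∃ M, ∀ x, |f x| ≤ M) :
    |∫ z, f (e.F O (m + t • z.1, z.2)) ∂(stdGaussian (E d)).prod e.P -
      ∫ z, f (a m + g • z) ∂stdGaussian (E d)| ≤ w * ε m := by
  rcases hw.eq_or_lt with hw | hw
  · have : ∀ x, f x = f 0 := fun x => by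
      have := hf x 0
      rw [← hw, zero_mul] at this
      exact sub_eq_zero.1 (abs_nonpos_iff.1 this)
    rw [funext this]
    simp [← hw]
  obtain ⟨M, hM⟩ := hb
  have h1 := h.dual m (fun x => w⁻¹ * f x) (LipschitzWith.of_dist_le_mul fun x y => by
      rw [Real.dist_eq, ← mul_sub, abs_mul, abs_inv, abs_of_pos hw, dist_eq_norm, NNReal.coe_one,
        one_mul]
      rw [inv_mul_le_iff₀ hw]
      exact hf x y)
    ⟨w⁻¹ * M, fun x => by
      rw [abs_mul, abs_inv, abs_of_pos hw]
      exact mul_le_mul_of_nonneg_left (hM x) (inv_nonneg.2 hw.le)⟩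
  rwa [integral_const_mul, integral_const_mul, ← mul_sub, abs_mul, abs_inv, abs_of_pos hw,
    inv_mul_le_iff₀ hw] at h1

end Est.Spec

namespace Prog

variable {S : Type} [MeasurableSpace S] (p : Prog d S)

instance instStandardBorelSpaceRand [StandardBorelSpace S] : ∀ k, StandardBorelSpace (p.Rand k)
  | 0 => inferInstanceAs (StandardBorelSpace S)
  | k + 1 => by
    have := instStandardBorelSpaceRand k
    have h : StandardBorelSpace (E d × (p.est k).Seed) := inferInstance
    have h' : StandardBorelSpace ((Fin k → E d) × E d × (p.est k).Seed) := inferInstance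
    exact StandardBorelSpace.prod (α := p.Rand k) (β := p.Blk k)

instance instNonemptyRand [Nonempty S] : ∀ k, Nonempty (p.Rand k)
  | 0 => inferInstanceAs (Nonempty S)
  | k + 1 => by
    have := instNonemptyRand k
    exact inferInstanceAs (Nonempty (p.Rand k × p.Blk k))

instance instIsProbabilityMeasureBlkLaw (k : ℕ) : IsProbabilityMeasure (p.blkLaw k) := by
  unfold blkLaw; infer_instance

instance instIsProbabilityMeasureRandLaw (ν : Measure S) [IsProbabilityMeasure ν] :
    ∀ k, IsProbabilityMeasure (p.randLaw ν k)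
  | 0 => inferInstanceAs (IsProbabilityMeasure ν)
  | k + 1 => by
    have := instIsProbabilityMeasureRandLaw ν k
    exact inferInstanceAs (IsProbabilityMeasure ((p.randLaw ν k).prod (p.blkLaw k)))

@[fun_prop]
theorem measurable_seed : ∀ k, Measurable (p.seed k)
  | 0 => measurable_id
  | k + 1 => (measurable_seed k).comp measurable_fst

@[fun_prop]
theorem measurable_pre (k : ℕ) : Measurable (p.pre (k := k)) := measurable_fst

@[fun_prop]
theorem measurable_blk (k : ℕ) : Measurable (p.blk (k := k)) := measurable_snd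

theorem run_succ (O : E d → ℝ × E d) (k : ℕ) (z : (Fin (k + 1) → E d) × p.Rand (k + 1)) :
    p.run O (k + 1) z = p.next O k (p.seed k (p.pre z.2)) (z.1 (Fin.last k))
      (p.run O k (Fin.init z.1, p.pre z.2)) (p.blk z.2) := rfl

variable {p}

theorem measurable_point (hm : p.Meas) {k : ℕ} (hk : k < p.n) :
    Measurable fun q : S × E d × (Fin k → E d) × p.Blk k => p.point k q.1 q.2.1 q.2.2.1 q.2.2.2 := by
  have hb := hm.bias k hk
  unfold point; fun_prop

theorem qc_run (hm : p.Meas) : ∀ k ≤ p.n,
    QC d (∑ i ∈ Finset.range k, (p.est i).q) fun O (z : (Fin k → E d) × p.Rand k) => p.run O k z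
  | 0, _ => QC.pure (fun z : (Fin 0 → E d) × p.Rand 0 => fun i : Fin 0 => i.elim0)
      (measurable_pi_lambda _ fun i => i.elim0)
  | k + 1, hk => by
    have hini := measurable_init (d := d) (m := k)
    have ih := ((qc_run hm k (Nat.le_of_succ_le hk)).comap
      (φ := fun z : (Fin (k + 1) → E d) × p.Rand (k + 1) => (Fin.init z.1, p.pre z.2))
      ((hini.comp measurable_fst).prodMk ((p.measurable_pre k).comp measurable_snd))).withSeed
    set ψ : (((Fin (k + 1) → E d) × p.Rand (k + 1)) × (Fin k → E d)) × Unit →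
        E d × (p.est k).Seed :=
      fun y => (p.point k (p.seed k (p.pre y.1.1.2)) (y.1.1.1 (Fin.last k)) y.1.2 (p.blk y.1.1.2),
        (p.blk y.1.1.2).2.2) with hψ
    have hpt := measurable_point hm (k := k) hk
    have hψm : Measurable ψ := by rw [hψ]; fun_prop
    have hg := ((p.est k).qc.comap hψm).withSeed.map
      (fun y => (Fin.snoc (fun j => y.1.1.2 j - p.keepExtra k j • (p.blk y.1.1.1.2).1 j) y.2 :
        Fin (k + 1) → E d))
      (measurable_snoc (by fun_prop) measurable_snd)
    have h := (ih.seq hg).comap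
      (φ := fun z : (Fin (k + 1) → E d) × p.Rand (k + 1) => (z, ()))
      (measurable_id.prodMk measurable_const)
    rw [Finset.sum_range_succ]
    exact h.congr fun O z => rfl

/-- The queries of a program. -/
theorem qc_proc (hm : p.Meas) :
    QC d (∑ i ∈ Finset.range p.n, (p.est i).q) p.proc := by
  have hini := measurable_init (d := d) (m := p.n)
  refine (((qc_run hm p.n le_rfl).comap
    (φ := fun z : (Fin (p.n + 1) → E d) × p.Rand p.n × E d => (Fin.init z.1, z.2.1))
    ((hini.comp measurable_fst).prodMk (measurable_fst.comp measurable_snd))).withSeed.map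
      (fun y => p.outBias (p.seed p.n y.1.2.1) + p.outCoef 0 • y.1.1 (Fin.last p.n) +
        (∑ j : Fin p.n, p.outCoef (j + 1) • y.2 j) + p.outFill • y.1.2.2) ?_).congr fun O z => rfl
  have hb := hm.outBias
  fun_prop

variable {O : E d → ℝ × E d} {L : ℕ → ℝ≥0}

section Lipschitz

variable {δ dK l : ℕ → ℝ} {dOut : ℝ}

theorem seed_reseed (s : S) : ∀ (k : ℕ) (r : p.Rand k), p.seed k (p.reseed k s r) = s
  | 0, _ => rfl
  | k + 1, r => seed_reseed s k (p.pre r)

theorem lipschitz_run
    (hL : ∀ k < p.n, ∀ ω x y, ‖(p.est k).F O (x, ω) - (p.est k).F O (y, ω)‖ ≤ L k * ‖x - y‖)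
    (s' : S) : ∀ k ≤ p.n, ∀ (r : p.Rand k) (x x' : Fin k → E d),
      (∀ i : Fin k, ‖x i - x' i‖ ≤ δ i) →
      (∀ i < k, ‖p.bias i (p.seed k r) - p.bias i s'‖ ≤ dK i) →
      (∀ i < k, dK i + |p.coef i 0| * δ i + ∑ j : Fin i, |p.coef i (j + 1)| * (L j * l j) ≤ l i) →
      ∀ j : Fin k, ‖p.run O k (x, r) j - p.run O k (x', p.reseed k s' r) j‖ ≤ L j * l j
  | 0, _, _, _, _, _, _, _, j => j.elim0
  | k + 1, hk, r, x, x', hx, hb, hl, j => by
    have ih := lipschitz_run hL s' k (Nat.le_of_succ_le hk) (p.pre r) (Fin.init x) (Fin.init x')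
      (fun i => hx i.castSucc) (fun i hi => hb i (Nat.lt_succ_of_lt hi))
      (fun i hi => hl i (Nat.lt_succ_of_lt hi))
    induction j using Fin.lastCases with
    | cast j =>
      simpa [run_succ, next, reseed, pre, blk] using ih j
    | last =>
      rw [run_succ, run_succ, next, next, Fin.snoc_last, Fin.snoc_last, Fin.val_last]
      simp only [reseed, pre, blk, seed_reseed] at ih ⊢
      refine (hL k hk _ _ _).trans (mul_le_mul_of_nonneg_left (le_trans ?_ (hl k k.lt_succ_self))
        (NNReal.coe_nonneg _))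
      have e : ∀ (s₁ : S) (x₁ x₂ : E d) (D₁ D₂ : Fin k → E d) (b : p.Blk k),
          p.point k s₁ x₁ D₁ b - p.point k s' x₂ D₂ b = (p.bias k s₁ - p.bias k s') +
            p.coef k 0 • (x₁ - x₂) + ∑ j : Fin k, p.coef k (j + 1) • (D₁ j - D₂ j) := by
        intro s₁ x₁ x₂ D₁ D₂ b
        simp only [point, smul_sub, smul_add, Finset.sum_add_distrib, Finset.sum_sub_distrib]
        abel
      rw [e]
      refine (norm_add₃_le).trans (add_le_add (add_le_add (hb k k.lt_succ_self) ?_) ?_)
      · rw [norm_smul, Real.norm_eq_abs]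
        exact mul_le_mul_of_nonneg_left (hx (Fin.last k)) (abs_nonneg _)
      · refine (norm_sum_le _ _).trans (Finset.sum_le_sum fun j _ => ?_)
        rw [norm_smul, Real.norm_eq_abs]
        exact mul_le_mul_of_nonneg_left (ih j) (abs_nonneg _)

/-- A program is Lipschitz in its root draws and its seed, the other random reals being fixed. -/
theorem lipschitz_proc
    (hL : ∀ k < p.n, ∀ ω x y, ‖(p.est k).F O (x, ω) - (p.est k).F O (y, ω)‖ ≤ L k * ‖x - y‖)
    (s' : S) (r : p.Rand p.n) (φ : E d) (x x' : Fin (p.n + 1) → E d)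
    (hx : ∀ i : Fin (p.n + 1), ‖x i - x' i‖ ≤ δ i)
    (hb : ∀ i < p.n, ‖p.bias i (p.seed p.n r) - p.bias i s'‖ ≤ dK i)
    (hbo : ‖p.outBias (p.seed p.n r) - p.outBias s'‖ ≤ dOut)
    (hl : ∀ i < p.n, dK i + |p.coef i 0| * δ i +
      ∑ j : Fin i, |p.coef i (j + 1)| * (L j * l j) ≤ l i) :
    ‖p.proc O (x, r, φ) - p.proc O (x', p.reseed p.n s' r, φ)‖ ≤
      dOut + |p.outCoef 0| * δ p.n + ∑ j : Fin p.n, |p.outCoef (j + 1)| * (L j * l j) := by
  have e : p.proc O (x, r, φ) - p.proc O (x', p.reseed p.n s' r, φ) =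
      (p.outBias (p.seed p.n r) - p.outBias s') +
        p.outCoef 0 • (x (Fin.last p.n) - x' (Fin.last p.n)) +
        ∑ j : Fin p.n, p.outCoef (j + 1) • (p.run O p.n (Fin.init x, r) j -
          p.run O p.n (Fin.init x', p.reseed p.n s' r) j) := by
    simp only [proc, seed_reseed, smul_sub, Finset.sum_sub_distrib]
    abel
  rw [e]
  refine (norm_add₃_le).trans (add_le_add (add_le_add hbo ?_) ?_)
  · rw [norm_smul, Real.norm_eq_abs]
    exact mul_le_mul_of_nonneg_left (hx (Fin.last p.n)) (abs_nonneg _)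
  · refine (norm_sum_le _ _).trans (Finset.sum_le_sum fun j _ => ?_)
    rw [norm_smul, Real.norm_eq_abs]
    exact mul_le_mul_of_nonneg_left (lipschitz_run hL s' p.n le_rfl r (Fin.init x) (Fin.init x')
      (fun i => hx i.castSucc) hb hl j) (abs_nonneg _)

end Lipschitz

theorem measurable_run (hm : p.Meas) (hO : Measurable O) {k : ℕ} (hk : k ≤ p.n) :
    Measurable (p.run O k) :=
  (qc_run hm k hk).measurable hO

theorem measurable_next (hm : p.Meas) (hO : Measurable O) {k : ℕ} (hk : k < p.n) :
    Measurable fun q : S × E d × (Fin k → E d) × p.Blk k =>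
      p.next O k q.1 q.2.1 q.2.2.1 q.2.2.2 := by
  have h := measurable_point hm hk
  have hF := (p.est k).qc.measurable hO
  exact measurable_snoc (by fun_prop) (hF.comp (h.prodMk (by fun_prop)))

theorem sqrt_var_split {V r : ℝ} (hV : 0 ≤ V) (hr : 1 < r) :
    √(V / r) = √V * √(1 / r) ∧ √(V - V / r) = √V * √(1 - 1 / r) ∧
    √(V / r) = √(V / (r - 1)) * √(1 - 1 / r) ∧
    √(V / (r - 1) - V / r) = √(V / (r - 1)) * √(1 / r) := by
  have hr0 : r ≠ 0 := by linarith
  have hr1 : r - 1 ≠ 0 := by linarith
  have h1 : 0 ≤ V / (r - 1) := div_nonneg hV (by linarith)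
  refine ⟨?_, ?_, ?_, ?_⟩
  · rw [← Real.sqrt_mul hV]; congr 1; ring
  · rw [← Real.sqrt_mul hV]; congr 1; ring
  · rw [← Real.sqrt_mul h1]; congr 1; field_simp
  · rw [← Real.sqrt_mul h1]; congr 1; field_simp; ring

variable (p)

/-- The share of one consumer. -/
noncomputable def share (k : ℕ) : ℝ := 1 / ((p.n : ℝ) + 1 - k)

/-- The noise of node `j` after `k` nodes. -/
noncomputable def sig (k j : ℕ) : ℝ := √(p.var (j + 1) / ((p.n : ℝ) + 1 - k))

variable {p}

theorem share_mem {k : ℕ} (hk : k < p.n) : p.share k ∈ Set.Icc (0 : ℝ) 1 := by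
  have : (k : ℝ) + 1 ≤ p.n := by exact_mod_cast hk
  exact ⟨one_div_nonneg.2 (by linarith), (div_le_one (by linarith)).2 (by linarith)⟩

variable {v t g : ℕ → ℝ} {g' : ℝ} (hB : p.Budget v t g g')
include hB

theorem Budget.var_nonneg {j : ℕ} (hj : j < p.n) : 0 ≤ p.var (j + 1) := by
  rw [hB.var_succ j hj]
  have : (j : ℝ) + 1 ≤ p.n := by exact_mod_cast hj
  exact mul_nonneg (by linarith) (sq_nonneg _)

/-- The rotated noises at node `k`, with the normalised noise at its point. -/
theorem Budget.node_law {k : ℕ} (hk : k < p.n) {Θ : Type*} [MeasurableSpace Θ] (ρ : Measure Θ)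
    [IsProbabilityMeasure ρ] :
    MeasurePreserving (fun q : (Θ × (Fin k → E d)) × E d × p.Blk k =>
        ((q.1.1, fun j => √(1 - p.share k) • q.1.2 j - √(p.share k) • q.2.2.1 j),
          ((∑ i : Fin (k + 1), (Fin.snoc (α := fun _ => ℝ)
              (fun j : Fin k => p.coef k (j + 1) * √(p.var (j + 1)) / t k)
              (p.coef k 0 * √(v k) / t k) : Fin (k + 1) → ℝ) i •
            (Fin.snoc (α := fun _ => E d)
              (fun j => √(p.share k) • q.1.2 j + √(1 - p.share k) • q.2.2.1 j) q.2.1 :
              Fin (k + 1) → E d) i) + (p.fill k / t k) • q.2.2.2.1, q.2.2.2.2)))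
      ((ρ.prod (Measure.pi fun _ => stdGaussian (E d))).prod
        ((stdGaussian (E d)).prod (p.blkLaw k)))
      ((ρ.prod (Measure.pi fun _ => stdGaussian (E d))).prod
        ((stdGaussian (E d)).prod (p.est k).P)) := by
  have ht := hB.t_pos k hk
  have hsq : ∑ i : Fin (k + 1), (Fin.snoc (α := fun _ => ℝ)
      (fun j : Fin k => p.coef k (j + 1) * √(p.var (j + 1)) / t k)
      (p.coef k 0 * √(v k) / t k) : Fin (k + 1) → ℝ) i ^ 2 + (p.fill k / t k) ^ 2 = 1 := by
    have e : ∀ j : Fin k, (p.coef k (j + 1) * √(p.var (j + 1)) / t k) ^ 2 =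
        p.coef k (j + 1) ^ 2 * p.var (j + 1) / t k ^ 2 := fun j => by
      rw [div_pow, mul_pow, Real.sq_sqrt (hB.var_nonneg (by omega))]
    simp only [Fin.sum_univ_castSucc, Fin.snoc_castSucc, Fin.snoc_last, e]
    rw [div_pow, mul_pow, Real.sq_sqrt (hB.v_nonneg k hk.le), div_pow, ← Finset.sum_div,
      ← add_div, ← add_div, add_comm (∑ j : Fin k, _), hB.node k hk]
    exact div_self (by positivity)
  exact measurePreserving_nodeRot ρ (p.est k).P (share_mem hk).1 (share_mem hk).2 _ hsq

omit hB

variable {Θ : Type*} [MeasurableSpace Θ] {ρ : Measure Θ} [IsProbabilityMeasure ρ]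
  {a : ℕ → E d → E d} {c : ℕ → Θ → E d} {sd : Θ → S} {m : E d}

variable (p) in
/-- The state of the algorithm after `k` nodes. -/
noncomputable def algState (O : E d → ℝ × E d) (v : ℕ → ℝ) (m : E d) (k : ℕ)
    (z : (Fin k → E d) × p.Rand k) : S × (Fin k → E d) :=
  (p.seed k z.2, p.run O k (fun i => m + √(v i) • z.1 i, z.2))

variable (p) in
/-- The ideal state after `k` nodes, at given candidate centres. -/
noncomputable def idealState (a : ℕ → E d → E d) (c : ℕ → Θ → E d) (sd : Θ → S) (k : ℕ)
    (q : Θ × (Fin k → E d)) : S × (Fin k → E d) :=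
  (sd q.1, fun j => a j (c j q.1) + p.sig k j • q.2 j)

theorem measurable_algState (hm : p.Meas) (hO : Measurable O) {k : ℕ} (hk : k ≤ p.n) :
    Measurable (p.algState O v m k) := by
  have := measurable_run hm hO hk
  show Measurable fun z : (Fin k → E d) × p.Rand k =>
    (p.seed k z.2, p.run O k (fun i => m + √(v i) • z.1 i, z.2))
  fun_prop

theorem measurable_idealState (hsd : Measurable sd) {k : ℕ} (hk : k ≤ p.n)
    (ha : ∀ j < p.n, Measurable (a j)) (hc : ∀ j < p.n, Measurable (c j)) :
    Measurable (p.idealState a c sd k) := by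
  refine (hsd.comp measurable_fst).prodMk (measurable_pi_lambda _ fun j => ?_)
  exact ((ha j (by omega)).comp ((hc j (by omega)).comp measurable_fst)).add
    (((measurable_pi_apply j).comp measurable_snd).const_smul (p.sig k j))

variable {ε : ℕ → E d → ℝ} {R e : ℕ → ℝ}

/-- One node of the comparison. -/
theorem node_step (hm : p.Meas) (hO : Measurable O) (hB : p.Budget v t g g') {k : ℕ} (hk : k < p.n)
    (hspec : (p.est k).Spec O (t k) (g k) (a k) (L k) (ε k))
    (ha : ∀ j < p.n, Measurable (a j)) (hc : ∀ j < p.n, Measurable (c j)) (hsd : Measurable sd)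
    (hε : Integrable (fun θ => ε k (c k θ)) ρ)
    (hres : Integrable (fun θ => c k θ - (p.bias k (sd θ) + p.coef k 0 • m +
      ∑ j : Fin k, p.coef k (j + 1) • a j (c j θ))) ρ)
    {h : S × (Fin (k + 1) → E d) → ℝ} (hh : Measurable h) {M : ℝ} (hM : ∀ q, |h q| ≤ M)
    {w : Fin (k + 1) → ℝ} (hw : ∀ j, 0 ≤ w j)
    (hl : ∀ s D D', |h (s, D) - h (s, D')| ≤ ∑ j, w j * ‖D j - D' j‖) :
    |∫ q, (∫ b, h ((p.idealState a c sd k q).1, p.next O k (p.idealState a c sd k q).1
          (m + √(v k) • b.1) (p.idealState a c sd k q).2 b.2)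
          ∂(stdGaussian (E d)).prod (p.blkLaw k))
        ∂ρ.prod (Measure.pi fun _ : Fin k => stdGaussian (E d)) -
      ∫ q, h (p.idealState a c sd (k + 1) q)
        ∂ρ.prod (Measure.pi fun _ : Fin (k + 1) => stdGaussian (E d))| ≤
      w (Fin.last k) * (L k * (∫ θ, ‖c k θ - (p.bias k (sd θ) + p.coef k 0 • m +
        ∑ j : Fin k, p.coef k (j + 1) • a j (c j θ))‖ ∂ρ) + ∫ θ, ε k (c k θ) ∂ρ) := by
  set γ := stdGaussian (E d)
  set πk := Measure.pi fun _ : Fin k => stdGaussian (E d)
  set cs : Θ → E d := fun θ => p.bias k (sd θ) + p.coef k 0 • m +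
    ∑ j : Fin k, p.coef k (j + 1) • a j (c j θ) with hcs
  have hF := (p.est k).qc.measurable hO
  have hnext := measurable_next hm hO hk
  have hid := measurable_idealState (p := p) (a := a) (c := c) hsd hk.le ha hc
  have hbk := hm.bias k hk
  have hcsm : Measurable cs := by
    refine ((hbk.comp hsd).add measurable_const).add (Finset.measurable_sum _ fun j _ => ?_)
    exact ((ha j (by omega)).comp (hc j (by omega))).const_smul (p.coef k (j + 1))
  set B : Θ × (Fin k → E d) → Fin k → E d := fun q j =>
    a j (c j q.1) + p.sig (k + 1) j • q.2 j with hBdef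
  set H : (Θ → E d) → (Θ × (Fin k → E d)) × E d × (p.est k).Seed → ℝ := fun ctr q =>
    h (sd q.1.1, Fin.snoc (B q.1) ((p.est k).F O (ctr q.1.1 + t k • q.2.1, q.2.2))) with hHdef
  have hBm : Measurable B := by
    refine measurable_pi_lambda _ fun j => ?_
    exact ((ha j (by omega)).comp ((hc j (by omega)).comp measurable_fst)).add
      (((measurable_pi_apply j).comp measurable_snd).const_smul (p.sig (k + 1) j))
  have hHm : ∀ ctr, Measurable ctr → Measurable (H ctr) := fun ctr hctr =>
    hh.comp ((hsd.comp (measurable_fst.comp measurable_fst)).prodMk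
      (measurable_snoc (hBm.comp measurable_fst) (hF.comp ((((hctr.comp
        (measurable_fst.comp measurable_fst)).add
          ((measurable_fst.comp measurable_snd).const_smul (t k)))).prodMk
            (measurable_snd.comp measurable_snd)))))
  have hlaw := hB.node_law hk ρ
  have hr : (1 : ℝ) < (p.n : ℝ) + 1 - k := by
    have : (k : ℝ) + 1 ≤ p.n := by exact_mod_cast hk
    linarith
  have e1 : ∫ q, (∫ b, h ((p.idealState a c sd k q).1, p.next O k (p.idealState a c sd k q).1
        (m + √(v k) • b.1) (p.idealState a c sd k q).2 b.2) ∂γ.prod (p.blkLaw k)) ∂ρ.prod πk =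
      ∫ q, H cs q ∂(ρ.prod πk).prod (γ.prod (p.est k).P) := by
    rw [← hlaw.map_eq, integral_map hlaw.measurable.aemeasurable
      (hHm cs hcsm).aestronglyMeasurable]
    refine Eq.trans ?_ (integral_prod _ ?_).symm
    · refine integral_congr_ae (ae_of_all _ fun q => integral_congr_ae (ae_of_all _ fun b => ?_))
      simp only [hHdef, hBdef, idealState, next]
      congr 2
      have ht := (hB.t_pos k hk).ne'
      have hr' : ((p.n : ℝ) + 1 - k) - 1 = (p.n : ℝ) - k := by ring
      have hr'' : (p.n : ℝ) + 1 - ((k + 1 : ℕ) : ℝ) = (p.n : ℝ) - k := by push_cast; ring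
      congr 1
      · funext j
        obtain ⟨-, -, h3, h4⟩ := sqrt_var_split (hB.var_nonneg (show (j : ℕ) < p.n by omega)) hr
        rw [hr'] at h3 h4
        simp only [sig, share, keepExtra, hr'', h3, h4, smul_sub, smul_smul]
        abel
      · congr 2
        have hn : ∀ j : Fin k, p.coef k (j + 1) • (a j (c j q.1) + p.sig k j • q.2 j +
            p.nodeExtra k j • b.2.1 j) = p.coef k (j + 1) • a j (c j q.1) +
            t k • ((p.coef k (j + 1) * √(p.var (j + 1)) / t k) •
              (√(p.share k) • q.2 j + √(1 - p.share k) • b.2.1 j)) := fun j => by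
          obtain ⟨h1, h2, -, -⟩ := sqrt_var_split (hB.var_nonneg (show (j : ℕ) < p.n by omega)) hr
          rw [smul_smul (t k), mul_div_cancel₀ _ ht]
          simp only [sig, share, nodeExtra, h1, h2]
          module
        simp only [point, hcs, hn, Fin.sum_univ_castSucc, Fin.snoc_castSucc, Fin.snoc_last,
          Finset.sum_add_distrib, smul_add, Finset.smul_sum, smul_smul (t k) (p.fill k / t k),
          smul_smul (t k) (p.coef k 0 * √(v k) / t k), mul_div_cancel₀ _ ht]
        rw [← smul_smul (p.coef k 0) (√(v k)) b.1]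
        abel
    · exact integrable_of_bound ((hHm cs hcsm).comp hlaw.measurable) fun q => hM _
  rw [e1]
  have hwl := hw (Fin.last k)
  have hsnoc : ∀ s (D : Fin k → E d) y y', |h (s, Fin.snoc D y) - h (s, Fin.snoc D y')| ≤
      w (Fin.last k) * ‖y - y'‖ := fun s D y y' => by
    refine (hl s _ _).trans_eq ?_
    simp [Fin.sum_univ_castSucc]
  have hck := hc k hk
  have step_a : |∫ q, H cs q ∂(ρ.prod πk).prod (γ.prod (p.est k).P) -
      ∫ q, H (c k) q ∂(ρ.prod πk).prod (γ.prod (p.est k).P)| ≤
      w (Fin.last k) * (L k * ∫ θ, ‖c k θ - cs θ‖ ∂ρ) := by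
    have hi : Integrable (fun θ => w (Fin.last k) * (L k * ‖c k θ - cs θ‖)) ρ :=
      (hres.norm.const_mul _).const_mul _
    refine (abs_integral_sub_le (integrable_of_bound (hHm cs hcsm) fun q => hM _)
      (integrable_of_bound (hHm (c k) hck) fun q => hM _) ((hi.comp_fst πk).comp_fst _)
      fun q => (hsnoc _ _ _ _).trans ?_).trans_eq ?_
    · refine mul_le_mul_of_nonneg_left ((hspec.lipschitz _ _ _).trans_eq ?_) hwl
      rw [add_sub_add_right_eq_sub, norm_sub_rev]
    · rw [integral_fun_fst (fun q : Θ × (Fin k → E d) =>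
        w (Fin.last k) * (L k * ‖c k q.1 - cs q.1‖)),
        integral_fun_fst (fun θ : Θ => w (Fin.last k) * (L k * ‖c k θ - cs θ‖))]
      simp [integral_const_mul]
  have e2 : ∫ q, h (p.idealState a c sd (k + 1) q)
        ∂ρ.prod (Measure.pi fun _ : Fin (k + 1) => γ) =
      ∫ q, (∫ z, h (sd q.1, Fin.snoc (B q) (a k (c k q.1) + g k • z)) ∂γ) ∂ρ.prod πk := by
    have hs := ((MeasurePreserving.id ρ).prod (measurePreserving_snoc (d := d) k)).comp
      (measurePreserving_prodAssoc ρ πk γ)
    have hhi : Measurable fun q => h (p.idealState a c sd (k + 1) q) :=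
      hh.comp (measurable_idealState hsd hk ha hc)
    rw [← hs.map_eq, integral_map hs.measurable.aemeasurable hhi.aestronglyMeasurable, integral_prod]
    · refine integral_congr_ae (ae_of_all _ fun q => integral_congr_ae (ae_of_all _ fun z => ?_))
      show h (sd q.1, fun j => a j (c j q.1) + p.sig (k + 1) j • (Fin.snoc q.2 z : Fin (k + 1) → E d) j) = _
      congr 2
      funext j
      induction j using Fin.lastCases with
      | cast j => simp [hBdef]
      | last =>
        have hne : (p.n : ℝ) - k ≠ 0 := by linarith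
        have hr'' : (p.n : ℝ) + 1 - ((k + 1 : ℕ) : ℝ) = (p.n : ℝ) - k := by push_cast; ring
        have hsig : p.sig (k + 1) k = g k := by
          rw [sig, hB.var_succ k hk, hr'', mul_div_cancel_left₀ _ hne,
            Real.sqrt_sq (hB.g_nonneg k hk)]
        simp [hsig]
    · exact integrable_of_bound ((hh.comp (measurable_idealState hsd hk ha hc)).comp hs.measurable)
        fun q => hM _
  have step_b : |∫ q, H (c k) q ∂(ρ.prod πk).prod (γ.prod (p.est k).P) -
      ∫ q, h (p.idealState a c sd (k + 1) q) ∂ρ.prod (Measure.pi fun _ : Fin (k + 1) => γ)| ≤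
      w (Fin.last k) * ∫ θ, ε k (c k θ) ∂ρ := by
    rw [e2, integral_prod _ (integrable_of_bound (hHm (c k) hck) fun q => hM _)]
    have m1 : Measurable fun z : (Θ × (Fin k → E d)) × E d =>
        h (sd z.1.1, Fin.snoc (B z.1) (a k (c k z.1.1) + g k • z.2)) :=
      hh.comp ((hsd.comp (measurable_fst.comp measurable_fst)).prodMk
        (measurable_snoc (hBm.comp measurable_fst) ((((ha k hk).comp hck).comp
          (measurable_fst.comp measurable_fst)).add (measurable_snd.const_smul (g k)))))
    refine (abs_integral_sub_le (B := fun q : Θ × (Fin k → E d) =>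
      w (Fin.last k) * ε k (c k q.1)) ?_ ?_ ((hε.const_mul _).comp_fst πk) fun q => ?_).trans_eq ?_
    · exact (integrable_of_bound (hHm (c k) hck) fun q => hM _).integral_prod_left
    · exact (integrable_of_bound m1 fun q => hM _).integral_prod_left
    · exact hspec.dual_mul (c k q.1) (f := fun x => h (sd q.1, Fin.snoc (B q) x)) hwl
        (fun x y => hsnoc _ _ x y) ⟨M, fun x => hM _⟩
    · rw [integral_fun_fst (fun θ : Θ => w (Fin.last k) * ε k (c k θ))]
      simp [integral_const_mul]
  refine (abs_sub_le _ _ _).trans ((add_le_add step_a step_b).trans_eq ?_)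
  ring

/-- The registers of the algorithm against the candidate registers, for bounded tests that are
Lipschitz in the registers. -/
theorem state_close {ν : Measure S} [IsProbabilityMeasure ν] (hm : p.Meas) (hO : Measurable O)
    (hB : p.Budget v t g g') (hspec : ∀ k < p.n, (p.est k).Spec O (t k) (g k) (a k) (L k) (ε k))
    (hsd : Measurable sd) (hν : ρ.map sd = ν) (hc : ∀ k < p.n, Measurable (c k))
    (hε : ∀ k < p.n, Integrable (fun θ => ε k (c k θ)) ρ)
    (hres : ∀ k < p.n, Integrable (fun θ => c k θ - (p.bias k (sd θ) + p.coef k 0 • m +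
      ∑ j : Fin k, p.coef k (j + 1) • a j (c j θ))) ρ)
    (hR : ∀ k < p.n, ∫ θ, ‖c k θ - (p.bias k (sd θ) + p.coef k 0 • m +
      ∑ j : Fin k, p.coef k (j + 1) • a j (c j θ))‖ ∂ρ ≤ R k)
    (he : ∀ k < p.n, R k + ∑ j : Fin k, |p.coef k (j + 1)| *
      (L j * e j + ∫ θ, ε j (c j θ) ∂ρ) ≤ e k) :
    ∀ k ≤ p.n, ∀ h : S × (Fin k → E d) → ℝ, Measurable h → (∃ M, ∀ q, |h q| ≤ M) →
      ∀ w : Fin k → ℝ, (∀ j, 0 ≤ w j) →
        (∀ s D D', |h (s, D) - h (s, D')| ≤ ∑ j, w j * ‖D j - D' j‖) →
      |∫ z, h (p.algState O v m k z)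
          ∂(Measure.pi fun _ : Fin k => stdGaussian (E d)).prod (p.randLaw ν k) -
        ∫ q, h (p.idealState a c sd k q)
          ∂ρ.prod (Measure.pi fun _ : Fin k => stdGaussian (E d))| ≤
        ∑ j : Fin k, w j * (L j * e j + ∫ θ, ε j (c j θ) ∂ρ) := by
  have ha : ∀ j < p.n, Measurable (a j) := fun j hj => (hspec j hj).measurable_target
  intro k
  induction k with
  | zero =>
    intro _ h hh ⟨M, hM⟩ w _ _
    set D0 : Fin 0 → E d := fun i => i.elim0
    have e0 : ∀ D : Fin 0 → E d, D = D0 := fun D => funext fun i => i.elim0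
    have h1 : ∀ z, h (p.algState O v m 0 z) = h (z.2, D0) := fun z =>
      congrArg h (Prod.ext rfl (e0 _))
    have h2 : ∀ q : Θ × (Fin 0 → E d), h (p.idealState a c sd 0 q) = h (sd q.1, D0) := fun q =>
      congrArg h (Prod.ext rfl (e0 _))
    simp only [h1, h2]
    rw [integral_fun_snd (fun r : p.Rand 0 => h (r, D0)),
      integral_fun_fst (fun θ : Θ => h (sd θ, D0))]
    have : ∫ θ, h (sd θ, D0) ∂ρ = ∫ r, h (r, D0) ∂ν := by
      rw [← hν]
      exact (integral_map (f := fun r : S => h (r, D0)) hsd.aemeasurable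
        (hh.comp (measurable_id.prodMk measurable_const)).aestronglyMeasurable).symm
    simp [this, randLaw]
    exact sub_self _
  | succ k ih =>
    intro hk h hh ⟨M, hM⟩ w hw hl
    have hkn : k < p.n := hk
    have hnext := measurable_next hm hO hkn
    set γ := stdGaussian (E d)
    set h' : S × (Fin k → E d) → ℝ := fun q =>
      ∫ b, h (q.1, p.next O k q.1 (m + √(v k) • b.1) q.2 b.2) ∂γ.prod (p.blkLaw k) with hh'
    have hstep : Measurable fun z : (S × (Fin k → E d)) × E d × p.Blk k =>
        h (z.1.1, p.next O k z.1.1 (m + √(v k) • z.2.1) z.1.2 z.2.2) := by fun_prop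
    have hh'm : Measurable h' :=
      (StronglyMeasurable.integral_prod_right' hstep.stronglyMeasurable).measurable
    set w' : Fin k → ℝ := fun j =>
      w j.castSucc + w (Fin.last k) * (L k * |p.coef k (j + 1)|) with hw'
    have hw'0 : ∀ j, 0 ≤ w' j := fun j =>
      add_nonneg (hw _) (mul_nonneg (hw _) (mul_nonneg (NNReal.coe_nonneg _) (abs_nonneg _)))
    have hl' : ∀ s D D', |h' (s, D) - h' (s, D')| ≤ ∑ j, w' j * ‖D j - D' j‖ := fun s D D' => by
      refine (abs_integral_sub_le (B := fun _ => ∑ j, w' j * ‖D j - D' j‖)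
        (integrable_of_bound (by fun_prop) fun b => hM _)
        (integrable_of_bound (by fun_prop) fun b => hM _) (integrable_const _) fun b => ?_).trans_eq
          (by simp)
      refine (hl s _ _).trans ?_
      rw [Fin.sum_univ_castSucc]
      simp only [next, Fin.snoc_castSucc, Fin.snoc_last, sub_sub_sub_cancel_right, hw', add_mul,
        Finset.sum_add_distrib]
      refine add_le_add le_rfl ?_
      rw [← Finset.sum_congr rfl fun (j : Fin k) _ => (show w (Fin.last k) * ((L k : ℝ) *
        (|p.coef k (j + 1)| * ‖D j - D' j‖)) =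
        w (Fin.last k) * (L k * |p.coef k (j + 1)|) * ‖D j - D' j‖ by ring), ← Finset.mul_sum,
        ← Finset.mul_sum]
      refine mul_le_mul_of_nonneg_left (((hspec k hkn).lipschitz _ _ _).trans
        (mul_le_mul_of_nonneg_left ?_ (NNReal.coe_nonneg _))) (hw _)
      have e : ∀ b' : p.Blk k, ∀ y, p.point k s y D b' - p.point k s y D' b' =
          ∑ j : Fin k, p.coef k (j + 1) • (D j - D' j) := fun b' y => by
        simp only [point, smul_sub, smul_add, Finset.sum_add_distrib, Finset.sum_sub_distrib]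
        abel
      rw [e]
      exact (norm_sum_le _ _).trans_eq (Finset.sum_congr rfl fun j _ => by
        rw [norm_smul, Real.norm_eq_abs])
    have hi := ih hkn.le h' hh'm ⟨M, fun q => abs_integral_le_of_bound fun b => hM _⟩ w' hw'0 hl'
    have ealg : ∫ z, h (p.algState O v m (k + 1) z)
          ∂(Measure.pi fun _ : Fin (k + 1) => γ).prod (p.randLaw ν (k + 1)) =
        ∫ z, h' (p.algState O v m k z)
          ∂(Measure.pi fun _ : Fin k => γ).prod (p.randLaw ν k) := by
      have hΦ := ((measurePreserving_snoc (d := d) k).prod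
        (MeasurePreserving.id ((p.randLaw ν k).prod (p.blkLaw k)))).comp
        (measurePreserving_prod_comm4 (Measure.pi fun _ : Fin k => γ) (p.randLaw ν k) γ (p.blkLaw k))
      have hha : Measurable fun z => h (p.algState O v m (k + 1) z) :=
        hh.comp (measurable_algState (v := v) (m := m) hm hO hk)
      have hΦ' : MeasurePreserving (β := (Fin (k + 1) → E d) × p.Rand (k + 1)) _ _
        ((Measure.pi fun _ : Fin (k + 1) => γ).prod (p.randLaw ν (k + 1))) := hΦ
      rw [← hΦ'.map_eq, integral_map hΦ'.measurable.aemeasurable hha.aestronglyMeasurable,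
        integral_prod]
      · refine integral_congr_ae (ae_of_all _ fun z => integral_congr_ae (ae_of_all _ fun b => ?_))
        have hini : (Fin.init fun i : Fin (k + 1) =>
            m + √(v i) • (Fin.snoc (α := fun _ => E d) z.1 b.1 : Fin (k + 1) → E d) i) =
            fun i : Fin k => m + √(v i) • z.1 i := by
          funext i; simp [Fin.init]
        simp [algState, run_succ, seed, pre, blk, Prod.map, hini]
      · exact integrable_of_bound (hha.comp hΦ'.measurable) fun q => hM _
    have hn := node_step (v := v) (t := t) hm hO hB hkn (hspec k hkn) ha hc hsd (hε k hkn)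
      (hres k hkn) hh hM hw hl
    rw [ealg]
    refine (abs_sub_le _ _ _).trans ((add_le_add hi hn).trans ?_)
    rw [Fin.sum_univ_castSucc (f := fun j : Fin (k + 1) =>
      w j * (L j * e j + ∫ θ, ε j (c j θ) ∂ρ))]
    simp only [hw', add_mul, Finset.sum_add_distrib, Fin.val_castSucc, Fin.val_last]
    rw [add_assoc]
    refine add_le_add le_rfl ?_
    have key : ∀ j : Fin k, w (Fin.last k) * (L k * |p.coef k (j + 1)|) *
        (L j * e j + ∫ θ, ε j (c j θ) ∂ρ) = w (Fin.last k) * (L k *
          (|p.coef k (j + 1)| * (L j * e j + ∫ θ, ε j (c j θ) ∂ρ))) := fun j => by ring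
    simp only [key, ← Finset.mul_sum, ← mul_add]
    refine mul_le_mul_of_nonneg_left ?_ (hw _)
    have h1 := mul_le_mul_of_nonneg_left (he k hkn) (NNReal.coe_nonneg (L k))
    have h2 := mul_le_mul_of_nonneg_left (hR k hkn) (NNReal.coe_nonneg (L k))
    linarith

/-- A program with dually coupled nodes is close to its candidate output plus independent noise. -/
theorem coupled_proc {ν : Measure S} [IsProbabilityMeasure ν] (hm : p.Meas) (hO : Measurable O)
    (hB : p.Budget v t g g') (hspec : ∀ k < p.n, (p.est k).Spec O (t k) (g k) (a k) (L k) (ε k))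
    (hsd : Measurable sd) (hν : ρ.map sd = ν) (hc : ∀ k < p.n, Measurable (c k))
    {o : Θ → E d} (ho : Measurable o)
    (hε : ∀ k < p.n, Integrable (fun θ => ε k (c k θ)) ρ)
    (hres : ∀ k < p.n, Integrable (fun θ => c k θ - (p.bias k (sd θ) + p.coef k 0 • m +
      ∑ j : Fin k, p.coef k (j + 1) • a j (c j θ))) ρ)
    (hres' : Integrable (fun θ => o θ - (p.outBias (sd θ) + p.outCoef 0 • m +
      ∑ j : Fin p.n, p.outCoef (j + 1) • a j (c j θ))) ρ)
    (hR : ∀ k < p.n, ∫ θ, ‖c k θ - (p.bias k (sd θ) + p.coef k 0 • m +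
      ∑ j : Fin k, p.coef k (j + 1) • a j (c j θ))‖ ∂ρ ≤ R k)
    {rOut : ℝ} (hR' : ∫ θ, ‖o θ - (p.outBias (sd θ) + p.outCoef 0 • m +
      ∑ j : Fin p.n, p.outCoef (j + 1) • a j (c j θ))‖ ∂ρ ≤ rOut)
    (he : ∀ k < p.n, R k + ∑ j : Fin k, |p.coef k (j + 1)| *
      (L j * e j + ∫ θ, ε j (c j θ) ∂ρ) ≤ e k)
    {f : E d → ℝ} (hf : LipschitzWith 1 f) {M : ℝ} (hM : ∀ x, |f x| ≤ M) :
    |∫ z, f (p.proc O (fun i => m + √(v i) • z.1 i, z.2))
        ∂(Measure.pi fun _ : Fin (p.n + 1) => stdGaussian (E d)).prod
          ((p.randLaw ν p.n).prod (stdGaussian (E d))) -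
      ∫ q, f (o q.1 + g' • q.2) ∂ρ.prod (stdGaussian (E d))| ≤
      rOut + ∑ j : Fin p.n, |p.outCoef (j + 1)| * (L j * e j + ∫ θ, ε j (c j θ) ∂ρ) := by
  have ha : ∀ j < p.n, Measurable (a j) := fun j hj => (hspec j hj).measurable_target
  set γ := stdGaussian (E d)
  set πn := Measure.pi fun _ : Fin p.n => stdGaussian (E d)
  have hf' : Measurable f := hf.continuous.measurable
  have hfl : ∀ x y, |f x - f y| ≤ ‖x - y‖ := fun x y => by
    simpa [Real.dist_eq, dist_eq_norm] using hf.dist_le_mul x y
  have hob := hm.outBias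
  set Φ : (S × (Fin p.n → E d)) × E d × E d → ℝ := fun q =>
    f (p.outBias q.1.1 + p.outCoef 0 • (m + √(v p.n) • q.2.1) +
      (∑ j : Fin p.n, p.outCoef (j + 1) • q.1.2 j) + p.outFill • q.2.2) with hΦdef
  have hΦm : Measurable Φ := by rw [hΦdef]; fun_prop
  set h : S × (Fin p.n → E d) → ℝ := fun q => ∫ b, Φ (q, b) ∂γ.prod γ with hhdef
  have hhm : Measurable h :=
    (StronglyMeasurable.integral_prod_right' hΦm.stronglyMeasurable).measurable
  have hl : ∀ s D D', |h (s, D) - h (s, D')| ≤
      ∑ j : Fin p.n, |p.outCoef (j + 1)| * ‖D j - D' j‖ := fun s D D' => by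
    refine (abs_integral_sub_le (B := fun _ => ∑ j : Fin p.n, |p.outCoef (j + 1)| * ‖D j - D' j‖)
      (integrable_of_bound (hΦm.comp (measurable_const.prodMk measurable_id)) fun b => hM _)
      (integrable_of_bound (hΦm.comp (measurable_const.prodMk measurable_id)) fun b => hM _)
      (integrable_const _) fun b => ?_).trans_eq (by simp)
    refine (hfl _ _).trans ?_
    rw [add_sub_add_right_eq_sub, add_sub_add_left_eq_sub, ← Finset.sum_sub_distrib]
    exact (norm_sum_le _ _).trans_eq (Finset.sum_congr rfl fun j _ => by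
      rw [← smul_sub, norm_smul, Real.norm_eq_abs])
  have hs := state_close hm hO hB hspec hsd hν hc hε hres hR he p.n le_rfl h hhm
    ⟨M, fun q => abs_integral_le_of_bound fun b => hM _⟩ _ (fun j => abs_nonneg _) hl
  have hproc : Measurable fun z : (Fin (p.n + 1) → E d) × p.Rand p.n × E d =>
      f (p.proc O (fun i => m + √(v i) • z.1 i, z.2)) := by
    have := (qc_proc hm).measurable hO
    fun_prop
  have ealg : ∫ z, f (p.proc O (fun i => m + √(v i) • z.1 i, z.2))
        ∂(Measure.pi fun _ : Fin (p.n + 1) => γ).prod ((p.randLaw ν p.n).prod γ) =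
      ∫ z, h (p.algState O v m p.n z) ∂πn.prod (p.randLaw ν p.n) := by
    have hΦ := ((measurePreserving_snoc (d := d) p.n).prod
      (MeasurePreserving.id ((p.randLaw ν p.n).prod γ))).comp
      (measurePreserving_prod_comm4 πn (p.randLaw ν p.n) γ γ)
    rw [← hΦ.map_eq, integral_map hΦ.measurable.aemeasurable hproc.aestronglyMeasurable,
      integral_prod]
    · refine integral_congr_ae (ae_of_all _ fun z => integral_congr_ae (ae_of_all _ fun b => ?_))
      have hini : (Fin.init fun i : Fin (p.n + 1) =>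
          m + √(v i) • (Fin.snoc (α := fun _ => E d) z.1 b.1 : Fin (p.n + 1) → E d) i) =
          fun i : Fin p.n => m + √(v i) • z.1 i := by
        funext i; simp [Fin.init]
      simp [hΦdef, algState, proc, Prod.map, hini]
    · exact integrable_of_bound (hproc.comp hΦ.measurable) fun q => hM _
  set os : Θ → E d := fun θ => p.outBias (sd θ) + p.outCoef 0 • m +
    ∑ j : Fin p.n, p.outCoef (j + 1) • a j (c j θ) with hos
  have hosm : Measurable os := by
    refine ((hob.comp hsd).add measurable_const).add (Finset.measurable_sum _ fun j _ => ?_)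
    exact ((ha j j.2).comp (hc j j.2)).const_smul (p.outCoef (j + 1))
  have hg' := hB.out_pos
  set α : Fin (p.n + 1) → ℝ := Fin.snoc (α := fun _ => ℝ)
    (fun j : Fin p.n => p.outCoef (j + 1) * √(p.var (j + 1)) / g')
    (p.outCoef 0 * √(v p.n) / g') with hα
  have hsq : ∑ i, α i ^ 2 + (p.outFill / g') ^ 2 = 1 := by
    have e : ∀ j : Fin p.n, (p.outCoef (j + 1) * √(p.var (j + 1)) / g') ^ 2 =
        p.outCoef (j + 1) ^ 2 * p.var (j + 1) / g' ^ 2 := fun j => by
      rw [div_pow, mul_pow, Real.sq_sqrt (hB.var_nonneg j.2)]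
    simp only [hα, Fin.sum_univ_castSucc, Fin.snoc_castSucc, Fin.snoc_last, e]
    rw [div_pow, mul_pow, Real.sq_sqrt (hB.v_nonneg _ le_rfl), div_pow, ← Finset.sum_div,
      ← add_div, ← add_div, add_comm (∑ j : Fin p.n, _), hB.output]
    exact div_self (by positivity)
  have eid : ∫ q, h (p.idealState a c sd p.n q) ∂ρ.prod πn =
      ∫ q, f (os q.1 + g' • q.2) ∂ρ.prod γ := by
    have hT := ((MeasurePreserving.id ρ).prod ((measurePreserving_comb α hsq).comp
      (((measurePreserving_snoc (d := d) p.n).prod (MeasurePreserving.id γ)).comp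
        (MeasurePreserving.symm _ (measurePreserving_prodAssoc πn γ γ))))).comp
      (measurePreserving_prodAssoc ρ πn (γ.prod γ))
    have hm2 : Measurable fun q : Θ × E d => f (os q.1 + g' • q.2) := by fun_prop
    rw [← hT.map_eq, integral_map hT.measurable.aemeasurable hm2.aestronglyMeasurable]
    refine Eq.trans ?_ (integral_prod _ ?_).symm
    · refine integral_congr_ae (ae_of_all _ fun q => integral_congr_ae (ae_of_all _ fun b => ?_))
      have hsig : ∀ j : Fin p.n, p.sig p.n j = √(p.var (j + 1)) := fun j => by simp [sig]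
      simp only [hΦdef, hos, idealState, hsig, hα, Function.comp_apply, Prod.map_apply, id_eq,
        MeasurableEquiv.prodAssoc, MeasurableEquiv.coe_mk, MeasurableEquiv.symm_mk,
        Equiv.prodAssoc_apply, Equiv.prodAssoc_symm_apply, Fin.sum_univ_castSucc,
        Fin.snoc_castSucc, Fin.snoc_last, smul_add, Finset.smul_sum, smul_smul,
        mul_div_cancel₀ _ hg'.ne', Finset.sum_add_distrib]
      congr 1
      abel
    · exact integrable_of_bound (hm2.comp hT.measurable) fun q => hM _
  rw [ealg]
  refine (abs_sub_le _ _ _).trans ((add_le_add hs ?_).trans_eq (add_comm _ _))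
  rw [eid]
  refine (abs_integral_sub_le (B := fun q : Θ × E d => ‖o q.1 - os q.1‖)
    (integrable_of_bound (by fun_prop) fun q => hM _)
    (integrable_of_bound (by fun_prop) fun q => hM _) (hres'.norm.comp_fst γ)
    fun q => (hfl _ _).trans_eq ?_).trans (le_of_eq_of_le ?_ hR')
  · rw [add_sub_add_right_eq_sub, norm_sub_rev]
  · rw [integral_fun_fst (fun θ : Θ => ‖o θ - os θ‖)]
    simp [hos]

end Prog

section Split

variable {q : ℕ}

/-- Independent draws of variances `w i` from one draw of variance `V`. -/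
noncomputable def splitDraw (V : ℝ) (w : Fin q → ℝ) (x : E d) (ξ : Fin q → E d) (i : Fin q) : E d :=
  x + √(w i) • ξ i -
    (1 / (1 + √(1 - ∑ l, V / w l)) * √V) • ∑ l, √(V / w l) • ξ l

theorem splitDraw_sub (V : ℝ) (w : Fin q → ℝ) (x y : E d) (ξ : Fin q → E d) (i : Fin q) :
    splitDraw V w x ξ i - splitDraw V w y ξ i = x - y := by
  simp only [splitDraw]; abel

@[fun_prop]
theorem measurable_splitDraw (V : ℝ) (w : Fin q → ℝ) :
    Measurable fun z : E d × (Fin q → E d) => splitDraw V w z.1 z.2 := by
  unfold splitDraw; fun_prop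

/-- Normalised form of the split. -/
theorem measurePreserving_splitStd (c : Fin q → ℝ) (hc : ∑ l, c l ^ 2 ≤ 1) :
    MeasurePreserving (fun z : E d × (Fin q → E d) => fun i =>
        c i • z.1 + (z.2 i - (1 / (1 + √(1 - ∑ l, c l ^ 2)) * c i) • ∑ l, c l • z.2 l))
      ((stdGaussian (E d)).prod (Measure.pi fun _ => stdGaussian (E d)))
      (Measure.pi fun _ => stdGaussian (E d)) := by
  set Λ := ∑ l, c l ^ 2 with hΛ
  set β := 1 / (1 + √(1 - Λ)) with hβ
  set γ := stdGaussian (E d)
  set T : E d × (Fin q → E d) → Fin q → E d := fun z i =>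
    c i • z.1 + (z.2 i - (β * c i) • ∑ l, c l • z.2 l) with hT
  have hm : Measurable T := by rw [hT]; fun_prop
  refine ⟨hm, (MeasurableEquiv.toLp 2 (Fin q → E d)).map_measurableEquiv_injective ?_⟩
  have := Measure.isProbabilityMeasure_map (μ := γ.prod (Measure.pi fun _ : Fin q => γ)) hm.aemeasurable
  have := Measure.isProbabilityMeasure_map (μ := Measure.pi fun _ : Fin q => γ)
    (MeasurableEquiv.toLp 2 (Fin q → E d)).measurable.aemeasurable
  have := Measure.isProbabilityMeasure_map (μ := (γ.prod (Measure.pi fun _ : Fin q => γ)).map T)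
    (MeasurableEquiv.toLp 2 (Fin q → E d)).measurable.aemeasurable
  refine Measure.ext_of_charFun (funext fun u => ?_)
  have hβ2 : 1 - 2 * β + β ^ 2 * Λ = 0 := by
    have h1 : 0 ≤ 1 - Λ := by linarith
    have h2 : 0 < 1 + √(1 - Λ) := by positivity
    rw [hβ]
    field_simp
    nlinarith [Real.sq_sqrt h1]
  set U : E d := ∑ l, c l • u l with hU
  have hr : ∀ x : Fin q → E d, inner ℝ ((MeasurableEquiv.toLp 2 (Fin q → E d)) x) u =
      ∑ l, inner ℝ (x l) (u l) := fun x => by
    rw [PiLp.inner_apply]; rfl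
  have hinner : ∀ z, inner ℝ ((MeasurableEquiv.toLp 2 (Fin q → E d)) (T z)) u =
      inner ℝ z.1 U + ∑ l, inner ℝ (z.2 l) (u l - (β * c l) • U) := fun z => by
    have a1 : inner ℝ z.1 U = ∑ i, c i * inner ℝ z.1 (u i) := by
      simp [hU, inner_sum, real_inner_smul_right]
    have a2 : ∑ i, c i * inner ℝ (∑ l, c l • z.2 l) (u i) = inner ℝ (∑ l, c l • z.2 l) U := by
      simp [hU, inner_sum, real_inner_smul_right]
    have hs : inner ℝ (∑ l, c l • z.2 l) U = ∑ l, c l * inner ℝ (z.2 l) U := by
      simp [sum_inner, real_inner_smul_left]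
    rw [hr, a1]
    simp only [hT, inner_add_left, inner_sub_left, real_inner_smul_left, inner_sub_right,
      real_inner_smul_right, Finset.sum_add_distrib, Finset.sum_sub_distrib, mul_assoc,
      ← Finset.mul_sum, a2, hs]
  have hnorm : (‖U‖ ^ 2 + ∑ l, ‖u l - (β * c l) • U‖ ^ 2 : ℝ) = ∑ l, ‖u l‖ ^ 2 := by
    have hs : ∑ l, c l * inner ℝ (u l) U = ‖U‖ ^ 2 := by
      have key : ∀ Y : E d, inner ℝ (∑ l, c l • u l) Y = ∑ l, c l * inner ℝ (u l) Y := fun Y => by
        simp [sum_inner, real_inner_smul_left]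
      rw [← key, ← hU, real_inner_self_eq_norm_sq]
    have e : ∀ l, ‖u l - (β * c l) • U‖ ^ 2 =
        ‖u l‖ ^ 2 - 2 * β * (c l * inner ℝ (u l) U) + β ^ 2 * ‖U‖ ^ 2 * c l ^ 2 := fun l => by
      rw [norm_sub_sq_real, real_inner_smul_right, norm_smul, Real.norm_eq_abs, mul_pow, sq_abs]
      ring
    simp only [e, Finset.sum_add_distrib, Finset.sum_sub_distrib, ← Finset.mul_sum, hs, ← hΛ]
    linear_combination (‖U‖ ^ 2) * hβ2
  rw [charFun_apply, charFun_apply,
    integral_map (MeasurableEquiv.toLp 2 (Fin q → E d)).measurable.aemeasurable (by fun_prop),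
    integral_map (MeasurableEquiv.toLp 2 (Fin q → E d)).measurable.aemeasurable (by fun_prop),
    integral_map hm.aemeasurable (by fun_prop)]
  simp only [hinner, hr, Complex.ofReal_add, Complex.ofReal_sum, add_mul, Finset.sum_mul,
    Complex.exp_add, Complex.exp_sum]
  rw [integral_prod_mul (fun z : E d => Complex.exp ((inner ℝ z U : ℝ) * Complex.I))
    (fun ξ : Fin q → E d => ∏ l, Complex.exp ((inner ℝ (ξ l) (u l - (β * c l) • U) : ℝ) * Complex.I)),
    integral_fintype_prod_eq_prod
      (fun l (z : E d) => Complex.exp ((inner ℝ z (u l - (β * c l) • U) : ℝ) * Complex.I)),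
    integral_fintype_prod_eq_prod (fun l (z : E d) => Complex.exp ((inner ℝ z (u l) : ℝ) * Complex.I))]
  simp only [γ, ← charFun_apply, charFun_stdGaussian, ← Complex.exp_sum, ← Complex.exp_add]
  congr 1
  have hn' : ((‖U‖ : ℂ)) ^ 2 + ∑ l, ((‖u l - (β * c l) • U‖ : ℂ)) ^ 2 = ∑ l, ((‖u l‖ : ℂ)) ^ 2 := by
    exact_mod_cast hnorm
  rw [← Finset.sum_div, ← Finset.sum_div, Finset.sum_neg_distrib, Finset.sum_neg_distrib, ← hn']
  ring

/-- One draw of variance `V` gives independent draws of variances `w i`. -/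
theorem map_splitDraw (m : E d) {V : ℝ} {w : Fin q → ℝ} (hV : 0 ≤ V) (hw : ∀ i, 0 < w i)
    (hsum : ∑ l, V / w l ≤ 1) :
    ((stdGaussian (E d)).prod (Measure.pi fun _ : Fin q => stdGaussian (E d))).map
        (fun z => splitDraw V w (m + √V • z.1) z.2) =
      (Measure.pi fun _ : Fin q => stdGaussian (E d)).map fun z i => m + √(w i) • z i := by
  have hsq : ∀ l, √(V / w l) ^ 2 = V / w l := fun l =>
    Real.sq_sqrt (div_nonneg hV (hw l).le)
  have h := measurePreserving_splitStd (d := d) (fun l => √(V / w l)) (by simpa [hsq] using hsum)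
  conv_rhs => rw [← h.map_eq, Measure.map_map (by fun_prop) h.measurable]
  congr 1
  funext z i
  have e : √(w i) * √(V / w i) = √V := by
    rw [← Real.sqrt_mul (hw i).le, mul_div_cancel₀ _ (hw i).ne']
  simp only [splitDraw, Function.comp_apply, hsq, smul_add, smul_sub, smul_smul, e]
  rw [show √(w i) * (1 / (1 + √(1 - ∑ l, V / w l)) * √(V / w i)) =
    1 / (1 + √(1 - ∑ l, V / w l)) * (√(w i) * √(V / w i)) by ring, e]
  abel

end Split

namespace Prog

variable {S : Type} [MeasurableSpace S] {p : Prog d S}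

/-- A program fed by one draw of variance `V`, split among its consumers, as an estimator. -/
@[reducible] noncomputable def toEst [StandardBorelSpace S] [Nonempty S] (hm : p.Meas)
    (ν : Measure S) [IsProbabilityMeasure ν] (V : ℝ) (w : Fin (p.n + 1) → ℝ) : Est d where
  Seed := (Fin (p.n + 1) → E d) × p.Rand p.n × E d
  sb :=
    have h : StandardBorelSpace (p.Rand p.n × E d) := inferInstance
    StandardBorelSpace.prod (α := Fin (p.n + 1) → E d) (β := p.Rand p.n × E d)
  ne := inferInstance
  P := (Measure.pi fun _ : Fin (p.n + 1) => stdGaussian (E d)).prod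
    ((p.randLaw ν p.n).prod (stdGaussian (E d)))
  q := ∑ i ∈ Finset.range p.n, (p.est i).q
  F := fun O z => p.proc O (fun i => splitDraw V w z.1 z.2.1 i, z.2.2)
  qc := (qc_proc hm).comap (φ := fun z : E d × (Fin (p.n + 1) → E d) × p.Rand p.n × E d =>
      ((fun i => splitDraw V w z.1 z.2.1 i), z.2.2))
    ((measurable_pi_lambda _ fun i => (measurable_pi_apply i).comp
      ((measurable_pi_lambda _ fun j => (show Measurable fun q : E d × (Fin (p.n + 1) → E d) =>
        splitDraw V w q.1 q.2 j by unfold splitDraw; fun_prop)).comp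
          (measurable_fst.prodMk (measurable_fst.comp measurable_snd)))).prodMk
      (measurable_snd.comp measurable_snd))

/-- At a draw of variance `V` the estimator sees independent root draws of variances `w`. -/
theorem integral_toEst [StandardBorelSpace S] [Nonempty S] (hm : p.Meas) {O : E d → ℝ × E d}
    (hO : Measurable O) (ν : Measure S) [IsProbabilityMeasure ν] (m : E d) {V : ℝ} (hV : 0 ≤ V)
    {w : ℕ → ℝ} (hw : ∀ i : Fin (p.n + 1), 0 < w i)
    (hsum : ∑ l : Fin (p.n + 1), V / w l ≤ 1) {f : E d → ℝ} (hf : Measurable f) {M : ℝ}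
    (hM : ∀ x, |f x| ≤ M) :
    ∫ z, f ((toEst hm ν V fun i => w i).F O (m + √V • z.1, z.2))
        ∂(stdGaussian (E d)).prod (toEst hm ν V fun i => w i).P =
      ∫ z, f (p.proc O (fun i => m + √(w i) • z.1 i, z.2))
        ∂(Measure.pi fun _ : Fin (p.n + 1) => stdGaussian (E d)).prod
          ((p.randLaw ν p.n).prod (stdGaussian (E d))) := by
  set γ := stdGaussian (E d)
  set πn := Measure.pi fun _ : Fin (p.n + 1) => γ
  set μR := (p.randLaw ν p.n).prod γ
  have hF : Measurable (p.proc O) := (qc_proc hm).measurable hO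
  have hs : Measurable fun z : E d × (Fin (p.n + 1) → E d) =>
      fun i => splitDraw V (fun i : Fin (p.n + 1) => w i) (m + √V • z.1) z.2 i :=
    measurable_pi_lambda _ fun i => by unfold splitDraw; fun_prop
  have hr : Measurable fun z : Fin (p.n + 1) → E d => fun i : Fin (p.n + 1) => m + √(w i) • z i := by fun_prop
  have hG : Measurable fun q : (Fin (p.n + 1) → E d) × p.Rand p.n × E d => f (p.proc O q) :=
    hf.comp hF
  have h := map_splitDraw (d := d) m (w := fun i : Fin (p.n + 1) => w i) hV hw hsum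
  set G : (Fin (p.n + 1) → E d) → ℝ := fun x => ∫ r, f (p.proc O (x, r)) ∂μR with hGdef
  have hh := congrArg (fun μ : Measure (Fin (p.n + 1) → E d) => ∫ x, G x ∂μ) h
  simp only [hGdef] at hh
  have hI : Measurable fun x => ∫ r, f (p.proc O (x, r)) ∂μR :=
    (StronglyMeasurable.integral_prod_right' hG.stronglyMeasurable).measurable
  rw [integral_map hs.aemeasurable hI.aestronglyMeasurable,
    integral_map hr.aemeasurable hI.aestronglyMeasurable] at hh
  show ∫ z : E d × (Fin (p.n + 1) → E d) × p.Rand p.n × E d,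
    f (p.proc O (fun i => splitDraw V (fun i : Fin (p.n + 1) => w i) (m + √V • z.1) z.2.1 i, z.2.2))
      ∂γ.prod (πn.prod μR) = _
  have hA := measurePreserving_prodAssoc γ πn μR
  have hK : Measurable fun z : E d × (Fin (p.n + 1) → E d) × p.Rand p.n × E d =>
      f (p.proc O (fun i => splitDraw V (fun i : Fin (p.n + 1) => w i) (m + √V • z.1) z.2.1 i,
        z.2.2)) :=
    hG.comp ((hs.comp (measurable_fst.prodMk (measurable_fst.comp measurable_snd))).prodMk
      (measurable_snd.comp measurable_snd))
  rw [← hA.map_eq, integral_map hA.measurable.aemeasurable hK.aestronglyMeasurable]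
  have e1 := integral_prod (μ := γ.prod πn) (ν := μR) (fun z : (E d × (Fin (p.n + 1) → E d)) × p.Rand p.n × E d =>
    f (p.proc O (fun i => splitDraw V (fun i : Fin (p.n + 1) => w i) (m + √V • z.1.1) z.1.2 i, z.2)))
    (integrable_of_bound (hG.comp ((hs.comp measurable_fst).prodMk measurable_snd)) fun q => hM _)
  have e2 := integral_prod (μ := πn) (ν := μR) (fun z : (Fin (p.n + 1) → E d) × p.Rand p.n × E d =>
    f (p.proc O (fun i => m + √(w i) • z.1 i, z.2)))
    (integrable_of_bound (hG.comp ((hr.comp measurable_fst).prodMk measurable_snd)) fun q => hM _)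
  exact (e1.trans hh).trans e2.symm

end Prog

end Vale.Agent.P347.Zero
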