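import Vale.Agent.P347.Zero.BandGeo
import Vale.Agent.P347.Zero.Draws

/-!
# P347, exponent zero: the program of one band

Point `(r, i)` is the centre of point `i` of the system in round `r`. Node `k < (K + 1) n` is the
point `(k / n, k % n)`; node `(K + 1) n` is the point `(K, i₀)`, the next band.
-/

open MeasureTheory ProbabilityTheory Real
open scoped RealInnerProductSpace

namespace Vale.Agent.P347.Zero

variable {d : ℕ}

/-- weight of the first root `m + b Z` in the centre of point `i` -/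
noncomputable def seedY (G : Geo) (i : Fin G.n) : ℝ := exp (-G.tm i) * G.ky i

/-- weight of the root `w` in the centre of point `i` -/
noncomputable def seedW (G : Geo) (b : ℝ) (i : Fin G.n) : ℝ := b * exp (-G.tm i) * G.kw i

/-- weight of the drift of point `i'` in the centre of point `i` -/
noncomputable def ptReg (G : Geo) (b : ℝ) (i i' : Fin G.n) : ℝ :=
  b ^ 2 * exp (-G.tm i) * G.C i i'

/-- the known part of the centre of point `i`, from the seed `(m + b Z, w)` -/
noncomputable def ptBias (G : Geo) (b : ℝ) (i : Fin G.n) (s : E d × E d) : E d :=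
  seedY G i • s.1 + seedW G b i • s.2

/-- register `0` is the root of the node, register `j + 1` the output of node `j` -/
noncomputable def ptCoef (G : Geo) (b : ℝ) (r : ℕ) (i : Fin G.n) : ℕ → ℝ
  | 0 => 1 - seedY G i
  | j + 1 => if r ≠ 0 ∧ j / G.n = r - 1 then
      ptReg G b i ⟨j % G.n, Nat.mod_lt _ (Fin.pos i)⟩ else 0

theorem n_pos (G : Geo) : 0 < G.n := Fin.pos G.i₀

/-- the point of node `k` -/
def pointOf (G : Geo) (K k : ℕ) : ℕ × Fin G.n :=
  if k < (K + 1) * G.n then (k / G.n, ⟨k % G.n, Nat.mod_lt _ (n_pos G)⟩) else (K, G.i₀)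

/-- the number of nodes -/
def bandN (G : Geo) (K : ℕ) : ℕ := (K + 1) * G.n + 1

/-- the value of a node of kind: round, outer round, next band -/
def byKind {α : Type*} (G : Geo) (K : ℕ) (inner outer : Fin G.n → α) (next : α) (k : ℕ) : α :=
  if k < K * G.n then inner (pointOf G K k).2
  else if k < (K + 1) * G.n then outer (pointOf G K k).2 else next

/-- the variance of the draw given to node `k` -/
noncomputable def bandT (G : Geo) (b : ℝ) (K : ℕ) (I I' I'' : ℝ) (k : ℕ) : ℝ :=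
  √((b * bT (G.tm (pointOf G K k).2)) ^ 2 /
    byKind G K (fun _ => I') (fun _ => I'') I k)

/-- the variance of the root of node `k` -/
noncomputable def bandV (G : Geo) (b : ℝ) (K : ℕ) (I I' I'' : ℝ) (k : ℕ) : ℝ :=
  if k = (K + 1) * G.n then 9 / 10 * (b * bT 1) ^ 2 / (I * (1 - exp (-1)) ^ 2)
  else if k < K * G.n then b ^ 2 / (100 * I')
  else if k < (K + 1) * G.n then b ^ 2 / (100 * I'') else b ^ 2 / (100 * I')

/-- the noise level of the output of node `k` -/
def bandG (G : Geo) (K : ℕ) (gn g' g'' : ℝ) (k : ℕ) : ℝ :=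
  byKind G K (fun _ => g') (fun _ => g'') gn k

/-- the variance of a register seen by each consumer -/
noncomputable def bandVar (G : Geo) (K : ℕ) (gn g' g'' : ℝ) : ℕ → ℝ
  | 0 => 0
  | j + 1 => ((bandN G K : ℝ) - j) * bandG G K gn g' g'' j ^ 2

/-- the weights of the centre of node `k` -/
noncomputable def bandCoef (G : Geo) (b : ℝ) (K k : ℕ) : ℕ → ℝ :=
  ptCoef G b (pointOf G K k).1 (pointOf G K k).2

/-- the weights of the output -/
noncomputable def bandOut (G : Geo) (K : ℕ) : ℕ → ℝ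
  | 0 => 0
  | j + 1 => byKind G K (fun _ => 0) (fun i => -G.out i) 1 j

/-- the program of one band of the primitive -/
noncomputable def bandProg (G : Geo) (b : ℝ) (K : ℕ) (eR eO : Fin G.n → Est d) (eN : Est d)
    (I I' I'' g₁ g gn g' g'' : ℝ) : Prog d (E d × E d) where
  n := bandN G K
  est := byKind G K eR eO eN
  bias k := ptBias G b (pointOf G K k).2
  coef := bandCoef G b K
  var := bandVar G K gn g' g''
  fill k := √(bandT G b K I I' I'' k ^ 2 - (bandCoef G b K k 0 ^ 2 * bandV G b K I I' I'' k +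
    ∑ j ∈ Finset.range k, bandCoef G b K k (j + 1) ^ 2 * bandVar G K gn g' g'' (j + 1)))
  outBias s := g₁ • s.2
  outCoef := bandOut G K
  outFill := √(g ^ 2 - g₁ ^ 2 -
    ∑ j ∈ Finset.range (bandN G K), bandOut G K (j + 1) ^ 2 * bandVar G K gn g' g'' (j + 1))

/-! ### indices -/

theorem pointOf_node {G : Geo} {K r : ℕ} (hr : r ≤ K) (i : Fin G.n) :
    pointOf G K (r * G.n + i) = (r, i) := by
  have h : r * G.n + (i : ℕ) < (K + 1) * G.n :=
    calc r * G.n + (i : ℕ) < r * G.n + G.n := Nat.add_lt_add_left i.2 _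
      _ = (r + 1) * G.n := by ring
      _ ≤ (K + 1) * G.n := Nat.mul_le_mul_right _ (by omega)
  rw [pointOf, if_pos h]
  refine Prod.ext ?_ (Fin.ext ?_)
  · show (r * G.n + i) / G.n = r
    rw [Nat.mul_comm, Nat.mul_add_div (n_pos G), Nat.div_eq_of_lt i.2, add_zero]
  · show (r * G.n + i) % G.n = i
    rw [Nat.mul_comm, Nat.mul_add_mod, Nat.mod_eq_of_lt i.2]

theorem pointOf_next (G : Geo) (K : ℕ) : pointOf G K ((K + 1) * G.n) = (K, G.i₀) := by
  simp [pointOf]

theorem pointOf_spec (G : Geo) (K k : ℕ) :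
    (pointOf G K k).1 ≤ K ∧ (pointOf G K k).1 * G.n ≤ k := by
  unfold pointOf
  split_ifs with h
  · exact ⟨Nat.lt_succ_iff.1 (Nat.div_lt_of_lt_mul (by rwa [Nat.mul_comm])), Nat.div_mul_le_self k _⟩
  · exact ⟨le_rfl, le_trans (Nat.mul_le_mul_right _ (Nat.le_succ K)) (not_lt.1 h)⟩

/-- only the previous round enters the centre of a point -/
theorem sum_ptCoef {M : Type*} [AddCommMonoid M] (G : Geo) (b : ℝ) {r k : ℕ} (i : Fin G.n)
    (hk : r * G.n ≤ k) (φ : ℕ → ℝ → M) (h0 : ∀ j, φ j 0 = 0) :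
    ∑ j ∈ Finset.range k, φ j (ptCoef G b r i (j + 1)) =
      if r = 0 then 0 else ∑ i' : Fin G.n, φ ((r - 1) * G.n + i') (ptReg G b i i') := by
  rcases r with _ | r
  · simp [ptCoef, h0]
  have hn := n_pos G
  rw [if_neg (Nat.succ_ne_zero r)]
  simp only [Nat.add_sub_cancel]
  have hsub : Finset.Ico (r * G.n) ((r + 1) * G.n) ⊆ Finset.range k := fun j hj =>
    Finset.mem_range.2 ((Finset.mem_Ico.1 hj).2.trans_le hk)
  rw [← Finset.sum_subset hsub]
  · rw [Finset.sum_Ico_eq_sum_range, show (r + 1) * G.n - r * G.n = G.n by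
      rw [Nat.succ_mul, Nat.add_sub_cancel_left], ← Fin.sum_univ_eq_sum_range]
    refine Finset.sum_congr rfl fun i' _ => ?_
    have e1 : (r * G.n + (i' : ℕ)) / G.n = r := by
      rw [Nat.mul_comm, Nat.mul_add_div hn, Nat.div_eq_of_lt i'.2, add_zero]
    have e2 : (r * G.n + (i' : ℕ)) % G.n = i' := by
      rw [Nat.mul_comm, Nat.mul_add_mod, Nat.mod_eq_of_lt i'.2]
    simp only [ptCoef, e1, e2, Nat.add_sub_cancel, ne_eq, Nat.succ_ne_zero, not_false_eq_true,
      and_self, if_true, Fin.eta]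
  · intro j _ hj
    have : j / G.n ≠ r := fun h => hj (Finset.mem_Ico.2
      ⟨h ▸ Nat.div_mul_le_self j G.n, h ▸ Nat.lt_mul_of_div_lt (Nat.lt_succ_self _) hn⟩)
    simp [ptCoef, this, h0]

theorem next_not_lt (G : Geo) (K : ℕ) : ¬ (K + 1) * G.n < K * G.n :=
  not_lt.2 (Nat.mul_le_mul_right _ (Nat.le_succ K))

/-- only the last round and the next band enter the output -/
theorem sum_bandOut {M : Type*} [AddCommMonoid M] (G : Geo) (K : ℕ) (φ : ℕ → ℝ → M)
    (h0 : ∀ j, φ j 0 = 0) :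
    ∑ j ∈ Finset.range (bandN G K), φ j (bandOut G K (j + 1)) =
      (∑ i : Fin G.n, φ (K * G.n + i) (-G.out i)) + φ ((K + 1) * G.n) 1 := by
  rw [bandN, Finset.sum_range_succ]
  congr 1
  · rw [Nat.succ_mul, Finset.sum_range_add, Finset.sum_eq_zero, zero_add,
      ← Fin.sum_univ_eq_sum_range]
    · refine Finset.sum_congr rfl fun i _ => ?_
      have h1 : ¬ K * G.n + (i : ℕ) < K * G.n := by omega
      have h2 : K * G.n + (i : ℕ) < (K + 1) * G.n := by rw [Nat.succ_mul]; have := i.2; omega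
      simp only [bandOut, byKind, h1, h2, if_true, if_false, pointOf_node le_rfl]
    · intro j hj
      simp [bandOut, byKind, Finset.mem_range.1 hj, h0]
  · have h1 := next_not_lt G K
    simp [bandOut, byKind, h1]

theorem sum_abs_ptReg_le {G : Geo} {Γ b Ωo : ℝ} (hG : G.Sized (Γ / b) Ωo) (hb : 0 < b)
    (i : Fin G.n) : ∑ i', |ptReg G b i i'| ≤ b * exp (-G.tm i) * Γ := by
  simp only [ptReg, abs_mul, ← Finset.mul_sum]
  rw [abs_of_pos (show (0 : ℝ) < b ^ 2 by positivity), abs_of_pos (exp_pos _)]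
  refine (mul_le_mul_of_nonneg_left (hG.row i) (by positivity)).trans_eq ?_
  field_simp

theorem abs_seedY_le {G : Geo} {Γ Ωo : ℝ} (hG : G.Sized Γ Ωo) (i : Fin G.n) : |seedY G i| ≤ 1 := by
  rw [seedY, abs_mul, abs_of_pos (exp_pos _)]
  exact mul_le_one₀ (exp_neg_le_one (hG.one_le_tm i)) (abs_nonneg _) (hG.abs_ky i)

theorem seedY_i₀ {G : Geo} {Γ Ωo : ℝ} (hG : G.Sized Γ Ωo) : seedY G G.i₀ = exp (-1) := by
  rw [seedY, hG.tm_i₀, hG.ky_i₀, mul_one]

/-! ### the budget -/

section budget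

variable {G : Geo} {b Γ Ωo : ℝ} {K : ℕ} {I I' I'' g₁ g gn g' g'' : ℝ}

theorem byKind_pos {k : ℕ} (h1 : 0 < I') (h2 : 0 < I'') (h3 : 0 < I) :
    0 < byKind G K (fun _ => I') (fun _ => I'') I k := by
  unfold byKind; split_ifs <;> assumption

theorem bandT_pos (hG : G.Sized (Γ / b) Ωo) (hb : 0 < b) (hI : 0 < I) (hI' : 0 < I')
    (hI'' : 0 < I'') (k : ℕ) : 0 < bandT G b K I I' I'' k := by
  have h := bT_pos (one_pos.trans_le (hG.one_le_tm (pointOf G K k).2))
  have h2 := byKind_pos (G := G) (K := K) (k := k) hI' hI'' hI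
  unfold bandT; positivity

theorem bandV_pos (hb : 0 < b) (hI : 0 < I) (hI' : 0 < I') (hI'' : 0 < I'') (k : ℕ) :
    0 < bandV G b K I I' I'' k := by
  have h1 := bT_pos one_pos
  have h2 : 0 < 1 - exp (-1) := by linarith [exp_neg_one_bounds.2]
  unfold bandV; split_ifs <;> positivity

theorem bandVar_succ_nonneg {j : ℕ} (hj : j < bandN G K) :
    0 ≤ bandVar G K gn g' g'' (j + 1) := by
  have : (j : ℝ) ≤ bandN G K := by exact_mod_cast hj.le
  exact mul_nonneg (by linarith) (sq_nonneg _)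

theorem bandVar_round {r : ℕ} (hr : r < K) (i : Fin G.n) :
    bandVar G K gn g' g'' (r * G.n + i + 1) ≤ bandN G K * g' ^ 2 := by
  have h : r * G.n + (i : ℕ) < K * G.n := by
    calc r * G.n + (i : ℕ) < r * G.n + G.n := Nat.add_lt_add_left i.2 _
      _ = (r + 1) * G.n := by ring
      _ ≤ K * G.n := Nat.mul_le_mul_right _ hr
  simp only [bandVar, bandG, byKind, h, if_true]
  exact mul_le_mul_of_nonneg_right (by linarith [Nat.cast_nonneg (α := ℝ) (r * G.n + (i : ℕ))])
    (sq_nonneg _)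

/-- the noise from the registers in a centre -/
theorem registers_le (hG : G.Sized (Γ / b) Ωo) (hb : 0 < b) {r k : ℕ} (hr : r ≤ K)
    (hk : r * G.n ≤ k) (i : Fin G.n) {J : ℝ} (hJ : 0 < J)
    (habs : Γ ^ 2 * bandN G K * g' ^ 2 * J ≤ 1 / 10) :
    ∑ j ∈ Finset.range k, ptCoef G b r i (j + 1) ^ 2 * bandVar G K gn g' g'' (j + 1) ≤
      exp (-G.tm i) ^ 2 * (b ^ 2 / (10 * J)) := by
  rw [sum_ptCoef G b i hk (fun j c => c ^ 2 * bandVar G K gn g' g'' (j + 1)) (by simp)]
  split_ifs with h0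
  · positivity
  have hr1 : r - 1 < K := by omega
  calc ∑ i' : Fin G.n, ptReg G b i i' ^ 2 * bandVar G K gn g' g'' ((r - 1) * G.n + i' + 1)
      ≤ ∑ i' : Fin G.n, |ptReg G b i i'| ^ 2 * (bandN G K * g' ^ 2) :=
        Finset.sum_le_sum fun i' _ => by
          rw [sq_abs]; exact mul_le_mul_of_nonneg_left (bandVar_round hr1 i') (sq_nonneg _)
    _ ≤ (b * exp (-G.tm i) * Γ) ^ 2 * (bandN G K * g' ^ 2) := by
        rw [← Finset.sum_mul]
        refine mul_le_mul_of_nonneg_right ?_ (by positivity)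
        exact (Finset.sum_sq_le_sq_sum_of_nonneg fun i' _ => abs_nonneg (ptReg G b i i')).trans
          (pow_le_pow_left₀ (Finset.sum_nonneg fun i' _ => abs_nonneg _)
            (sum_abs_ptReg_le hG hb i) 2)
    _ ≤ exp (-G.tm i) ^ 2 * (b ^ 2 / (10 * J)) := by
        rw [mul_pow, mul_pow, mul_comm (b ^ 2), mul_assoc (exp (-G.tm i) ^ 2),
          mul_assoc (exp (-G.tm i) ^ 2)]
        refine mul_le_mul_of_nonneg_left ?_ (sq_nonneg _)
        rw [le_div_iff₀ (by positivity)]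
        nlinarith [mul_le_mul_of_nonneg_left habs (sq_nonneg b)]

/-- the centre of every node fits in its draw -/
theorem node_used_le (hG : G.Sized (Γ / b) Ωo) (hb : 0 < b) (hI : 0 < I)
    (hI' : 0 < I') (hI'' : 0 < I'') (h1 : Γ ^ 2 * bandN G K * g' ^ 2 * I ≤ 1 / 10)
    (h2 : Γ ^ 2 * bandN G K * g' ^ 2 * I' ≤ 1 / 10) (h3 : Γ ^ 2 * bandN G K * g' ^ 2 * I'' ≤ 1 / 10)
    {k : ℕ} (hk : k < bandN G K) :
    bandCoef G b K k 0 ^ 2 * bandV G b K I I' I'' k +
        ∑ j ∈ Finset.range k, bandCoef G b K k (j + 1) ^ 2 * bandVar G K gn g' g'' (j + 1) ≤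
      bandT G b K I I' I'' k ^ 2 := by
  obtain ⟨hr, hkr⟩ := pointOf_spec G K k
  set i := (pointOf G K k).2
  have hβ := bT_one_sq_ge
  have ht := bT_one_sq_le (hG.one_le_tm i)
  have hJ := byKind_pos (G := G) (K := K) (k := k) hI' hI'' hI
  rw [bandT, Real.sq_sqrt (by positivity)]
  rcases eq_or_ne k ((K + 1) * G.n) with rfl | hne
  · have hi : i = G.i₀ := by simp only [i, pointOf_next]
    have e : byKind G K (fun _ => I') (fun _ => I'') I ((K + 1) * G.n) = I := by
      simp [byKind, next_not_lt G K]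
    rw [e, bandCoef, ptCoef, bandV, if_pos rfl]
    have hs : 0 < 1 - exp (-1) := by linarith [exp_neg_one_bounds.2]
    have hreg := registers_le (gn := gn) (g'' := g'') hG hb hr hkr i hI h1
    simp only [i] at hi
    simp only [i, hi] at hreg
    rw [hi, seedY_i₀ hG, hG.tm_i₀]
    calc (1 - exp (-1)) ^ 2 * (9 / 10 * (b * bT 1) ^ 2 / (I * (1 - exp (-1)) ^ 2)) +
          ∑ j ∈ Finset.range ((K + 1) * G.n), ptCoef G b (pointOf G K ((K + 1) * G.n)).1 G.i₀
            (j + 1) ^ 2 * bandVar G K gn g' g'' (j + 1)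
        ≤ 9 / 10 * (b * bT 1) ^ 2 / I + exp (-1) ^ 2 * (b ^ 2 / (10 * I)) := by
          refine add_le_add (le_of_eq (by field_simp)) ?_
          simpa [hG.tm_i₀] using hreg
      _ ≤ (b * bT 1) ^ 2 / I := by
          obtain ⟨hc1, hc2⟩ := exp_neg_one_bounds
          rw [show 9 / 10 * (b * bT 1) ^ 2 / I + exp (-1) ^ 2 * (b ^ 2 / (10 * I)) =
            (9 / 10 * bT 1 ^ 2 + exp (-1) ^ 2 / 10) * b ^ 2 / I by ring, mul_pow,
            mul_comm (b ^ 2) (bT 1 ^ 2)]
          refine div_le_div_of_nonneg_right (mul_le_mul_of_nonneg_right ?_ (sq_nonneg b)) hI.le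
          nlinarith
  · have hk2 : k < (K + 1) * G.n := by unfold bandN at hk; omega
    obtain ⟨J, hJ0, eJ, eV, hJa⟩ : ∃ J, 0 < J ∧ byKind G K (fun _ => I') (fun _ => I'') I k = J ∧
        bandV G b K I I' I'' k = b ^ 2 / (100 * J) ∧ Γ ^ 2 * bandN G K * g' ^ 2 * J ≤ 1 / 10 := by
      by_cases h : k < K * G.n
      · exact ⟨I', hI', by simp [byKind, h], by simp [bandV, hne, h], h2⟩
      · exact ⟨I'', hI'', by simp [byKind, h, hk2], by simp [bandV, hne, h, hk2], h3⟩
    rw [eJ, eV, bandCoef, ptCoef]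
    have hreg := registers_le (gn := gn) (g'' := g'') hG hb hr hkr i hJ0 hJa
    have hc : (1 - seedY G i) ^ 2 ≤ 4 := by
      have := abs_le.1 (abs_seedY_le hG i); nlinarith
    calc (1 - seedY G i) ^ 2 * (b ^ 2 / (100 * J)) +
          ∑ j ∈ Finset.range k, ptCoef G b (pointOf G K k).1 i (j + 1) ^ 2 *
            bandVar G K gn g' g'' (j + 1)
        ≤ 4 * (b ^ 2 / (100 * J)) + b ^ 2 / (10 * J) :=
          add_le_add (mul_le_mul_of_nonneg_right hc (by positivity)) (hreg.trans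
            (mul_le_of_le_one_left (by positivity)
              (pow_le_one₀ (exp_pos _).le (exp_neg_le_one (hG.one_le_tm i)))))
      _ ≤ (b * bT (G.tm i)) ^ 2 / J := by
          rw [mul_pow, show 4 * (b ^ 2 / (100 * J)) + b ^ 2 / (10 * J) = b ^ 2 * (7 / 50) / J by ring]
          exact div_le_div_of_nonneg_right
            (mul_le_mul_of_nonneg_left (by linarith) (sq_nonneg b)) hJ0.le

/-- the output fits in the noise level -/
theorem out_used_le (hG : G.Sized (Γ / b) Ωo) (hg : g ^ 2 = gn ^ 2 + 2 * g₁ ^ 2)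
    (hΩ : Ωo ^ 2 * bandN G K * g'' ^ 2 ≤ g₁ ^ 2) :
    ∑ j ∈ Finset.range (bandN G K), bandOut G K (j + 1) ^ 2 * bandVar G K gn g' g'' (j + 1) ≤
      g ^ 2 - g₁ ^ 2 := by
  rw [sum_bandOut G K (fun j c => c ^ 2 * bandVar G K gn g' g'' (j + 1)) (by simp)]
  have h2 : ∀ i : Fin G.n, bandVar G K gn g' g'' (K * G.n + i + 1) ≤ bandN G K * g'' ^ 2 := fun i => by
    have h1 : ¬ K * G.n + (i : ℕ) < K * G.n := by omega
    have h2 : K * G.n + (i : ℕ) < (K + 1) * G.n := by rw [Nat.succ_mul]; have := i.2; omega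
    simp only [bandVar, bandG, byKind, h1, h2, if_true, if_false]
    exact mul_le_mul_of_nonneg_right (by linarith [Nat.cast_nonneg (α := ℝ) (K * G.n + (i : ℕ))])
      (sq_nonneg _)
  have e : bandVar G K gn g' g'' ((K + 1) * G.n + 1) = gn ^ 2 := by
    have h1 := next_not_lt G K
    simp [bandVar, bandG, byKind, bandN, h1]
  have h3 : ∑ i : Fin G.n, (-G.out i) ^ 2 * bandVar G K gn g' g'' (K * G.n + i + 1) ≤
      Ωo ^ 2 * (bandN G K * g'' ^ 2) := by
    refine (Finset.sum_le_sum fun i _ => ?_ : _ ≤ ∑ i : Fin G.n, |G.out i| ^ 2 * (bandN G K * g'' ^ 2)).trans ?_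
    · rw [neg_sq, sq_abs]; exact mul_le_mul_of_nonneg_left (h2 i) (sq_nonneg _)
    · rw [← Finset.sum_mul]
      refine mul_le_mul_of_nonneg_right ?_ (by positivity)
      exact (Finset.sum_sq_le_sq_sum_of_nonneg fun i _ => abs_nonneg (G.out i)).trans
        (pow_le_pow_left₀ (Finset.sum_nonneg fun i _ => abs_nonneg _) hG.out_le 2)
  rw [e, one_pow, one_mul]
  nlinarith

/-- the draws of all consumers come from one draw `N(m, b² / I)` -/
theorem split_budget (hb : 0 < b) (hI : 0 < I) (hI' : 0 < I') (hI'' : 0 < I'')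
    (h : 1 + 100 * (bandN G K : ℝ) * (I' + I'') ≤ 2 / 5 * I) :
    b ^ 2 / I / b ^ 2 +
        ∑ k ∈ Finset.range (bandN G K + 1), b ^ 2 / I / bandV G b K I I' I'' k ≤ 1 := by
  have hβ := bT_one_sq_ge
  have hβ0 := bT_pos one_pos
  obtain ⟨hc1, hc2⟩ := exp_neg_one_bounds
  have hs : 0 < 1 - exp (-1) := by linarith
  have hne : ∀ k ∈ (Finset.range (bandN G K + 1)).erase ((K + 1) * G.n),
      b ^ 2 / I / bandV G b K I I' I'' k ≤ 100 * (I' + I'') / I := by
    intro k hk
    have hne := Finset.ne_of_mem_erase hk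
    unfold bandV
    rw [if_neg hne]
    split_ifs <;> (field_simp; try linarith)
  have hmem : (K + 1) * G.n ∈ Finset.range (bandN G K + 1) := by simp [bandN]
  rw [← Finset.add_sum_erase _ _ hmem]
  have h1 := Finset.sum_le_card_nsmul _ _ _ hne
  have e : ((Finset.range (bandN G K + 1)).erase ((K + 1) * G.n)).card = bandN G K := by
    rw [Finset.card_erase_of_mem hmem, Finset.card_range]; rfl
  rw [e, nsmul_eq_mul] at h1
  have h2 : b ^ 2 / I / bandV G b K I I' I'' ((K + 1) * G.n) ≤ 3 / 5 := by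
    rw [bandV, if_pos rfl]
    field_simp
    nlinarith
  have h3 : b ^ 2 / I / b ^ 2 + (bandN G K : ℝ) * (100 * (I' + I'') / I) ≤ 2 / 5 := by
    rw [show b ^ 2 / I / b ^ 2 + (bandN G K : ℝ) * (100 * (I' + I'') / I) =
      (1 + 100 * (bandN G K : ℝ) * (I' + I'')) / I by field_simp]
    exact (div_le_iff₀ hI).2 h
  linarith

end budget

end Vale.Agent.P347.Zero
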