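import Vale.Agent.P347.Zero.BandExact

/-!
# P347, exponent zero: the nodes of one band of the primitive, run on one potential

Budget, queries, Lipschitz recursion and error recursion of `bandProg`.
-/

open MeasureTheory ProbabilityTheory Real
open scoped RealInnerProductSpace NNReal

namespace Vale.Agent.P347.Zero

variable {d : ℕ}

/-- An estimator that does the task of a primitive. -/
def Est.Meets (est : Est d) (q : ℕ) (η b V g L e : ℝ) : Prop :=
  est.q ≤ q ∧ ∀ (B : ℝ) (W : E d → ℝ), Pert η B W →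
    est.Spec (oracleOf (pot W)) (√V) g (aOf W b) L.toNNReal (fun m => e * wt W m)

theorem exists_meets {q : ℕ} {η b V g L e : ℝ} (hb : 0 < b) (hb1 : b ≤ 1) (hL : 0 ≤ L)
    (h : Prim d q η b V g L e) : ∃ est : Est d, est.Meets q η b V g L e := by
  obtain ⟨Ω, i1, i2, i3, P, F, hP, hF, h⟩ := h
  refine ⟨{ Seed := Ω, P := P, q := q, F := F, qc := hF }, le_rfl, fun B W hW => ?_⟩
  refine ⟨(continuous_aOf hW hb hb1).measurable, ?_, ?_, fun m f hf hM => ?_⟩
  · have := hW.contDiff_grad.continuous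
    unfold wt; fun_prop
  · rw [Real.coe_toNNReal L hL]
    exact (h B W hW).1
  · have h' := (h B W hW).2 m f hf hM
    have hm : Measurable fun p : E d × Ω => (m + √V • p.1, p.2) := by fun_prop
    rw [drawLaw, integral_map hm.aemeasurable (f := fun p => f (F (oracleOf (pot W)) p))
      (hf.continuous.measurable.comp (hF.measurable hW.measurable_oracle)).aestronglyMeasurable] at h'
    exact h'

/-- The estimators at the three kinds of nodes. -/
structure BandChildren (G : Geo) (d q₁ q' q'' : ℕ)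
    (η b I I' I'' gn g' g'' L₁ L' L'' e₁ e' e'' : ℝ) (eR eO : Fin G.n → Est d) (eN : Est d) :
    Prop where
  inner : ∀ i, (eR i).Meets q' η (b * bT (G.tm i)) ((b * bT (G.tm i)) ^ 2 / I') g' L' e'
  outer : ∀ i, (eO i).Meets q'' η (b * bT (G.tm i)) ((b * bT (G.tm i)) ^ 2 / I'') g'' L'' e''
  next : eN.Meets q₁ η (b * bT 1) ((b * bT 1) ^ 2 / I) gn L₁ e₁

section kinds

variable {α : Type*} {G : Geo} {K k : ℕ} {f h : Fin G.n → α} {c : α}

theorem byKind_inner (hk : k < K * G.n) : byKind G K f h c k = f (pointOf G K k).2 := by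
  simp [byKind, hk]

theorem byKind_outer (h1 : ¬ k < K * G.n) (h2 : k < (K + 1) * G.n) :
    byKind G K f h c k = h (pointOf G K k).2 := by simp [byKind, h1, h2]

theorem byKind_next : byKind G K f h c ((K + 1) * G.n) = c := by simp [byKind, next_not_lt G K]

theorem node_cases (hk : k < bandN G K) :
    k < K * G.n ∨ (¬ k < K * G.n ∧ k < (K + 1) * G.n) ∨ k = (K + 1) * G.n := by
  unfold bandN at hk; omega

theorem round_lt {r : ℕ} (hr : r < K) (i : Fin G.n) : r * G.n + (i : ℕ) < K * G.n :=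
  calc r * G.n + (i : ℕ) < r * G.n + G.n := Nat.add_lt_add_left i.2 _
    _ = (r + 1) * G.n := by ring
    _ ≤ K * G.n := Nat.mul_le_mul_right _ hr

theorem last_round (i : Fin G.n) :
    ¬ K * G.n + (i : ℕ) < K * G.n ∧ K * G.n + (i : ℕ) < (K + 1) * G.n := by
  rw [Nat.succ_mul]; have := i.2; omega

end kinds

theorem Geo.Sized.mono {G : Geo} {Γ Ωo Γ' Ωo' : ℝ} (h : G.Sized Γ Ωo) (hΓ : Γ ≤ Γ')
    (hΩ : Ωo ≤ Ωo') : G.Sized Γ' Ωo' where
  one_le_tm := h.one_le_tm
  tm_i₀ := h.tm_i₀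
  ky_i₀ := h.ky_i₀
  kw_i₀ := h.kw_i₀
  abs_ky := h.abs_ky
  row i := (h.row i).trans hΓ
  out_le := h.out_le.trans hΩ

theorem map_bandSeed_prod {μ : Measure (E d)} [IsProbabilityMeasure μ] (m : E d) (b : ℝ) :
    ((μ.prod (stdGaussian (E d))).prod (stdGaussian (E d))).map (bandSeed m b) = seedLaw m b := by
  have hg : Measurable fun p : E d × E d => m + b • p.2 := by fun_prop
  have e : (μ.prod (stdGaussian (E d))).map (fun p => m + b • p.2) =
      (stdGaussian (E d)).map fun z => m + b • z := by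
    conv_rhs => rw [← (measurePreserving_snd (μ := μ) (ν := stdGaussian (E d))).map_eq,
      Measure.map_map (by fun_prop) measurable_snd]
    rfl
  rw [seedLaw, ← e]
  conv_rhs => rw [← Measure.map_id (μ := stdGaussian (E d)),
    Measure.map_prod_map _ _ hg measurable_id]
  rw [Measure.map_id]
  rfl

variable {G : Geo} {K q₁ q' q'' : ℕ}
  {η b Γ Ωo I I' I'' g₁ g gn g' g'' L₁ L' L'' e₁ e' e'' : ℝ}
  {eR eO : Fin G.n → Est d} {eN : Est d}

theorem bandProg_meas :
    (bandProg G b K eR eO eN I I' I'' g₁ g gn g' g'').Meas where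
  bias k _ := by show Measurable (ptBias G b (pointOf G K k).2); unfold ptBias; fun_prop
  outBias := by show Measurable fun s : E d × E d => g₁ • s.2; fun_prop

theorem bandProg_budget (hs : G.Sized (Γ / b) Ωo) (hb : 0 < b) (hI : 0 < I) (hI' : 0 < I')
    (hI'' : 0 < I'') (h1 : Γ ^ 2 * bandN G K * g' ^ 2 * I ≤ 1 / 10)
    (h2 : Γ ^ 2 * bandN G K * g' ^ 2 * I' ≤ 1 / 10) (h3 : Γ ^ 2 * bandN G K * g' ^ 2 * I'' ≤ 1 / 10)
    (hg : g ^ 2 = gn ^ 2 + 2 * g₁ ^ 2) (hg₁ : 0 < g₁) (hgn : 0 ≤ gn) (hg' : 0 ≤ g') (hg'' : 0 ≤ g'')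
    (hΩ : Ωo ^ 2 * bandN G K * g'' ^ 2 ≤ g₁ ^ 2) :
    (bandProg G b K eR eO eN I I' I'' g₁ g gn g' g'').Budget (bandV G b K I I' I'')
      (bandT G b K I I' I'') (bandG G K gn g' g'') (√(g ^ 2 - g₁ ^ 2)) where
  v_nonneg k _ := (bandV_pos hb hI hI' hI'' k).le
  t_pos k _ := bandT_pos hs hb hI hI' hI'' k
  g_nonneg k _ := by unfold bandG byKind; split_ifs <;> assumption
  out_pos := Real.sqrt_pos.2 (by nlinarith [pow_pos hg₁ 2, sq_nonneg gn])
  var_succ k _ := rfl
  node k hk := by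
    show bandCoef G b K k 0 ^ 2 * bandV G b K I I' I'' k + ∑ j : Fin k, bandCoef G b K k (j + 1) ^ 2 *
      bandVar G K gn g' g'' (j + 1) + √(_) ^ 2 = _
    rw [Fin.sum_univ_eq_sum_range (fun j => bandCoef G b K k (j + 1) ^ 2 * bandVar G K gn g' g'' (j + 1)),
      Real.sq_sqrt (sub_nonneg.2 (node_used_le hs hb hI hI' hI'' h1 h2 h3 hk))]
    ring
  output := by
    show bandOut G K 0 ^ 2 * _ + ∑ j : Fin (bandN G K), bandOut G K (j + 1) ^ 2 *
      bandVar G K gn g' g'' (j + 1) + √(_) ^ 2 = _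
    rw [Fin.sum_univ_eq_sum_range (fun j => bandOut G K (j + 1) ^ 2 * bandVar G K gn g' g'' (j + 1)),
      Real.sq_sqrt (sub_nonneg.2 (out_used_le hs hg hΩ)),
      Real.sq_sqrt (by nlinarith [sq_nonneg gn, sq_nonneg g₁])]
    simp [bandOut]

variable (hc : BandChildren G d q₁ q' q'' η b I I' I'' gn g' g'' L₁ L' L'' e₁ e' e'' eR eO eN)
include hc

theorem bandProg_queries :
    ∑ k ∈ Finset.range (bandN G K), (byKind G K eR eO eN k).q ≤ q₁ + bandN G K * (q' + q'') := by
  have hle : ∀ k ∈ Finset.range ((K + 1) * G.n), (byKind G K eR eO eN k).q ≤ q' + q'' := fun k hk => by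
    rcases node_cases (G := G) (K := K) (k := k) (by have := Finset.mem_range.1 hk; unfold bandN; omega)
      with h | ⟨h1, h2⟩ | h
    · rw [byKind_inner h]; exact (hc.inner _).1.trans (Nat.le_add_right _ _)
    · rw [byKind_outer h1 h2]; exact (hc.outer _).1.trans (Nat.le_add_left _ _)
    · exact absurd h (Finset.mem_range.1 hk).ne
  rw [bandN, Finset.sum_range_succ, byKind_next]
  have h := Finset.sum_le_card_nsmul _ _ _ hle
  rw [Finset.card_range, smul_eq_mul] at h
  have h' := hc.next.1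
  calc _ ≤ (K + 1) * G.n * (q' + q'') + q₁ := add_le_add h h'
    _ ≤ q₁ + ((K + 1) * G.n + 1) * (q' + q'') := by rw [add_mul ((K + 1) * G.n)]; omega

variable {B : ℝ} {W : E d → ℝ}

theorem bandProg_spec (hW : Pert η B W) (hs : G.Sized (Γ / b) Ωo) {k : ℕ} (hk : k < bandN G K) :
    (byKind G K eR eO eN k).Spec (oracleOf (pot W)) (bandT G b K I I' I'' k) (bandG G K gn g' g'' k)
      (aPt W G b (pointOf G K k).2)
      (byKind G K (fun _ => L'.toNNReal) (fun _ => L''.toNNReal) L₁.toNNReal k)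
      (fun x => byKind G K (fun _ => e') (fun _ => e'') e₁ k * wt W x) := by
  unfold bandT bandG aPt
  rcases node_cases hk with h | ⟨h1, h2⟩ | rfl
  · simp only [byKind_inner h]; exact (hc.inner _).2 B W hW
  · simp only [byKind_outer h1 h2]; exact (hc.outer _).2 B W hW
  · simp only [byKind_next, pointOf_next, hs.tm_i₀]; exact hc.next.2 B W hW

omit hc

/-- the Lipschitz constant of a node: `6`, and `1 + 6 Γ L'` at the next band -/
noncomputable def bandLip (G : Geo) (K : ℕ) (Γ L' : ℝ) (k : ℕ) : ℝ :=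
  byKind G K (fun _ => 6) (fun _ => 6) (1 + 6 * (Γ * L')) k

theorem bandLip_step (hs : G.Sized (Γ / b) Ωo) (hb : 0 < b) (hb1 : b ≤ 1) (hΓ : 0 ≤ Γ)
    (hL' : 0 ≤ L') (hq : Γ * L' ≤ 1 / 2) {k : ℕ} (hk : k < bandN G K) :
    |seedY G (pointOf G K k).2| + |bandCoef G b K k 0| +
      ∑ j ∈ Finset.range k, |bandCoef G b K k (j + 1)| *
        (((byKind G K (fun _ => L'.toNNReal) (fun _ => L''.toNNReal) L₁.toNNReal j : ℝ≥0) : ℝ) *
          bandLip G K Γ L' j) ≤ bandLip G K Γ L' k := by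
  obtain ⟨hr, hkr⟩ := pointOf_spec G K k
  set i := (pointOf G K k).2
  have hq0 : 0 ≤ Γ * L' := mul_nonneg hΓ hL'
  have hsum : ∑ j ∈ Finset.range k, |bandCoef G b K k (j + 1)| *
      (((byKind G K (fun _ => L'.toNNReal) (fun _ => L''.toNNReal) L₁.toNNReal j : ℝ≥0) : ℝ) *
        bandLip G K Γ L' j) ≤ 6 * (Γ * L') := by
    rw [bandCoef, sum_ptCoef G b i hkr (fun j c => |c| *
      (((byKind G K (fun _ => L'.toNNReal) (fun _ => L''.toNNReal) L₁.toNNReal j : ℝ≥0) : ℝ) *
        bandLip G K Γ L' j)) (by simp)]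
    split_ifs with h0
    · positivity
    calc _ = ∑ i' : Fin G.n, |ptReg G b i i'| * (L' * 6) := Finset.sum_congr rfl fun i' _ => by
          have h := round_lt (G := G) (K := K) (r := (pointOf G K k).1 - 1) (by omega) i'
          simp only [bandLip, byKind_inner h, Real.coe_toNNReal L' hL']
      _ ≤ (1 * 1 * Γ) * (L' * 6) := by
          rw [← Finset.sum_mul]
          refine mul_le_mul_of_nonneg_right ((sum_abs_ptReg_le hs hb i).trans ?_) (by positivity)
          gcongr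
          exact exp_neg_le_one (hs.one_le_tm i)
      _ = 6 * (Γ * L') := by ring
  refine (add_le_add le_rfl hsum).trans ?_
  rw [bandCoef, ptCoef]
  rcases node_cases hk with h | ⟨h1, h2⟩ | h
  · rw [bandLip, byKind_inner h]
    have := abs_seedY_le hs i
    have : |1 - seedY G i| ≤ 1 + |seedY G i| := (abs_sub _ _).trans_eq (by rw [abs_one])
    linarith
  · rw [bandLip, byKind_outer h1 h2]
    have := abs_seedY_le hs i
    have : |1 - seedY G i| ≤ 1 + |seedY G i| := (abs_sub _ _).trans_eq (by rw [abs_one])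
    linarith
  · have hi : i = G.i₀ := by simp only [i, h, pointOf_next]
    rw [h, bandLip, byKind_next, ← h]
    show |seedY G i| + |1 - seedY G i| + _ ≤ _
    rw [hi, seedY_i₀ hs, abs_of_pos (exp_pos _),
      abs_of_nonneg (by linarith [exp_neg_one_bounds.2] : (0 : ℝ) ≤ 1 - exp (-1))]
    linarith

theorem bandLip_out (hs : G.Sized (Γ / b) Ωo) (hL'' : 0 ≤ L'') (hL₁ : 0 ≤ L₁) :
    ∑ j ∈ Finset.range (bandN G K), |bandOut G K (j + 1)| *
      (((byKind G K (fun _ => L'.toNNReal) (fun _ => L''.toNNReal) L₁.toNNReal j : ℝ≥0) : ℝ) *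
        bandLip G K Γ L' j) ≤ L₁ * (1 + 6 * (Γ * L')) + 6 * Ωo * L'' := by
  rw [sum_bandOut G K (fun j c => |c| *
    (((byKind G K (fun _ => L'.toNNReal) (fun _ => L''.toNNReal) L₁.toNNReal j : ℝ≥0) : ℝ) *
      bandLip G K Γ L' j)) (by simp), add_comm]
  refine add_le_add (le_of_eq ?_) ?_
  · simp [bandLip, byKind_next, hL₁]
  · calc _ = ∑ i : Fin G.n, |G.out i| * (L'' * 6) := Finset.sum_congr rfl fun i _ => by
          obtain ⟨h1, h2⟩ := last_round (G := G) (K := K) i
          simp only [bandLip, byKind_outer h1 h2, Real.coe_toNNReal L'' hL'', abs_neg]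
      _ ≤ Ωo * (L'' * 6) := by
          rw [← Finset.sum_mul]
          exact mul_le_mul_of_nonneg_right hs.out_le (by positivity)
      _ = 6 * Ωo * L'' := by ring

/-- the residual of a node, as a vector -/
theorem band_node (hW : Pert η B W) (hη : η ≤ 1 / 8) (hs : G.Sized (Γ / b) Ωo) (hb : 0 < b)
    (hb1 : b ≤ 1) (hΓ : 0 ≤ Γ) (m : E d) {R : ℝ} {Y : Fin G.n → Root d → E d}
    (hY : ∀ i, Measurable (Y i) ∧
      (rootLaw (shiftW W m b)).map (Y i) = law (tU (shiftW W m b) (G.tm i)))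
    (hres : ∀ i, Integrable (fun p => ‖Y i p - (G.ky i • p.1.2 + G.kw i • p.2 +
        ∑ j, G.C i j • tv (shiftW W m b) (G.tm j) (Y j p))‖) (rootLaw (shiftW W m b)) ∧
      ∫ p, ‖Y i p - (G.ky i • p.1.2 + G.kw i • p.2 +
        ∑ j, G.C i j • tv (shiftW W m b) (G.tm j) (Y j p))‖ ∂rootLaw (shiftW W m b) ≤ b * R)
    (k : ℕ) :
    Integrable (fun θ => cand m b Y (pointOf G K k).2 θ -
      (ptBias G b (pointOf G K k).2 (bandSeed m b θ) + bandCoef G b K k 0 • m +
        ∑ j : Fin k, bandCoef G b K k (j + 1) • aPt W G b (pointOf G K j).2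
          (cand m b Y (pointOf G K j).2 θ))) (rootLaw (shiftW W m b)) ∧
    ∫ θ, ‖cand m b Y (pointOf G K k).2 θ -
      (ptBias G b (pointOf G K k).2 (bandSeed m b θ) + bandCoef G b K k 0 • m +
        ∑ j : Fin k, bandCoef G b K k (j + 1) • aPt W G b (pointOf G K j).2
          (cand m b Y (pointOf G K j).2 θ))‖ ∂rootLaw (shiftW W m b) ≤
      R + if (pointOf G K k).1 = 0 then 3 * Γ * wt W m else 0 := by
  obtain ⟨hr, hkr⟩ := pointOf_spec G K k
  have hcm : ∀ i, Measurable (cand m b Y i) := fun i =>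
    ((hY i).1.const_smul (b * exp (-G.tm i))).const_add m
  have haM : ∀ i, Measurable fun θ => aPt W G b i (cand m b Y i θ) := fun i =>
    have h := one_pos.trans_le (hs.one_le_tm i)
    (continuous_aOf hW (mul_pos hb (bT_pos h))
      (mul_le_one₀ hb1 (bT_pos h).le (bT_lt_one h).le)).measurable.comp (hcm i)
  have h := node_residual_le hW hη hs hΓ hb hb1 m hY hres (pointOf G K k).2 hkr
    (fun j θ => aPt W G b (pointOf G K j).2 (cand m b Y (pointOf G K j).2 θ))
    fun i' θ h0 => by rw [pointOf_node (by omega) i']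
  have hsum : ∀ θ, ∑ j ∈ Finset.range k, ptCoef G b (pointOf G K k).1 (pointOf G K k).2 (j + 1) •
        aPt W G b (pointOf G K j).2 (cand m b Y (pointOf G K j).2 θ) =
      ∑ j : Fin k, bandCoef G b K k (j + 1) •
        aPt W G b (pointOf G K j).2 (cand m b Y (pointOf G K j).2 θ) := fun θ =>
    (Fin.sum_univ_eq_sum_range (fun j => bandCoef G b K k (j + 1) •
      aPt W G b (pointOf G K j).2 (cand m b Y (pointOf G K j).2 θ)) k).symm
  simp only [hsum] at h
  have hbias : Measurable fun s : E d × E d => ptBias G b (pointOf G K k).2 s := by unfold ptBias; fun_prop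
  have hm : Measurable fun θ => cand m b Y (pointOf G K k).2 θ -
      (ptBias G b (pointOf G K k).2 (bandSeed m b θ) + bandCoef G b K k 0 • m +
        ∑ j : Fin k, bandCoef G b K k (j + 1) • aPt W G b (pointOf G K j).2
          (cand m b Y (pointOf G K j).2 θ)) :=
    (hcm _).sub (((hbias.comp (measurable_bandSeed m b)).add measurable_const).add
      (Finset.measurable_sum _ fun (j : Fin k) _ =>
        (haM (pointOf G K j).2).const_smul (bandCoef G b K k (j + 1))))
  exact ⟨(integrable_norm_iff hm.aestronglyMeasurable).1 h.1, h.2⟩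

/-- one node of the recursion of the errors -/
theorem band_err_step (hs : G.Sized (Γ / b) Ωo) (hb : 0 < b) (hb1 : b ≤ 1) (hΓ : 0 ≤ Γ)
    (hL' : 0 ≤ L') (he' : 0 ≤ e') (hq : Γ * L' ≤ 1 / 2) {R w : ℝ} (hR : 0 ≤ R) (hw : 0 ≤ w)
    {J : ℕ → ℝ} (hJ : ∀ j, j < K * G.n → J j ≤ 2 * e' * w) (k : ℕ) :
    (R + if (pointOf G K k).1 = 0 then 3 * Γ * w else 0) +
      ∑ j : Fin k, |bandCoef G b K k (j + 1)| *
        (((byKind G K (fun _ => L'.toNNReal) (fun _ => L''.toNNReal) L₁.toNNReal j : ℝ≥0) : ℝ) *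
          roundBd R Γ (Γ * L') e' w (pointOf G K j).1 + J j) ≤
      roundBd R Γ (Γ * L') e' w (pointOf G K k).1 := by
  obtain ⟨hr, hkr⟩ := pointOf_spec G K k
  set i := (pointOf G K k).2
  rw [Fin.sum_univ_eq_sum_range (fun j => |bandCoef G b K k (j + 1)| *
    (((byKind G K (fun _ => L'.toNNReal) (fun _ => L''.toNNReal) L₁.toNNReal j : ℝ≥0) : ℝ) *
      roundBd R Γ (Γ * L') e' w (pointOf G K j).1 + J j)), bandCoef, sum_ptCoef G b i hkr
    (fun j c' => |c'| *
      (((byKind G K (fun _ => L'.toNNReal) (fun _ => L''.toNNReal) L₁.toNNReal j : ℝ≥0) : ℝ) *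
        roundBd R Γ (Γ * L') e' w (pointOf G K j).1 + J j)) (by simp)]
  rcases Nat.eq_zero_or_pos (pointOf G K k).1 with h0 | h0
  · rw [if_pos h0, if_pos h0, h0, add_zero]
    exact roundBd_zero hR hΓ he' hw
  · rw [if_neg h0.ne', if_neg h0.ne', add_zero]
    obtain ⟨r', hr'⟩ : ∃ r', (pointOf G K k).1 = r' + 1 := ⟨_, (Nat.succ_pred_eq_of_pos h0).symm⟩
    rw [hr', Nat.add_sub_cancel]
    refine (add_le_add le_rfl ?_).trans (roundBd_step (L' := L') hR hΓ rfl hq he' hw r')
    calc _ ≤ ∑ i' : Fin G.n, |ptReg G b i i'| *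
          (L' * roundBd R Γ (Γ * L') e' w r' + 2 * e' * w) :=
          Finset.sum_le_sum fun i' _ => by
            refine mul_le_mul_of_nonneg_left ?_ (abs_nonneg _)
            have h := round_lt (G := G) (K := K) (r := r') (by omega) i'
            rw [byKind_inner h, Real.coe_toNNReal L' hL', pointOf_node (by omega) i']
            exact add_le_add le_rfl (hJ _ h)
      _ ≤ (1 * 1 * Γ) * (L' * roundBd R Γ (Γ * L') e' w r' + 2 * e' * w) := by
          rw [← Finset.sum_mul]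
          refine mul_le_mul_of_nonneg_right ((sum_abs_ptReg_le hs hb i).trans ?_)
            (add_nonneg (mul_nonneg hL' (roundBd_nonneg hR hΓ (mul_nonneg hΓ hL') he' hw r'))
              (by positivity))
          gcongr
          exact exp_neg_le_one (hs.one_le_tm i)
      _ = Γ * (L' * roundBd R Γ (Γ * L') e' w r' + 2 * e' * w) := by ring

/-- the error of the output -/
theorem band_err_out (hs : G.Sized (Γ / b) Ωo) (hΓ : 0 ≤ Γ) (hL' : 0 ≤ L') (hL'' : 0 ≤ L'')
    (hL₁ : 0 ≤ L₁) (he' : 0 ≤ e') (he'' : 0 ≤ e'') {R w J₁ : ℝ} (hR : 0 ≤ R) (hw : 0 ≤ w)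
    {J : ℕ → ℝ} (hJ : ∀ i : Fin G.n, J (K * G.n + i) ≤ 2 * e'' * w) (hJ₁ : J ((K + 1) * G.n) ≤ J₁) :
    ∑ j : Fin (bandN G K), |bandOut G K (j + 1)| *
        (((byKind G K (fun _ => L'.toNNReal) (fun _ => L''.toNNReal) L₁.toNNReal j : ℝ≥0) : ℝ) *
          roundBd R Γ (Γ * L') e' w (pointOf G K j).1 + J j) ≤
      Ωo * (L'' * roundBd R Γ (Γ * L') e' w K + 2 * e'' * w) +
        (L₁ * roundBd R Γ (Γ * L') e' w K + J₁) := by
  rw [Fin.sum_univ_eq_sum_range (fun j => |bandOut G K (j + 1)| *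
    (((byKind G K (fun _ => L'.toNNReal) (fun _ => L''.toNNReal) L₁.toNNReal j : ℝ≥0) : ℝ) *
      roundBd R Γ (Γ * L') e' w (pointOf G K j).1 + J j)), sum_bandOut G K
    (fun j c' => |c'| * (((byKind G K (fun _ => L'.toNNReal) (fun _ => L''.toNNReal) L₁.toNNReal j : ℝ≥0) : ℝ) *
      roundBd R Γ (Γ * L') e' w (pointOf G K j).1 + J j)) (by simp)]
  refine add_le_add ?_ ?_
  · calc _ ≤ ∑ i : Fin G.n, |G.out i| * (L'' * roundBd R Γ (Γ * L') e' w K + 2 * e'' * w) :=
          Finset.sum_le_sum fun i _ => by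
            obtain ⟨h1, h2⟩ := last_round (G := G) (K := K) i
            rw [abs_neg, byKind_outer h1 h2, Real.coe_toNNReal L'' hL'', pointOf_node le_rfl i]
            exact mul_le_mul_of_nonneg_left (add_le_add le_rfl (hJ i)) (abs_nonneg _)
      _ ≤ _ := by
          rw [← Finset.sum_mul]
          exact mul_le_mul_of_nonneg_right hs.out_le (add_nonneg
            (mul_nonneg hL'' (roundBd_nonneg hR hΓ (mul_nonneg hΓ hL') he' hw K)) (by positivity))
  · rw [byKind_next, pointOf_next, Real.coe_toNNReal L₁ hL₁, abs_one, one_mul]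
    exact add_le_add le_rfl hJ₁

theorem band_out_eq (m : E d) (Y : Fin G.n → Root d → E d) (θ : Root d) :
    g₁ • (bandSeed m b θ).2 + bandOut G K 0 • m + ∑ j : Fin (bandN G K), bandOut G K (j + 1) •
      aPt W G b (pointOf G K j).2 (cand m b Y (pointOf G K j).2 θ) = outCand W m b g₁ Y θ := by
  rw [Fin.sum_univ_eq_sum_range (fun j => bandOut G K (j + 1) •
      aPt W G b (pointOf G K j).2 (cand m b Y (pointOf G K j).2 θ)),
    sum_bandOut G K (fun j c' => c' • aPt W G b (pointOf G K j).2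
      (cand m b Y (pointOf G K j).2 θ)) (fun j => zero_smul ℝ _)]
  simp only [pointOf_node le_rfl, pointOf_next, bandOut, bandSeed, outCand, zero_smul, one_smul,
    neg_smul, Finset.sum_neg_distrib]
  abel

include hc

/-- The program at the roots of the band against `N(aOf W b m, g²)`. -/
theorem bandProg_close (hW : Pert η B W) (hη : η ≤ 1 / 8) (hs : G.Sized (Γ / b) Ωo) (hb : 0 < b)
    (hb1 : b ≤ 1) (hΓ : 0 ≤ Γ) (hΩo : 0 ≤ Ωo) (hg0 : 0 ≤ g) (hL₁ : 0 ≤ L₁) (hL' : 0 ≤ L')
    (hL'' : 0 ≤ L'') (he₁ : 0 ≤ e₁) (he' : 0 ≤ e') (he'' : 0 ≤ e'') (hq : Γ * L' ≤ 1 / 2)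
    (hB : (bandProg G b K eR eO eN I I' I'' g₁ g gn g' g'').Budget (bandV G b K I I' I'')
      (bandT G b K I I' I'') (bandG G K gn g' g'') (√(g ^ 2 - g₁ ^ 2)))
    (hg1 : g₁ ^ 2 ≤ g ^ 2) (m : E d) {Res : ℝ} (hR : 0 ≤ Res)
    (hH : G.Holds (shiftW W m b) (b * g₁) (b * (Res * wt W m))) [IsProbabilityMeasure (seedLaw m b)]
    {f : E d → ℝ} (hf : LipschitzWith 1 f) {M : ℝ} (hM : ∀ x, |f x| ≤ M) :
    |∫ z, f ((bandProg G b K eR eO eN I I' I'' g₁ g gn g' g'').proc (oracleOf (pot W))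
          (fun i => m + √(bandV G b K I I' I'' i) • z.1 i, z.2))
        ∂(Measure.pi fun _ : Fin ((bandProg G b K eR eO eN I I' I'' g₁ g gn g' g'').n + 1) =>
            stdGaussian (E d)).prod
          (((bandProg G b K eR eO eN I I' I'' g₁ g gn g' g'').randLaw (seedLaw m b)
            (bandProg G b K eR eO eN I I' I'' g₁ g gn g' g'').n).prod (stdGaussian (E d))) -
      ∫ z, f (aOf W b m + g • z) ∂stdGaussian (E d)| ≤
      (e₁ * (1 + 4 * η) + ((L₁ + Ωo * L'') * (4 * Γ * (e' + (Γ * L') ^ K) + 2 * Res) +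
        2 * Ωo * e'' + Res)) * wt W m := by
  obtain ⟨Y, hY, hres, hex⟩ := hH
  have := (shift_pert_one hW m hb hb1).isProbabilityMeasure_law
  have : IsProbabilityMeasure (rootLaw (shiftW W m b)) := by unfold rootLaw; infer_instance
  set w := wt W m
  have hw := wt_nonneg W m
  have hR0 : 0 ≤ Res * w := mul_nonneg hR hw
  set J : ℕ → ℝ := fun j => ∫ θ, byKind G K (fun _ => e') (fun _ => e'') e₁ j *
    wt W (cand m b Y (pointOf G K j).2 θ) ∂rootLaw (shiftW W m b) with hJ
  have hεb : ∀ (i : Fin G.n) (err : ℝ), 0 ≤ err →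
      Integrable (fun θ => err * wt W (cand m b Y i θ)) (rootLaw (shiftW W m b)) ∧
      ∫ θ, err * wt W (cand m b Y i θ) ∂rootLaw (shiftW W m b) ≤ 2 * err * w :=
    fun i err he => integral_err_point hW hη hb hb1 m (hs.one_le_tm i) (hY i).1 (hY i).2 he
  have hcm : ∀ i, Measurable (cand m b Y i) := fun i =>
    ((hY i).1.const_smul (b * exp (-G.tm i))).const_add m
  have hzero : ∀ θ, outCand W m b g₁ Y θ - (g₁ • (bandSeed m b θ).2 + bandOut G K 0 • m +
      ∑ j : Fin (bandN G K), bandOut G K (j + 1) •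
        aPt W G b (pointOf G K j).2 (cand m b Y (pointOf G K j).2 θ)) = 0 := fun θ => by
    rw [band_out_eq, sub_self]
  have h := Prog.coupled_proc (p := bandProg G b K eR eO eN I I' I'' g₁ g gn g' g'')
    (ρ := rootLaw (shiftW W m b)) (m := m) (a := fun k => aPt W G b (pointOf G K k).2)
    (c := fun k => cand m b Y (pointOf G K k).2)
    (L := byKind G K (fun _ => L'.toNNReal) (fun _ => L''.toNNReal) L₁.toNNReal)
    (ε := fun k x => byKind G K (fun _ => e') (fun _ => e'') e₁ k * wt W x)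
    (e := fun k => roundBd (Res * w) Γ (Γ * L') e' w (pointOf G K k).1)
    (R := fun k => Res * w + if (pointOf G K k).1 = 0 then 3 * Γ * w else 0)
    (ν := seedLaw m b) bandProg_meas hW.measurable_oracle hB
    (fun k hk => bandProg_spec hc hW hs hk) (measurable_bandSeed m b) (map_bandSeed_prod m b)
    (fun k _ => hcm _) (o := outCand W m b g₁ Y)
    (measurable_outCand hW hs m hb hb1 g₁ fun i => (hY i).1)
    (fun k _ => (hεb _ _ (by unfold byKind; split_ifs <;> assumption)).1)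
    (fun k _ => (band_node hW hη hs hb hb1 hΓ m hY hres k).1)
    ((integrable_zero (Root d) (E d) (rootLaw (shiftW W m b))).congr
      (ae_of_all _ fun θ => (hzero θ).symm))
    (fun k _ => (band_node hW hη hs hb hb1 hΓ m hY hres k).2) (rOut := 0)
    (le_of_eq (integral_eq_zero_of_ae (ae_of_all _ fun θ => norm_eq_zero.2 (hzero θ))))
    (fun k _ => band_err_step (K := K) (J := J) (L'' := L'') (L₁ := L₁) hs hb hb1 hΓ hL' he' hq hR0 hw
      (fun j hj => by simp only [hJ, byKind_inner hj]; exact (hεb _ e' he').2) k) hf hM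
  have hout := band_err_out (K := K) (L₁ := L₁) (J := J) (J₁ := e₁ * ((1 + 4 * η) * w)) hs hΓ hL' hL''
    hL₁ he' he'' hR0 hw (fun i => by
      obtain ⟨h1, h2⟩ := last_round (G := G) (K := K) i
      simp only [hJ, byKind_outer h1 h2]; exact (hεb _ e'' he'').2) (by
      simp only [hJ, byKind_next]
      rw [integral_const_mul]
      exact mul_le_mul_of_nonneg_left
        (integral_wt_point hW m hb hb1 (hs.one_le_tm _) (hY _).1 (hY _).2).2 he₁)
  have hg'2 : √(g ^ 2 - g₁ ^ 2) ^ 2 + g₁ ^ 2 = g ^ 2 := by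
    rw [Real.sq_sqrt (sub_nonneg.2 hg1)]; ring
  have h2 := output_exact hW hs m hb hb1 hg0 hg'2 (fun i => (hY i).1) (R := Res * w) hex hf ⟨M, hM⟩
  refine (abs_sub_le _ _ _).trans
    ((add_le_add (h.trans ((zero_add _).trans_le hout)) h2).trans ?_)
  simp only [roundBd]
  have h1 : 0 ≤ (L₁ + Ωo * L'') * (Γ * (Γ * L') ^ K) * w :=
    mul_nonneg (mul_nonneg (by positivity) (by positivity)) hw
  nlinarith

end Vale.Agent.P347.Zero
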