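import Vale.Agent.P347.Zero.Steps
import Vale.Agent.P347.CellQC

/-!
# P347, exponent zero: a band point followed by the next sampler

`BandPoint` is what a band has to give to the sampler: from one draw `N(m, b² / I)` a draw close to
`m + b e^{-1} y` blurred by `b bT 1 / √I`, with `y ∼ law (tU (shiftW W m b) 1)`.
-/

open MeasureTheory ProbabilityTheory Real Set
open scoped RealInnerProductSpace

namespace Vale.Agent.P347.Zero

variable {d : ℕ}

/-- The draw handed from one band to the next. -/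
def BandPoint (d q : ℕ) (η b I L r : ℝ) : Prop :=
  ∃ (Ω : Type) (_ : MeasurableSpace Ω) (_ : StandardBorelSpace Ω) (_ : Nonempty Ω) (P : Measure Ω)
    (F : (E d → ℝ × E d) → E d × Ω → E d), IsProbabilityMeasure P ∧ QC d q F ∧
    ∀ (B : ℝ) (W : E d → ℝ), Pert η B W →
      (∀ ω x y, ‖F (oracleOf (pot W)) (x, ω) - F (oracleOf (pot W)) (y, ω)‖ ≤ L * ‖x - y‖) ∧
      ∀ (m : E d) (f : E d → ℝ), LipschitzWith 1 f → (∃ M, ∀ x, |f x| ≤ M) →
        |∫ p, f (F (oracleOf (pot W)) p) ∂drawLaw P m (b ^ 2 / I) -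
          ∫ y, sm (b * bT 1 / √I) f (m + (b * exp (-1)) • y) ∂law (tU (shiftW W m b) 1)| ≤
            r * wt W m

theorem BandPoint.mono {q q' : ℕ} {η b I L L' r r' : ℝ} (h : BandPoint d q η b I L r) (hq : q ≤ q')
    (hL : L ≤ L') (hr : r ≤ r') : BandPoint d q' η b I L' r' := by
  obtain ⟨Ω, i1, i2, i3, P, F, hP, hF, h⟩ := h
  exact ⟨Ω, i1, i2, i3, P, F, hP, hF.mono hq, fun B W hW => ⟨fun ω x y =>
    ((h B W hW).1 ω x y).trans (mul_le_mul_of_nonneg_right hL (norm_nonneg _)), fun m f hf hM =>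
    ((h B W hW).2 m f hf hM).trans (mul_le_mul_of_nonneg_right hr (wt_nonneg W m))⟩⟩

theorem integral_drawLaw {Ω : Type} [MeasurableSpace Ω] (P : Measure Ω) [IsProbabilityMeasure P]
    (m : E d) (V : ℝ) {g : E d × Ω → ℝ} (hg : Measurable g) {M : ℝ} (hM : ∀ p, |g p| ≤ M) :
    ∫ p, g p ∂drawLaw P m V = ∫ z, ∫ ω, g (m + √V • z, ω) ∂P ∂stdGaussian (E d) := by
  have hm : Measurable fun p : E d × Ω => (m + √V • p.1, p.2) := by fun_prop
  rw [drawLaw, integral_map hm.aemeasurable hg.aestronglyMeasurable, integral_prod]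
  exact (integrable_const M).mono' (hg.comp hm).aestronglyMeasurable (ae_of_all _ fun p => hM _)

theorem measurable_integral_law_shift {η B : ℝ} {W : E d → ℝ} (hW : Pert η B W) {b : ℝ}
    (hb : 0 < b) (hb1 : b ≤ 1) {G : E d × E d → ℝ} (hG : Continuous G) {c : E d → E d}
    (hc : Continuous c) :
    Measurable fun y => ∫ z, G (y, z) ∂law (shiftW W (c y) b) := by
  have e : ∀ y, ∫ z, G (y, z) ∂law (shiftW W (c y) b) =
      (∫ z, exp (-pot (shiftW W (c y) b) z))⁻¹ *
        ∫ z, exp (-pot (shiftW W (c y) b) z) * G (y, z) := fun y => by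
    rw [(shift_pert_one hW (c y) hb hb1).integral_law]
    rfl
  simp only [e]
  have hp : Continuous fun p : E d × E d => pot (shiftW W (c p.1) b) p.2 := by
    have := hW.contDiff.continuous
    unfold pot shiftW
    fun_prop
  exact ((hp.neg.rexp.stronglyMeasurable.integral_prod_right').measurable.inv).mul
    ((hp.neg.rexp.mul hG).stronglyMeasurable.integral_prod_right').measurable

/-- One band, then the sampler from the next scale. -/
theorem Samp.band {q₀ q₁ j : ℕ} {η b I L₀ L₁ r e₁ : ℝ} (hb : 0 < b) (hb1 : b ≤ 1) (hI : 0 ≤ I)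
    (hL₁ : 0 ≤ L₁) (he₁ : 0 ≤ e₁) (h₀ : BandPoint d q₀ η b I L₀ r)
    (h₁ : Samp d q₁ η (b * bT 1) j I L₁ e₁) :
    Samp d (q₀ + q₁) η b (j + 1) I (L₁ * L₀) (L₁ * r + e₁ * (1 + 4 * η)) := by
  obtain ⟨Ω₀, i1, i2, i3, P₀, F₀, hP₀, hF₀, h₀⟩ := h₀
  obtain ⟨Ω₁, j1, j2, j3, P₁, F₁, hP₁, hF₁, h₁⟩ := h₁
  refine ⟨Ω₀ × Ω₁, inferInstance, inferInstance, inferInstance, P₀.prod P₁,
    fun O z => F₁ O (F₀ O (z.1, z.2.1), z.2.2), inferInstance,
    ((hF₀.seq hF₁).comap (φ := fun z : E d × Ω₀ × Ω₁ => ((z.1, z.2.1), z.2.2)) (by fun_prop)).congr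
      fun O ω => rfl, fun B W hW => ?_⟩
  obtain ⟨hl₀, hd₀⟩ := h₀ B W hW
  obtain ⟨hl₁, hd₁⟩ := h₁ B W hW
  set O := oracleOf (pot W)
  refine ⟨fun ω x y => ?_, fun m f hf ⟨M, hM⟩ => ?_⟩
  · exact (hl₁ ω.2 _ _).trans ((mul_le_mul_of_nonneg_left (hl₀ ω.1 x y) hL₁).trans_eq
      (mul_assoc _ _ _).symm)
  have hm₀ := hF₀.measurable hW.measurable_oracle
  have hm₁ := hF₁.measurable hW.measurable_oracle
  have hfp : PolyBd f := PolyBd.of_bound fun x => by rw [Real.norm_eq_abs]; exact hM x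
  have hfc : Continuous f := hf.continuous
  -- the value of the second stage at a point
  set ψ : E d → ℝ := fun x => ∫ ω, f (F₁ O (x, ω)) ∂P₁ with hψ
  have hψM : ∀ x, |ψ x| ≤ M := fun x => by
    rw [← Real.norm_eq_abs]
    exact (norm_integral_le_of_norm_le_const (ae_of_all _ fun ω => hM _)).trans (by simp)
  have hint : ∀ x, Integrable (fun ω => f (F₁ O (x, ω))) P₁ := fun x =>
    (integrable_const M).mono' (hfc.measurable.comp (hm₁.comp measurable_prodMk_left)
      ).aestronglyMeasurable (ae_of_all _ fun ω => hM _)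
  have hψl : ∀ x y, |ψ x - ψ y| ≤ L₁ * ‖x - y‖ := fun x y => by
    rw [hψ, ← integral_sub (hint x) (hint y), ← Real.norm_eq_abs]
    refine (norm_integral_le_of_norm_le_const (C := L₁ * ‖x - y‖)
      (ae_of_all _ fun ω => ?_)).trans (by simp)
    refine ((hf.dist_le_mul _ _).trans_eq ?_).trans (hl₁ ω x y)
    rw [NNReal.coe_one, one_mul, dist_eq_norm]
  have hψc : Continuous ψ := by
    refine (LipschitzWith.of_dist_le_mul (K := ⟨L₁, hL₁⟩) fun x y => ?_).continuous
    rw [Real.dist_eq, dist_eq_norm]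
    exact hψl x y
  have hψp : PolyBd ψ := PolyBd.of_bound fun x => by rw [Real.norm_eq_abs]; exact hψM x
  have hfst : ∫ p, f (F₁ O (F₀ O (p.1, p.2.1), p.2.2)) ∂drawLaw (P₀.prod P₁) m (b ^ 2 / I) =
      ∫ p, ψ (F₀ O p) ∂drawLaw P₀ m (b ^ 2 / I) := by
    rw [integral_drawLaw _ _ _ (g := fun p : E d × Ω₀ × Ω₁ => f (F₁ O (F₀ O (p.1, p.2.1), p.2.2)))
        (hfc.measurable.comp (hm₁.comp ((hm₀.comp (by fun_prop)).prodMk (by fun_prop))))
        (M := M) fun p => hM _,
      integral_drawLaw _ _ _ (g := fun p => ψ (F₀ O p)) (hψc.measurable.comp hm₀)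
        (M := M) fun p => hψM _]
    refine integral_congr_ae (ae_of_all _ fun z => ?_)
    beta_reduce
    rw [integral_prod]
    exact (integrable_const M).mono' (hfc.measurable.comp (hm₁.comp ((hm₀.comp (by fun_prop)).prodMk
      measurable_snd))).aestronglyMeasurable (ae_of_all _ fun p => hM _)
  have hstep₀ : |∫ p, ψ (F₀ O p) ∂drawLaw P₀ m (b ^ 2 / I) -
      ∫ y, sm (b * bT 1 / √I) ψ (m + (b * exp (-1)) • y) ∂law (tU (shiftW W m b) 1)| ≤
        L₁ * (r * wt W m) := by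
    rcases hL₁.eq_or_lt with h | h
    · have hc : ∀ x, ψ x = ψ 0 := fun x => by
        have := hψl x 0
        rw [← h, zero_mul, abs_nonpos_iff, sub_eq_zero] at this
        exact this
      have := (pert_tU (shift_pert_one hW m hb hb1) one_pos).isProbabilityMeasure_law
      have : IsProbabilityMeasure (drawLaw P₀ m (b ^ 2 / I)) :=
        Measure.isProbabilityMeasure_map (by fun_prop)
      have e1 : ∀ x, sm (b * bT 1 / √I) ψ x = ψ 0 := fun x => by simp [sm, hc]
      simp [hc, e1, ← h]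
    have hl : LipschitzWith 1 fun x => L₁⁻¹ * ψ x := LipschitzWith.of_dist_le_mul fun x y => by
      rw [Real.dist_eq, ← mul_sub, abs_mul, abs_of_pos (inv_pos.2 h), NNReal.coe_one, one_mul,
        inv_mul_le_iff₀ h, dist_eq_norm]
      exact hψl x y
    have hh := hd₀ m _ hl ⟨L₁⁻¹ * M, fun x => by
      rw [abs_mul, abs_of_pos (inv_pos.2 h)]
      exact mul_le_mul_of_nonneg_left (hψM x) (inv_pos.2 h).le⟩
    have e : ∀ x, sm (b * bT 1 / √I) (fun x => L₁⁻¹ * ψ x) x =
        L₁⁻¹ * sm (b * bT 1 / √I) ψ x := fun x => integral_const_mul _ _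
    simp only [e] at hh
    rw [integral_const_mul, integral_const_mul, ← mul_sub, abs_mul, abs_of_pos (inv_pos.2 h),
      inv_mul_le_iff₀ h] at hh
    exact hh
  -- the second stage at a random centre
  set β := bT 1
  have hβ : 0 < β := bT_pos one_pos
  have hb' : 0 < b * β := mul_pos hb hβ
  have hb1' : b * β ≤ 1 := mul_le_one₀ hb1 hβ.le (bT_lt_one one_pos).le
  set c : E d → E d := fun y => m + (b * exp (-1)) • y with hc
  have hcc : Continuous c := by rw [hc]; fun_prop
  set σ := b * gam (j + 1) / √I with hσ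
  have hσ' : b * β * gam j / √I = σ := by rw [hσ, gam_succ]; ring
  have hsmc : Continuous (sm σ f) := sm_continuous hfc hfp σ
  have hsmM : ∀ x, |sm σ f x| ≤ M := fun x => by
    rw [← Real.norm_eq_abs]
    exact (norm_integral_le_of_norm_le_const (ae_of_all _ fun ω => hM _)).trans (by simp)
  have htgt : ∀ (k : ℕ) (b₀ : ℝ) (x : E d), 0 < b₀ → b₀ ≤ 1 →
      ∫ p, f (p.1 + σ • p.2) ∂(tgt W k b₀ x).prod (stdGaussian (E d)) =
        ∫ u, sm σ f u ∂tgt W k b₀ x := fun k b₀ x h0 h1 => by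
    have := isProbabilityMeasure_tgt hW k h0 h1 x
    rw [integral_prod]
    · rfl
    · exact (integrable_const M).mono' (hfc.measurable.comp (by fun_prop)).aestronglyMeasurable
        (ae_of_all _ fun p => hM _)
  have hone : ∀ y, |sm (b * β / √I) ψ (c y) - ∫ u, sm σ f u ∂tgt W j (b * β) (c y)| ≤
      e₁ * wt W (c y) := fun y => by
    have hh := hd₁ (c y) f hf ⟨M, hM⟩
    rw [hσ', htgt j _ _ hb' hb1', integral_drawLaw _ _ _ (g := fun p => f (F₁ O p))
      (hfc.measurable.comp hm₁) (M := M) fun p => hM _] at hh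
    refine le_trans (le_of_eq ?_) hh
    rw [Real.sqrt_div (sq_nonneg _), Real.sqrt_sq hb'.le]
    rfl
  set ρ := law (tU (shiftW W m b) 1)
  have : IsProbabilityMeasure ρ :=
    (pert_tU (shift_pert_one hW m hb hb1) one_pos).isProbabilityMeasure_law
  have hi₁ : Integrable (fun y => sm (b * β / √I) ψ (c y)) ρ :=
    (integrable_const M).mono' ((sm_continuous hψc hψp _).comp hcc).aestronglyMeasurable
      (ae_of_all _ fun y => (norm_integral_le_of_norm_le_const
        (ae_of_all _ fun ω => hψM _)).trans (by simp))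
  have hi₂ : Integrable (fun y => ∫ u, sm σ f u ∂tgt W j (b * β) (c y)) ρ := by
    refine (integrable_const M).mono' ?_ (ae_of_all _ fun y => ?_)
    · have e : ∀ y, ∫ u, sm σ f u ∂tgt W j (b * β) (c y) = ∫ x,
          (fun p : E d × E d => sm (tgtNoise j (b * β)) (sm σ f) (tgtPt j (b * β) (c p.1) p.2))
            (y, x) ∂law (shiftW W (c y) (b * β)) := fun y =>
        integral_tgt hW j hb' hb1' (c y) hsmc hsmM
      simp only [e]
      refine (measurable_integral_law_shift hW hb' hb1' (G := fun p : E d × E d =>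
        sm (tgtNoise j (b * β)) (sm σ f) (tgtPt j (b * β) (c p.1) p.2)) ?_ hcc).aestronglyMeasurable
      exact (sm_continuous hsmc (PolyBd.of_bound fun x => by rw [Real.norm_eq_abs]; exact hsmM x)
        _).comp (by unfold tgtPt; fun_prop)
    · have := isProbabilityMeasure_tgt hW j hb' hb1' (c y)
      exact (norm_integral_le_of_norm_le_const (ae_of_all _ fun u => hsmM u)).trans (by simp)
  have hstep₁ : |(∫ y, sm (b * β / √I) ψ (c y) ∂ρ) -
      ∫ y, ∫ u, sm σ f u ∂tgt W j (b * β) (c y) ∂ρ| ≤ e₁ * ((1 + 4 * η) * wt W m) := by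
    rw [← integral_sub hi₁ hi₂, ← Real.norm_eq_abs]
    refine (norm_integral_le_of_norm_le (g := fun y => e₁ * wt W (c y))
      ((integrable_moment hW m hb hb1 one_pos).const_mul e₁)
      (ae_of_all _ fun y => hone y)).trans ?_
    rw [integral_const_mul]
    exact mul_le_mul_of_nonneg_left (moment_le hW m hb hb1 one_pos) he₁
  have htarget : ∫ p, f (p.1 + σ • p.2) ∂(tgt W (j + 1) b m).prod (stdGaussian (E d)) =
      ∫ y, ∫ u, sm σ f u ∂tgt W j (b * β) (c y) ∂ρ := by
    rw [htgt (j + 1) b m hb hb1]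
    exact integral_tgt_succ hW j hb hb1 m hsmc hsmM
  rw [htarget]
  show |∫ p, f (F₁ O (F₀ O (p.1, p.2.1), p.2.2)) ∂drawLaw (P₀.prod P₁) m (b ^ 2 / I) - _| ≤ _
  rw [hfst]
  exact (abs_sub_le _ _ _).trans ((add_le_add hstep₀ hstep₁).trans_eq (by ring))

end Vale.Agent.P347.Zero
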