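import Vale.Agent.P347.Zero.BandErr
import Vale.Agent.P347.Zero.SampNext

/-!
# P347, exponent zero: a band program fed by one draw

One draw `N(m, V)` is split into the root draws of the program and the first root `X₀ ∼ N(m, b²)`,
which goes into the seed together with a fresh standard `w`.
-/

open MeasureTheory ProbabilityTheory Real Function
open scoped RealInnerProductSpace NNReal

namespace Vale.Agent.P347.Zero

variable {d : ℕ}

namespace Prog

section Reseed

variable {S : Type} {p : Prog d S}

theorem reseed_reseed (s s' : S) : ∀ (k : ℕ) (r : p.Rand k),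
    p.reseed k s (p.reseed k s' r) = p.reseed k s r
  | 0, _ => rfl
  | k + 1, r => Prod.ext (reseed_reseed s s' k (p.pre r)) rfl

variable [MeasurableSpace S]

@[fun_prop]
theorem measurable_reseed : ∀ k, Measurable fun q : S × p.Rand k => p.reseed k q.1 q.2
  | 0 => measurable_fst
  | k + 1 => ((measurable_reseed k).comp
      (measurable_fst.prodMk ((p.measurable_pre k).comp measurable_snd))).prodMk
      ((p.measurable_blk k).comp measurable_snd)

theorem measurePreserving_reseed (ν ν₀ : Measure S) [IsProbabilityMeasure ν]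
    [IsProbabilityMeasure ν₀] : ∀ k, MeasurePreserving (fun q : S × p.Rand k => p.reseed k q.1 q.2)
      (ν.prod (p.randLaw ν₀ k)) (p.randLaw ν k)
  | 0 => measurePreserving_fst (μ := ν) (ν := ν₀)
  | k + 1 => by
    have h := ((measurePreserving_reseed ν ν₀ k).prod (MeasurePreserving.id (p.blkLaw k))).comp
      (MeasurePreserving.symm _ (measurePreserving_prodAssoc ν (p.randLaw ν₀ k) (p.blkLaw k)))
    exact h

end Reseed

section Seeded

variable (p : Prog d (E d × E d))

/-- The randomness: splitting noise, the program's, `w` and the last fill. -/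
abbrev SeedRnd : Type := (Fin (p.n + 2) → E d) × p.Rand p.n × E d × E d

/-- Its law. -/
noncomputable def seededP : Measure p.SeedRnd :=
  (Measure.pi fun _ : Fin (p.n + 2) => stdGaussian (E d)).prod
    ((p.randLaw (Measure.dirac 0) p.n).prod ((stdGaussian (E d)).prod (stdGaussian (E d))))

/-- The variances of the split: the roots, then the seed. -/
def seedVar (b : ℝ) (w : ℕ → ℝ) : Fin (p.n + 2) → ℝ :=
  Fin.snoc (α := fun _ => ℝ) (fun i : Fin (p.n + 1) => w i) (b ^ 2)

/-- The procedure on one draw of variance `V`. -/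
noncomputable def seededF (V b : ℝ) (w : ℕ → ℝ) (O : E d → ℝ × E d) (z : E d × p.SeedRnd) : E d :=
  p.proc O (fun i => splitDraw V (p.seedVar b w) z.1 z.2.1 i.castSucc,
    p.reseed p.n (splitDraw V (p.seedVar b w) z.1 z.2.1 (Fin.last _), z.2.2.2.1) z.2.2.1,
    z.2.2.2.2)

instance isProbabilityMeasure_seededP : IsProbabilityMeasure p.seededP := by
  unfold seededP; infer_instance

instance standardBorelSpace_seedRnd : StandardBorelSpace p.SeedRnd :=
  have h0 : StandardBorelSpace (E d × E d) := inferInstance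
  have h : StandardBorelSpace (p.Rand p.n × E d × E d) :=
    StandardBorelSpace.prod (α := p.Rand p.n) (β := E d × E d)
  StandardBorelSpace.prod (α := Fin (p.n + 2) → E d) (β := p.Rand p.n × E d × E d)

instance nonempty_seedRnd : Nonempty p.SeedRnd := inferInstance

variable {p}

theorem qc_seeded (hm : p.Meas) (V b : ℝ) (w : ℕ → ℝ) :
    QC d (∑ i ∈ Finset.range p.n, (p.est i).q) (p.seededF V b w) := by
  refine ((qc_proc hm).comap (φ := fun z : E d × p.SeedRnd =>
    ((fun i : Fin (p.n + 1) => splitDraw V (p.seedVar b w) z.1 z.2.1 i.castSucc),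
      p.reseed p.n (splitDraw V (p.seedVar b w) z.1 z.2.1 (Fin.last _), z.2.2.2.1) z.2.2.1,
      z.2.2.2.2)) ?_).congr fun O z => rfl
  have hs : ∀ i, Measurable fun z : E d × p.SeedRnd =>
      splitDraw V (p.seedVar b w) z.1 z.2.1 i := fun i => by unfold splitDraw; fun_prop
  exact (measurable_pi_lambda _ fun i => hs _).prodMk
    (((measurable_reseed p.n).comp (((hs _).prodMk (by fun_prop)).prodMk (by fun_prop))).prodMk
      (by fun_prop))

theorem splitDraw_std (m z : E d) {q : ℕ} {V : ℝ} {w : Fin q → ℝ} (hV : 0 ≤ V) (hw : ∀ i, 0 < w i)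
    (ξ : Fin q → E d) (i : Fin q) :
    splitDraw V w (m + √V • z) ξ i = m + √(w i) • (√(V / w i) • z + (ξ i -
      (1 / (1 + √(1 - ∑ l, √(V / w l) ^ 2)) * √(V / w i)) • ∑ l, √(V / w l) • ξ l)) := by
  have hsq : ∀ l, √(V / w l) ^ 2 = V / w l := fun l =>
    Real.sq_sqrt (div_nonneg hV (hw l).le)
  have e : √(w i) * √(V / w i) = √V := by
    rw [← Real.sqrt_mul (hw i).le, mul_div_cancel₀ _ (hw i).ne']
  simp only [splitDraw, hsq, smul_add, smul_sub, smul_smul, e]
  rw [show √(w i) * (1 / (1 + √(1 - ∑ l, V / w l)) * √(V / w i)) =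
    1 / (1 + √(1 - ∑ l, V / w l)) * (√(w i) * √(V / w i)) by ring, e]
  abel

/-- At a draw of variance `V` the program sees independent roots and the seed of a band. -/
theorem integral_seeded (hm : p.Meas) {O : E d → ℝ × E d} (hO : Measurable O) (m : E d) {V b : ℝ}
    {w : ℕ → ℝ} (hV : 0 ≤ V) (hb : 0 < b) (hw : ∀ k ≤ p.n, 0 < w k)
    (hsum : V / b ^ 2 + ∑ k ∈ Finset.range (p.n + 1), V / w k ≤ 1)
    {f : E d → ℝ} (hf : Measurable f) {M : ℝ} (hM : ∀ x, |f x| ≤ M) :
    ∫ z, f (p.seededF V b w O z) ∂drawLaw p.seededP m V =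
      ∫ z, f (p.proc O (fun i => m + √(w i) • z.1 i, z.2))
        ∂(Measure.pi fun _ : Fin (p.n + 1) => stdGaussian (E d)).prod
          ((p.randLaw (seedLaw m b) p.n).prod (stdGaussian (E d))) := by
  set γ := stdGaussian (E d) with hγdef
  set R₀ := p.randLaw (Measure.dirac 0) p.n
  set Q := R₀.prod (γ.prod γ)
  set u := p.seedVar b w
  have hu : ∀ i, 0 < u i := fun i => by
    induction i using Fin.lastCases with
    | last => simp only [u, seedVar, Fin.snoc_last]; positivity
    | cast j => simp only [u, seedVar, Fin.snoc_castSucc]; exact hw j (by omega)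
  have hc : ∑ l, √(V / u l) ^ 2 ≤ 1 := by
    simp only [fun l => Real.sq_sqrt (div_nonneg hV (hu l).le)]
    rw [Fin.sum_univ_castSucc]
    simp only [u, seedVar, Fin.snoc_castSucc, Fin.snoc_last]
    rw [Fin.sum_univ_eq_sum_range (fun k => V / w k)]
    linarith
  have hproc : Measurable (p.proc O) := (qc_proc hm).measurable hO
  set G : (Fin (p.n + 2) → E d) × p.Rand p.n × E d × E d → ℝ := fun q =>
    f (p.proc O (fun i => m + √(u i.castSucc) • q.1 i.castSucc,
      p.reseed p.n (m + √(u (Fin.last _)) • q.1 (Fin.last _), q.2.2.1) q.2.1, q.2.2.2)) with hG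
  have hGm : Measurable G := by
    rw [hG]
    exact hf.comp (hproc.comp ((by fun_prop : Measurable _).prodMk
      (((measurable_reseed p.n).comp ((by fun_prop : Measurable _).prodMk (by fun_prop))).prodMk
        (by fun_prop))))
  -- split
  have hsplit := ((measurePreserving_splitStd (d := d) (fun l => √(V / u l)) hc).prod
    (MeasurePreserving.id Q)).comp
    (MeasurePreserving.symm _ (measurePreserving_prodAssoc γ
      (Measure.pi fun _ : Fin (p.n + 2) => γ) Q))
  have e1 : ∫ z, f (p.seededF V b w O z) ∂drawLaw p.seededP m V =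
      ∫ q, G q ∂(Measure.pi fun _ : Fin (p.n + 2) => γ).prod Q := by
    have hsm : Measurable fun q : E d × p.SeedRnd => (m + √V • q.1, q.2) := by fun_prop
    have hFm : Measurable fun z => f (p.seededF V b w O z) :=
      hf.comp ((qc_seeded hm V b w).measurable hO)
    rw [drawLaw, integral_map hsm.aemeasurable hFm.aestronglyMeasurable, ← hsplit.map_eq,
      integral_map hsplit.measurable.aemeasurable hGm.aestronglyMeasurable]
    refine integral_congr_ae (ae_of_all _ fun q => ?_)
    simp only [G, seededF, splitDraw_std m q.1 hV hu, Function.comp_apply, Prod.map_apply, id_eq,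
      MeasurableEquiv.prodAssoc, MeasurableEquiv.coe_mk, MeasurableEquiv.symm_mk,
      Equiv.prodAssoc_symm_apply, u]
  -- the seed
  have hseed : MeasurePreserving (fun q : E d × E d => (m + b • q.1, q.2)) (γ.prod γ) (seedLaw m b) :=
    MeasurePreserving.prod (f := fun z => m + b • z) ⟨by fun_prop, rfl⟩ (MeasurePreserving.id γ)
  have : IsProbabilityMeasure (seedLaw m b) := by
    rw [← hseed.map_eq]; exact Measure.isProbabilityMeasure_map hseed.measurable.aemeasurable
  have h3 : MeasurePreserving (fun q : E d × p.Rand p.n × E d × E d => (q.1, q.2.2.1, q.2.1, q.2.2.2))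
      (γ.prod Q) (γ.prod (γ.prod (R₀.prod γ))) :=
    (MeasurePreserving.id γ).prod
      (((measurePreserving_prodAssoc γ R₀ γ).comp
        ((Measure.measurePreserving_swap (μ := R₀) (ν := γ)).prod (MeasurePreserving.id γ))).comp
        (MeasurePreserving.symm _ (measurePreserving_prodAssoc R₀ γ γ)))
  have h4 := (((measurePreserving_reseed (p := p) (seedLaw m b) (Measure.dirac 0) p.n).prod
      (MeasurePreserving.id γ)).comp
      (MeasurePreserving.symm _ (measurePreserving_prodAssoc (seedLaw m b) R₀ γ))).comp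
      ((hseed.prod (MeasurePreserving.id (R₀.prod γ))).comp
        ((MeasurePreserving.symm _ (measurePreserving_prodAssoc γ γ (R₀.prod γ))).comp h3))
  have h5 := ((MeasurePreserving.id (Measure.pi fun _ : Fin (p.n + 1) => γ)).prod h4).comp
    (measurePreserving_prodAssoc (Measure.pi fun _ : Fin (p.n + 1) => γ) γ Q)
  have h6 := (measurePreserving_snoc (d := d) (p.n + 1)).prod (MeasurePreserving.id Q)
  have hR : Measurable fun z : (Fin (p.n + 1) → E d) × p.Rand p.n × E d =>
      f (p.proc O (fun i => m + √(w i) • z.1 i, z.2)) :=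
    hf.comp (hproc.comp ((by fun_prop : Measurable _).prodMk measurable_snd))
  rw [e1, ← h6.map_eq, integral_map h6.measurable.aemeasurable hGm.aestronglyMeasurable,
    ← h5.map_eq, integral_map h5.measurable.aemeasurable hR.aestronglyMeasurable]
  refine integral_congr_ae (ae_of_all _ fun q => ?_)
  simp only [G, u, seedVar, Function.comp_apply, Prod.map_apply, id_eq, Fin.snoc_castSucc,
    Fin.snoc_last, Real.sqrt_sq hb.le, MeasurableEquiv.prodAssoc, MeasurableEquiv.coe_mk,
    MeasurableEquiv.symm_mk, Equiv.prodAssoc_symm_apply, Equiv.prodAssoc_apply, Prod.map_fst,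
    Prod.map_snd, Prod.map, Fin.snoc_castSucc, Fin.snoc_last]

/-- The Lipschitz constant in the draw. -/
theorem lipschitz_seeded {O : E d → ℝ × E d} {L : ℕ → ℝ≥0} {dK l : ℕ → ℝ} {dOut : ℝ}
    (hL : ∀ k < p.n, ∀ ω x y, ‖(p.est k).F O (x, ω) - (p.est k).F O (y, ω)‖ ≤ L k * ‖x - y‖)
    (hb : ∀ k < p.n, ∀ s s' : E d, ∀ w₁ : E d,
      ‖p.bias k (s, w₁) - p.bias k (s', w₁)‖ ≤ dK k * ‖s - s'‖)
    (hbo : ∀ s s' : E d, ∀ w₁ : E d,
      ‖p.outBias (s, w₁) - p.outBias (s', w₁)‖ ≤ dOut * ‖s - s'‖)
    (hl : ∀ k < p.n, dK k + |p.coef k 0| + ∑ j : Fin k, |p.coef k (j + 1)| * (L j * l j) ≤ l k)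
    (V b : ℝ) (w : ℕ → ℝ) (ω : p.SeedRnd) (x y : E d) :
    ‖p.seededF V b w O (x, ω) - p.seededF V b w O (y, ω)‖ ≤
      (dOut + |p.outCoef 0| + ∑ j : Fin p.n, |p.outCoef (j + 1)| * (L j * l j)) * ‖x - y‖ := by
  set u := p.seedVar b w
  set Δ := ‖x - y‖
  have hlast : ‖splitDraw V u x ω.1 (Fin.last _) - splitDraw V u y ω.1 (Fin.last _)‖ = Δ := by
    rw [splitDraw_sub]
  have h := lipschitz_proc (p := p) (O := O) (L := L) (δ := fun _ => Δ) (dK := fun k => dK k * Δ)
    (l := fun k => l k * Δ) (dOut := dOut * Δ) hL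
    (splitDraw V u y ω.1 (Fin.last _), ω.2.2.1)
    (p.reseed p.n (splitDraw V u x ω.1 (Fin.last _), ω.2.2.1) ω.2.1) ω.2.2.2
    (fun i => splitDraw V u x ω.1 i.castSucc) (fun i => splitDraw V u y ω.1 i.castSucc)
    (fun i => by rw [splitDraw_sub])
    (fun i hi => by
      rw [seed_reseed]; exact (hb i hi _ _ _).trans_eq (by rw [hlast]))
    (by rw [seed_reseed]; exact (hbo _ _ _).trans_eq (by rw [hlast]))
    (fun i hi => by
      refine le_trans (le_of_eq ?_) (mul_le_mul_of_nonneg_right (hl i hi) (norm_nonneg (x - y)))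
      simp only [add_mul, Finset.sum_mul, mul_assoc, Δ])
  rw [reseed_reseed] at h
  refine h.trans_eq ?_
  simp only [add_mul, Finset.sum_mul, mul_assoc]

end Seeded

end Prog

end Vale.Agent.P347.Zero
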