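import Vale.Agent.P347.Zero.BandRun
import Vale.Agent.P347.Zero.Seeded

/-!
# P347, exponent zero: one band of the primitive
-/

open MeasureTheory ProbabilityTheory Real
open scoped RealInnerProductSpace NNReal

namespace Vale.Agent.P347.Zero

variable {d : ℕ}

instance isProbabilityMeasure_seedLaw (m : E d) (b : ℝ) : IsProbabilityMeasure (seedLaw m b) := by
  have := Measure.isProbabilityMeasure_map (μ := stdGaussian (E d)) (f := fun z => m + b • z)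
    (by fun_prop)
  unfold seedLaw
  infer_instance

/-- One band of the primitive from a system that holds on every shifted potential. -/
theorem band_prim {G : Geo} {K q₁ q' q'' : ℕ}
    {η b Γ Ωo Res I I' I'' g₁ g gn g' g'' L₁ L' L'' e₁ e' e'' : ℝ}
    (hs : G.Sized (Γ / b) Ωo) (hη : η ≤ 1 / 8) (hb : 0 < b) (hb1 : b ≤ 1) (hΓ : 0 ≤ Γ)
    (hR : 0 ≤ Res) (hI : 0 < I) (hI' : 0 < I') (hI'' : 0 < I'')
    (h1 : Γ ^ 2 * bandN G K * g' ^ 2 * I ≤ 1 / 10) (h2 : Γ ^ 2 * bandN G K * g' ^ 2 * I' ≤ 1 / 10)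
    (h3 : Γ ^ 2 * bandN G K * g' ^ 2 * I'' ≤ 1 / 10)
    (hsplit : 1 + 100 * (bandN G K : ℝ) * (I' + I'') ≤ 2 / 5 * I)
    (hg : g ^ 2 = gn ^ 2 + 2 * g₁ ^ 2) (hg₁ : 0 < g₁) (hgn : 0 ≤ gn) (hg0 : 0 ≤ g) (hg' : 0 ≤ g')
    (hg'' : 0 ≤ g'') (hΩ : Ωo ^ 2 * bandN G K * g'' ^ 2 ≤ g₁ ^ 2) (hL₁ : 0 ≤ L₁) (hL' : 0 ≤ L')
    (hL'' : 0 ≤ L'') (hq : Γ * L' ≤ 1 / 2) (he₁ : 0 ≤ e₁) (he' : 0 ≤ e') (he'' : 0 ≤ e'')
    (hH : ∀ (B : ℝ) (W : E d → ℝ) (m : E d), Pert η B W →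
      G.Holds (shiftW W m b) (b * g₁) (b * (Res * wt W m)))
    (hnext : Prim d q₁ η (b * bT 1) ((b * bT 1) ^ 2 / I) gn L₁ e₁)
    (hin : ∀ b', 0 < b' → b' ≤ 1 → Prim d q' η b' (b' ^ 2 / I') g' L' e')
    (hout : ∀ b', 0 < b' → b' ≤ 1 → Prim d q'' η b' (b' ^ 2 / I'') g'' L'' e'') :
    Prim d (q₁ + bandN G K * (q' + q'')) η b (b ^ 2 / I) g
      (L₁ * (1 + 6 * (Γ * L')) + 6 * Ωo * L'')
      (e₁ * (1 + 4 * η) + ((L₁ + Ωo * L'') * (4 * Γ * (e' + (Γ * L') ^ K) + 2 * Res) +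
        2 * Ωo * e'' + Res)) := by
  have hΩo : 0 ≤ Ωo := (Finset.sum_nonneg fun i _ => abs_nonneg (G.out i)).trans hs.out_le
  have hbt : ∀ i, 0 < b * bT (G.tm i) ∧ b * bT (G.tm i) ≤ 1 := fun i =>
    have h := one_pos.trans_le (hs.one_le_tm i)
    ⟨mul_pos hb (bT_pos h), mul_le_one₀ hb1 (bT_pos h).le (bT_lt_one h).le⟩
  choose eR hR' using fun i =>
    exists_meets (hbt i).1 (hbt i).2 hL' (hin _ (hbt i).1 (hbt i).2)
  choose eO hO' using fun i =>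
    exists_meets (hbt i).1 (hbt i).2 hL'' (hout _ (hbt i).1 (hbt i).2)
  obtain ⟨eN, hN⟩ := exists_meets (mul_pos hb (bT_pos one_pos))
    (mul_le_one₀ hb1 (bT_pos one_pos).le (bT_lt_one one_pos).le) hL₁ hnext
  have hc : BandChildren G d q₁ q' q'' η b I I' I'' gn g' g'' L₁ L' L'' e₁ e' e'' eR eO eN :=
    ⟨hR', hO', hN⟩
  set p := bandProg G b K eR eO eN I I' I'' g₁ g gn g' g'' with hp
  have hm : p.Meas := bandProg_meas
  refine ⟨p.SeedRnd, inferInstance, p.standardBorelSpace_seedRnd, p.nonempty_seedRnd, p.seededP,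
    p.seededF (b ^ 2 / I) b (bandV G b K I I' I''), inferInstance,
    (Prog.qc_seeded hm _ _ _).mono (bandProg_queries hc), fun B W hW => ⟨fun ω x y => ?_,
      fun m f hf hM => ?_⟩⟩
  · refine (Prog.lipschitz_seeded (p := p)
      (L := byKind G K (fun _ => L'.toNNReal) (fun _ => L''.toNNReal) L₁.toNNReal)
      (dK := fun k => |seedY G (pointOf G K k).2|) (l := bandLip G K Γ L') (dOut := 0)
      (fun k hk => (bandProg_spec hc hW hs hk).lipschitz) (fun k _ s s' w₁ => ?_)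
      (fun s s' w₁ => ?_) (fun k hk => ?_) _ _ _ ω x y).trans
      (mul_le_mul_of_nonneg_right ?_ (norm_nonneg _))
    · show ‖ptBias G b (pointOf G K k).2 (s, w₁) - ptBias G b (pointOf G K k).2 (s', w₁)‖ ≤ _
      rw [ptBias, ptBias, add_sub_add_right_eq_sub, ← smul_sub, norm_smul, Real.norm_eq_abs]
    · show ‖g₁ • w₁ - g₁ • w₁‖ ≤ _
      simp
    · show _ + |bandCoef G b K k 0| + ∑ j : Fin k, |bandCoef G b K k (j + 1)| * _ ≤ _
      rw [Fin.sum_univ_eq_sum_range (fun j => |bandCoef G b K k (j + 1)| *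
        (((byKind G K (fun _ => L'.toNNReal) (fun _ => L''.toNNReal) L₁.toNNReal j : ℝ≥0) : ℝ) *
          bandLip G K Γ L' j))]
      exact bandLip_step hs hb hb1 hΓ hL' hq hk
    · show 0 + |bandOut G K 0| + ∑ j : Fin (bandN G K), |bandOut G K (j + 1)| * _ ≤ _
      rw [Fin.sum_univ_eq_sum_range (fun j => |bandOut G K (j + 1)| *
        (((byKind G K (fun _ => L'.toNNReal) (fun _ => L''.toNNReal) L₁.toNNReal j : ℝ≥0) : ℝ) *
          bandLip G K Γ L' j)), bandOut, abs_zero, add_zero, zero_add]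
      exact bandLip_out hs hL'' hL₁
  · obtain ⟨M, hM⟩ := hM
    rw [Prog.integral_seeded hm hW.measurable_oracle m (by positivity) hb
      (fun k _ => bandV_pos hb hI hI' hI'' k) (split_budget hb hI hI' hI'' hsplit)
      hf.continuous.measurable hM]
    exact bandProg_close hc hW hη hs hb hb1 hΓ hΩo hg0 hL₁ hL' hL'' he₁ he' he'' hq
      (bandProg_budget hs hb hI hI' hI'' h1 h2 h3 hg hg₁ hgn hg' hg'' hΩ)
      (by nlinarith [sq_nonneg gn]) m hR (hH B W m hW) hf hM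

/-- One band of the primitive. -/
theorem bandStep (hG : GeoExists) : BandStep := by
  obtain ⟨p, hp⟩ := geo_shift hG
  refine ⟨p, fun k => ?_⟩
  obtain ⟨C₀, pT, hC₀, hk⟩ := hp k
  refine ⟨max C₀ 10, pT, hC₀.trans (le_max_left _ _), ?_⟩
  intro d K q₁ q' q'' η b T θ₀ e g₁ g gn g' g'' I I' I'' L₁ L' L'' e₁ e' e'' hc habs hg0 hg hgn hg''
    hI'' hsplit hΩ hL₁ hL'' he₁ he' he'' hnext hin hout
  set C := max C₀ 10
  have hC : C₀ ≤ C := le_max_left _ _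
  have hC10 : 10 ≤ C := le_max_right _ _
  have hC0 : 0 ≤ C := by linarith
  have hT : 0 ≤ T := by linarith [hc.two_le_T]
  have hθ : 0 ≤ θ₀ := by linarith [hc.one_le_θ₀]
  obtain ⟨G, hn, hs, hH⟩ := hk e θ₀ T g₁ b hc.e_pos hc.e_le hc.one_le_θ₀ hc.two_le_T hc.g₁_pos
    hc.g₁_le hc.b_pos hc.b_le
  set Γ := bandΓ C T θ₀ e g₁
  set Res := bandRes C p pT k d η b T θ₀ e g₁
  have hΓ : 0 ≤ Γ := bandΓ_nonneg hC0 hT hθ hc.e_pos.le hc.g₁_pos.le
  have hΩ0 : 0 ≤ bandΩ C T θ₀ := by unfold bandΩ; positivity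
  have hRes : 0 ≤ Res :=
    bandRes_nonneg hC0 hc.eta_pos.le hc.b_pos.le hT hθ hc.e_pos.le hc.g₁_pos.le
  have hs' : G.Sized (Γ / b) (bandΩ C T θ₀) := hs.mono
    (div_le_div_of_nonneg_right (bandΓ_mono hC hT hθ hc.e_pos.le hc.g₁_pos.le) hc.b_pos.le)
    (bandΩ_mono hC hT hθ)
  have hN : bandN G K ≤ bandP C T e K := by
    have h := (nodes_le_bandP (K := K) hn (n_pos G)).trans (bandP_mono (K := K) hC)
    rw [bandN, Nat.succ_mul]
    exact h
  have hN' : (bandN G K : ℝ) ≤ bandP C T e K := by exact_mod_cast hN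
  have hI' : 0 < I' := one_pos.trans_le hc.one_le_I'
  have hI''0 : 0 < I'' := one_pos.trans_le hI''
  have hP : (0 : ℝ) ≤ bandP C T e K := Nat.cast_nonneg _
  have hI : 0 < I := by
    nlinarith [mul_nonneg hP (add_nonneg hI'.le hI''0.le)]
  have hNle : ∀ J : ℝ, 0 ≤ J → Γ ^ 2 * bandN G K * g' ^ 2 * J ≤
      Γ ^ 2 * bandP C T e K * g' ^ 2 * J := fun J hJ => by gcongr
  refine (band_prim (Res := Res) hs' hc.eta_le hc.b_pos hc.b_le hΓ hRes hI hI' hI''0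
    ((hNle I hI.le).trans ((mul_le_mul_of_nonneg_left (le_add_of_nonneg_right hI'.le)
      (by positivity)).trans hc.absorb))
    ((hNle I' hI'.le).trans ((mul_le_mul_of_nonneg_left (le_add_of_nonneg_left hI.le)
      (by positivity)).trans hc.absorb))
    ((hNle I'' hI''0.le).trans habs) (le_trans (by gcongr) hsplit) hg hc.g₁_pos hgn hg0
    hc.g'_nonneg hg'' (le_trans (by gcongr) hΩ) hL₁ hc.L'_nonneg hL'' hc.contract he₁ he' he''
    (fun B W m hW => (hH d η B W m hc.d_pos hc.eta_pos hW hc.eta_θ₀).mono ?_) hnext hin hout).mono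
    (Nat.add_le_add_left (Nat.mul_le_mul_right _ hN) _) ?_ ?_
  · exact mul_le_mul_of_nonneg_left (mul_le_mul_of_nonneg_right
      (bandRes_mono hC hc.eta_pos.le hc.b_pos.le hT hθ hc.e_pos.le hc.g₁_pos.le) (wt_nonneg W m))
      hc.b_pos.le
  · rw [mul_assoc C Γ L', mul_assoc C (bandΩ C T θ₀), mul_assoc (6 : ℝ) (bandΩ C T θ₀)]
    refine add_le_add (mul_le_mul_of_nonneg_left (add_le_add le_rfl
      (mul_le_mul_of_nonneg_right (by linarith) (mul_nonneg hΓ hc.L'_nonneg))) hL₁)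
      (mul_le_mul_of_nonneg_right (by linarith) (mul_nonneg hΩ0 hL''))
  · have hq0 : 0 ≤ (Γ * L') ^ K := pow_nonneg (mul_nonneg hΓ hc.L'_nonneg) _
    set X := Γ * (e' + (Γ * L') ^ K)
    have hX : 0 ≤ X := mul_nonneg hΓ (add_nonneg he' hq0)
    set S := L₁ + bandΩ C T θ₀ * L''
    have hS : 0 ≤ S := by positivity
    have k1 := mul_le_mul_of_nonneg_right hC10 (mul_nonneg hS hX)
    have k2 := mul_le_mul_of_nonneg_right hC10 (mul_nonneg hS hRes)
    have k3 := mul_le_mul_of_nonneg_right hC10 (mul_nonneg hΩ0 he'')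
    have k4 := mul_le_mul_of_nonneg_right hC10 hRes
    have : S * (4 * Γ * (e' + (Γ * L') ^ K) + 2 * Res) = 4 * (S * X) + 2 * (S * Res) := by ring
    rw [this]
    nlinarith [mul_nonneg hS hX, mul_nonneg hS hRes, mul_nonneg hΩ0 he'']

end Vale.Agent.P347.Zero
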