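import Vale.Agent.P347.Zero.Defs
import Vale.Agent.P347.Quad

/-!
# P347, exponent zero: derivative chains along measure preserving flows

`G k` is the `k`-th derivative of `G 0` along the curves of the field `V`; its mean size under
`μ t` is at most `M k`.  Along a random curve with marginals `μ` the mean error of any rule exact
to order `m` is then at most its Peano constant times `M (m + 1)`.
-/

open MeasureTheory ProbabilityTheory Real Set Function
open scoped RealInnerProductSpace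

namespace Vale.Agent.P347.Zero

variable {d : ℕ} {X : Type} [NormedAddCommGroup X] [NormedSpace ℝ X] [MeasurableSpace X]
  [OpensMeasurableSpace X] {Ω : Type} [MeasurableSpace Ω]

/-- `G` lists the derivatives up to order `m` along the curves of `V` on the times `S`. -/
structure Chain (m : ℕ) (S : Set ℝ) (V : ℝ → X → X) (μ : ℝ → Measure X)
    (G : ℕ → ℝ → X → E d) (M : ℕ → ℝ) : Prop where
  /-- continuity -/
  cont : ∀ k ≤ m, ContinuousOn (fun p : ℝ × X => G k p.1 p.2) (S ×ˢ univ)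
  /-- `G (k + 1)` is the derivative of `G k` along a curve -/
  deriv : ∀ k < m, ∀ t ∈ S, ∀ (z : ℝ → X) (s : Set ℝ), HasDerivWithinAt z (V t (z t)) s t →
    HasDerivWithinAt (fun u => G k u (z u)) (G (k + 1) t (z t)) s t
  /-- mean size -/
  bound : ∀ k ≤ m, ∀ t ∈ S, Integrable (fun x => ‖G k t x‖) (μ t) ∧
    ∫ x, ‖G k t x‖ ∂μ t ≤ M k

namespace Chain

variable {m : ℕ} {S : Set ℝ} {V : ℝ → X → X} {μ : ℝ → Measure X} {G : ℕ → ℝ → X → E d}
  {M : ℕ → ℝ}

omit [OpensMeasurableSpace X] in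
theorem nonneg (hC : Chain m S V μ G M) {k : ℕ} (hk : k ≤ m) {t : ℝ} (ht : t ∈ S) : 0 ≤ M k :=
  (integral_nonneg fun _ => norm_nonneg _).trans (hC.bound k hk t ht).2

omit [OpensMeasurableSpace X] in
/-- the hypotheses of the interpolation rules along one curve -/
theorem path (hC : Chain (m + 1) S V μ G M) {a b : ℝ} (hS : Icc a b ⊆ S) {z : ℝ → X}
    (hz : ∀ t ∈ Icc a b, HasDerivWithinAt z (V t (z t)) (Icc a b) t) :
    (∀ k ≤ m, ∀ t ∈ Icc a b, HasDerivWithinAt (fun s => G k s (z s)) (G (k + 1) t (z t))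
      (Icc a b) t) ∧ ∀ k ≤ m + 1, ContinuousOn (fun s => G k s (z s)) (Icc a b) :=
  ⟨fun k hk t ht => hC.deriv k (Nat.lt_succ_of_le hk) t (hS ht) z _ (hz t ht), fun k hk =>
    (hC.cont k hk).comp (continuousOn_id.prodMk fun t ht => (hz t ht).continuousWithinAt)
      fun _ ht => ⟨hS ht, trivial⟩⟩

omit [OpensMeasurableSpace X] in
theorem continuous_fix (hC : Chain m S V μ G M) {k : ℕ} (hk : k ≤ m) {t : ℝ} (ht : t ∈ S) :
    Continuous (G k t) :=
  (hC.cont k hk).comp_continuous (Continuous.prodMk continuous_const continuous_id)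
    fun _ => ⟨ht, trivial⟩

/-- mean size at one time of a random curve -/
theorem mean_le (hC : Chain m S V μ G M) {k : ℕ} (hk : k ≤ m) {t : ℝ} (ht : t ∈ S) {P : Measure Ω}
    {Y : Ω → X} (hY : Measurable Y) (hlaw : P.map Y = μ t) :
    Integrable (fun ω => ‖G k t (Y ω)‖) P ∧ ∫ ω, ‖G k t (Y ω)‖ ∂P ≤ M k := by
  obtain ⟨h1, h2⟩ := hC.bound k hk t ht
  rw [← hlaw] at h1 h2
  refine ⟨h1.comp_measurable hY, (integral_map hY.aemeasurable h1.aestronglyMeasurable).symm.trans_le h2⟩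

/-- mean of the time integral along a random curve -/
theorem integral_path (hC : Chain m S V μ G M) {k : ℕ} (hk : k ≤ m) {P : Measure Ω}
    [IsProbabilityMeasure P] {Y : ℝ → Ω → X} {a h : ℝ} (hh : 0 ≤ h) (hS : Icc a (a + h) ⊆ S)
    (hY : ∀ t ∈ Icc a (a + h), Measurable (Y t)) (hlaw : ∀ t ∈ Icc a (a + h), P.map (Y t) = μ t)
    (hc : ∀ ω, ContinuousOn (fun t => Y t ω) (Icc a (a + h))) :
    Integrable (fun ω => ∫ s in a..(a + h), ‖G k s (Y s ω)‖) P ∧
      ∫ ω, (∫ s in a..(a + h), ‖G k s (Y s ω)‖) ∂P ≤ h * M k := by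
  have hab : a ≤ a + h := le_add_of_nonneg_right hh
  set c : ℝ → ℝ := fun s => (projIcc a (a + h) hab s : ℝ) with hcdef
  set F : ℝ → Ω → ℝ := fun s ω => ‖G k (c s) (Y (c s) ω)‖ with hF
  have hc' : Continuous c := continuous_subtype_val.comp continuous_projIcc
  have hcm : ∀ s, c s ∈ Icc a (a + h) := fun s => (projIcc a (a + h) hab s).2
  have hsm : StronglyMeasurable (uncurry F) := by
    refine stronglyMeasurable_uncurry_of_continuous_of_stronglyMeasurable (fun ω => ?_) fun s =>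
      ((hC.continuous_fix hk (hS (hcm s))).norm.measurable.comp (hY _ (hcm s))).stronglyMeasurable
    exact ((hC.cont k hk).comp_continuous (hc'.prodMk ((hc ω).comp_continuous hc' hcm))
      fun s => ⟨hS (hcm s), trivial⟩).norm
  set ν : Measure ℝ := volume.restrict (Ioc a (a + h))
  have hb : ∀ s, Integrable (F s) P ∧ ∫ ω, F s ω ∂P ≤ M k := fun s =>
    hC.mean_le hk (hS (hcm s)) (hY _ (hcm s)) (hlaw _ (hcm s))
  have hint : Integrable (uncurry F) (ν.prod P) := by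
    refine (integrable_prod_iff hsm.aestronglyMeasurable).2 ⟨ae_of_all _ fun s => (hb s).1, ?_⟩
    refine (integrable_const (M k)).mono'
      hsm.norm.integral_prod_right'.aestronglyMeasurable (ae_of_all _ fun s => ?_)
    rw [Real.norm_eq_abs, abs_of_nonneg (integral_nonneg fun _ => norm_nonneg _)]
    simp only [Function.uncurry_apply_pair, F, norm_norm]
    exact (hb s).2
  have e : ∀ ω, ∫ s in a..(a + h), ‖G k s (Y s ω)‖ = ∫ s, F s ω ∂ν := fun ω => by
    rw [intervalIntegral.integral_of_le hab]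
    refine setIntegral_congr_fun measurableSet_Ioc fun s hs => ?_
    simp only [F, c, projIcc_of_mem hab (Ioc_subset_Icc_self hs)]
  simp only [e]
  refine ⟨hint.integral_prod_right, ?_⟩
  rw [← integral_integral_swap hint]
  calc ∫ s, ∫ ω, F s ω ∂P ∂ν ≤ ∫ _s, M k ∂ν :=
        integral_mono hint.integral_prod_left (integrable_const _) fun s => (hb s).2
    _ = h * M k := by simp [ν, hh]

/-- A rule exact to order `m` along every curve has mean error `c * h * M (m + 1)`. -/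
theorem rule (hC : Chain (m + 1) S V μ G M) {P : Measure Ω} [IsProbabilityMeasure P]
    {Y : ℝ → Ω → X} {a h : ℝ} (hh : 0 ≤ h) (hS : Icc a (a + h) ⊆ S)
    (hY : ∀ t ∈ Icc a (a + h), Measurable (Y t)) (hlaw : ∀ t ∈ Icc a (a + h), P.map (Y t) = μ t)
    (hd : ∀ ω, ∀ t ∈ Icc a (a + h),
      HasDerivWithinAt (fun s => Y s ω) (V t (Y t ω)) (Icc a (a + h)) t)
    {e : Ω → E d} (he : AEStronglyMeasurable e P) {c : ℝ} (hc : 0 ≤ c)
    (hle : ∀ ω, ‖e ω‖ ≤ c * ∫ s in a..(a + h), ‖G (m + 1) s (Y s ω)‖) :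
    Integrable (fun ω => ‖e ω‖) P ∧ ∫ ω, ‖e ω‖ ∂P ≤ c * (h * M (m + 1)) := by
  obtain ⟨h1, h2⟩ := hC.integral_path le_rfl hh hS hY hlaw
    fun ω t ht => (hd ω t ht).continuousWithinAt
  have hi : Integrable (fun ω => ‖e ω‖) P := (h1.const_mul c).mono' he.norm
    (ae_of_all _ fun ω => by rw [norm_norm]; exact hle ω)
  refine ⟨hi, (integral_mono hi (h1.const_mul c) hle).trans ?_⟩
  rw [integral_const_mul]
  exact mul_le_mul_of_nonneg_left h2 hc

end Chain

/-- Interpolation along a random curve. -/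
theorem chain_interp (m : ℕ) :
    ∃ (τ : Fin (m + 1) → ℝ) (ℓ : Fin (m + 1) → ℝ → ℝ) (Λ : ℝ), 0 ≤ Λ ∧
      (∀ i, τ i ∈ Icc (0 : ℝ) 1) ∧ (∀ i, Continuous (ℓ i)) ∧
      (∀ i, ∀ t ∈ Icc (0 : ℝ) 1, |ℓ i t| ≤ Λ) ∧
      ∀ (d : ℕ) (X : Type) [NormedAddCommGroup X] [NormedSpace ℝ X] [MeasurableSpace X]
        [OpensMeasurableSpace X] (Ω : Type) [MeasurableSpace Ω] (S : Set ℝ) (V : ℝ → X → X)
        (μ : ℝ → Measure X) (G : ℕ → ℝ → X → E d) (M : ℕ → ℝ), Chain (m + 1) S V μ G M →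
      ∀ (P : Measure Ω) [IsProbabilityMeasure P] (Y : ℝ → Ω → X) (a h : ℝ), 0 < h →
        Icc a (a + h) ⊆ S → (∀ t ∈ Icc a (a + h), Measurable (Y t)) →
        (∀ t ∈ Icc a (a + h), P.map (Y t) = μ t) →
        (∀ ω, ∀ t ∈ Icc a (a + h),
          HasDerivWithinAt (fun s => Y s ω) (V t (Y t ω)) (Icc a (a + h)) t) →
        ∀ t ∈ Icc a (a + h),
          Integrable (fun ω => ‖G 0 t (Y t ω) -
            ∑ i, ℓ i ((t - a) / h) • G 0 (a + h * τ i) (Y (a + h * τ i) ω)‖) P ∧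
          ∫ ω, ‖G 0 t (Y t ω) -
            ∑ i, ℓ i ((t - a) / h) • G 0 (a + h * τ i) (Y (a + h * τ i) ω)‖ ∂P ≤
              Λ * h ^ (m + 1) * M (m + 1) := by
  obtain ⟨τ, ℓ, Λ, hΛ, hτ, hℓc, hℓ, hint⟩ := exists_interp m
  refine ⟨τ, ℓ, Λ, hΛ, hτ, hℓc, hℓ, ?_⟩
  intro d X _ _ _ _ Ω _ S V μ G M hC P _ Y a h hh hS hY hlaw hd t ht
  have hnode : ∀ i, a + h * τ i ∈ Icc a (a + h) := fun i => Quad.mem_node a h hh (hτ i)
  have hmeas : ∀ s ∈ Icc a (a + h), Measurable fun ω => G 0 s (Y s ω) := fun s hs =>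
    (hC.continuous_fix (Nat.zero_le _) (hS hs)).measurable.comp (hY s hs)
  have hpt : ∀ ω, ‖G 0 t (Y t ω) -
      ∑ i, ℓ i ((t - a) / h) • G 0 (a + h * τ i) (Y (a + h * τ i) ω)‖ ≤
      Λ * h ^ m * ∫ s in a..(a + h), ‖G (m + 1) s (Y s ω)‖ := fun ω => by
    obtain ⟨h1, h2⟩ := hC.path hS (hd ω)
    exact hint d (fun k s => G k s (Y s ω)) a h hh h1 (h2 (m + 1) le_rfl) t ht
  obtain ⟨h1, h2⟩ := hC.rule hh.le hS hY hlaw hd
    ((hmeas t ht).sub (Finset.measurable_sum _ fun i _ =>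
      (hmeas _ (hnode i)).const_smul (ℓ i ((t - a) / h)))).aestronglyMeasurable
    (by positivity : 0 ≤ Λ * h ^ m) hpt
  exact ⟨h1, h2.trans_eq (by rw [pow_succ]; ring)⟩

end Vale.Agent.P347.Zero
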