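import Vale.Agent.P347.Zero.OpEq
import Vale.Agent.P347.Zero.ChainDef
import Vale.Agent.P347.Zero.FamilyLaw

/-!
# P347, exponent zero: chains from sized iterates

If all iterates of an operator on a family are sized and the operator is the derivative along a
field, the iterates form a chain along that field.
-/

open MeasureTheory ProbabilityTheory Real Set Function
open scoped RealInnerProductSpace

namespace Vale.Agent.P347.Zero

open Deriv

variable {b : Par → ℝ}

theorem norm_vec_sq (F : Fam fun d => Fin d) (p : Par) (t : ℝ) (z : Z p.d) :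
    ‖vec F p t z‖ ^ 2 = ∑ j, F p t j z ^ 2 := by
  rw [← (EuclideanSpace.basisFun (Fin p.d) ℝ).sum_sq_inner_right (vec F p t z)]
  refine Finset.sum_congr rfl fun j _ => ?_
  congr 1
  show ⟪bas j, vec F p t z⟫ = _
  simp [vec, inner_sum, real_inner_smul_right, inner_bas]

/-- the mean norm is at most the root of the total square -/
theorem Sized.mean {k : ℕ} {F : Fam fun d => Fin d} (h : Sized k b F) :
    ∃ C : ℝ, 0 ≤ C ∧ ∀ p : Par, p.OK → 0 ≤ b p → ∀ t : ℝ, 1 ≤ t →
      Integrable (fun z => ‖vec F p t z‖) (mu (tU p.W t)) ∧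
        ∫ z, ‖vec F p t z‖ ∂mu (tU p.W t) ≤ C * ((p.η / p.g) ^ k * b p) := by
  obtain ⟨C, hC, hs⟩ := h.size
  refine ⟨√C, Real.sqrt_nonneg _, fun p hp hb t ht => ?_⟩
  have ht0 : 0 < t := zero_lt_one.trans_le ht
  have hU := pert_tU p.pert ht0
  have := isProb_mu hU
  have hg : ∀ i, Good 0 (F p t i) := fun i => h.good p t ht0 i 0
  have hc : Continuous fun z => vec F p t z :=
    continuous_finsetSum _ fun j _ => (hg j).continuous.smul continuous_const
  have hi2 : Integrable (fun z => ‖vec F p t z‖ ^ 2) (mu (tU p.W t)) := by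
    simp only [norm_vec_sq]
    exact (Good.sum (n := 0) _ fun j _ => (hg j).sq).integrable hU
  have hi1 : Integrable (fun z => ‖vec F p t z‖) (mu (tU p.W t)) :=
    ((integrable_const 1).add hi2).mono' hc.norm.aestronglyMeasurable (ae_of_all _ fun z => by
      rw [norm_norm]
      show ‖vec F p t z‖ ≤ 1 + ‖vec F p t z‖ ^ 2
      nlinarith [sq_nonneg (‖vec F p t z‖ - 1), norm_nonneg (vec F p t z)])
  refine ⟨hi1, ?_⟩
  have h1 := integral_abs_le_sqrt hi1 hi2
  simp only [abs_norm] at h1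
  have e : ∫ z, ‖vec F p t z‖ ^ 2 ∂mu (tU p.W t) = ss (tU p.W t) (F p t) := by
    simp only [norm_vec_sq]; exact (ss_eq_integral_sum hU hg).symm
  rw [e] at h1
  refine h1.trans ((Real.sqrt_le_sqrt (hs p hp t ht)).trans_eq ?_)
  rw [Real.sqrt_mul hC, Real.sqrt_sq (mul_nonneg (pow_nonneg (div_nonneg p.pert.eta_nonneg
    hp.1.le) _) hb)]

/-- a chain with larger sizes -/
theorem Chain.mono_size {d : ℕ} {X : Type} [NormedAddCommGroup X] [NormedSpace ℝ X]
    [MeasurableSpace X] [OpensMeasurableSpace X] {m : ℕ} {S : Set ℝ} {V : ℝ → X → X}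
    {μ : ℝ → Measure X} {G : ℕ → ℝ → X → E d} {M M' : ℕ → ℝ} (h : Chain m S V μ G M)
    (hM : ∀ k, M k ≤ M' k) : Chain m S V μ G M' :=
  ⟨h.cont, h.deriv, fun k hk t ht =>
    ⟨(h.bound k hk t ht).1, (h.bound k hk t ht).2.trans (hM k)⟩⟩

/-- one constant for finitely many orders -/
theorem exists_means {κ : ℕ → ℕ} {G : ℕ → Fam fun d => Fin d} (h : ∀ n, Sized (κ n) b (G n))
    (m : ℕ) : ∃ C : ℝ, 0 ≤ C ∧ ∀ p : Par, p.OK → 0 ≤ b p → ∀ t : ℝ, 1 ≤ t → ∀ k ≤ m,
      Integrable (fun z => ‖vec (G k) p t z‖) (mu (tU p.W t)) ∧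
        ∫ z, ‖vec (G k) p t z‖ ∂mu (tU p.W t) ≤ C * ((p.η / p.g) ^ κ k * b p) := by
  choose C hC hm using fun n => (h n).mean
  refine ⟨∑ n ∈ Finset.range (m + 1), C n, Finset.sum_nonneg fun n _ => hC n,
    fun p hp hb t ht k hk => ⟨(hm k p hp hb t ht).1, (hm k p hp hb t ht).2.trans ?_⟩⟩
  refine mul_le_mul_of_nonneg_right (Finset.single_le_sum (f := C) (fun n _ => hC n)
    (Finset.mem_range.2 (Nat.lt_succ_of_le hk))) (mul_nonneg (pow_nonneg ?_ _) hb)
  exact div_nonneg p.pert.eta_nonneg hp.1.le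

theorem continuousOn_vec {F : Fam fun d => Fin d} (p : Par)
    (hF : ∀ i, SmJ fun t z => F p t i z) :
    ContinuousOn (fun q : ℝ × Z p.d => vec F p q.1 q.2) (Ioi 0 ×ˢ univ) :=
  continuousOn_finsetSum _ fun j _ => (hF j 0).continuousOn.smul continuousOn_const

variable {op : (Fam fun d => Fin d) → Fam fun d => Fin d}

/-- A chain along a moving field. -/
theorem chain_moving {F : Fam fun d => Fin d} {κ : ℕ} (hF : ∀ n, Sized κ b (op^[n] F))
    (V : (p : Par) → ℝ → Z p.d → Z p.d)
    (hop : ∀ (G : Fam fun d => Fin d) (p : Par), (∀ i, SmJ fun t z => G p t i z) →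
      ∀ t : ℝ, 0 < t → ∀ i z,
        op G p t i z = deriv (fun s => G p s i z) t + dd (V p t z) (G p t i) z) (m : ℕ) :
    ∃ C : ℝ, 0 ≤ C ∧ ∀ p : Par, p.OK → 0 ≤ b p →
      Chain m (Ici (1 : ℝ)) (V p) (fun t => mu (tU p.W t)) (fun k => vec (op^[k] F) p)
        (fun _ => C * ((p.η / p.g) ^ κ * b p)) := by
  obtain ⟨C, hC, hm⟩ := exists_means (κ := fun _ => κ) hF m
  refine ⟨C, hC, fun p hp hb => ⟨fun k _ => ?_, fun k _ t ht z s hz => ?_,
    fun k hk t ht => hm p hp hb t ht k hk⟩⟩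
  · exact (continuousOn_vec p fun i => (hF k).smJ p i).mono
      (prod_mono (fun t ht => zero_lt_one.trans_le (mem_Ici.1 ht)) le_rfl)
  · have ht0 : 0 < t := zero_lt_one.trans_le (mem_Ici.1 ht)
    refine (HasDerivWithinAt.fun_sum fun j _ =>
      (((hF k).smJ p j).comp_curve ht0 hz).smul_const (bas j)).congr_deriv ?_
    simp only [vec, Function.iterate_succ_apply', hop _ p (fun i => (hF k).smJ p i) t ht0]

/-- A chain at a frozen time. -/
theorem chain_frozen {F : Fam fun d => Fin d} {κ : ℕ → ℕ} (hF : ∀ n, Sized (κ n) b (op^[n] F))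
    (V : (p : Par) → ℝ → ℝ → Z p.d → Z p.d)
    (hop : ∀ (G : Fam fun d => Fin d) (p : Par), (∀ i, SmJ fun t z => G p t i z) →
      ∀ t : ℝ, 0 < t → ∀ x i z, op G p t i z = dd (V p t x z) (G p t i) z) (m : ℕ) :
    ∃ C : ℝ, 0 ≤ C ∧ ∀ p : Par, p.OK → 0 ≤ b p → ∀ τ : ℝ, 1 ≤ τ →
      Chain m (univ : Set ℝ) (V p τ) (fun _ => mu (tU p.W τ)) (fun k _ => vec (op^[k] F) p τ)
        (fun k => C * ((p.η / p.g) ^ κ k * b p)) := by
  obtain ⟨C, hC, hm⟩ := exists_means hF m
  refine ⟨C, hC, fun p hp hb τ hτ => ⟨fun k _ => ?_, fun k _ x _ z s hz => ?_,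
    fun k hk _ _ => hm p hp hb τ hτ k hk⟩⟩
  · exact (continuous_finsetSum _ fun j _ =>
      ((hF k).good p τ (zero_lt_one.trans_le hτ) j 0).continuous.smul continuous_const).comp
        continuous_snd |>.continuousOn
  · have ht0 : 0 < τ := zero_lt_one.trans_le hτ
    refine (HasDerivWithinAt.fun_sum fun j _ =>
      ((((hF k).smJ p j).differentiable ht0 (z x)).hasFDerivAt.comp_hasDerivWithinAt
        x hz).smul_const (bas j)).congr_deriv ?_
    simp only [vec, Function.iterate_succ_apply', hop _ p (fun i => (hF k).smJ p i) τ ht0 x]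
    rfl

/-! ### The probability flow on positions -/

/-- values depend on the position only -/
def YOnly (F : Fam fun d => Fin d) : Prop :=
  ∀ (p : Par) (t : ℝ), 0 < t → ∀ i z, F p t i z = F p t i (z.1, 0)

theorem yOnly_tvF : YOnly tvF := fun _ _ _ _ _ => rfl

theorem yOnly_flowF : YOnly (decay tvF) := fun _ _ _ _ _ => rfl

theorem YOnly.matD {F : Fam fun d => Fin d} (hF : ∀ p i, SmJ fun t z => F p t i z)
    (h : YOnly F) : YOnly (Zero.matD F) := fun p t ht i z => by
  rw [matD_eq p ht, matD_eq p ht]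
  congr 1
  · exact Filter.EventuallyEq.deriv_eq (Filter.eventually_of_mem (isOpen_Ioi.mem_nhds ht)
      fun s hs => h p s hs i z)
  · set A : Z p.d →L[ℝ] Z p.d :=
      (ContinuousLinearMap.fst ℝ (E p.d) (E p.d)).prod 0
    have e : F p t i = fun z => F p t i (A z) := funext fun z => h p t ht i z
    have hd := (hF p i).differentiable ht
    conv_lhs => rw [e, dd_comp hd A]
    simp [A]

/-- A chain along the probability flow. -/
theorem chain_flowY {F : Fam fun d => Fin d} (hy : YOnly F)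
    (hF : ∀ n, Sized 0 b (Zero.matD^[n] F)) (m : ℕ) :
    ∃ C : ℝ, 0 ≤ C ∧ ∀ p : Par, p.OK → 0 ≤ b p →
      Chain m (Ici (1 : ℝ)) (flowField p.W) (fun t => law (tU p.W t))
        (fun k t y => vec (Zero.matD^[k] F) p t (y, 0)) (fun _ => C * b p) := by
  obtain ⟨C, hC, hm⟩ := chain_moving hF (fun p t z => (flowField p.W t z.1, 0))
    (fun G p _ t ht i z => matD_eq p ht i z) m
  have hy' : ∀ k, YOnly (Zero.matD^[k] F) := fun k => by
    induction k with
    | zero => exact hy
    | succ k ih =>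
      rw [Function.iterate_succ_apply']
      exact ih.matD fun p i => (hF k).smJ p i
  refine ⟨C, hC, fun p hp hb => ⟨fun k hk => ?_, fun k hk t ht z s hz => ?_, fun k hk t ht => ?_⟩⟩
  · exact ((hm p hp hb).cont k hk).comp (f := fun q : ℝ × E p.d => (q.1, (q.2, 0))) (by fun_prop)
      fun q hq => ⟨hq.1, trivial⟩
  · exact (hm p hp hb).deriv k hk t ht (fun r => (z r, 0)) s
      (hz.prodMk (hasDerivWithinAt_const t s (0 : E p.d)))
  · have ht0 : 0 < t := zero_lt_one.trans_le (mem_Ici.1 ht)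
    have := isProbabilityMeasure_law_tU p.pert ht0
    obtain ⟨h1, h2⟩ := (hm p hp hb).bound k hk t ht
    have e : (fun z : Z p.d => ‖vec (Zero.matD^[k] F) p t z‖) =
        fun z => ‖vec (Zero.matD^[k] F) p t (z.1, 0)‖ := by
      funext z; simp only [vec]
      rw [Finset.sum_congr rfl fun j _ => by rw [hy' k p t ht0 j z]]
    have hc : Continuous fun y : E p.d => ‖vec (Zero.matD^[k] F) p t (y, 0)‖ :=
      ((continuous_finsetSum _ fun j _ =>
        ((hF k).good p t ht0 j 0).continuous.smul continuous_const).comp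
          (continuous_id.prodMk continuous_const)).norm
    have hm1 : (mu (tU p.W t)).map Prod.fst = law (tU p.W t) := Measure.fst_prod
    rw [e] at h1 h2
    rw [← hm1]
    refine ⟨(integrable_map_measure hc.aestronglyMeasurable measurable_fst.aemeasurable).2 h1, ?_⟩
    rw [integral_map measurable_fst.aemeasurable hc.aestronglyMeasurable]
    simpa using h2

theorem baseB_nonneg (p : Par) : 0 ≤ baseB p :=
  add_nonneg (norm_nonneg _) (mul_nonneg p.pert.eta_nonneg (Real.sqrt_nonneg _))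

theorem baseB_le (p : Par) : baseB p ≤ 4 * (1 + p.B) * p.η * √p.d := by
  have hP := p.pert
  have := hP.isProbabilityMeasure_law
  have hη := hP.eta_nonneg
  have iX : Integrable (fun x : E p.d => ‖x‖) (law p.W) :=
    hP.integrable_law PolyBd.id.norm continuous_norm
  have iX2 : Integrable (fun x : E p.d => ‖x‖ ^ 2) (law p.W) :=
    hP.integrable_law (PolyBd.id.norm.pow 2) (by fun_prop)
  have hX : ∫ x, ‖x‖ ∂law p.W ≤ 2 * (1 + p.B) * √p.d := by
    have h := integral_abs_le_sqrt iX iX2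
    simp only [abs_norm] at h
    have hb := hP.bound_nonneg
    refine h.trans (Real.sqrt_le_iff.2 ⟨by positivity, ?_⟩)
    rw [mul_pow, Real.sq_sqrt p.d.cast_nonneg]
    nlinarith [hP.integral_norm_sq_law_le,
      mul_nonneg (sq_nonneg (1 + p.B)) p.d.cast_nonneg (α := ℝ)]
  have h1 : ‖∫ x, grad p.W x ∂law p.W‖ ≤ ∫ x, (p.η * p.B * √p.d + p.η * ‖x‖) ∂law p.W :=
    norm_integral_le_of_norm_le ((integrable_const _).add (iX.const_mul _)) (ae_of_all _ fun x => by
      have := hP.grad_lipschitz x 0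
      rw [sub_zero] at this
      exact (norm_le_norm_add_norm_sub' _ (grad p.W 0)).trans (add_le_add hP.grad_zero_le this))
  rw [integral_add (integrable_const _) (iX.const_mul _)] at h1
  simp only [integral_const, integral_const_mul, probReal_univ, one_smul] at h1
  have h2 : p.η * ∫ x, ‖x‖ ∂law p.W ≤ p.η * (2 * (1 + p.B) * √p.d) :=
    mul_le_mul_of_nonneg_left hX hη
  have hd := mul_nonneg hη (Real.sqrt_nonneg (p.d : ℝ))
  simp only [baseB]
  nlinarith [mul_nonneg hd hP.bound_nonneg]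

end Vale.Agent.P347.Zero
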