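import Vale.Agent.P347.Zero.Reg
import Vale.Agent.P347.Zero.FamilyLaw

/-!
# P347, exponent zero: sizes of the iterated derivatives along the four flows

All constants depend only on the number of derivatives.
-/

open MeasureTheory ProbabilityTheory Real Set Function
open scoped RealInnerProductSpace

namespace Vale.Agent.P347.Zero

open Deriv

theorem dd_tvF (p : Par) (u : Z p.d) (j : Fin p.d) {t : ℝ} (ht : 0 < t) :
    dd u (tvF p t j) = fun z => exp t * dd u.1 (dd (bas j) (tU p.W t)) z.1 := by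
  show dd u (fun z : Z p.d => exp t * dd (bas j) (tU p.W t) z.1) = _
  rw [dd_fst (f := fun y => exp t * dd (bas j) (tU p.W t) y)
    ((((smJ_tU p).dd (bas j)).differentiable ht).const_mul (exp t)),
    dd_const_mul (((smJ_tU p).dd (bas j)).differentiable ht)]

theorem ss_tvF_le (p : Par) {t : ℝ} (ht : 1 ≤ t) :
    ss (tU p.W t) (tvF p t) ≤ 2 * baseB p ^ 2 := by
  have ht0 : 0 < t := by linarith
  have hU := pert_tU p.pert ht0
  have := hU.isProbabilityMeasure_law
  have := isProb_mu hU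
  have hg : ∀ j, Good 0 (tvF p t j) := fun j =>
    ((((good_tU p.pert ht0 1).dd (bas j))).const_mul (exp t)).comp
      (ContinuousLinearMap.fst ℝ (E p.d) (E p.d))
  have e : ∀ z : Z p.d, ∑ j, tvF p t j z ^ 2 = ‖tv p.W t z.1‖ ^ 2 := fun z => by
    rw [← (EuclideanSpace.basisFun (Fin p.d) ℝ).sum_sq_inner_left (tv p.W t z.1)]
    refine Finset.sum_congr rfl fun j _ => ?_
    show (exp t * dd (bas j) (tU p.W t) z.1) ^ 2 = ⟪tv p.W t z.1, bas j⟫ ^ 2
    simp only [tv_eq_grad p.pert ht0, real_inner_smul_left, inner_grad, Deriv.dd]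
  rw [ss_eq_integral_sum hU hg]
  simp only [e, mu]
  rw [integral_fun_fst (f := fun y : E p.d => ‖tv p.W t y‖ ^ 2)]
  simp only [probReal_univ, one_smul]
  set m := ∫ x, grad p.W x ∂law p.W with hm
  have hTc : Continuous (tv p.W t) := (contDiff_tv p.pert ht0 (n := 0)).continuous
  have hTp : PolyBd (tv p.W t) := by
    rw [tv_eq_grad p.pert ht0]
    exact (PolyBd.const (exp t)).smul hU.polyBd_grad
  have i1 : Integrable (fun y => ‖tv p.W t y‖ ^ 2) (law (tU p.W t)) :=
    hU.integrable_law (hTp.norm.pow 2) (hTc.norm.pow 2)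
  have i2 : Integrable (fun y => ‖tv p.W t y - m‖ ^ 2) (law (tU p.W t)) :=
    hU.integrable_law (((hTp.sub (PolyBd.const m))).norm.pow 2) ((hTc.sub continuous_const).norm.pow 2)
  refine (integral_mono i1 ((i2.const_mul 2).add (integrable_const (2 * ‖m‖ ^ 2))) fun y => ?_).trans ?_
  · have h := norm_le_norm_add_norm_sub' (tv p.W t y) m
    simp only [Pi.add_apply]
    nlinarith [sq_nonneg (‖m‖ - ‖tv p.W t y - m‖), norm_nonneg (tv p.W t y)]
  rw [integral_add' (i2.const_mul 2) (integrable_const _), integral_const_mul, integral_const,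
    probReal_univ, one_smul]
  refine (add_le_add (mul_le_mul_of_nonneg_left (tv_sub_mean_sq_le p.pert ht0) two_pos.le) le_rfl).trans ?_
  have hη := p.pert.eta_nonneg
  have he : exp (-(2 * t)) ≤ 1 := exp_le_one_iff.2 (by linarith)
  have hd := Real.sq_sqrt (Nat.cast_nonneg p.d : (0 : ℝ) ≤ p.d)
  have := mul_le_mul_of_nonneg_left he (mul_nonneg (sq_nonneg p.η) (Nat.cast_nonneg p.d))
  simp only [baseB, ← hm]
  nlinarith [mul_nonneg (norm_nonneg m) (mul_nonneg hη (Real.sqrt_nonneg (p.d : ℝ)))]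

theorem sum_idF (p : Par) : ∑ q : Fin p.d × Fin p.d, (if q.1 = q.2 then (1 : ℝ) else 0) ^ 2 = p.d := by
  rw [Fintype.sum_prod_type]
  simp

theorem base_idF : Base idF fun p => √p.d where
  smJ := fun p i => SmJ.const _
  good := fun p t _ i n => good_const n _
  bZero := fun p t _ i z => by simp [bF, bG, idF, dd_const]
  size := fun r => ⟨1, zero_le_one, fun p _ t ht => by
    rw [show idF p t = fun q (_ : Z p.d) => (if q.1 = q.2 then (1 : ℝ) else 0) from rfl,
      Q_const (pert_tU p.pert (by linarith)) r, sum_idF, one_mul,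
      Real.sq_sqrt (Nat.cast_nonneg _)]⟩

theorem base_tvF : Base tvF baseB where
  smJ := fun p i => (SmJ.time fun n => Real.contDiff_exp.contDiffOn).mul
    (((smJ_tU p).dd (bas i)).comp_lin (ContinuousLinearMap.fst ℝ (E p.d) (E p.d)))
  good := fun p t ht i n => (((good_tU p.pert ht (n + 1)).dd (bas i)).const_mul (exp t)).comp
    (ContinuousLinearMap.fst ℝ (E p.d) (E p.d))
  bZero := fun p t ht i z => by
    show bG ex (driftZ p) (fun t z => (fun t y => exp t * dd (bas i) (tU p.W t) y) t z.1) t z = 0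
    rw [bG_fst p ((SmJ.time fun n => Real.contDiff_exp.contDiffOn).mul ((smJ_tU p).dd _)) ht, bP,
      bG_time_mul (fun n => Real.contDiff_exp.contDiffOn) ((smJ_tU p).dd _) ht, Real.deriv_exp]
    change _ + exp t * bP p _ t z.1 = 0
    rw [bP_dd_tU p i ht]
    ring
  size := fun r => by
    cases r with
    | zero => exact ⟨2, two_pos.le, fun p _ t ht => ss_tvF_le p ht⟩
    | succ r =>
      have hT : Ten (Unit ⊕ Unit) (tD (Unit ⊕ Unit)) := Ten.base (by simp)
      obtain ⟨C, hC, hf⟩ := exists_Q_flat_le (Equiv.refl (Unit ⊕ Unit)) hT r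
      refine ⟨2 + C, by positivity, fun p _ t ht => ?_⟩
      have ht0 : 0 < t := by linarith
      have hU := pert_tU p.pert ht0
      set F : Fin p.d × (Unit → Fin p.d) → Z p.d → ℝ := fun q _ => if q.1 = q.2 () then 1 else 0
      have e1 : Deriv.dX (tvF p t) = fun i => mulF
          (flatM (Equiv.refl (Unit ⊕ Unit)) fun y J => exp t * tD (Unit ⊕ Unit) p t y J) F
          (i.1, unitEquiv p.d i.2) := by
        funext i z
        show dd (ex i.2) (tvF p t i.1) z = _
        rw [dd_tvF p _ _ ht0]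
        show exp t * dd (bas i.2) (dd (bas i.1) (tU p.W t)) z.1 =
          ∑ k, exp t * tD (Unit ⊕ Unit) p t z.1 (Sum.elim (unitEquiv p.d i.2) k) * F (i.1, k) z
        rw [← (unitEquiv p.d).sum_comp]
        simp only [tD_two p ht0]
        simp only [F, unitEquiv, Equiv.funUnique_symm_apply, uniqueElim_const]
        symm
        refine (Finset.sum_eq_single i.1 (fun x _ hx => ?_) fun h => absurd (Finset.mem_univ _) h).trans ?_
        · change _ * (if i.1 = x then (1 : ℝ) else 0) = 0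
          rw [if_neg (Ne.symm hx), mul_zero]
        · change _ * (if i.1 = i.1 then (1 : ℝ) else 0) = _
          rw [if_pos rfl, mul_one]
      have e2 : Deriv.dV (tvF p t) = fun _ _ => 0 := by
        funext i z
        show dd (ev i.2) (tvF p t i.1) z = 0
        rw [dd_tvF p _ _ ht0]
        simp [ev, Deriv.dd]
      have e3 : Deriv.Q (tU p.W t) 1 r F = p.d := by
        rw [show F = fun q (_ : Z p.d) => (if q.1 = q.2 () then (1 : ℝ) else 0) from rfl,
          Q_const hU r, ← ((Equiv.refl (Fin p.d)).prodCongr (unitEquiv p.d)).sum_comp]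
        exact sum_idF p
      simp only [Deriv.Q, one_pow, one_mul]
      rw [e1, e2, Q_zero, add_zero]
      have h1 := hf p t ht (exp t) (Fin p.d) F fun i n => good_const n _
      rw [e3] at h1
      have h2 : Deriv.Q (tU p.W t) 1 r (fun i : Fin p.d × Fin p.d => mulF
          (flatM (Equiv.refl (Unit ⊕ Unit)) fun y J => exp t * tD (Unit ⊕ Unit) p t y J) F
          (i.1, unitEquiv p.d i.2)) = _ :=
        Q_reindex r ((Equiv.refl (Fin p.d)).prodCongr (unitEquiv p.d)) _
      rw [h2]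
      have h3 : exp t * (p.η * exp (-t)) = p.η := by rw [exp_neg]; field_simp
      rw [h3] at h1
      have h4 : p.η ^ 2 * p.d ≤ baseB p ^ 2 := by
        rw [← Real.sq_sqrt (Nat.cast_nonneg p.d : (0 : ℝ) ≤ p.d), ← mul_pow]
        exact pow_le_pow_left₀ (mul_nonneg p.pert.eta_nonneg (Real.sqrt_nonneg _))
          (le_add_of_nonneg_left (norm_nonneg _)) 2
      linarith [ss_tvF_le p ht, mul_le_mul_of_nonneg_left h4 hC]

theorem Reg.awF : Reg idF 1 (fun d => Fin d) awF :=
  Reg.congr (fun p t _ i z => by simp [Zero.awF, Zero.mulA, mulF, Zero.delV, delG, show idF p t = fun q (_ : Z p.d) => (if q.1 = q.2 then (1 : ℝ) else 0) from rfl, dd_const])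
    ((((Reg.base (F₀ := idF)).delV (α := fun d => Fin d)).reindex
      fun d => Equiv.uniqueProd (Fin d) Unit).mulA.reindex
        fun d => (Equiv.uniqueProd (Fin d) Unit).symm)

theorem Reg.aawF : Reg idF 2 (fun d => Fin d) aawF :=
  Reg.congr (fun p t _ i z => by simp [Zero.aawF, Zero.mulA, mulF])
    ((Reg.awF.reindex fun d => Equiv.uniqueProd (Fin d) Unit).mulA.reindex
      fun d => (Equiv.uniqueProd (Fin d) Unit).symm)

theorem Reg.ltvF : Reg idF 1 (fun d => Fin d) ltvF :=
  Reg.congr (fun p t _ i z => by simp [Zero.ltvF])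
    ((((Reg.base (F₀ := idF)).mulA (α := fun d => Fin d)).delX).smul (-1))

section
variable {ι₀ : ℕ → Type} [∀ d, Fintype (ι₀ d)] {F₀ : Fam ι₀} {b : Par → ℝ} {ι : ℕ → Type}
  [∀ d, Fintype (ι d)] {F : Fam ι} {k : ℕ}

theorem Reg.iter_matD (h : Reg F₀ k ι F) (h₀ : Base F₀ b) :
    ∀ n, Reg F₀ k ι (Zero.matD^[n] F)
  | 0 => h
  | n + 1 => by rw [Function.iterate_succ']; exact (Reg.iter_matD h h₀ n).matD h₀

theorem Reg.iter_totD (h : Reg F₀ k ι F) (h₀ : Base F₀ b) :
    ∀ n, Reg F₀ k ι (Zero.totD^[n] F)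
  | 0 => h
  | n + 1 => by rw [Function.iterate_succ']; exact (Reg.iter_totD h h₀ n).totD h₀

theorem Reg.iter_hamD (h : Reg F₀ k ι F) : ∀ n, Reg F₀ k ι (Zero.hamD^[n] F)
  | 0 => h
  | n + 1 => by rw [Function.iterate_succ']; exact (Reg.iter_hamD h n).hamD

theorem Reg.iter_xA (h : Reg F₀ k ι F) : ∀ n, Reg F₀ (k + n) ι (Zero.xA^[n] F)
  | 0 => h
  | n + 1 => by rw [Function.iterate_succ']; exact (Reg.iter_xA h n).xA

end

theorem sized_mat_tv (n : ℕ) : Sized 0 baseB (matD^[n] tvF) :=
  (Reg.base.iter_matD base_tvF n).sized base_tvF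

theorem sized_mat_flow (n : ℕ) : Sized 0 baseB (matD^[n] (decay tvF)) :=
  (Reg.base.decay.iter_matD base_tvF n).sized base_tvF

theorem sized_tot_tv (n : ℕ) : Sized 0 baseB (totD^[n] tvF) :=
  (Reg.base.iter_totD base_tvF n).sized base_tvF

theorem sized_tot_flow (n : ℕ) : Sized 0 baseB (totD^[n] (decay tvF)) :=
  (Reg.base.decay.iter_totD base_tvF n).sized base_tvF

theorem sized_tot_aw (n : ℕ) : Sized 1 (fun p => √p.d) (totD^[n] awF) :=
  (Reg.awF.iter_totD base_idF n).sized base_idF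

theorem sized_tot_ltv (n : ℕ) : Sized 1 (fun p => √p.d) (totD^[n] ltvF) :=
  (Reg.ltvF.iter_totD base_idF n).sized base_idF

theorem sized_tot_aaw (n : ℕ) : Sized 2 (fun p => √p.d) (totD^[n] aawF) :=
  (Reg.aawF.iter_totD base_idF n).sized base_idF

theorem sized_aux_tv (n : ℕ) : Sized n baseB (xA^[n] tvF) := by
  simpa only [Nat.zero_add] using ((Reg.base (F₀ := tvF)).iter_xA n).sized base_tvF

theorem sized_aux_aw (n : ℕ) : Sized (n + 1) (fun p => √p.d) (xA^[n] awF) := by
  simpa only [Nat.add_comm 1 n] using (Reg.awF.iter_xA n).sized base_idF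

theorem sized_aux_ltv (n : ℕ) : Sized (n + 1) (fun p => √p.d) (xA^[n] ltvF) := by
  simpa only [Nat.add_comm 1 n] using (Reg.ltvF.iter_xA n).sized base_idF

theorem sized_ham_tv (n : ℕ) : Sized 0 baseB (hamD^[n] tvF) :=
  (Reg.base.iter_hamD n).sized base_tvF

theorem sized_ham_flow (n : ℕ) : Sized 0 baseB (hamD^[n] (decay tvF)) :=
  (Reg.base.decay.iter_hamD n).sized base_tvF

end Vale.Agent.P347.Zero
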