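import Vale.Agent.P347.Zero.ChainMake
import Vale.Agent.P347.Zero.Sizes

/-!
# P347, exponent zero: the chains along the probability, coupling, auxiliary and Hamiltonian flows

Every `G k` is the `k`-th derivative of `G 0` along the curves; all constants depend only on the
order.
-/

open MeasureTheory ProbabilityTheory Real Set Function
open scoped RealInnerProductSpace

namespace Vale.Agent.P347.Zero

open Deriv

/-- the size of `tv` for an instance -/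
noncomputable def gradBase {d : ℕ} (η : ℝ) (W : E d → ℝ) : ℝ :=
  ‖∫ x, grad W x ∂law W‖ + η * √d

theorem gradBase_le {d : ℕ} {η B : ℝ} {W : E d → ℝ} (hW : Pert η B W) :
    gradBase η W ≤ 4 * (1 + B) * η * √d :=
  baseB_le ⟨d, η, B, 1, W, hW⟩

theorem gradBase_nonneg {d : ℕ} {η B : ℝ} {W : E d → ℝ} (hW : Pert η B W) :
    0 ≤ gradBase η W :=
  baseB_nonneg ⟨d, η, B, 1, W, hW⟩

/-- The probability flow: `tv` and `flowField`. -/
theorem chain_flow (m : ℕ) : ∃ C : ℝ, 0 ≤ C ∧ ∀ (d : ℕ) (η B : ℝ) (W : E d → ℝ), Pert η B W →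
    (∃ G, Chain m (Ici (1 : ℝ)) (flowField W) (fun t => law (tU W t)) G
        (fun _ => C * gradBase η W) ∧ ∀ t, 1 ≤ t → ∀ y, G 0 t y = tv W t y) ∧
      ∃ G, Chain m (Ici (1 : ℝ)) (flowField W) (fun t => law (tU W t)) G
        (fun _ => C * gradBase η W) ∧ ∀ t, 1 ≤ t → ∀ y, G 0 t y = flowField W t y := by
  obtain ⟨C₁, h₁, c₁⟩ := chain_flowY yOnly_tvF sized_mat_tv m
  obtain ⟨C₂, h₂, c₂⟩ := chain_flowY yOnly_flowF sized_mat_flow m
  refine ⟨max C₁ C₂, le_max_of_le_left h₁, fun d η B W hW => ?_⟩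
  set p : Par := ⟨d, η, B, 1, W, hW⟩
  have hp : p.OK := ⟨one_pos, hW.eta_le_one⟩
  have hb := baseB_nonneg p
  refine ⟨⟨_, (c₁ p hp hb).mono_size fun _ => ?_, fun t ht y => ?_⟩,
    ⟨_, (c₂ p hp hb).mono_size fun _ => ?_, fun t ht y => ?_⟩⟩
  · exact mul_le_mul_of_nonneg_right (le_max_left _ _) hb
  · exact vec_tvF p (zero_lt_one.trans_le ht) (y, 0)
  · exact mul_le_mul_of_nonneg_right (le_max_right _ _) hb
  · exact vec_flowF p (zero_lt_one.trans_le ht) (y, 0)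

/-- The coupling flow in `(y, w)`: `tv`, `flowField`, `tA w`, the velocity of `w`, `tA (tA w)`. -/
theorem chain_couple (m : ℕ) : ∃ C : ℝ, 0 ≤ C ∧
    ∀ (d : ℕ) (η B g : ℝ) (W : E d → ℝ), Pert η B W → 0 < g → η ≤ g →
    let μ := fun t => (law (tU W t)).prod (stdGaussian (E d))
    (∃ G, Chain m (Ici (1 : ℝ)) (coupVec W g) μ G (fun _ => C * gradBase η W) ∧
        ∀ t, 1 ≤ t → ∀ z, G 0 t z = tv W t z.1) ∧
      (∃ G, Chain m (Ici (1 : ℝ)) (coupVec W g) μ G (fun _ => C * gradBase η W) ∧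
        ∀ t, 1 ≤ t → ∀ z, G 0 t z = flowField W t z.1) ∧
      (∃ G, Chain m (Ici (1 : ℝ)) (coupVec W g) μ G (fun _ => C * (η / g * √d)) ∧
        ∀ t, 1 ≤ t → ∀ z, G 0 t z = tA W g t z.1 z.2) ∧
      (∃ G, Chain m (Ici (1 : ℝ)) (coupVec W g) μ G (fun _ => C * (η / g * √d)) ∧
        ∀ t, 1 ≤ t → ∀ z, G 0 t z = g⁻¹ • matTv W t z.1) ∧
      ∃ G, Chain m (Ici (1 : ℝ)) (coupVec W g) μ G (fun _ => C * ((η / g) ^ 2 * √d)) ∧
        ∀ t, 1 ≤ t → ∀ z, G 0 t z = tA W g t z.1 (tA W g t z.1 z.2) := by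
  have hop : ∀ (G : Fam fun d => Fin d) (p : Par), (∀ i, SmJ fun t z => G p t i z) →
      ∀ t : ℝ, 0 < t → ∀ i z, totD G p t i z =
        deriv (fun s => G p s i z) t + dd (coupVec p.W p.g t z) (G p t i) z :=
    fun G p hG t ht i z => totD_eq p hG ht i z
  obtain ⟨C₁, h₁, c₁⟩ := chain_moving sized_tot_tv (fun p => coupVec p.W p.g) hop m
  obtain ⟨C₂, h₂, c₂⟩ := chain_moving sized_tot_flow (fun p => coupVec p.W p.g) hop m
  obtain ⟨C₃, h₃, c₃⟩ := chain_moving sized_tot_aw (fun p => coupVec p.W p.g) hop m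
  obtain ⟨C₄, h₄, c₄⟩ := chain_moving sized_tot_ltv (fun p => coupVec p.W p.g) hop m
  obtain ⟨C₅, h₅, c₅⟩ := chain_moving sized_tot_aaw (fun p => coupVec p.W p.g) hop m
  refine ⟨C₁ + C₂ + C₃ + C₄ + C₅, by positivity, fun d η B g W hW hg hηg => ?_⟩
  set p : Par := ⟨d, η, B, g, W, hW⟩
  have hp : p.OK := ⟨hg, hηg⟩
  have hb := baseB_nonneg p
  have hs : (0 : ℝ) ≤ √p.d := Real.sqrt_nonneg _
  have hρ : 0 ≤ η / g := div_nonneg hW.eta_nonneg hg.le
  refine ⟨⟨_, (c₁ p hp hb).mono_size fun _ => ?_, fun t ht z => ?_⟩,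
    ⟨_, (c₂ p hp hb).mono_size fun _ => ?_, fun t ht z => ?_⟩,
    ⟨_, (c₃ p hp hs).mono_size fun _ => ?_, fun t ht z => ?_⟩,
    ⟨_, (c₄ p hp hs).mono_size fun _ => ?_, fun t ht z => ?_⟩,
    ⟨_, (c₅ p hp hs).mono_size fun _ => ?_, fun t ht z => ?_⟩⟩
  · simp only [pow_zero, one_mul]
    exact mul_le_mul_of_nonneg_right (by linarith) hb
  · exact vec_tvF p (zero_lt_one.trans_le ht) z
  · simp only [pow_zero, one_mul]
    exact mul_le_mul_of_nonneg_right (by linarith) hb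
  · exact vec_flowF p (zero_lt_one.trans_le ht) z
  · simp only [pow_one]
    exact mul_le_mul_of_nonneg_right (by linarith) (mul_nonneg hρ hs)
  · exact vec_awF p (zero_lt_one.trans_le ht) z
  · simp only [pow_one]
    exact mul_le_mul_of_nonneg_right (by linarith) (mul_nonneg hρ hs)
  · exact vec_ltvF p (zero_lt_one.trans_le ht) z
  · exact mul_le_mul_of_nonneg_right (by linarith) (mul_nonneg (pow_nonneg hρ 2) hs)
  · exact vec_aawF p (zero_lt_one.trans_le ht) z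

/-- The auxiliary flow at a frozen time: `tv`, `tA w` and the velocity of `w`. -/
theorem chain_aux (m : ℕ) : ∃ C : ℝ, 0 ≤ C ∧
    ∀ (d : ℕ) (η B g : ℝ) (W : E d → ℝ), Pert η B W → 0 < g → η ≤ g → ∀ τ : ℝ, 1 ≤ τ →
    let μ := fun (_ : ℝ) => (law (tU W τ)).prod (stdGaussian (E d))
    (∃ G, Chain m univ (auxVec W g τ) μ G (fun k => C * ((η / g) ^ k * gradBase η W)) ∧
        ∀ x z, G 0 x z = tv W τ z.1) ∧
      (∃ G, Chain m univ (auxVec W g τ) μ G (fun k => C * ((η / g) ^ (k + 1) * √d)) ∧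
        ∀ x z, G 0 x z = tA W g τ z.1 z.2) ∧
      ∃ G, Chain m univ (auxVec W g τ) μ G (fun k => C * ((η / g) ^ (k + 1) * √d)) ∧
        ∀ x z, G 0 x z = g⁻¹ • matTv W τ z.1 := by
  have hop : ∀ (G : Fam fun d => Fin d) (p : Par), (∀ i, SmJ fun t z => G p t i z) →
      ∀ t : ℝ, 0 < t → ∀ x i z, xA G p t i z = dd (auxVec p.W p.g t x z) (G p t i) z :=
    fun G p hG t ht x i z => xA_eq p hG ht x i z
  obtain ⟨C₁, h₁, c₁⟩ := chain_frozen (κ := fun n => n) sized_aux_tv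
    (fun p => auxVec p.W p.g) hop m
  obtain ⟨C₂, h₂, c₂⟩ := chain_frozen (κ := fun n => n + 1) sized_aux_aw
    (fun p => auxVec p.W p.g) hop m
  obtain ⟨C₃, h₃, c₃⟩ := chain_frozen (κ := fun n => n + 1) sized_aux_ltv
    (fun p => auxVec p.W p.g) hop m
  refine ⟨C₁ + C₂ + C₃, by positivity, fun d η B g W hW hg hηg τ hτ => ?_⟩
  set p : Par := ⟨d, η, B, g, W, hW⟩
  have hp : p.OK := ⟨hg, hηg⟩
  have hb := baseB_nonneg p
  have hs : (0 : ℝ) ≤ √p.d := Real.sqrt_nonneg _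
  have hρ : 0 ≤ η / g := div_nonneg hW.eta_nonneg hg.le
  have ht : 0 < τ := zero_lt_one.trans_le hτ
  exact ⟨⟨_, (c₁ p hp hb τ hτ).mono_size fun k =>
      mul_le_mul_of_nonneg_right (by linarith) (mul_nonneg (pow_nonneg hρ _) hb),
      fun x z => vec_tvF p ht z⟩,
    ⟨_, (c₂ p hp hs τ hτ).mono_size fun k =>
      mul_le_mul_of_nonneg_right (by linarith) (mul_nonneg (pow_nonneg hρ _) hs),
      fun x z => vec_awF p ht z⟩,
    ⟨_, (c₃ p hp hs τ hτ).mono_size fun k =>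
      mul_le_mul_of_nonneg_right (by linarith) (mul_nonneg (pow_nonneg hρ _) hs),
      fun x z => vec_ltvF p ht z⟩⟩

/-- The Hamiltonian flow at a frozen time: `tv` and `flowField`. -/
theorem chain_hmc (m : ℕ) : ∃ C : ℝ, 0 ≤ C ∧
    ∀ (d : ℕ) (η B : ℝ) (W : E d → ℝ), Pert η B W → ∀ τ : ℝ, 1 ≤ τ →
    let μ := fun (_ : ℝ) => (law (tU W τ)).prod (stdGaussian (E d))
    (∃ G, Chain m univ (hmcVec W τ) μ G (fun _ => C * gradBase η W) ∧
        ∀ x z, G 0 x z = tv W τ z.1) ∧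
      ∃ G, Chain m univ (hmcVec W τ) μ G (fun _ => C * gradBase η W) ∧
        ∀ x z, G 0 x z = flowField W τ z.1 := by
  have hop : ∀ (G : Fam fun d => Fin d) (p : Par), (∀ i, SmJ fun t z => G p t i z) →
      ∀ t : ℝ, 0 < t → ∀ x i z, hamD G p t i z = dd (hmcVec p.W t x z) (G p t i) z :=
    fun G p hG t ht x i z => hamD_eq p hG ht x i z
  obtain ⟨C₁, h₁, c₁⟩ := chain_frozen (κ := fun _ => 0) sized_ham_tv
    (fun p => hmcVec p.W) hop m
  obtain ⟨C₂, h₂, c₂⟩ := chain_frozen (κ := fun _ => 0) sized_ham_flow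
    (fun p => hmcVec p.W) hop m
  refine ⟨C₁ + C₂, by positivity, fun d η B W hW τ hτ => ?_⟩
  set p : Par := ⟨d, η, B, 1, W, hW⟩
  have hp : p.OK := ⟨one_pos, hW.eta_le_one⟩
  have hb := baseB_nonneg p
  have ht : 0 < τ := zero_lt_one.trans_le hτ
  refine ⟨⟨_, (c₁ p hp hb τ hτ).mono_size fun k => ?_, fun x z => vec_tvF p ht z⟩,
    ⟨_, (c₂ p hp hb τ hτ).mono_size fun k => ?_, fun x z => vec_flowF p ht z⟩⟩ <;>
  · simp only [pow_zero, one_mul]
    exact mul_le_mul_of_nonneg_right (by linarith) hb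

end Vale.Agent.P347.Zero
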