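import Vale.Agent.P347.Lsm

/-!
# P347, exponent zero: the tilted family and the coupling field (frozen interface)

`tU W t` is the perturbation of the law of `e^{-t} X + √(1 - e^{-2t}) Z`, `X ∼ law W`; `tv W t y` is
`E[∇W X | Y_t = y] = e^t ∇(tU W t) y`. The coupling field lives on `(y, Y)`, `Y = tv / g + w`.
-/

open MeasureTheory ProbabilityTheory Real
open scoped RealInnerProductSpace

namespace Vale.Agent.P347.Zero

variable {d : ℕ}

/-- the noise level at time `t` -/
noncomputable def bT (t : ℝ) : ℝ := √(1 - exp (-(2 * t)))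

/-- the perturbation at time `t` -/
noncomputable def tU (W : E d → ℝ) (t : ℝ) : E d → ℝ := lsm (bT t) W

/-- the conditional mean of the gradient at time `t` -/
noncomputable def tv (W : E d → ℝ) (t : ℝ) (y : E d) : E d :=
  ∫ z, grad W (cosB (bT t) • y + bT t • z) ∂law (post (bT t) W y)

/-- the symmetric matrix `D (tv W t) y / g` -/
noncomputable def tA (W : E d → ℝ) (g t : ℝ) (y : E d) : E d →L[ℝ] E d :=
  g⁻¹ • fderiv ℝ (tv W t) y

/-- the velocity of the probability flow -/
noncomputable def flowField (W : E d → ℝ) (t : ℝ) (y : E d) : E d := exp (-t) • tv W t y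

/-- the `w` coordinate of a state `(y, Y)` -/
noncomputable def wOf (W : E d → ℝ) (g t : ℝ) (p : E d × E d) : E d := p.2 - g⁻¹ • tv W t p.1

/-- the coupling field on states `(y, Y)` -/
noncomputable def coupleField (W : E d → ℝ) (g t : ℝ) (p : E d × E d) : E d × E d :=
  (flowField W t p.1 - tA W g t p.1 (wOf W g t p),
    -tA W g t p.1 (tA W g t p.1 (wOf W g t p)))

/-- the law of the coupled state at time `t` -/
noncomputable def coupleLaw (W : E d → ℝ) (g t : ℝ) : Measure (E d × E d) :=
  ((law (tU W t)).prod (stdGaussian (E d))).map fun p => (p.1, g⁻¹ • tv W t p.1 + p.2)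

end Vale.Agent.P347.Zero
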