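import Vale.Agent.P347.Model

/-!
# P347, exponent zero: the Gaussian exponential family over a perturbation

`fint W h θ = ∫ exp (-θ₁ ‖x‖² + ⟪x, θ₂⟫ - W x) • h x`, smooth on `θ₁ > 0`.
-/

open MeasureTheory Real Set Filter
open scoped RealInnerProductSpace Topology

namespace Vale.Agent.P347.Zero

variable {d : ℕ}

/-- the parameters `θ₁ > 0` -/
def posPar (d : ℕ) : Set (ℝ × E d) := {θ | 0 < θ.1}

theorem isOpen_posPar : IsOpen (posPar d) := isOpen_lt continuous_const continuous_fst

/-- the sufficient statistic -/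
noncomputable def suff (x : E d) : ℝ × E d →L[ℝ] ℝ :=
  -(‖x‖ ^ 2) • ContinuousLinearMap.fst ℝ ℝ (E d) +
    (innerSL ℝ x).comp (ContinuousLinearMap.snd ℝ ℝ (E d))

theorem suff_apply (x : E d) (θ : ℝ × E d) : suff x θ = -(‖x‖ ^ 2 * θ.1) + ⟪x, θ.2⟫ := by
  simp [suff]

theorem continuous_suff : Continuous (suff (d := d)) :=
  ((continuous_norm.pow 2).neg.smul continuous_const).add
    ((innerSL ℝ (E := E d)).continuous.clm_comp continuous_const)

theorem polyBd_suff : PolyBd (suff (d := d)) := by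
  refine ((PolyBd.id.norm.pow 2).add PolyBd.id.norm).of_le fun x => ?_
  refine (ContinuousLinearMap.opNorm_le_bound (f := suff x) (M := ‖x‖ ^ 2 + ‖x‖) (by positivity)
    fun θ => ?_).trans (le_abs_self _)
  rw [suff_apply, Real.norm_eq_abs, add_mul]
  refine (abs_add_le _ _).trans (add_le_add ?_ ?_)
  · rw [abs_neg, abs_mul, abs_of_nonneg (sq_nonneg ‖x‖)]
    exact mul_le_mul_of_nonneg_left (norm_fst_le θ) (sq_nonneg _)
  · exact (abs_real_inner_le_norm _ _).trans
      (mul_le_mul_of_nonneg_left (norm_snd_le θ) (norm_nonneg _))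

/-- the unnormalised weight -/
noncomputable def fw (W : E d → ℝ) (θ : ℝ × E d) (x : E d) : ℝ := exp (suff x θ - W x)

/-- the unnormalised mean -/
noncomputable def fint {G : Type*} [NormedAddCommGroup G] [NormedSpace ℝ G]
    (W : E d → ℝ) (h : E d → G) (θ : ℝ × E d) : G := ∫ x, fw W θ x • h x

/-- the mean -/
noncomputable def fmean {G : Type*} [NormedAddCommGroup G] [NormedSpace ℝ G]
    (W : E d → ℝ) (h : E d → G) (θ : ℝ × E d) : G :=
  (fint W (fun _ => (1 : ℝ)) θ)⁻¹ • fint W h θ

variable {η B : ℝ} {W : E d → ℝ} {G : Type} [NormedAddCommGroup G] [NormedSpace ℝ G]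
  (hW : Pert η B W)
include hW

theorem decay_dom {a : ℝ} (ha : 0 < a) (R : ℝ) :
    Decay fun x => a * ‖x‖ ^ 2 - R * ‖x‖ + W x := by
  have hc := hW.contDiff.continuous
  refine decay_of_quadratic (by fun_prop) ha (b := |R| + ‖grad W 0‖ + |W 0|) fun x => ?_
  have h1 := hW.lower x
  have h2 := neg_le_of_abs_le (abs_real_inner_le_norm (grad W 0) x)
  nlinarith [mul_le_mul_of_nonneg_right (le_abs_self R) (norm_nonneg x), neg_abs_le (W 0),
    norm_nonneg x, abs_nonneg R, norm_nonneg (grad W 0), mul_nonneg (abs_nonneg (W 0)) (norm_nonneg x)]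

theorem integrable_fw {h : E d → G} (hh : Continuous h) (hp : PolyBd h) {θ : ℝ × E d}
    (hθ : θ ∈ posPar d) : Integrable fun x => fw W θ x • h x := by
  have hc := hW.contDiff.continuous
  refine ((decay_dom hW hθ ‖θ.2‖).integrable hh.norm.aestronglyMeasurable hp.norm).mono'
    ((((continuous_suff.clm_apply continuous_const).sub hc).rexp.smul hh).aestronglyMeasurable)
    (ae_of_all _ fun x => ?_)
  rw [norm_smul, fw, Real.norm_eq_abs, abs_of_pos (exp_pos _), suff_apply, smul_eq_mul]
  refine mul_le_mul_of_nonneg_right (exp_le_exp.2 ?_) (norm_nonneg _)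
  linarith [le_of_abs_le (abs_real_inner_le_norm x θ.2)]

theorem hasFDerivAt_fint [CompleteSpace G] {h : E d → G} (hh : Continuous h) (hp : PolyBd h)
    {θ : ℝ × E d} (hθ : θ ∈ posPar d) :
    HasFDerivAt (fint W h) (fint W (fun x => (suff x).smulRight (h x)) θ) θ := by
  have hc := hW.contDiff.continuous
  have ha : 0 < θ.1 / 2 := half_pos hθ
  set R := ‖θ.2‖ + θ.1 / 2
  have hdp : PolyBd fun x => (suff x).smulRight (h x) :=
    polyBd_suff.mul_of_le hp fun x => by simp
  have hdc : Continuous fun x => (suff x).smulRight (h x) :=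
    (ContinuousLinearMap.smulRightL ℝ (ℝ × E d) G).continuous.comp continuous_suff |>.clm_apply hh
  refine hasFDerivAt_integral_of_dominated_of_fderiv_le (𝕜 := ℝ)
    (F := fun θ' x => fw W θ' x • h x)
    (F' := fun θ' x => fw W θ' x • (suff x).smulRight (h x))
    (bound := fun x => exp (-(θ.1 / 2 * ‖x‖ ^ 2 - R * ‖x‖ + W x)) • ‖(suff x).smulRight (h x)‖)
    (Metric.ball_mem_nhds θ ha) (Eventually.of_forall fun θ' =>
      (((continuous_suff.clm_apply continuous_const).sub hc).rexp.smul hh).aestronglyMeasurable)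
    (integrable_fw hW hh hp hθ)
    ((((continuous_suff.clm_apply continuous_const).sub hc).rexp.smul hdc).aestronglyMeasurable)
    (ae_of_all _ fun x θ' hθ' => ?_)
    ((decay_dom hW ha R).integrable hdc.norm.aestronglyMeasurable hdp.norm)
    (ae_of_all _ fun x θ' _ => ?_)
  · rw [Metric.mem_ball, dist_eq_norm] at hθ'
    have h1 : θ.1 / 2 ≤ θ'.1 := by
      have := (abs_le.1 ((norm_fst_le (θ' - θ)).trans hθ'.le)).1
      simp at this
      linarith
    have h2 : ‖θ'.2‖ ≤ R := by
      have := norm_le_norm_add_norm_sub' θ'.2 θ.2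
      have h3 : ‖θ'.2 - θ.2‖ ≤ θ.1 / 2 := (norm_snd_le (θ' - θ)).trans hθ'.le
      simp only [R]
      linarith
    rw [norm_smul, fw, Real.norm_eq_abs, abs_of_pos (exp_pos _), suff_apply, smul_eq_mul]
    refine mul_le_mul_of_nonneg_right (exp_le_exp.2 ?_) (norm_nonneg _)
    nlinarith [le_of_abs_le (abs_real_inner_le_norm x θ'.2),
      mul_le_mul_of_nonneg_left h1 (sq_nonneg ‖x‖),
      mul_le_mul_of_nonneg_left h2 (norm_nonneg x)]
  · have h1 : HasFDerivAt (fun θ' => fw W θ' x) (fw W θ' x • suff x) θ' :=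
      ((suff x).hasFDerivAt.sub_const (W x)).exp
    refine (h1.smul_const (h x)).congr_fderiv ?_
    ext u <;> simp [mul_smul]

theorem contDiffOn_fint_nat : ∀ (n : ℕ) {G : Type} [NormedAddCommGroup G] [NormedSpace ℝ G]
    [CompleteSpace G] {h : E d → G}, Continuous h → PolyBd h →
    ContDiffOn ℝ n (fint W h) (posPar d)
  | 0, _, _, _, _, h, hh, hp => by
    rw [Nat.cast_zero, contDiffOn_zero]
    exact fun θ hθ => (hasFDerivAt_fint hW hh hp hθ).continuousAt.continuousWithinAt
  | n + 1, _, _, _, _, h, hh, hp => by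
    rw [Nat.cast_add, Nat.cast_one, contDiffOn_succ_iff_fderiv_of_isOpen isOpen_posPar]
    refine ⟨fun θ hθ => (hasFDerivAt_fint hW hh hp hθ).differentiableAt.differentiableWithinAt,
      by simp, ?_⟩
    refine (contDiffOn_fint_nat n (h := fun x => (suff x).smulRight (h x)) ?_ ?_).congr
      fun θ hθ => (hasFDerivAt_fint hW hh hp hθ).fderiv
    · exact (ContinuousLinearMap.smulRightL ℝ (ℝ × E d) _).continuous.comp continuous_suff
        |>.clm_apply hh
    · exact polyBd_suff.mul_of_le hp fun x => by simp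

theorem contDiffOn_fint [CompleteSpace G] {h : E d → G} (hh : Continuous h) (hp : PolyBd h)
    {n : ℕ∞} : ContDiffOn ℝ n (fint W h) (posPar d) := by
  refine (contDiffOn_infty.2 fun k => contDiffOn_fint_nat hW k hh hp).of_le ?_
  exact_mod_cast le_top

theorem fint_one_pos {θ : ℝ × E d} (hθ : θ ∈ posPar d) : 0 < fint W (fun _ => (1 : ℝ)) θ := by
  have h := integrable_fw hW continuous_const (PolyBd.const (1 : ℝ)) hθ
  simp only [smul_eq_mul, mul_one, fw] at h
  simpa [fint, fw] using integral_exp_pos h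

theorem contDiffOn_fmean [CompleteSpace G] {h : E d → G} (hh : Continuous h) (hp : PolyBd h)
    {n : ℕ∞} : ContDiffOn ℝ n (fmean W h) (posPar d) :=
  ((contDiffOn_fint hW continuous_const (PolyBd.const (1 : ℝ))).inv
    fun _ hθ => (fint_one_pos hW hθ).ne').smul (contDiffOn_fint hW hh hp)

theorem fmean_const [CompleteSpace G] (c : G) {θ : ℝ × E d} (hθ : θ ∈ posPar d) :
    fmean W (fun _ => c) θ = c := by
  have := (fint_one_pos hW hθ).ne'
  simp only [fmean, fint, smul_eq_mul, mul_one] at this ⊢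
  rw [integral_smul_const, smul_smul, inv_mul_cancel₀ this, one_smul]

theorem fmean_add {h k : E d → G} (hh : Continuous h) (hp : PolyBd h) (hk : Continuous k)
    (kp : PolyBd k) {θ : ℝ × E d} (hθ : θ ∈ posPar d) :
    fmean W (fun x => h x + k x) θ = fmean W h θ + fmean W k θ := by
  simp only [fmean, fint, smul_add]
  rw [integral_add (integrable_fw hW hh hp hθ) (integrable_fw hW hk kp hθ), smul_add]

theorem fmean_sum {ι : Type*} (s : Finset ι) {h : ι → E d → G} (hh : ∀ i, Continuous (h i))
    (hp : ∀ i, PolyBd (h i)) {θ : ℝ × E d} (hθ : θ ∈ posPar d) :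
    fmean W (fun x => ∑ i ∈ s, h i x) θ = ∑ i ∈ s, fmean W (h i) θ := by
  simp only [fmean, fint, Finset.smul_sum]
  rw [integral_finsetSum _ fun i _ => integrable_fw hW (hh i) (hp i) hθ, Finset.smul_sum]

omit hW in
theorem fmean_smul (c : ℝ) (h : E d → G) (θ : ℝ × E d) :
    fmean W (fun x => c • h x) θ = c • fmean W h θ := by
  simp only [fmean, fint, smul_comm _ c, integral_smul]

theorem fmean_clm {K : Type} [NormedAddCommGroup K] [NormedSpace ℝ K] [CompleteSpace G]
    [CompleteSpace K] (L : G →L[ℝ] K) {h : E d → G} (hh : Continuous h) (hp : PolyBd h)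
    {θ : ℝ × E d} (hθ : θ ∈ posPar d) :
    fmean W (fun x => L (h x)) θ = L (fmean W h θ) := by
  rw [fmean, fmean, map_smul]
  simp only [fint]
  rw [← L.integral_comp_comm (integrable_fw hW hh hp hθ)]
  simp

/-- the derivative of a mean is a covariance with the sufficient statistic -/
theorem hasFDerivAt_fmean [CompleteSpace G] {h : E d → G} (hh : Continuous h) (hp : PolyBd h)
    {θ : ℝ × E d} (hθ : θ ∈ posPar d) : ∃ L : ℝ × E d →L[ℝ] G,
      HasFDerivAt (fmean W h) L θ ∧ ∀ u, L u = fmean W (fun x => suff x u • h x) θ -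
        fmean W (fun x => suff x u) θ • fmean W h θ := by
  have hN := (fint_one_pos hW hθ).ne'
  have h1 := hasFDerivAt_fint hW hh hp hθ
  have h0 := hasFDerivAt_fint hW continuous_const (PolyBd.const (1 : ℝ)) hθ
  refine ⟨_, ((hasDerivAt_inv hN).comp_hasFDerivAt θ h0).smul h1, fun u => ?_⟩
  have e : ∀ {K : Type} [NormedAddCommGroup K] [NormedSpace ℝ K] [CompleteSpace K] {k : E d → K},
      Continuous k → PolyBd k →
      fint W (fun x => (suff x).smulRight (k x)) θ u = fint W (fun x => suff x u • k x) θ := by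
    intro K _ _ _ k hk kp
    have hc : Continuous fun x => (suff x).smulRight (k x) :=
      (ContinuousLinearMap.smulRightL ℝ (ℝ × E d) K).continuous.comp continuous_suff |>.clm_apply hk
    have hp' : PolyBd fun x => (suff x).smulRight (k x) :=
      polyBd_suff.mul_of_le kp fun x => by simp
    rw [fint, ContinuousLinearMap.integral_apply (integrable_fw hW hc hp' hθ)]
    simp [fint]
  simp only [_root_.add_apply, _root_.smul_apply, ContinuousLinearMap.smulRight_apply,
    Function.comp_apply, e hh hp, e continuous_const (PolyBd.const (1 : ℝ)), fmean, smul_eq_mul,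
    mul_one]
  module

end Vale.Agent.P347.Zero
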