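import Vale.Agent.P347.Zero.Defs
import Vale.Agent.P347.Zero.ExpFam
import Vale.Agent.P347.LsmDeriv

/-!
# P347, exponent zero: the tilted family at every positive time

Smoothness, the heat equation of `tU` and `tv`, the laws, and the two limits.
-/

open MeasureTheory ProbabilityTheory Real Set Filter
open scoped RealInnerProductSpace Topology

namespace Vale.Agent.P347.Zero

open Deriv

variable {d : ℕ}

/-- `bT t ^ 2` -/
noncomputable def b2 (t : ℝ) : ℝ := 1 - exp (-(2 * t))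

theorem b2_pos {t : ℝ} (ht : 0 < t) : 0 < b2 t := by
  have : exp (-(2 * t)) < 1 := exp_lt_one_iff.2 (by linarith)
  unfold b2; linarith

theorem bT_eq (t : ℝ) : bT t = √(b2 t) := rfl

theorem bT_pos {t : ℝ} (ht : 0 < t) : 0 < bT t := Real.sqrt_pos.2 (b2_pos ht)

theorem bT_sq {t : ℝ} (ht : 0 < t) : bT t ^ 2 = b2 t := Real.sq_sqrt (b2_pos ht).le

theorem bT_lt_one {t : ℝ} (ht : 0 < t) : bT t < 1 := by
  refine (Real.sqrt_lt_sqrt (b2_pos ht).le (show b2 t < 1 from ?_)).trans_eq Real.sqrt_one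
  unfold b2; linarith [exp_pos (-(2 * t))]

theorem exp_neg_sq (t : ℝ) : exp (-t) ^ 2 = exp (-(2 * t)) := by
  rw [← exp_nat_mul]; push_cast; ring_nf

theorem cosB_bT {t : ℝ} (ht : 0 < t) : cosB (bT t) = exp (-t) := by
  rw [cosB, bT_sq ht, b2, sub_sub_cancel, ← exp_neg_sq, Real.sqrt_sq (exp_pos _).le]

/-- the precision parameter -/
noncomputable def aT (t : ℝ) : ℝ := (2 * b2 t)⁻¹

/-- the shift parameter -/
noncomputable def kT (t : ℝ) : ℝ := exp (-t) / b2 t

/-- the parameter of the law of `X` given `Y_t = y` -/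
noncomputable def par2 (t : ℝ) (y : E d) : ℝ × E d := (aT t, kT t • y)

/-- the logarithm of the Gaussian normalising constant -/
noncomputable def logK (d : ℕ) : ℝ := Real.log (∫ y : E d, exp (-gPot y))

theorem par2_mem {t : ℝ} (ht : 0 < t) (y : E d) : par2 t y ∈ posPar d :=
  show 0 < (2 * b2 t)⁻¹ by have := b2_pos ht; positivity

theorem contDiffAt_b2 {n : ℕ∞} (t : ℝ) : ContDiffAt ℝ n b2 t := by
  unfold b2; fun_prop

theorem contDiffOn_par2 {n : ℕ∞} :
    ContDiffOn ℝ n (fun p : ℝ × E d => par2 p.1 p.2) (Ioi 0 ×ˢ univ) := by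
  intro p hp
  have hb : b2 p.1 ≠ 0 := (b2_pos hp.1).ne'
  have h2 := contDiffAt_b2 (n := n) p.1
  have ha : ContDiffAt ℝ n aT p.1 :=
    (contDiffAt_const.mul h2).inv (mul_ne_zero two_ne_zero hb)
  have hk : ContDiffAt ℝ n kT p.1 := contDiffAt_id.neg.exp.div h2 hb
  exact ((ha.comp p contDiffAt_fst).prodMk
    ((hk.comp p contDiffAt_fst).smul contDiffAt_snd)).contDiffWithinAt

theorem integral_affine {F : Type*} [NormedAddCommGroup F] [NormedSpace ℝ F] (p : E d) {b : ℝ}
    (hb : 0 < b) (f : E d → F) : ∫ z, f (p + b • z) = (b ^ d)⁻¹ • ∫ x, f x := by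
  rw [Measure.integral_comp_smul volume (fun x => f (p + x)) b, integral_add_left_eq_self f p]
  simp [finrank_euclideanSpace, abs_of_pos (inv_pos.2 (pow_pos hb d))]

theorem integral_post {G : Type} [NormedAddCommGroup G] [NormedSpace ℝ G] (W : E d → ℝ) {t : ℝ}
    (ht : 0 < t) (y : E d) (h : E d → G) :
    ∫ z, exp (-pot (post (bT t) W y) z) • h (exp (-t) • y + bT t • z) =
      (exp (-(aT t * (exp (-(2 * t)) * ‖y‖ ^ 2))) * (bT t ^ d)⁻¹) • fint W h (par2 t y) := by
  have hb := bT_pos ht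
  have hb2 := bT_sq ht
  have hne := (b2_pos ht).ne'
  have e : ∀ z, exp (-pot (post (bT t) W y) z) • h (exp (-t) • y + bT t • z) =
      exp (-(aT t * (exp (-(2 * t)) * ‖y‖ ^ 2))) •
        (fun x => fw W (par2 t y) x • h x) (exp (-t) • y + bT t • z) := fun z => by
    simp only [fw, smul_smul, ← exp_add, suff_apply, par2, pot, post, cosB_bT ht]
    congr 2
    simp only [norm_add_sq_real, norm_smul, Real.norm_eq_abs, inner_add_left, real_inner_smul_left,
      real_inner_smul_right, mul_pow, sq_abs, real_inner_self_eq_norm_sq, aT, kT, hb2, exp_neg_sq,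
      real_inner_comm z y]
    have e2 := exp_neg_sq t
    field_simp
    rw [← e2]
    ring
  simp only [e]
  rw [integral_smul, integral_affine _ hb fun x => fw W (par2 t y) x • h x, smul_smul]
  rfl

variable {η B : ℝ} {W : E d → ℝ} (hW : Pert η B W)
include hW

theorem tv_eq {t : ℝ} (ht : 0 < t) (y : E d) : tv W t y = fmean W (grad W) (par2 t y) := by
  have hP := hW.post_pert (bT_pos ht) (bT_lt_one ht) y
  have h1 := integral_post W ht y (grad W)
  have h0 := integral_post W ht y fun _ => (1 : ℝ)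
  simp only [smul_eq_mul, mul_one] at h0
  rw [tv, hP.integral_law, cosB_bT ht, h1, h0, fmean, smul_smul]
  congr 1
  have : 0 < bT t := bT_pos ht
  field_simp

theorem tU_eq {t : ℝ} (ht : 0 < t) (y : E d) :
    tU W t y = aT t * (exp (-(2 * t)) * ‖y‖ ^ 2) + d / 2 * Real.log (b2 t) + logK d -
      Real.log (fint W (fun _ => (1 : ℝ)) (par2 t y)) := by
  have hb := bT_pos ht
  have hK := integral_exp_gPot_pos (d := d)
  have hN := fint_one_pos hW (par2_mem ht y)
  have h0 := integral_post W ht y fun _ => (1 : ℝ)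
  simp only [smul_eq_mul, mul_one] at h0
  have e : ∫ z, exp (-post (bT t) W y z) ∂stdGaussian (E d) =
      (∫ y : E d, exp (-gPot y))⁻¹ * ∫ z, exp (-pot (post (bT t) W y) z) := by
    rw [integral_stdGaussian, smul_eq_mul]
    congr 1
    refine integral_congr_ae (ae_of_all _ fun z => ?_)
    simp [pot, gPot, ← exp_add]
    ring_nf
  rw [tU, lsm, e, h0, Real.log_mul (inv_ne_zero hK.ne') (by positivity),
    Real.log_mul (by positivity) hN.ne', Real.log_mul (exp_pos _).ne' (by positivity),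
    Real.log_inv, Real.log_inv, Real.log_exp, Real.log_pow, bT_eq, Real.log_sqrt (b2_pos ht).le,
    logK]
  ring

theorem contDiffOn_tv {n : ℕ∞} :
    ContDiffOn ℝ n (fun p : ℝ × E d => tv W p.1 p.2) (Ioi 0 ×ˢ univ) :=
  ((contDiffOn_fmean hW hW.contDiff_grad.continuous hW.polyBd_grad).comp contDiffOn_par2
    fun p hp => par2_mem hp.1 p.2).congr fun p hp => tv_eq hW hp.1 p.2

theorem contDiffOn_tU {n : ℕ∞} :
    ContDiffOn ℝ n (fun p : ℝ × E d => tU W p.1 p.2) (Ioi 0 ×ˢ univ) := by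
  refine ContDiffOn.congr ?_ fun p hp => tU_eq hW hp.1 p.2
  have h1 : ∀ p ∈ (Ioi (0 : ℝ)) ×ˢ (univ : Set (E d)), ContDiffWithinAt ℝ n
      (fun p : ℝ × E d => aT p.1 * (exp (-(2 * p.1)) * ‖p.2‖ ^ 2) + d / 2 * Real.log (b2 p.1) +
        logK d) (Ioi 0 ×ˢ univ) p := fun p hp => by
    have h2 : ContDiffAt ℝ n (fun p : ℝ × E d => b2 p.1) p :=
      (contDiffAt_b2 p.1).comp p contDiffAt_fst
    have hb : b2 p.1 ≠ 0 := (b2_pos hp.1).ne'
    exact ((((contDiffAt_const.mul h2).inv (mul_ne_zero two_ne_zero hb)).mul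
      (((contDiffAt_const.mul contDiffAt_fst).neg.exp).mul
        ((contDiff_norm_sq ℝ).contDiffAt.comp p contDiffAt_snd))).add
      (contDiffAt_const.mul (h2.log hb))).add contDiffAt_const |>.contDiffWithinAt
  exact ContDiffOn.sub h1 (((contDiffOn_fint hW continuous_const (PolyBd.const (1 : ℝ))).comp
    contDiffOn_par2 fun p hp => par2_mem hp.1 p.2).log fun p hp =>
      (fint_one_pos hW (par2_mem hp.1 p.2)).ne')

theorem contDiff_tv {t : ℝ} (ht : 0 < t) {n : ℕ∞} : ContDiff ℝ n (tv W t) :=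
  contDiffOn_univ.1 ((contDiffOn_tv hW).comp (f := fun y : E d => (t, y))
    (contDiff_const.prodMk contDiff_id).contDiffOn fun _ _ => ⟨ht, trivial⟩)

theorem contDiff_tU {t : ℝ} (ht : 0 < t) {n : ℕ∞} : ContDiff ℝ n (tU W t) :=
  contDiffOn_univ.1 ((contDiffOn_tU hW).comp (f := fun y : E d => (t, y))
    (contDiff_const.prodMk contDiff_id).contDiffOn fun _ _ => ⟨ht, trivial⟩)

omit hW in
theorem fderiv_snd_eq {F : Type} [NormedAddCommGroup F] [NormedSpace ℝ F] {f : ℝ → E d → F}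
    {n : ℕ∞} (hf : ContDiffOn ℝ (n + 1) (fun p : ℝ × E d => f p.1 p.2) (Ioi 0 ×ˢ univ))
    {t : ℝ} (ht : 0 < t) (y : E d) : fderiv ℝ (f t) y =
      (fderiv ℝ (fun p : ℝ × E d => f p.1 p.2) (t, y)).comp (ContinuousLinearMap.inr ℝ ℝ (E d)) := by
  have hd := (hf.differentiableOn (by simp)).differentiableAt
    (x := (t, y)) ((isOpen_Ioi.prod isOpen_univ).mem_nhds ⟨ht, trivial⟩)
  exact (hd.hasFDerivAt.comp y ((hasFDerivAt_const t y).prodMk (hasFDerivAt_id y))).fderiv

theorem contDiffOn_fderiv_tv {n : ℕ∞} :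
    ContDiffOn ℝ n (fun p : ℝ × E d => fderiv ℝ (tv W p.1) p.2) (Ioi 0 ×ˢ univ) := by
  have hf : ContDiffOn ℝ ((n : WithTop ℕ∞) + 1) (fun p : ℝ × E d => tv W p.1 p.2)
      (Ioi 0 ×ˢ univ) := by
    refine (contDiffOn_tv hW (n := n + 1)).of_le ?_
    simp
  refine (((hf.fderiv_of_isOpen (isOpen_Ioi.prod isOpen_univ) le_rfl).clm_comp
    contDiffOn_const)).congr fun p hp => fderiv_snd_eq hf hp.1 p.2

theorem contDiffOn_tA (g : ℝ) {n : ℕ∞} :
    ContDiffOn ℝ n (fun p : ℝ × E d => tA W g p.1 p.2) (Ioi 0 ×ˢ univ) :=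
  (contDiffOn_fderiv_tv hW).const_smul g⁻¹

theorem grad_tU {t : ℝ} (ht : 0 < t) (y : E d) :
    grad (tU W t) y = exp (-t) • tv W t y := by
  rw [← cosB_bT ht]
  exact hW.grad_lsm (bT_pos ht) (bT_lt_one ht) y

theorem flowField_eq {t : ℝ} (ht : 0 < t) (y : E d) : flowField W t y = grad (tU W t) y :=
  (grad_tU hW ht y).symm

theorem tv_eq_grad {t : ℝ} (ht : 0 < t) : tv W t = fun y => exp t • grad (tU W t) y := by
  funext y
  rw [grad_tU hW ht, smul_smul, ← exp_add, add_neg_cancel, exp_zero, one_smul]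

theorem good_tU {t : ℝ} (ht : 0 < t) (n : ℕ) : Good n (tU W t) :=
  hW.good_lsm (bT_pos ht) (bT_lt_one ht) n

theorem pert_tU {t : ℝ} (ht : 0 < t) : Pert η (3 * (1 + B)) (tU W t) :=
  hW.lsm_pert' (bT_pos ht) (bT_lt_one ht)

omit hW in
theorem hess_dd {U : E d → ℝ} (hU : ContDiff ℝ 2 U) (u v : E d) :
    ⟪fderiv ℝ (grad U) u v, v⟫ = dd v (dd v U) u := by
  have hg : Differentiable ℝ (grad U) := (P347.contDiff_grad (n := 1)
    (by simpa [one_add_one_eq_two] using hU)).differentiable one_ne_zero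
  rw [show dd v U = fun y => ⟪grad U y, v⟫ from funext fun y => (inner_grad y v).symm]
  show _ = fderiv ℝ (fun y => ⟪grad U y, v⟫) u v
  rw [fderiv_inner_apply (𝕜 := ℝ) (hg u) (differentiableAt_const v)]
  simp

/-- the Hessian of `tU W t` is at most `η * exp (-2t)` -/
theorem pert_tU' {t : ℝ} (ht : 0 < t) :
    Pert (η * exp (-(2 * t))) (3 * (1 + B) * exp (2 * t)) (tU W t) := by
  have h := pert_tU hW ht
  have hη := hW.eta_nonneg
  have hB := hW.bound_nonneg
  refine ⟨by positivity, (mul_le_of_le_one_right hη (exp_le_one_iff.2 (by linarith))).trans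
    hW.eta_le_one, by positivity, h.contDiff, h.hess_nonneg, fun u v => ?_, ?_⟩
  · have hb := bT_pos ht
    obtain ⟨V, h1, h2, h3⟩ := hW.hess_lsm hb (bT_lt_one ht) u v
    rw [hess_dd h.contDiff]
    refine le_of_eq_of_le h3 ?_
    rw [cosB_bT ht, exp_neg_sq]
    have h4 : ‖v‖ ^ 2 - V ≤ bT t ^ 2 * η * ‖v‖ ^ 2 := by
      nlinarith [mul_nonneg (sq_nonneg (bT t)) hη]
    calc exp (-(2 * t)) / bT t ^ 2 * (‖v‖ ^ 2 - V)
        ≤ exp (-(2 * t)) / bT t ^ 2 * (bT t ^ 2 * η * ‖v‖ ^ 2) :=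
          mul_le_mul_of_nonneg_left h4 (by positivity)
      _ = η * exp (-(2 * t)) * ‖v‖ ^ 2 := by field_simp
  · refine h.grad_zero_le.trans_eq ?_
    have e : exp (-(2 * t)) * exp (2 * t) = 1 := by rw [← exp_add]; simp
    linear_combination (-(η * (3 * (1 + B)) * √d)) * e

theorem fderiv_tv {t : ℝ} (ht : 0 < t) (y : E d) :
    fderiv ℝ (tv W t) y = exp t • fderiv ℝ (grad (tU W t)) y := by
  rw [tv_eq_grad hW ht, fderiv_fun_const_smul ((pert_tU hW ht).contDiff_grad.differentiable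
    one_ne_zero y)]

theorem fderiv_tv_symm {t : ℝ} (ht : 0 < t) (y u v : E d) :
    ⟪fderiv ℝ (tv W t) y u, v⟫ = ⟪u, fderiv ℝ (tv W t) y v⟫ := by
  simp only [fderiv_tv hW ht, _root_.smul_apply, real_inner_smul_left, real_inner_smul_right,
    (pert_tU hW ht).hess_symm]

theorem fderiv_tv_nonneg {t : ℝ} (ht : 0 < t) (y v : E d) :
    0 ≤ ⟪fderiv ℝ (tv W t) y v, v⟫ := by
  simp only [fderiv_tv hW ht, _root_.smul_apply, real_inner_smul_left]
  exact mul_nonneg (exp_pos _).le ((pert_tU hW ht).hess_nonneg y v)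

theorem norm_fderiv_tv_le {t : ℝ} (ht : 0 < t) (y : E d) :
    ‖fderiv ℝ (tv W t) y‖ ≤ η * exp (-t) := by
  rw [fderiv_tv hW ht, norm_smul, Real.norm_eq_abs, abs_of_pos (exp_pos _)]
  refine (mul_le_mul_of_nonneg_left ((pert_tU' hW ht).norm_hess_le y) (exp_pos _).le).trans_eq ?_
  rw [mul_left_comm, ← exp_add]
  ring_nf

theorem tA_symm (g : ℝ) {t : ℝ} (ht : 0 < t) (y u v : E d) :
    ⟪tA W g t y u, v⟫ = ⟪u, tA W g t y v⟫ := by
  simp only [tA, _root_.smul_apply, real_inner_smul_left, real_inner_smul_right,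
    fderiv_tv_symm hW ht]

theorem norm_tA_le {g : ℝ} (hg : 0 < g) {t : ℝ} (ht : 0 < t) (y : E d) :
    ‖tA W g t y‖ ≤ η * exp (-t) / g := by
  rw [tA, norm_smul, norm_inv, Real.norm_eq_abs, abs_of_pos hg, inv_mul_eq_div]
  exact div_le_div_of_nonneg_right (norm_fderiv_tv_le hW ht y) hg.le

/-- covariance of a scalar and a vector under the family -/
noncomputable def fcov {G : Type*} [NormedAddCommGroup G] [NormedSpace ℝ G]
    (W φ : E d → ℝ) (h : E d → G) (θ : ℝ × E d) : G :=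
  fmean W (fun x => φ x • h x) θ - fmean W φ θ • fmean W h θ

omit hW in
theorem hasDerivAt_exp_two (t : ℝ) :
    HasDerivAt (fun s => exp (-(2 * s))) (-2 * exp (-(2 * t))) t := by
  have h := (((hasDerivAt_id t).const_mul 2).neg).exp
  simpa [mul_comm] using h

omit hW in
theorem hasDerivAt_b2 (t : ℝ) : HasDerivAt b2 (2 * exp (-(2 * t))) t := by
  refine ((hasDerivAt_exp_two t).const_sub 1).congr_deriv ?_
  ring

omit hW in
theorem hasDerivAt_aT {t : ℝ} (ht : 0 < t) : HasDerivAt aT (-kT t ^ 2) t := by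
  have hb := (b2_pos ht).ne'
  have h : HasDerivAt aT (-(2 * (2 * exp (-(2 * t)))) / (2 * b2 t) ^ 2) t :=
    ((hasDerivAt_b2 t).const_mul 2).inv (mul_ne_zero two_ne_zero hb)
  refine h.congr_deriv ?_
  rw [kT, div_pow, exp_neg_sq]
  field_simp

omit hW in
theorem hasDerivAt_kT {t : ℝ} (ht : 0 < t) :
    HasDerivAt kT (-(kT t * (1 + 2 * exp (-(2 * t)) / b2 t))) t := by
  have hb := (b2_pos ht).ne'
  have h : HasDerivAt kT ((exp (-t) * -1 * b2 t - exp (-t) * (2 * exp (-(2 * t)))) / b2 t ^ 2) t :=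
    ((hasDerivAt_neg t).exp).div (hasDerivAt_b2 t) hb
  refine h.congr_deriv ?_
  rw [kT]
  field_simp
  ring

theorem hasFDerivAt_logN {θ : ℝ × E d} (hθ : θ ∈ posPar d) : ∃ L : ℝ × E d →L[ℝ] ℝ,
    HasFDerivAt (fun θ => Real.log (fint W (fun _ => (1 : ℝ)) θ)) L θ ∧
      ∀ u, L u = fmean W (fun x => suff x u) θ := by
  refine ⟨_, (hasFDerivAt_fint hW continuous_const (PolyBd.const (1 : ℝ)) hθ).log
    (fint_one_pos hW hθ).ne', fun u => ?_⟩
  have hc : Continuous fun x : E d => (suff x).smulRight (1 : ℝ) :=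
    (ContinuousLinearMap.smulRightL ℝ (ℝ × E d) ℝ).continuous.comp continuous_suff
      |>.clm_apply continuous_const
  have hp : PolyBd fun x : E d => (suff x).smulRight (1 : ℝ) :=
    polyBd_suff.of_le fun x => by simp
  simp only [_root_.smul_apply, smul_eq_mul, fmean, fint]
  rw [ContinuousLinearMap.integral_apply (integrable_fw hW hc hp hθ)]
  simp

omit hW in
theorem continuous_inner_left (v : E d) : Continuous fun x : E d => ⟪x, v⟫ :=
  continuous_id.inner continuous_const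

/-- mean of the sufficient statistic in a direction -/
theorem fmean_suff {G : Type} [NormedAddCommGroup G] [NormedSpace ℝ G] [CompleteSpace G]
    {h : E d → G} (hh : Continuous h) (hp : PolyBd h) (a k : ℝ) (v : E d) {θ : ℝ × E d}
    (hθ : θ ∈ posPar d) :
    fmean W (fun x => suff x (a, k • v) • h x) θ =
      -a • fmean W (fun x => ‖x‖ ^ 2 • h x) θ + k • fmean W (fun x => ⟪x, v⟫ • h x) θ := by
  rw [← fmean_smul, ← fmean_smul, ← fmean_add hW (h := fun x => -a • ‖x‖ ^ 2 • h x)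
    (k := fun x => k • ⟪x, v⟫ • h x) (((continuous_norm.pow 2).smul hh).const_smul _)
    ((PolyBd.const (-a)).smul ((PolyBd.id.norm.pow 2).smul hp))
    (((continuous_inner_left v).smul hh).const_smul _)
    ((PolyBd.const k).smul ((polyBd_inner v).smul hp)) hθ]
  congr 1
  funext x
  rw [suff_apply, real_inner_smul_right]
  module

theorem fcov_suff {G : Type} [NormedAddCommGroup G] [NormedSpace ℝ G] [CompleteSpace G]
    {h : E d → G} (hh : Continuous h) (hp : PolyBd h) (a k : ℝ) (v : E d) {θ : ℝ × E d}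
    (hθ : θ ∈ posPar d) :
    fcov W (fun x => suff x (a, k • v)) h θ =
      -a • fcov W (fun x => ‖x‖ ^ 2) h θ + k • fcov W (fun x => ⟪x, v⟫) h θ := by
  have e := fmean_suff hW (h := fun _ => (1 : ℝ)) continuous_const (PolyBd.const 1) a k v hθ
  simp only [smul_eq_mul, mul_one] at e
  rw [fcov, fcov, fcov, fmean_suff hW hh hp a k v hθ, e]
  module

theorem fmean_inner (v : E d) {θ : ℝ × E d} (hθ : θ ∈ posPar d) :
    fmean W (fun x => ⟪x, v⟫) θ = ⟪fmean W (fun x => x) θ, v⟫ := by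
  have h := fmean_clm hW (innerSL ℝ v) (h := fun x : E d => x) continuous_id PolyBd.id hθ
  simpa [real_inner_comm] using h

theorem hasFDerivAt_fmean_snd {G : Type} [NormedAddCommGroup G] [NormedSpace ℝ G] [CompleteSpace G]
    {h : E d → G} (hh : Continuous h) (hp : PolyBd h) {t : ℝ} (ht : 0 < t) (y : E d) :
    ∃ L : E d →L[ℝ] G, HasFDerivAt (fun y => fmean W h (par2 t y)) L y ∧
      ∀ v, L v = kT t • fcov W (fun x => ⟪x, v⟫) h (par2 t y) := by
  obtain ⟨L, hL, eL⟩ := hasFDerivAt_fmean hW hh hp (par2_mem ht y)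
  refine ⟨_, hL.comp y ((hasFDerivAt_const (aT t) y).prodMk ((hasFDerivAt_id y).const_smul (kT t))),
    fun v => ?_⟩
  show L (0, kT t • v) = _
  rw [eL, ← fcov, fcov_suff hW hh hp 0 (kT t) v (par2_mem ht y)]
  simp

theorem hasDerivAt_fmean_fst {G : Type} [NormedAddCommGroup G] [NormedSpace ℝ G] [CompleteSpace G]
    {h : E d → G} (hh : Continuous h) (hp : PolyBd h) {t : ℝ} (ht : 0 < t) (y : E d) :
    HasDerivAt (fun s => fmean W h (par2 s y))
      (kT t ^ 2 • fcov W (fun x => ‖x‖ ^ 2) h (par2 t y) -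
        (kT t * (1 + 2 * exp (-(2 * t)) / b2 t)) • fcov W (fun x => ⟪x, y⟫) h (par2 t y)) t := by
  obtain ⟨L, hL, eL⟩ := hasFDerivAt_fmean hW hh hp (par2_mem ht y)
  refine (hL.comp_hasDerivAt t ((hasDerivAt_aT ht).prodMk
    ((hasDerivAt_kT ht).smul_const y))).congr_deriv ?_
  rw [eL, ← fcov, fcov_suff hW hh hp _ _ y (par2_mem ht y)]
  module

theorem sum_fmean_inner_mul {G : Type} [NormedAddCommGroup G] [NormedSpace ℝ G] [CompleteSpace G]
    {h : E d → G} (hh : Continuous h) (hp : PolyBd h) (m : E d) {θ : ℝ × E d}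
    (hθ : θ ∈ posPar d) :
    ∑ i, ⟪m, bas i⟫ • fmean W (fun x => ⟪x, bas i⟫ • h x) θ =
      fmean W (fun x => ⟪x, m⟫ • h x) θ := by
  simp only [← fmean_smul]
  rw [← fmean_sum hW _ (h := fun i x => ⟪m, bas i⟫ • ⟪x, bas i⟫ • h x)
    (fun i => ((continuous_inner_left _).smul hh).const_smul _)
    (fun i => (PolyBd.const _).smul ((polyBd_inner _).smul hp)) hθ]
  congr 1
  funext x
  simp only [smul_smul, ← Finset.sum_smul]
  congr 1
  rw [← (EuclideanSpace.basisFun (Fin d) ℝ).sum_inner_mul_inner x m]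
  exact Finset.sum_congr rfl fun i _ => by simp [bas, real_inner_comm m, mul_comm]

/-- the Laplacian of a mean -/
theorem sum_second_fmean {G : Type} [NormedAddCommGroup G] [NormedSpace ℝ G] [CompleteSpace G]
    {h : E d → G} (hh : Continuous h) (hp : PolyBd h) {t : ℝ} (ht : 0 < t) (y : E d) :
    ∑ i, fderiv ℝ (fun x => fderiv ℝ (fun y => fmean W h (par2 t y)) x (bas i)) y (bas i) =
      kT t ^ 2 • (fcov W (fun x => ‖x‖ ^ 2) h (par2 t y) -
        (2 : ℝ) • fcov W (fun x => ⟪x, fmean W (fun x => x) (par2 t y)⟫) h (par2 t y)) := by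
  set θ := par2 t y
  have hθ : θ ∈ posPar d := par2_mem ht y
  set m := fmean W (fun x => x) θ
  have hsec : ∀ e : E d, fderiv ℝ (fun x => fderiv ℝ (fun y => fmean W h (par2 t y)) x e) y e =
      kT t ^ 2 • (fmean W (fun x => (⟪x, e⟫ * ⟪x, e⟫) • h x) θ -
        fmean W (fun x => ⟪x, e⟫ * ⟪x, e⟫) θ • fmean W h θ -
        (2 : ℝ) • ⟪m, e⟫ • (fmean W (fun x => ⟪x, e⟫ • h x) θ - ⟪m, e⟫ • fmean W h θ)) := by
    intro e
    have hf : (fun x => fderiv ℝ (fun y => fmean W h (par2 t y)) x e) = fun x =>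
        kT t • (fmean W (fun z => ⟪z, e⟫ • h z) (par2 t x) -
          fmean W (fun z => ⟪z, e⟫) (par2 t x) • fmean W h (par2 t x)) := funext fun x => by
      obtain ⟨L, hL, eL⟩ := hasFDerivAt_fmean_snd hW hh hp ht x
      rw [hL.fderiv, eL, fcov]
    obtain ⟨L₁, h1, e1⟩ := hasFDerivAt_fmean_snd hW (h := fun z => ⟪z, e⟫ • h z)
      ((continuous_inner_left e).smul hh) ((polyBd_inner e).smul hp) ht y
    obtain ⟨L₂, h2, e2⟩ := hasFDerivAt_fmean_snd hW (continuous_inner_left e) (polyBd_inner e) ht y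
    obtain ⟨L₃, h3, e3⟩ := hasFDerivAt_fmean_snd hW hh hp ht y
    rw [hf, ((h1.fun_sub (h2.fun_smul h3)).fun_const_smul (kT t)).fderiv]
    simp only [_root_.smul_apply, _root_.sub_apply, _root_.add_apply,
      ContinuousLinearMap.smulRight_apply, e1, e2, e3, fcov, smul_eq_mul, smul_smul]
    rw [show fmean W (fun z => ⟪z, e⟫) (par2 t y) = ⟪m, e⟫ from fmean_inner hW e hθ]
    module
  have h2 : ∑ i, fmean W (fun x => (⟪x, bas i⟫ * ⟪x, bas i⟫) • h x) θ =
      fmean W (fun x => ‖x‖ ^ 2 • h x) θ := by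
    rw [← fmean_sum hW _ (h := fun i x => (⟪x, bas i⟫ * ⟪x, bas i⟫) • h x)
      (fun i => (((continuous_inner_left _).mul (continuous_inner_left _))).smul hh)
      (fun i => ((polyBd_inner _).mul (polyBd_inner _)).smul hp) hθ]
    congr 1
    funext x
    rw [← Finset.sum_smul, ← (EuclideanSpace.basisFun (Fin d) ℝ).sum_sq_inner_right x]
    simp [bas, pow_two, real_inner_comm x]
  have h3 : ∑ i, fmean W (fun x => ⟪x, bas i⟫ * ⟪x, bas i⟫) θ =
      fmean W (fun x => ‖x‖ ^ 2) θ := by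
    rw [← fmean_sum hW _ (h := fun i x => ⟪x, bas i⟫ * ⟪x, bas i⟫)
      (fun i => (continuous_inner_left _).mul (continuous_inner_left _))
      (fun i => (polyBd_inner _).mul (polyBd_inner _)) hθ]
    congr 1
    funext x
    rw [← (EuclideanSpace.basisFun (Fin d) ℝ).sum_sq_inner_right x]
    simp [bas, pow_two, real_inner_comm x]
  have h4 := sum_fmean_inner_mul hW hh hp m hθ
  have h5 : ∑ i, ⟪m, bas i⟫ * ⟪m, bas i⟫ = ⟪m, m⟫ := by
    rw [← (EuclideanSpace.basisFun (Fin d) ℝ).sum_inner_mul_inner m m]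
    exact Finset.sum_congr rfl fun i _ => by simp [bas, real_inner_comm m]
  simp only [hsec, ← Finset.smul_sum, Finset.sum_sub_distrib, ← Finset.sum_smul, smul_sub,
    smul_smul, h2]
  simp only [← Finset.smul_sum, mul_smul, h4, fcov, fmean_inner hW m hθ]
  simp only [← Finset.mul_sum, h3, h5, m]
  module

theorem fderiv_tU_apply {t : ℝ} (ht : 0 < t) (y v : E d) :
    fderiv ℝ (tU W t) y v = exp (-(2 * t)) / b2 t * ⟪y, v⟫ -
      kT t * ⟪fmean W (fun x => x) (par2 t y), v⟫ := by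
  obtain ⟨L, hL, eL⟩ := hasFDerivAt_logN hW (par2_mem ht y)
  have h1 := ((((hasStrictFDerivAt_norm_sq y).hasFDerivAt.const_mul (exp (-(2 * t)))).const_mul
    (aT t)).add_const (d / 2 * Real.log (b2 t))).add_const (logK d)
  have h2 : HasFDerivAt (fun y => Real.log (fint W (fun _ => (1 : ℝ)) (par2 t y)))
      (L.comp ((0 : E d →L[ℝ] ℝ).prod (kT t • ContinuousLinearMap.id ℝ (E d)))) y :=
    hL.comp y ((hasFDerivAt_const (aT t) y).prodMk ((hasFDerivAt_id y).const_smul (kT t)))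
  rw [funext (tU_eq hW ht), (h1.fun_sub h2).fderiv]
  have e := fmean_suff hW (h := fun _ => (1 : ℝ)) continuous_const (PolyBd.const 1) 0 (kT t) v
    (par2_mem ht y)
  simp only [smul_eq_mul, mul_one, neg_zero, zero_mul, zero_add,
    fmean_inner hW v (par2_mem ht y)] at e
  simp only [_root_.sub_apply, _root_.smul_apply, ContinuousLinearMap.comp_apply,
    ContinuousLinearMap.prod_apply, _root_.zero_apply, ContinuousLinearMap.id_apply,
    innerSL_apply_apply, eL, e, smul_eq_mul, aT, nsmul_eq_mul, Nat.cast_ofNat]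
  field_simp

theorem grad_tU_eq {t : ℝ} (ht : 0 < t) (y : E d) :
    grad (tU W t) y = (exp (-(2 * t)) / b2 t) • y - kT t • fmean W (fun x => x) (par2 t y) := by
  refine ext_inner_right ℝ fun v => ?_
  rw [inner_grad, fderiv_tU_apply hW ht, inner_sub_left, real_inner_smul_left, real_inner_smul_left]

/-- the equation of the tilted potential -/
theorem hasDerivAt_tU {t : ℝ} (ht : 0 < t) (y : E d) :
    HasDerivAt (fun s => tU W s y)
      ((∑ i, dd (bas i) (dd (bas i) (tU W t)) y) - ‖grad (tU W t) y‖ ^ 2 -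
        ⟪y, grad (tU W t) y⟫) t := by
  set θ := par2 t y
  have hθ : θ ∈ posPar d := par2_mem ht y
  set m := fmean W (fun x => x) θ
  have hb := (b2_pos ht).ne'
  obtain ⟨L, hL, eL⟩ := hasFDerivAt_logN hW hθ
  have h1 := (((hasDerivAt_aT ht).fun_mul ((hasDerivAt_exp_two t).mul_const (‖y‖ ^ 2))).add
    (((hasDerivAt_b2 t).log hb).const_mul (d / 2 : ℝ))).add_const (logK d)
  have h2 : HasDerivAt (fun s => Real.log (fint W (fun _ => (1 : ℝ)) (par2 s y)))
      (L (-kT t ^ 2, -(kT t * (1 + 2 * exp (-(2 * t)) / b2 t)) • y)) t :=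
    hL.comp_hasDerivAt (f := fun s => par2 s y) t
      ((hasDerivAt_aT ht).prodMk ((hasDerivAt_kT ht).smul_const y))
  refine ((h1.fun_sub h2).congr_of_eventuallyEq ?_).congr_deriv ?_
  · filter_upwards [Ioi_mem_nhds ht] with s hs
    exact tU_eq hW hs y
  have e0 := fmean_suff hW (h := fun _ => (1 : ℝ)) continuous_const (PolyBd.const 1) (-kT t ^ 2)
    (-(kT t * (1 + 2 * exp (-(2 * t)) / b2 t))) y hθ
  simp only [smul_eq_mul, mul_one, fmean_inner hW y hθ] at e0
  have hsec : ∀ e : E d, dd e (dd e (tU W t)) y = exp (-(2 * t)) / b2 t * ⟪e, e⟫ -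
      kT t ^ 2 * (fmean W (fun x => ⟪x, e⟫ * ⟪x, e⟫) θ - ⟪m, e⟫ * ⟪m, e⟫) := by
    intro e
    obtain ⟨L', hL', eL'⟩ := hasFDerivAt_fmean_snd hW (continuous_inner_left e) (polyBd_inner e) ht y
    have hf : dd e (tU W t) = fun z => exp (-(2 * t)) / b2 t * innerSL ℝ e z -
        kT t * fmean W (fun x => ⟪x, e⟫) (par2 t z) := funext fun z => by
      show fderiv ℝ (tU W t) z e = _
      rw [fderiv_tU_apply hW ht, fmean_inner hW e (par2_mem ht z)]
      simp [real_inner_comm e z]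
    show fderiv ℝ (dd e (tU W t)) y e = _
    rw [hf, (((innerSL ℝ e).hasFDerivAt.const_mul _).fun_sub (hL'.const_mul _)).fderiv]
    simp only [_root_.sub_apply, _root_.smul_apply, innerSL_apply_apply, eL', fcov, smul_eq_mul]
    rw [show fmean W (fun x => ⟪x, e⟫) (par2 t y) = ⟪m, e⟫ from fmean_inner hW e hθ]
    ring
  have h3 : ∑ i, fmean W (fun x => ⟪x, bas i⟫ * ⟪x, bas i⟫) θ =
      fmean W (fun x => ‖x‖ ^ 2) θ := by
    rw [← fmean_sum hW _ (h := fun i x => ⟪x, bas i⟫ * ⟪x, bas i⟫)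
      (fun i => (continuous_inner_left _).mul (continuous_inner_left _))
      (fun i => (polyBd_inner _).mul (polyBd_inner _)) hθ]
    congr 1
    funext x
    rw [← (EuclideanSpace.basisFun (Fin d) ℝ).sum_sq_inner_right x]
    simp [bas, pow_two, real_inner_comm x]
  have h5 : ∑ i, ⟪m, bas i⟫ * ⟪m, bas i⟫ = ⟪m, m⟫ := by
    rw [← (EuclideanSpace.basisFun (Fin d) ℝ).sum_inner_mul_inner m m]
    exact Finset.sum_congr rfl fun i _ => by simp [bas, real_inner_comm m]
  simp only [hsec, Finset.sum_sub_distrib, ← Finset.mul_sum, h3, h5, inner_bas, if_true,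
    Finset.sum_const, Finset.card_univ, Fintype.card_fin, nsmul_eq_mul, mul_one]
  rw [← real_inner_self_eq_norm_sq (grad (tU W t) y), grad_tU_eq hW ht, eL, e0]
  simp only [inner_sub_left, inner_sub_right, real_inner_smul_left, real_inner_smul_right,
    real_inner_self_eq_norm_sq, real_inner_comm y (fmean W (fun x => x) (par2 t y)), norm_smul,
    mul_pow, Real.norm_eq_abs, sq_abs, m, θ, aT, kT]
  simp only [b2, ← exp_neg_sq] at hb ⊢
  field_simp
  ring

/-- the equation of the conditional mean of the gradient -/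
theorem hasDerivAt_tv {t : ℝ} (ht : 0 < t) (y : E d) :
    HasDerivAt (fun s => tv W s y)
      ((∑ i, fderiv ℝ (fun x => fderiv ℝ (tv W t) x (bas i)) y (bas i)) -
        fderiv ℝ (tv W t) y (y + (2 : ℝ) • flowField W t y)) t := by
  have hg := hW.contDiff_grad.continuous
  have hp := hW.polyBd_grad
  have hb := (b2_pos ht).ne'
  have h := (hasDerivAt_fmean_fst hW hg hp ht y).congr_of_eventuallyEq
    (show (fun s => tv W s y) =ᶠ[𝓝 t] fun s => fmean W (grad W) (par2 s y) by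
      filter_upwards [Ioi_mem_nhds ht] with s hs
      exact tv_eq hW hs y)
  refine h.congr_deriv ?_
  rw [funext (tv_eq hW ht), sum_second_fmean hW hg hp ht y, flowField_eq hW ht, grad_tU_eq hW ht]
  obtain ⟨L, hL, eL⟩ := hasFDerivAt_fmean_snd hW hg hp ht y
  rw [hL.fderiv]
  simp only [map_add, map_smul, map_sub]
  simp only [eL]
  match_scalars <;> field_simp
  ring

end Vale.Agent.P347.Zero
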