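import Vale.Agent.P347.Zero.Appell

/-!
# P347, exponent zero: flattenings of the derivatives of the mean of a vector field
-/

open MeasureTheory ProbabilityTheory Real Set Function
open scoped RealInnerProductSpace

namespace Vale.Agent.P347.Zero

open Deriv

variable {d : ℕ} {η B : ℝ} {W : E d → ℝ}

/-- derivative of a mean with a product, one factor being an Appell recursion -/
theorem dd_tm_qg_mul (hW : Pert η B W) {f : E d → ℝ} (hf : Continuous f) (hfp : PolyBd f)
    {c g : Z d → ℝ} (hc : ∀ n, Good n c) (hg : ∀ n, Good n g) (r : ℕ) (V : Fin r → E d) (v : E d) :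
    dd v (tm W f fun p => qg W c r V p * g p) = fun ξ =>
      tm W f (fun p => qg W c (r + 1) (Fin.cons v V) p * g p) ξ +
        tm W f (fun p => qg W c r V p * dd ((v, 0) : Z d) g p) ξ := by
  funext ξ
  have gq := good_qg hW hc r V
  have gP : ∀ n, Good n fun p => qg W c r V p * g p := fun n => (gq n).mul (hg n)
  rw [(hW.hasFDerivAt_tm hf hfp (gP 1) ξ).2]
  have i1 := hW.integrable_tm hf hfp (good_opD gP v 0) ξ
  have i2 := hW.integrable_tm hf hfp (gP 0) ξ
  have i3 := hW.integrable_tm hf hfp ((good_qg hW hc (r + 1) (Fin.cons v V) 0).mul (hg 0)) ξ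
  have i4 := hW.integrable_tm hf hfp ((gq 0).mul ((hg 1).dd ((v, 0) : Z d))) ξ
  simp only [tm] at *
  rw [← integral_mul_const, ← integral_sub i1 (i2.mul_const _), ← integral_add i3 i4]
  refine integral_congr_ae (ae_of_all _ fun z => ?_)
  simp only [qg, opD, Fin.cons_zero, Fin.tail_cons, dd_mul (gq 1).differentiable (hg 1).differentiable,
    tm]
  ring

/-- operator bound on the derivative of a vector field -/
structure OpF (L : ℝ) (f : Fin d → E d → ℝ) : Prop where
  nonneg : 0 ≤ L
  good : ∀ i, Good 2 (f i)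
  op : ∀ z (a : Fin d → ℝ), ∑ p, (∑ i, a i * dd (bas p) (f i) z) ^ 2 ≤ L ^ 2 * ∑ i, a i ^ 2

/-- the mean of a coordinate, as a function on pairs -/
noncomputable def mF (W : E d → ℝ) (f : Fin d → E d → ℝ) (i : Fin d) (p : Z d) : ℝ :=
  tm W (f i) (fun _ => 1) p.1

/-- centred products of a coordinate with Appell functions -/
noncomputable def phi (W : E d → ℝ) (f : Fin d → E d → ℝ) (i : Fin d) (r : ℕ) (v : Fin r → E d)
    (p : Z d) : ℝ :=
  f i p.2 * qf W r v p - qg W (mF W f i) r v p

variable {L : ℝ} {f : Fin d → E d → ℝ}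

theorem good_mF (hW : Pert η B W) (hf : OpF L f) (i : Fin d) (n : ℕ) : Good n (mF W f i) :=
  (hW.good_tm (hf.good i).continuous (hf.good i).polyBd n fun k => good_const k 1).comp
    (ContinuousLinearMap.fst ℝ (E d) (E d))

theorem good_phi (hW : Pert η B W) (hf : OpF L f) (i : Fin d) (r : ℕ) (v : Fin r → E d) :
    Good 2 (phi W f i r v) :=
  (((hf.good i).comp (ContinuousLinearMap.snd ℝ (E d) (E d))).mul (hW.good_qf r v 2)).sub
    (good_qg hW (good_mF hW hf i) r v 2)

theorem tm_phi_eq_zero (hW : Pert η B W) (hf : OpF L f) (i : Fin d) (r : ℕ) (v : Fin r → E d)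
    (ξ : E d) : ∫ z, phi W f i r v (ξ, z) ∂law (tilt W ξ) = 0 := by
  have hfc := (hf.good i).continuous
  have hfp := (hf.good i).polyBd
  have h1 : tm W (f i) (qf W r v) ξ = ddN r v (tm W (f i) fun _ => 1) ξ := by
    rw [← qg_one, ddN_tm_qg hW hfc hfp fun n => good_const n 1]
  have e : tm W (fun _ => 1) (mF W f i) = tm W (f i) fun _ => 1 := by
    funext x
    have := (hW.pert_tilt x).isProbabilityMeasure_law
    simp [tm, mF]
  have h2 : tm W (fun _ => 1) (qg W (mF W f i) r v) ξ = ddN r v (tm W (f i) fun _ => 1) ξ := by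
    rw [← ddN_tm_qg hW continuous_const (PolyBd.const 1) (good_mF hW hf i), e]
  simp only [phi]
  have i1 := hW.integrable_tm hfc hfp (hW.good_qf r v 0) ξ
  have i2 := hW.integrable_tm continuous_const (PolyBd.const (1 : ℝ))
    (good_qg hW (good_mF hW hf i) r v 0) ξ
  simp only [one_mul] at i2
  rw [integral_sub i1 i2]
  simp only [tm, one_mul] at h1 h2
  rw [h1, h2]
  simp [tm]

theorem dd_mF (hW : Pert η B W) (hf : OpF L f) (i : Fin d) (e : E d) :
    dd ((0, e) : Z d) (mF W f i) = fun _ => 0 := by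
  show dd _ (fun p : Z d => tm W (f i) (fun _ => 1) p.1) = _
  rw [dd_fst (hW.good_tm (hf.good i).continuous (hf.good i).polyBd 1
    fun k => good_const k 1).differentiable]
  funext p
  simp [Deriv.dd]

theorem dd_phi (hW : Pert η B W) (hf : OpF L f) (i : Fin d) (e : E d) (r : ℕ)
    (v : Fin (r + 1) → E d) :
    dd ((0, e) : Z d) (phi W f i (r + 1) v) = fun p => dd e (f i) p.2 * qf W (r + 1) v p +
      ∑ j, ⟪e, v j⟫ * phi W f i r (fun l => v (j.succAbove l)) p := by
  have hd : Differentiable ℝ fun p : Z d => f i p.2 := (hf.good i).differentiable.comp differentiable_snd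
  have es : dd ((0, e) : Z d) (fun p : Z d => f i p.2) = fun p => dd e (f i) p.2 :=
    dd_comp (hf.good i).differentiable (ContinuousLinearMap.snd ℝ (E d) (E d)) _
  show dd _ (fun p => f i p.2 * qf W (r + 1) v p - qg W (mF W f i) (r + 1) v p) = _
  rw [dd_sub (f := fun p : Z d => f i p.2 * qf W (r + 1) v p) (hd.fun_mul (hW.good_qf _ _ 1).differentiable)
      (good_qg hW (good_mF hW hf i) _ _ 1).differentiable,
    dd_mul hd (hW.good_qf _ _ 1).differentiable, es, hW.dd_qf,
    dd_qg hW (good_mF hW hf i) (dd_mF hW hf i e)]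
  funext p
  simp only [phi, mul_sub, Finset.sum_sub_distrib, Finset.mul_sum]
  rw [add_sub_assoc]
  congr 1
  congr 1
  exact Finset.sum_congr rfl fun j _ => by ring

theorem phi_sq_le_grad (hW : Pert η B W) (hf : OpF L f) (ξ : E d) (r : ℕ)
    (A : Fin d × Tup d r → ℝ) :
    ∫ z, (∑ x, A x * phi W f x.1 r (bv x.2) (ξ, z)) ^ 2 ∂law (tilt W ξ) ≤
      ∫ z, ∑ p, (∑ x, A x * dd ((0, bas p) : Z d) (phi W f x.1 r (bv x.2)) (ξ, z)) ^ 2
        ∂law (tilt W ξ) := by
  have hg : Good 2 fun z => ∑ x, A x * phi W f x.1 r (bv x.2) (ξ, z) :=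
    Good.sum _ fun x _ => ((good_phi hW hf _ _ _).sect ξ).const_mul _
  have h := second_moment_le hW ξ hg
  have hm : ∫ z, ∑ x, A x * phi W f x.1 r (bv x.2) (ξ, z) ∂law (tilt W ξ) = 0 := by
    rw [integral_finsetSum _ fun x _ => ((hW.pert_tilt ξ).integrable_law
      ((good_phi hW hf _ _ _).sect ξ).polyBd
      ((good_phi hW hf _ _ _).sect ξ).continuous).const_mul _]
    simp [integral_const_mul, tm_phi_eq_zero hW hf]
  rw [hm] at h
  simp only [ne_eq, OfNat.ofNat_ne_zero, not_false_eq_true, zero_pow, zero_add] at h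
  refine h.trans_eq (integral_congr_ae (ae_of_all _ fun z => Finset.sum_congr rfl fun p _ => ?_))
  congr 1
  rw [dd_sum _ fun x _ =>
    (((good_phi hW hf x.1 r (bv x.2)).sect ξ).const_mul (A x)).differentiable]
  refine Finset.sum_congr rfl fun x _ => ?_
  rw [dd_const_mul ((good_phi hW hf _ _ _).sect ξ).differentiable,
    dd_sect (good_phi hW hf _ _ _).pred]

theorem exists_phi_sq_le : ∀ r : ℕ, ∃ C : ℝ, 0 ≤ C ∧
    ∀ (d : ℕ) (η B : ℝ) (W : E d → ℝ) (L : ℝ) (f : Fin d → E d → ℝ) (ξ : E d)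
      (A : Fin d × Tup d r → ℝ), Pert η B W → OpF L f →
      ∫ z, (∑ x, A x * phi W f x.1 r (bv x.2) (ξ, z)) ^ 2 ∂law (tilt W ξ) ≤
        C * L ^ 2 * ∑ x, A x ^ 2 := by
  intro r
  induction r with
  | zero =>
    refine ⟨1, zero_le_one, fun d η B W L f ξ A hW hf => ?_⟩
    have := (hW.pert_tilt ξ).isProbabilityMeasure_law
    refine (phi_sq_le_grad hW hf ξ _ A).trans ?_
    have e : ∀ (x : Fin d × Tup d 0) p z, dd ((0, bas p) : Z d) (phi W f x.1 0 (bv x.2)) (ξ, z) =
        dd (bas p) (f x.1) z := by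
      intro x p z
      have e0 : phi W f x.1 0 (bv x.2) = fun q : Z d => f x.1 q.2 - mF W f x.1 q := by
        funext q; simp [phi, qg, qf]
      rw [e0, dd_sub (f := fun q : Z d => f x.1 q.2) ((hf.good _).differentiable.comp differentiable_snd)
        (good_mF hW hf _ 1).differentiable, dd_mF hW hf]
      simp only [sub_zero]
      exact congrFun (dd_comp (hf.good _).differentiable (ContinuousLinearMap.snd ℝ (E d) (E d)) _) _
    refine (integral_mono_of_nonneg (ae_of_all _ fun z => Finset.sum_nonneg fun p _ => sq_nonneg _)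
      (integrable_const _) (ae_of_all _ fun z => ?_)).trans_eq (b :=
        ∫ _, L ^ 2 * ∑ x, A x ^ 2 ∂law (tilt W ξ)) (by simp)
    simp only [e, Fintype.sum_prod_type, sum_tup_zero]
    exact hf.op z fun i => A (i, Fin.elim0)
  | succ r ih =>
    obtain ⟨C, hC, ih⟩ := ih
    refine ⟨2 * ((r + 1).factorial : ℝ) ^ 2 + 2 * (((r : ℝ) + 1) ^ 2 * C), by positivity,
      fun d η B W L f ξ A hW hf => ?_⟩
    have hP := hW.pert_tilt ξ
    set μ := law (tilt W ξ)
    set P : Fin d → E d → ℝ := fun p z =>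
      ∑ i, (∑ I, A (i, I) * qf W (r + 1) (bv I) (ξ, z)) * dd (bas p) (f i) z
    set G : Fin d × Tup d r → E d → ℝ := fun y z => phi W f y.1 r (bv y.2) (ξ, z)
    set Q : Fin d → E d → ℝ := fun p z =>
      ∑ j, ∑ y : Fin d × Tup d r, A (y.1, Fin.insertNth j p y.2) * G y z
    refine (phi_sq_le_grad hW hf ξ _ A).trans ?_
    have e : ∀ p z, ∑ x, A x * dd ((0, bas p) : Z d) (phi W f x.1 (r + 1) (bv x.2)) (ξ, z) =
        P p z + Q p z := by
      intro p z
      simp only [dd_phi hW hf, mul_add, Finset.sum_add_distrib]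
      congr 1
      · simp only [P, Fintype.sum_prod_type, Finset.sum_mul]
        exact Finset.sum_congr rfl fun i _ => Finset.sum_congr rfl fun I _ => by ring
      · exact sum_split A (fun y => G y z) p
    simp only [e]
    have gG : ∀ a : Fin d × Tup d r → ℝ, Good 0 fun z => ∑ y, a y * G y z := fun a =>
      Good.sum _ fun y _ => (((good_phi hW hf _ _ _).mono (Nat.zero_le 2)).sect ξ).const_mul _
    have hq := integral_sum_sq_split (μ := μ) A G (c := C * L ^ 2)
      (fun a => hP.integrable_law (gG a).sq.polyBd (gG a).sq.continuous)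
      (fun a => ih d η B W L f ξ a hW hf)
    have gQ : ∀ p, Good 0 (Q p) := fun p => Good.sum _ fun j _ => gG fun y =>
      A (y.1, Fin.insertNth j p y.2)
    have gs : ∀ i, Good 0 fun z => ∑ I, A (i, I) * qf W (r + 1) (bv I) (ξ, z) := fun i =>
      Good.sum _ fun I _ => ((hW.good_qf _ _ 0).sect ξ).const_mul _
    have gP : ∀ p, Good 0 (P p) := fun p =>
      Good.sum _ fun i _ => (gs i).mul (((hf.good i).dd _).mono (Nat.zero_le 1))
    have iS : ∀ {g : Fin d → E d → ℝ}, (∀ p, Good 0 (g p)) →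
        Integrable (fun z => ∑ p, g p z ^ 2) μ := fun hg =>
      integrable_finsetSum _ fun p _ => hP.integrable_law (hg p).sq.polyBd (hg p).sq.continuous
    have hp : ∫ z, ∑ p, P p z ^ 2 ∂μ ≤ ((r + 1).factorial : ℝ) ^ 2 * L ^ 2 * ∑ x, A x ^ 2 := by
      have i3 := fun i => hP.integrable_law (gs i).sq.polyBd (gs i).sq.continuous
      refine (integral_mono (iS gP) ((integrable_finsetSum _ fun i _ => i3 i).const_mul (L ^ 2))
        fun z => hf.op z fun i => ∑ I, A (i, I) * qf W (r + 1) (bv I) (ξ, z)).trans ?_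
      rw [integral_const_mul, integral_finsetSum _ fun i _ => i3 i]
      refine (mul_le_mul_of_nonneg_left (Finset.sum_le_sum fun i _ =>
        hW.appell_sq_le ξ (r + 1) fun I => A (i, I)) (sq_nonneg L)).trans_eq ?_
      rw [← Finset.mul_sum, Fintype.sum_prod_type]
      ring
    calc ∫ z, ∑ p, (P p z + Q p z) ^ 2 ∂μ
        ≤ ∫ z, (2 * ∑ p, P p z ^ 2 + 2 * ∑ p, Q p z ^ 2) ∂μ :=
          integral_mono (iS fun p => (gP p).add (gQ p)) (((iS gP).const_mul 2).add
            ((iS gQ).const_mul 2)) fun z => sum_sq_add_le _ _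
      _ ≤ _ := by
        rw [integral_add ((iS gP).const_mul 2) ((iS gQ).const_mul 2), integral_const_mul,
          integral_const_mul]
        linarith [hp, hq, show ((r : ℝ) + 1) ^ 2 * (C * L ^ 2) * ∑ x, A x ^ 2 =
          ((r : ℝ) + 1) ^ 2 * C * (L ^ 2 * ∑ x, A x ^ 2) by ring]

/-- the mean of a centred product against a parameter derivative of an Appell function -/
noncomputable def mP (W : E d → ℝ) (f : Fin d → E d → ℝ) (i : Fin d) {s r b : ℕ}
    (S : Fin s → E d) (R : Fin r → E d) (K : Fin b → E d) (ξ : E d) : ℝ :=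
  tm W (f i) (fun p => qf W s S p * ddXi r R (qf W b K) p) ξ -
    tm W (fun _ => 1) (fun p => qg W (mF W f i) s S p * ddXi r R (qf W b K) p) ξ

/-- coefficient index: coordinate, outer derivatives, field order, test order -/
abbrev Idx (d j s r : ℕ) : Type := Fin d × Tup d j × Tup d s × Tup d r

/-- combination of outer derivatives of `mP` -/
noncomputable def bilX (W : E d → ℝ) (f : Fin d → E d → ℝ) (ξ : E d) {j s r b : ℕ}
    (A : Idx d j s r → ℝ) (K : Tup d b) : ℝ :=
  ∑ x : Idx d j s r, A x * ddN j (bv x.2.1) (mP W f x.1 (bv x.2.2.1) (bv x.2.2.2) (bv K)) ξ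

theorem good_mP (hW : Pert η B W) (hf : OpF L f) (i : Fin d) {s r b : ℕ} (S : Fin s → E d)
    (R : Fin r → E d) (K : Fin b → E d) (n : ℕ) : Good n (mP W f i S R K) :=
  (hW.good_tm (hf.good i).continuous (hf.good i).polyBd n fun k =>
      (hW.good_qf s S k).mul (good_ddXi (hW.good_qf b K) r R k)).sub
    (hW.good_tm continuous_const (PolyBd.const 1) n fun k =>
      (good_qg hW (good_mF hW hf i) s S k).mul (good_ddXi (hW.good_qf b K) r R k))

theorem dd_mP (hW : Pert η B W) (hf : OpF L f) (i : Fin d) {s r b : ℕ} (S : Fin s → E d)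
    (R : Fin r → E d) (K : Fin b → E d) (v : E d) :
    dd v (mP W f i S R K) = fun ξ =>
      mP W f i (Fin.cons v S) R K ξ + mP W f i S (Fin.cons v R) K ξ := by
  have hg := fun n => good_ddXi (hW.good_qf b K) r R n
  have hfc := (hf.good i).continuous
  have hfp := (hf.good i).polyBd
  have g1 := hW.good_tm hfc hfp 1 fun k => (hW.good_qf s S k).mul (hg k)
  have g2 := hW.good_tm continuous_const (PolyBd.const 1) 1 fun k =>
    (good_qg hW (good_mF hW hf i) s S k).mul (hg k)
  show dd v (fun ξ => tm W (f i) (fun p => qf W s S p * ddXi r R (qf W b K) p) ξ -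
    tm W (fun _ => 1) (fun p => qg W (mF W f i) s S p * ddXi r R (qf W b K) p) ξ) = _
  rw [dd_sub g1.differentiable g2.differentiable]
  have h1 := dd_tm_qg_mul hW hfc hfp (c := fun _ => 1) (fun n => good_const n 1) hg s S v
  simp only [qg_one] at h1
  rw [h1, dd_tm_qg_mul hW continuous_const (PolyBd.const 1) (good_mF hW hf i) hg s S v]
  funext ξ
  simp only [mP, ddXi, Fin.cons_zero, Fin.tail_cons]
  ring

theorem exists_bilX_le : ∀ j s r b : ℕ, ∃ C : ℝ, 0 ≤ C ∧
    ∀ (d : ℕ) (η B : ℝ) (W : E d → ℝ) (L : ℝ) (f : Fin d → E d → ℝ) (ξ : E d)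
      (A : Idx d j s r → ℝ), Pert η B W → OpF L f →
      ∑ K : Tup d b, bilX W f ξ A K ^ 2 ≤ C * L ^ 2 * ∑ x, A x ^ 2
  | 0, s, r, b => by
    obtain ⟨Cp, hCp, hp⟩ := exists_phi_sq_le s
    obtain ⟨Cx, hCx, hx⟩ := exists_xN_le b r
    refine ⟨Cp * (Cx + 1), by positivity, fun d η B W L f ξ A hW hf => ?_⟩
    have hP := hW.pert_tilt ξ
    set μ := law (tilt W ξ)
    set X : Tup d b → ℝ := fun K => bilX W f ξ A K
    set Φ : Tup d r → E d → ℝ := fun R z =>
      ∑ y : Fin d × Tup d s, A (y.1, Fin.elim0, y.2, R) * phi W f y.1 s (bv y.2) (ξ, z)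
    set g : Tup d r → Tup d b → E d → ℝ := fun R K z => ddXi r (bv R) (qf W b (bv K)) (ξ, z)
    set G : Tup d r → E d → ℝ := fun R z => ∑ K, X K * g R K z
    have gg : ∀ R K, Good 0 (g R K) := fun R K => (good_ddXi (hW.good_qf _ _) r _ 0).sect ξ
    have gΦ : ∀ R, Good 0 (Φ R) := fun R => Good.sum _ fun y _ =>
      (((good_phi hW hf _ _ _).mono (Nat.zero_le 2)).sect ξ).const_mul _
    have gG : ∀ R, Good 0 (G R) := fun R => Good.sum _ fun K _ => (gg R K).const_mul _
    have int : ∀ {h : E d → ℝ}, Good 0 h → Integrable h μ := fun hh =>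
      hP.integrable_law hh.polyBd hh.continuous
    have eX : ∀ K, X K = ∑ R, ∫ z, Φ R z * g R K z ∂μ := by
      intro K
      simp only [X, bilX, Φ, Finset.sum_mul]
      rw [Finset.sum_congr rfl fun R _ => integral_finsetSum _ fun y _ => int
        (((((good_phi hW hf y.1 s (bv y.2)).mono (Nat.zero_le 2)).sect ξ).const_mul _).mul (gg R K)),
        Finset.sum_comm]
      simp only [Fintype.sum_prod_type, sum_tup_zero]
      refine Finset.sum_congr rfl fun i _ => Finset.sum_congr rfl fun S _ =>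
        Finset.sum_congr rfl fun R _ => ?_
      simp only [mul_assoc, integral_const_mul, ddN, mP, tm, phi]
      congr 1
      have i2 := hW.integrable_tm continuous_const (PolyBd.const (1 : ℝ))
          ((good_qg hW (good_mF hW hf i) s (bv S) 0).mul
            (good_ddXi (hW.good_qf b (bv K)) r (bv R) 0)) ξ
      simp only [one_mul] at i2 ⊢
      rw [← integral_sub (hW.integrable_tm (hf.good i).continuous (hf.good i).polyBd
          ((hW.good_qf s (bv S) 0).mul (good_ddXi (hW.good_qf b (bv K)) r (bv R) 0)) ξ) i2]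
      exact integral_congr_ae (ae_of_all _ fun z => by simp only [g]; ring)
    set S2 := ∑ K, X K ^ 2
    have hS : S2 = ∑ R, ∫ z, Φ R z * G R z ∂μ := by
      simp only [G, Finset.mul_sum, mul_left_comm (Φ _ _) (X _)]
      rw [Finset.sum_congr rfl fun R _ => integral_finsetSum _ fun K _ =>
        int (((gΦ R).mul (gg R K)).const_mul (X K)), Finset.sum_comm]
      refine Finset.sum_congr rfl fun K _ => ?_
      rw [sq]
      nth_rewrite 2 [eX]
      simp only [Finset.mul_sum, integral_const_mul]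
    have hS0 : 0 ≤ S2 := Finset.sum_nonneg fun K _ => sq_nonneg _
    have hA0 : 0 ≤ ∑ x, A x ^ 2 := Finset.sum_nonneg fun x _ => sq_nonneg _
    have hΦ : ∑ R, ∫ z, Φ R z ^ 2 ∂μ ≤ Cp * L ^ 2 * ∑ x, A x ^ 2 := by
      refine (Finset.sum_le_sum fun R _ => hp d η B W L f ξ
        (fun y => A (y.1, Fin.elim0, y.2, R)) hW hf).trans_eq ?_
      rw [← Finset.mul_sum, Finset.sum_comm]
      simp only [Fintype.sum_prod_type, sum_tup_zero]
    have hG : ∑ R, ∫ z, G R z ^ 2 ∂μ ≤ Cx * S2 := by
      have h := hx d η B W ξ X hW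
      simp only [xN, ddXi_sum X (fun K n => hW.good_qf b (bv K) n)] at h
      exact h
    set c := Cx + 1 with hc
    have hc0 : 0 < c := by positivity
    have key : 2 * S2 ≤ c * (Cp * L ^ 2 * ∑ x, A x ^ 2) + S2 := by
      calc 2 * S2 = ∑ R, ∫ z, 2 * (Φ R z * G R z) ∂μ := by
            rw [hS, Finset.mul_sum]; simp only [integral_const_mul]
        _ ≤ ∑ R, (c * ∫ z, Φ R z ^ 2 ∂μ + (∫ z, G R z ^ 2 ∂μ) / c) := by
            refine Finset.sum_le_sum fun R _ => ?_
            rw [← integral_const_mul c, ← integral_div, ← integral_add ((int (gΦ R).sq).const_mul c)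
              ((int (gG R).sq).div_const c)]
            refine integral_mono ((int ((gΦ R).mul (gG R))).const_mul 2)
              (((int (gΦ R).sq).const_mul c).add ((int (gG R).sq).div_const c)) fun z => ?_
            have h1 : c * (G R z / c - Φ R z) ^ 2 =
                G R z ^ 2 / c - 2 * (Φ R z * G R z) + c * Φ R z ^ 2 := by
              field_simp; ring
            have : 0 ≤ c * (G R z / c - Φ R z) ^ 2 := by positivity
            linarith
        _ ≤ _ := by
            rw [Finset.sum_add_distrib, ← Finset.mul_sum, ← Finset.sum_div]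
            refine add_le_add (mul_le_mul_of_nonneg_left hΦ hc0.le) ((div_le_iff₀ hc0).2 ?_)
            nlinarith [hG]
    show S2 ≤ _
    linarith [key, show c * (Cp * L ^ 2 * ∑ x, A x ^ 2) = Cp * c * L ^ 2 * ∑ x, A x ^ 2 by ring]
  | j + 1, s, r, b => by
    obtain ⟨C1, hC1, h1⟩ := exists_bilX_le j (s + 1) r b
    obtain ⟨C2, hC2, h2⟩ := exists_bilX_le j s (r + 1) b
    refine ⟨2 * C1 + 2 * C2, by positivity, fun d η B W L f ξ A hW hf => ?_⟩
    set A1 : Idx d j (s + 1) r → ℝ := fun x =>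
      A (x.1, Fin.cons (x.2.2.1 0) x.2.1, Fin.tail x.2.2.1, x.2.2.2)
    set A2 : Idx d j s (r + 1) → ℝ := fun x =>
      A (x.1, Fin.cons (x.2.2.2 0) x.2.1, x.2.2.1, Fin.tail x.2.2.2)
    have e1 : ∑ x, A1 x ^ 2 = ∑ x, A x ^ 2 := by
      simp only [Fintype.sum_prod_type, A1]
      refine Finset.sum_congr rfl fun i _ => ?_
      simp only [sum_cons, Fin.cons_zero, Fin.tail_cons]
      rw [Finset.sum_comm]
    have e2 : ∑ x, A2 x ^ 2 = ∑ x, A x ^ 2 := by
      simp only [Fintype.sum_prod_type, A2]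
      refine Finset.sum_congr rfl fun i _ => ?_
      simp only [sum_cons, Fin.cons_zero, Fin.tail_cons]
      conv_lhs => enter [2, T]; rw [Finset.sum_comm]
      rw [Finset.sum_comm]
    have eX : ∀ K : Tup d b, bilX W f ξ A K = bilX W f ξ A1 K + bilX W f ξ A2 K := by
      intro K
      simp only [bilX, Fintype.sum_prod_type, A1, A2, ← Finset.sum_add_distrib]
      refine Finset.sum_congr rfl fun i _ => ?_
      simp only [sum_cons, Fin.cons_zero, Fin.tail_cons, bv_cons, Finset.sum_add_distrib]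
      rw [Finset.sum_comm (γ := Fin d) (s := Finset.univ)]
      conv_rhs => enter [2]; enter [2, T]; rw [Finset.sum_comm]
      simp only [← Finset.sum_add_distrib]
      refine Finset.sum_congr rfl fun v _ => Finset.sum_congr rfl fun T _ =>
        Finset.sum_congr rfl fun S _ => Finset.sum_congr rfl fun R _ => ?_
      rw [ddN_succ_inner (good_mP hW hf i _ _ _)]
      simp only [Fin.cons_zero, Fin.tail_cons]
      rw [dd_mP hW hf, ddN_add (good_mP hW hf i _ _ _) (good_mP hW hf i _ _ _)]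
      ring
    simp only [eX]
    refine (sum_sq_add_le _ _).trans ?_
    have a1 := h1 d η B W L f ξ A1 hW hf
    have a2 := h2 d η B W L f ξ A2 hW hf
    rw [e1] at a1
    rw [e2] at a2
    linarith [show (2 * C1 + 2 * C2) * L ^ 2 * ∑ x, A x ^ 2 =
      2 * (C1 * L ^ 2 * ∑ x, A x ^ 2) + 2 * (C2 * L ^ 2 * ∑ x, A x ^ 2) by ring]

/-- Every flattening of the derivatives of the mean of a vector field with derivative bound `L`. -/
theorem exists_flat (a b : ℕ) : ∃ C : ℝ, 0 ≤ C ∧
    ∀ (d : ℕ) (η B : ℝ) (W : E d → ℝ) (L : ℝ) (f : Fin d → E d → ℝ) (ξ : E d)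
      (A : Fin d × Tup d a → ℝ), Pert η B W → OpF L f →
      ∑ K : Tup d (b + 1), (∑ x, A x *
          ddN a (bv x.2) (ddN (b + 1) (bv K) (tm W (f x.1) fun _ => 1)) ξ) ^ 2 ≤
        C * L ^ 2 * ∑ x, A x ^ 2 := by
  obtain ⟨C, hC, h⟩ := exists_bilX_le a 0 0 (b + 1)
  refine ⟨C, hC, fun d η B W L f ξ A hW hf => ?_⟩
  have e : ∀ i (K : Tup d (b + 1)) (S : Tup d 0) (R : Tup d 0),
      mP W f i (bv S) (bv R) (bv K) = ddN (b + 1) (bv K) (tm W (f i) fun _ => 1) := by
    intro i K S R
    funext x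
    rw [hW.ddN_tm (hf.good i).continuous (hf.good i).polyBd]
    simp only [mP, ddXi, qg, show ∀ v, qf W 0 v = fun _ => 1 from fun _ => rfl, one_mul]
    have h0 : tm W (fun _ => 1) (fun p => mF W f i p * qf W (b + 1) (bv K) p) x = 0 := by
      have h1 := hW.tm_qf_eq_zero b (bv K) x
      simp only [tm, one_mul, mF] at h1 ⊢
      rw [integral_const_mul, h1, mul_zero]
    rw [h0, sub_zero]
  have hh := h d η B W L f ξ (fun x => A (x.1, x.2.1)) hW hf
  simp only [bilX, Fintype.sum_prod_type, sum_tup_zero, e] at hh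
  simpa only [Fintype.sum_prod_type] using hh

end Vale.Agent.P347.Zero
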