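import Vale.Agent.P347.Zero.FlowInv

/-!
# P347, exponent zero: the auxiliary flow at a frozen time

`y' = -A w`, `w' = -L tv / g` with `L tv` the material derivative of `tv` along the probability
flow keeps `law (tU W t) ⊗ γ`.
-/

open MeasureTheory ProbabilityTheory Real Set
open scoped RealInnerProductSpace Topology ENNReal
open Vale.Agent.P347.Deriv

namespace Vale.Agent.P347.Zero

variable {d : ℕ}

/-- The auxiliary field at the frozen time `t`; the flow parameter does not enter. -/
noncomputable def auxVec (W : E d → ℝ) (g t : ℝ) (_θ : ℝ) (p : E d × E d) : E d × E d :=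
  (-(tA W g t p.1 p.2),
    -(g⁻¹ • (deriv (fun s => tv W s p.1) t + fderiv ℝ (tv W t) p.1 (flowField W t p.1))))

/-- The stationary density of the auxiliary flow. -/
noncomputable def auxDens (W : E d → ℝ) (t : ℝ) (_θ : ℝ) (p : E d × E d) : ℝ :=
  exp (-(pot (tU W t) p.1 + ‖p.2‖ ^ 2 / 2))

variable {η B : ℝ} {W : E d → ℝ} (hW : Pert η B W)
include hW

theorem lap_le {t : ℝ} (ht : 0 < t) (y : E d) :
    ‖∑ i, fderiv ℝ (fun x => fderiv ℝ (tv W t) x (bas i)) y (bas i)‖ ≤
      exp t * ((d : ℝ) * ((d : ℝ) * ((65 * ((1 + 1).factorial : ℝ) ^ 2 + 1) / bT t))) := by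
  have hbd := (hW.bd_lsm (bT_pos ht) (bT_lt_one ht) 1).2.2.opLe
  set c : ℝ := 65 * ((1 + 1).factorial : ℝ) ^ 2
  have hb := bT_pos ht
  have hU : ∀ k, Differentiable ℝ (fun x => dd (bas k) (tU W t) x) := fun k =>
    ((contDiff_tU hW ht (n := 2)).fderiv_right (m := 1) le_rfl).clm_apply contDiff_const
      |>.differentiable one_ne_zero
  have hent : ∀ i k y, |dd (bas i) (dd (bas i) (dd (bas k) (tU W t))) y| ≤ (c + 1) / bT t := by
    intro i k y
    have h := hbd y fun m => if m = k then 1 else 0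
    have h1 := (Finset.single_le_sum (f := fun p => (∑ m, dM (bT t) (hessM (lsm (bT t) W)) p m y *
      if m = k then (1 : ℝ) else 0) ^ 2) (fun p _ => sq_nonneg _) (Finset.mem_univ (i, i))).trans h
    simp only [mul_ite, mul_one, mul_zero, Finset.sum_ite_eq', Finset.mem_univ, if_true, ite_pow,
      one_pow, ne_eq, OfNat.ofNat_ne_zero, not_false_eq_true, zero_pow] at h1
    change (bT t * dd (bas i) (dd (bas i) (dd (bas k) (tU W t))) y) ^ 2 ≤ c at h1
    rw [le_div_iff₀ hb, ← abs_of_pos hb, ← abs_mul, mul_comm]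
    have hc : (0 : ℝ) ≤ c := (sq_nonneg _).trans h1
    refine abs_le_of_sq_le_sq ?_ (by linarith)
    nlinarith
  suffices h : ‖∑ i, fderiv ℝ (fun x => fderiv ℝ (tv W t) x (bas i)) y (bas i)‖ ≤ exp t *
      (Fintype.card (Fin d) * (Fintype.card (Fin d) * ((c + 1) / bT t))) by simpa using h
  refine (norm_sum_le _ _).trans ?_
  have hi : ∀ i, ‖fderiv ℝ (fun x => fderiv ℝ (tv W t) x (bas i)) y (bas i)‖ ≤
      exp t * (Fintype.card (Fin d) * ((c + 1) / bT t)) := by
    intro i
    set z := fderiv ℝ (fun x => fderiv ℝ (tv W t) x (bas i)) y (bas i)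
    have hz : z = ∑ k, ⟪bas k, z⟫ • bas k :=
      ((EuclideanSpace.basisFun (Fin d) ℝ).sum_repr' z).symm
    rw [hz]
    refine (norm_sum_le _ _).trans ?_
    have hk : ∀ k, ‖⟪bas k, z⟫ • bas k‖ ≤ exp t * ((c + 1) / bT t) := by
      intro k
      rw [norm_smul, show ‖(bas k : E d)‖ = 1 from (EuclideanSpace.basisFun (Fin d) ℝ).norm_eq_one k,
        mul_one, Real.norm_eq_abs]
      have hv := contDiff_tv hW ht (n := 2)
      have e : ⟪bas k, z⟫ = exp t * dd (bas i) (dd (bas i) (dd (bas k) (tU W t))) y := by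
        have e1 : (fun x => ⟪bas k, fderiv ℝ (tv W t) x (bas i)⟫) =
            fun x => exp t * dd (bas i) (dd (bas k) (tU W t)) x := by
          funext x
          have e2 : dd (bas k) (tU W t) = fun x => exp (-t) * ⟪bas k, tv W t x⟫ := by
            funext x'
            rw [dd, ← inner_grad, grad_tU hW ht, real_inner_smul_left, real_inner_comm]
          have hd := (hv.differentiable (by norm_num)) x
          rw [e2, dd, fderiv_const_mul ((differentiableAt_const _).inner ℝ hd), smul_apply,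
            fderiv_inner_apply ℝ (differentiableAt_const _) hd, smul_eq_mul, ← mul_assoc,
            ← exp_add, add_neg_cancel, exp_zero, one_mul]
          simp
        have hd2 : DifferentiableAt ℝ (fun x => fderiv ℝ (tv W t) x (bas i)) y :=
          ((hv.fderiv_right (m := 1) le_rfl).clm_apply contDiff_const).differentiable one_ne_zero y
        have e3 := congrArg (fun f : E d → ℝ => fderiv ℝ f y (bas i)) e1
        simp only [fderiv_inner_apply ℝ (differentiableAt_const _) hd2] at e3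
        rw [fderiv_const_mul (by
          have hU2 := ((contDiff_tU hW ht (n := 3)).fderiv_right (m := 2) le_rfl).clm_apply
            (contDiff_const (c := (bas k : E d)))
          exact ((hU2.fderiv_right (m := 1) le_rfl).clm_apply contDiff_const).differentiable
            one_ne_zero y), smul_apply, smul_eq_mul] at e3
        simpa [z, dd] using e3
      rw [e, abs_mul, abs_of_pos (exp_pos t)]
      exact mul_le_mul_of_nonneg_left (hent i k y) (exp_pos t).le
    refine (Finset.sum_le_sum fun k _ => hk k).trans (le_of_eq ?_)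
    rw [Finset.sum_const, Finset.card_univ, nsmul_eq_mul]
    ring
  refine (Finset.sum_le_sum fun i _ => hi i).trans (le_of_eq ?_)
  rw [Finset.sum_const, Finset.card_univ, nsmul_eq_mul]
  ring

theorem lap_bdd {t : ℝ} (ht : 0 < t) :
    ∃ C : ℝ, 0 ≤ C ∧
      ∀ y, ‖∑ i, fderiv ℝ (fun x => fderiv ℝ (tv W t) x (bas i)) y (bas i)‖ ≤ C :=
  ⟨exp t * ((d : ℝ) * ((d : ℝ) * ((65 * ((1 + 1).factorial : ℝ) ^ 2 + 1) / bT t))),
    by have := bT_pos ht; positivity, lap_le hW ht⟩

theorem auxVec_eq {g t : ℝ} (ht : 0 < t) (θ : ℝ) (p : E d × E d) :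
    auxVec W g t θ p = (-(tA W g t p.1 p.2),
      -(g⁻¹ • ∑ i, fderiv ℝ (fun x => fderiv ℝ (tv W t) x (bas i)) p.1 (bas i)) +
        tA W g t p.1 (p.1 + flowField W t p.1)) := by
  rw [auxVec, (hasDerivAt_tv hW ht p.1).deriv]
  refine Prod.ext rfl ?_
  simp only [tA, smul_apply, map_add, map_smul]
  module

theorem fieldReg_aux {g t a b : ℝ} (ht : 0 < t) : FieldReg (auxVec W g t) a b := by
  have hv := contDiff_tv hW ht (n := 3)
  have hA : ContDiff ℝ 1 (tA W g t) :=
    ((contDiff_tv hW ht (n := 2)).fderiv_right (m := 1) le_rfl).const_smul g⁻¹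
  have hL : ContDiff ℝ 1 fun y : E d =>
      ∑ i, fderiv ℝ (fun x => fderiv ℝ (tv W t) x (bas i)) y (bas i) :=
    ContDiff.sum fun i _ => (((hv.fderiv_right (m := 2) le_rfl).clm_apply
      contDiff_const).fderiv_right (m := 1) le_rfl).clm_apply contDiff_const
  have hF : ContDiff ℝ 1 (flowField W t) := (contDiff_tv hW ht (n := 1)).const_smul (exp (-t))
  have hA1 : ContDiff ℝ 1 fun p : E d × E d => tA W g t p.1 := hA.comp contDiff_fst
  have hV : ContDiff ℝ 1 (auxVec W g t 0) := by
    rw [funext (auxVec_eq hW ht 0)]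
    exact (hA1.clm_apply contDiff_snd).neg.prodMk
      (((hL.comp contDiff_fst).const_smul g⁻¹).neg.add
        (hA1.clm_apply (contDiff_fst.add (hF.comp contDiff_fst))))
  refine ⟨(hV.continuous.comp continuous_snd).continuousOn,
    fun θ _ => hV.differentiable one_ne_zero,
    ((hV.continuous_fderiv one_ne_zero).comp continuous_snd).continuousOn, ?_⟩
  obtain ⟨C, hC0, hC⟩ := lap_bdd hW ht
  obtain ⟨M, hM1, hM⟩ := (fieldReg_flow hW (b := t) ht).growth
  set k := |g⁻¹|
  have hk : 0 ≤ k := abs_nonneg _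
  refine ⟨1 + k * C + k * (1 + M), by nlinarith [mul_nonneg hk hC0], fun θ _ p => ?_⟩
  have hAle : ∀ x : E d, ‖tA W g t p.1 x‖ ≤ k * ‖x‖ := fun x => by
    refine (ContinuousLinearMap.le_opNorm _ _).trans (mul_le_mul_of_nonneg_right ?_ (norm_nonneg _))
    rw [tA, norm_smul, Real.norm_eq_abs]
    refine mul_le_of_le_one_right (abs_nonneg _) ((norm_fderiv_tv_le hW ht _).trans ?_)
    exact mul_le_one₀ hW.eta_le_one (exp_pos _).le (exp_le_one_iff.2 (by linarith))
  have hp1 := norm_fst_le p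
  have hp2 := norm_snd_le p
  have hf : ‖p.1 + flowField W t p.1‖ ≤ (1 + M) * (1 + ‖p‖) := by
    refine (norm_add_le _ _).trans ?_
    have := hM t (right_mem_Icc.2 le_rfl) p.1
    nlinarith [mul_le_mul_of_nonneg_left hp1 (by linarith : (0 : ℝ) ≤ M)]
  rw [auxVec_eq hW ht θ p, Prod.norm_def, norm_neg]
  refine max_le ((hAle _).trans ?_) ((norm_add_le _ _).trans ?_)
  · nlinarith [mul_le_mul_of_nonneg_left hp2 hk, mul_nonneg hk hC0, norm_nonneg p,
      mul_nonneg (mul_nonneg hk (by linarith : (0 : ℝ) ≤ M)) (norm_nonneg p)]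
  · rw [norm_neg, norm_smul, Real.norm_eq_abs]
    nlinarith [mul_le_mul_of_nonneg_left (hC p.1) hk, (hAle _).trans (mul_le_mul_of_nonneg_left hf hk),
      mul_nonneg (mul_nonneg hk hC0) (norm_nonneg p), norm_nonneg p]

theorem contEq_aux {g t a b : ℝ} (ht : 0 < t) :
    ContEq (auxVec W g t) (auxDens W t) a b := by
  have hd : ∀ p, HasFDerivAt (auxDens W t 0) _ p := fun p =>
    ((((hasFDerivAt_pot_tU hW ht p.1).comp p hasFDerivAt_fst).add
      ((hasFDerivAt_snd (𝕜 := ℝ) (E := E d) (F := E d) (p := p)).norm_sq.mul_const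
        (2⁻¹ : ℝ))).neg).exp
  have hdd : ∀ θ p, DifferentiableAt ℝ (fun q : ℝ × (E d × E d) => auxDens W t q.1 q.2) (θ, p) :=
    fun θ p => DifferentiableAt.comp (g := auxDens W t 0) (f := Prod.snd) (θ, p)
      (hd p).differentiableAt differentiableAt_snd
  refine ⟨fun θ _ p => exp_pos _, fun θ _ p => hdd θ p, fun θ _ p => ?_⟩
  have h1 : HasDerivAt (fun s => auxDens W t s p) 0 θ := hasDerivAt_const θ _
  rw [partial_eq (hdd θ p) h1 (hd p)]
  set DA := fderiv ℝ (tA W g t) p.1
  have hA : HasFDerivAt (tA W g t) DA p.1 := by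
    refine (DifferentiableAt.hasFDerivAt ?_)
    exact (((contDiff_tv hW ht (n := 2)).fderiv_right (m := 1) le_rfl).differentiable one_ne_zero
      p.1).const_smul g⁻¹
  have hAw := (hA.comp p hasFDerivAt_fst (f := Prod.fst)).clm_apply
    (hasFDerivAt_snd (𝕜 := ℝ) (E := E d) (F := E d) (p := p))
  have hG : DifferentiableAt ℝ (fun q : E d => -(g⁻¹ • ∑ i, fderiv ℝ
      (fun x => fderiv ℝ (tv W t) x (bas i)) q (bas i)) + tA W g t q (q + flowField W t q)) p.1 := by
    have hv := contDiff_tv hW ht (n := 3)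
    have hL : ContDiff ℝ 1 fun y : E d =>
        ∑ i, fderiv ℝ (fun x => fderiv ℝ (tv W t) x (bas i)) y (bas i) :=
      ContDiff.sum fun i _ => (((hv.fderiv_right (m := 2) le_rfl).clm_apply
        contDiff_const).fderiv_right (m := 1) le_rfl).clm_apply contDiff_const
    exact (((hL.differentiable one_ne_zero) p.1).const_smul g⁻¹).neg.add
      (hA.differentiableAt.clm_apply (differentiableAt_id.add
        (((contDiff_tv hW ht (n := 1)).differentiable one_ne_zero p.1).const_smul (exp (-t)))))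
  have h0 := hAw.neg.prodMk (hG.hasFDerivAt.comp p
    (hasFDerivAt_fst (𝕜 := ℝ) (E := E d) (F := E d) (p := p)))
  have h := h0.congr_of_eventuallyEq (f₁ := auxVec W g t θ)
    (.of_forall fun q => by rw [auxVec_eq hW ht θ q]; rfl)
  have hs : ∀ i, ⟪bas i, DA (bas i) p.2⟫ =
      g⁻¹ * ⟪fderiv ℝ (fun x => fderiv ℝ (tv W t) x (bas i)) p.1 (bas i), p.2⟫ := by
    intro i
    have hd2 := ((contDiff_tv hW ht (n := 2)).fderiv_right (m := 1) le_rfl).differentiable
      one_ne_zero p.1
    rw [← fderiv_tA_symm hW ht p.1 (bas i) (bas i) p.2, fderiv_clm_apply hd2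
      (differentiableAt_const _)]
    simp only [DA, show tA W g t = fun x => g⁻¹ • fderiv ℝ (tv W t) x from rfl,
      fderiv_fun_const_smul hd2]
    simp [real_inner_smul_left]
  rw [h.fderiv, trace_prod_eq, sum_diag_eq_trace, sum_diag_eq_trace]
  simp only [auxDens, auxVec_eq hW ht θ, zero_add]
  simp [hs, inner_add_right, inner_add_left, real_inner_smul_right, inner_sum, ← Finset.mul_sum]
  have s1 : ∀ x, ⟪p.2, tA W g t p.1 x⟫ = ⟪x, tA W g t p.1 p.2⟫ := fun x => by
    rw [← tA_symm hW g ht p.1 p.2 x, real_inner_comm]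
  simp only [s1, flowField_eq hW ht, real_inner_comm p.2, div_eq_mul_inv]
  ring

/-- The auxiliary flow keeps `law (tU W t) ⊗ γ`. -/
theorem map_auxVec {g t a b θ : ℝ} (ht : 0 < t) (hab : a ≤ b) (hθ : θ ∈ Icc a b) :
    ((law (tU W t)).prod (stdGaussian (E d))).map (fun p => odeFlow (auxVec W g t) a b p θ) =
      (law (tU W t)).prod (stdGaussian (E d)) := by
  have hV := fieldReg_aux hW (g := g) (a := a) (b := b) ht
  obtain ⟨hP, k, hk⟩ := coupleLaw_eq hW (g := (0 : ℝ)) ht
  have e : coupleLaw W 0 t = (law (tU W t)).prod (stdGaussian (E d)) := by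
    simp [coupleLaw]
  rw [e] at hP hk
  have e2 : coupleDens W 0 t = auxDens W t 0 := by
    funext p; simp [coupleDens, auxDens, wOf]
  rw [e2] at hk
  refine map_normalised ?_ hk hk
    (hV.map_flow ((volume : Measure (E d)).prod volume) hab (contEq_aux hW ht) hθ)
  exact (continuous_iff_continuousAt.2 fun p => by
    obtain ⟨J, -, -, hJ⟩ := hV.hasFDerivAt_flow hab p
    exact (hJ θ hθ).continuousAt).measurable

end Vale.Agent.P347.Zero
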