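import Vale.Agent.P347.Zero.Ode
import Vale.Agent.P347.Zero.Family
import Vale.Agent.P347.Flow

/-!
# P347, exponent zero: the two flows carry their laws

The probability flow carries `law (tU W a)` to `law (tU W t)`, the coupling flow carries
`coupleLaw W g a` to `coupleLaw W g t`.
-/

open MeasureTheory ProbabilityTheory Real Set
open scoped RealInnerProductSpace Topology ENNReal
open Vale.Agent.P347.Deriv

namespace Vale.Agent.P347.Zero

variable {d : ℕ}

theorem partial_eq {F : Type*} [NormedAddCommGroup F] [NormedSpace ℝ F] {f : ℝ → F → ℝ} {t : ℝ}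
    {y : F} (hf : DifferentiableAt ℝ (fun q : ℝ × F => f q.1 q.2) (t, y)) {c : ℝ}
    (h1 : HasDerivAt (fun s => f s y) c t) {L : F →L[ℝ] ℝ} (h2 : HasFDerivAt (f t) L y) (v : F) :
    fderiv ℝ (fun q : ℝ × F => f q.1 q.2) (t, y) (1, v) = c + L v := by
  have h := hf.hasFDerivAt
  have a1 : fderiv ℝ (fun q : ℝ × F => f q.1 q.2) (t, y) (1, 0) = c :=
    (HasFDerivAt.comp_hasDerivAt (f := fun s : ℝ => (s, y)) (l := fun q : ℝ × F => f q.1 q.2) t h
      ((hasDerivAt_id t).prodMk (hasDerivAt_const t y))).unique h1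
  have a2 : (fderiv ℝ (fun q : ℝ × F => f q.1 q.2) (t, y)).comp (ContinuousLinearMap.inr ℝ ℝ F) =
      L := (HasFDerivAt.comp (f := fun v : F => (t, v)) (g := fun q : ℝ × F => f q.1 q.2) y h
        (hasFDerivAt_prodMk_right t y)).unique h2
  rw [show ((1, v) : ℝ × F) = (1, 0) + (0, v) by simp, map_add, a1, ← a2]
  rfl

theorem fieldReg_of_contDiffOn {F : Type*} [NormedAddCommGroup F] [NormedSpace ℝ F]
    {V : ℝ → F → F} {a b : ℝ} (ha : 0 < a)
    (h : ContDiffOn ℝ 1 (fun q : ℝ × F => V q.1 q.2) (Ioi 0 ×ˢ univ))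
    (hg : ∃ C : ℝ, 1 ≤ C ∧ ∀ t ∈ Icc a b, ∀ x, ‖V t x‖ ≤ C * (1 + ‖x‖)) : FieldReg V a b := by
  have ho : IsOpen (Ioi (0 : ℝ) ×ˢ (univ : Set F)) := isOpen_Ioi.prod isOpen_univ
  have hs : Icc a b ×ˢ (univ : Set F) ⊆ Ioi 0 ×ˢ univ :=
    prod_mono (fun t ht => ha.trans_le ht.1) le_rfl
  have hd : ∀ q ∈ Icc a b ×ˢ (univ : Set F), HasFDerivAt (V q.1)
      ((fderiv ℝ (fun q : ℝ × F => V q.1 q.2) q).comp (ContinuousLinearMap.inr ℝ ℝ F)) q.2 :=
    fun q hq => HasFDerivAt.comp (f := fun v : F => (q.1, v)) (g := fun r : ℝ × F => V r.1 r.2) q.2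
      (((h.differentiableOn one_ne_zero).differentiableAt (ho.mem_nhds (hs hq))).hasFDerivAt)
      (hasFDerivAt_prodMk_right q.1 q.2)
  refine ⟨h.continuousOn.mono hs, fun t ht x => (hd (t, x) ⟨ht, trivial⟩).differentiableAt, ?_, hg⟩
  refine ContinuousOn.congr ?_ fun q hq => (hd q hq).fderiv
  exact ((h.continuousOn_fderiv_of_isOpen ho le_rfl).mono hs).clm_comp continuousOn_const

/-- Equal masses: a flow carrying densities carries the normalised laws. -/
theorem map_normalised {X : Type*} [MeasurableSpace X] {μ₁ μ₂ ν₁ ν₂ : Measure X} {k₁ k₂ : ℝ≥0∞}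
    [IsProbabilityMeasure μ₁] [IsProbabilityMeasure μ₂] {T : X → X} (hT : Measurable T)
    (h₁ : μ₁ = k₁ • ν₁) (h₂ : μ₂ = k₂ • ν₂) (h : ν₁.map T = ν₂) : μ₁.map T = μ₂ := by
  have e : ν₂ univ = ν₁ univ := by rw [← h, Measure.map_apply hT MeasurableSet.univ, preimage_univ]
  have hk : k₁ = k₂ := by
    have a1 : k₁ * ν₁ univ = 1 := by
      rw [← smul_eq_mul, ← Measure.smul_apply, ← h₁, measure_univ]
    have a2 : k₂ * ν₁ univ = 1 := by
      rw [← e, ← smul_eq_mul, ← Measure.smul_apply, ← h₂, measure_univ]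
    rw [ENNReal.eq_inv_of_mul_eq_one_left a1, ENNReal.eq_inv_of_mul_eq_one_left a2]
  rw [h₁, h₂, Measure.map_smul, h, hk]

theorem sum_diag_eq_trace (T : E d →ₗ[ℝ] E d) :
    LinearMap.trace ℝ (E d) T = ∑ i, ⟪bas i, T (bas i)⟫ :=
  LinearMap.trace_eq_sum_inner T (EuclideanSpace.basisFun (Fin d) ℝ)

theorem trace_prod_eq (M : (E d × E d) →ₗ[ℝ] E d × E d) :
    LinearMap.trace ℝ (E d × E d) M =
      LinearMap.trace ℝ (E d) ((LinearMap.fst ℝ _ _ ∘ₗ M) ∘ₗ LinearMap.inl ℝ _ _) +
      LinearMap.trace ℝ (E d) ((LinearMap.snd ℝ _ _ ∘ₗ M) ∘ₗ LinearMap.inr ℝ _ _) := by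
  rw [← LinearMap.trace_comp_comm', ← LinearMap.trace_comp_comm' (LinearMap.snd ℝ _ _ ∘ₗ M),
    ← map_add]
  congr 1
  ext p <;> simp

/-- The unnormalised density of the probability flow. -/
noncomputable def flowDens (W : E d → ℝ) (t : ℝ) (y : E d) : ℝ := exp (-pot (tU W t) y)

/-- The unnormalised density of the coupling flow. -/
noncomputable def coupleDens (W : E d → ℝ) (g t : ℝ) (p : E d × E d) : ℝ :=
  exp (-(pot (tU W t) p.1 + ‖wOf W g t p‖ ^ 2 / 2))

/-- The algebra of the continuity equation of the coupling flow. -/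
theorem couple_algebra (A D : E d →L[ℝ] E d) {k : ℝ} (hA : ∀ x, A x = k • D x)
    (hs : ∀ u v, ⟪A u, v⟫ = ⟪u, A v⟫) (y U w L : E d) (l : ℝ) :
    -(l - ‖U‖ ^ 2 - ⟪y, U⟫ + 2 * ⟪w, 0 - k • (L - D (y + (2 : ℝ) • U))⟫ * 2⁻¹) +
      -(⟪y + U, U - A w⟫ + 2⁻¹ * (2 * ⟪w, -A (A w) - A (U - A w)⟫)) +
      (l - k * ⟪L, w⟫) = 0 := by
  have e : k • D (y + (2 : ℝ) • U) = A y + (2 : ℝ) • A U := by rw [← hA, map_add, map_smul]
  rw [smul_sub, e, zero_sub]
  simp only [map_sub, inner_add_left, inner_sub_right, inner_neg_right, inner_add_right,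
    real_inner_smul_right, real_inner_self_eq_norm_sq, real_inner_comm L w]
  rw [← hs w y, ← hs w U, ← hs w (A w), real_inner_comm y (A w), real_inner_comm U (A w)]
  ring

variable {η B : ℝ} {W : E d → ℝ} (hW : Pert η B W)
include hW

theorem fieldReg_flow {a b : ℝ} (ha : 0 < a) : FieldReg (flowField W) a b := by
  refine fieldReg_of_contDiffOn ha ?_ ?_
  · have he : ContDiff ℝ 1 fun q : ℝ × E d => exp (-q.1) := by fun_prop
    have hv : ContDiffOn ℝ 1 (fun q : ℝ × E d => tv W q.1 q.2) (Ioi 0 ×ˢ univ) :=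
      contDiffOn_tv hW (n := 1)
    exact he.contDiffOn.smul hv
  · have hc : ContinuousOn (fun t => tv W t (0 : E d)) (Icc a b) :=
      ContinuousOn.comp (g := fun q : ℝ × E d => tv W q.1 q.2) (f := fun t : ℝ => (t, (0 : E d)))
        (t := Ioi 0 ×ˢ univ) (contDiffOn_tv hW (n := 1)).continuousOn
        (continuousOn_id.prodMk continuousOn_const)
        fun t ht => mk_mem_prod (mem_Ioi.2 (ha.trans_le ht.1)) (mem_univ _)
    obtain ⟨M, hM⟩ := isCompact_Icc.exists_bound_of_continuousOn hc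
    refine ⟨max M 1, le_max_right _ _, fun t ht y => ?_⟩
    have ht0 : 0 < t := ha.trans_le ht.1
    have he : exp (-t) ≤ 1 := exp_le_one_iff.2 (by linarith)
    have h1 : ‖tv W t y - tv W t 0‖ ≤ η * exp (-t) * ‖y - 0‖ :=
      Convex.norm_image_sub_le_of_norm_fderiv_le
        (fun z _ => ((contDiff_tv hW ht0 (n := 1)).differentiable one_ne_zero) z)
        (fun z _ => norm_fderiv_tv_le hW ht0 z) convex_univ (mem_univ _) (mem_univ _)
    rw [sub_zero] at h1
    have h2 : ‖tv W t y‖ ≤ max M 1 * (1 + ‖y‖) := by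
      refine (norm_le_norm_add_norm_sub' _ (tv W t 0)).trans ?_
      have : η * exp (-t) ≤ max M 1 :=
        (mul_le_one₀ hW.eta_le_one (exp_pos _).le he).trans (le_max_right _ _)
      nlinarith [norm_nonneg y, hM t ht, le_max_left M 1, mul_le_mul_of_nonneg_right this
        (norm_nonneg y)]
    rw [flowField, norm_smul, norm_of_nonneg (exp_pos _).le]
    exact (mul_le_of_le_one_left (norm_nonneg _) he).trans h2

theorem fieldReg_couple {g a b : ℝ} (ha : 0 < a) : FieldReg (coupleField W g) a b := by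
  have hm : MapsTo (fun q : ℝ × (E d × E d) => (q.1, q.2.1)) (Ioi 0 ×ˢ univ) (Ioi 0 ×ˢ univ) :=
    fun q hq => mk_mem_prod hq.1 (mem_univ _)
  have hπ : ContDiff ℝ 1 fun q : ℝ × (E d × E d) => (q.1, q.2.1) := by fun_prop
  refine fieldReg_of_contDiffOn ha ?_ ?_
  · have hv : ContDiffOn ℝ 1 (fun q : ℝ × (E d × E d) => tv W q.1 q.2.1) (Ioi 0 ×ˢ univ) :=
      ContDiffOn.comp (g := fun q : ℝ × E d => tv W q.1 q.2)
        (f := fun q : ℝ × (E d × E d) => (q.1, q.2.1)) (contDiffOn_tv hW (n := 1)) hπ.contDiffOn hm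
    have hA : ContDiffOn ℝ 1 (fun q : ℝ × (E d × E d) => tA W g q.1 q.2.1) (Ioi 0 ×ˢ univ) :=
      ContDiffOn.comp (g := fun q : ℝ × E d => tA W g q.1 q.2)
        (f := fun q : ℝ × (E d × E d) => (q.1, q.2.1)) (contDiffOn_tA hW g (n := 1)) hπ.contDiffOn hm
    have hw : ContDiffOn ℝ 1 (fun q : ℝ × (E d × E d) => wOf W g q.1 q.2) (Ioi 0 ×ˢ univ) :=
      (contDiff_snd.snd).contDiffOn.sub (hv.const_smul g⁻¹)
    have he : ContDiff ℝ 1 fun q : ℝ × (E d × E d) => exp (-q.1) := by fun_prop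
    have h1 := hA.clm_apply hw
    exact ((he.contDiffOn.smul hv).sub h1).prodMk (hA.clm_apply h1).neg
  · obtain ⟨C, hC, hg⟩ := (fieldReg_flow hW (b := b) ha).growth
    set k := |g⁻¹|
    set C' := C * exp b
    refine ⟨C + (k + k * k) * (1 + k * C'), by
      have : 0 ≤ C' := mul_nonneg (by linarith) (exp_pos _).le
      nlinarith [abs_nonneg g⁻¹, mul_nonneg (abs_nonneg g⁻¹) this], fun t ht p => ?_⟩
    have ht0 : 0 < t := ha.trans_le ht.1
    have hA : ∀ x : E d, ‖tA W g t p.1 x‖ ≤ k * ‖x‖ := fun x => by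
      refine (ContinuousLinearMap.le_opNorm _ _).trans (mul_le_mul_of_nonneg_right ?_ (norm_nonneg _))
      rw [tA, norm_smul, Real.norm_eq_abs]
      refine mul_le_of_le_one_right (abs_nonneg _) ((norm_fderiv_tv_le hW ht0 _).trans ?_)
      exact mul_le_one₀ hW.eta_le_one (exp_pos _).le (exp_le_one_iff.2 (by linarith))
    have hp1 := norm_fst_le p
    have hp2 := norm_snd_le p
    have hf : ‖flowField W t p.1‖ ≤ C * (1 + ‖p‖) :=
      (hg t ht _).trans (mul_le_mul_of_nonneg_left (by linarith) (by linarith))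
    have hv : ‖tv W t p.1‖ ≤ C' * (1 + ‖p‖) := by
      have e : tv W t p.1 = exp t • flowField W t p.1 := by
        rw [flowField, smul_smul, ← exp_add, add_neg_cancel, exp_zero, one_smul]
      rw [e, norm_smul, norm_of_nonneg (exp_pos _).le]
      calc exp t * ‖flowField W t p.1‖ ≤ exp b * (C * (1 + ‖p‖)) :=
            mul_le_mul (exp_le_exp.2 ht.2) hf (norm_nonneg _) (exp_pos _).le
        _ = C' * (1 + ‖p‖) := by ring
    set w := wOf W g t p
    have hw : ‖w‖ ≤ (1 + k * C') * (1 + ‖p‖) := by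
      refine (norm_sub_le _ _).trans ?_
      rw [norm_smul, Real.norm_eq_abs]
      nlinarith [mul_le_mul_of_nonneg_left hv (abs_nonneg g⁻¹)]
    have hk : 0 ≤ k := abs_nonneg _
    have hN : (0 : ℝ) ≤ (1 + k * C') * (1 + ‖p‖) := (norm_nonneg _).trans hw
    have h1 := (hA w).trans (mul_le_mul_of_nonneg_left hw hk)
    have h2 : ‖tA W g t p.1 (tA W g t p.1 w)‖ ≤ k * k * ((1 + k * C') * (1 + ‖p‖)) :=
      (hA _).trans (by rw [mul_assoc]; exact mul_le_mul_of_nonneg_left h1 hk)
    rw [coupleField, Prod.norm_def]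
    refine max_le ((norm_sub_le _ _).trans ?_) ?_
    · nlinarith [mul_nonneg (mul_nonneg hk hk) hN]
    · rw [norm_neg]
      nlinarith [mul_nonneg hk hN, mul_nonneg (by linarith : (0 : ℝ) ≤ C) (norm_nonneg p)]

theorem hasFDerivAt_pot_tU {t : ℝ} (ht : 0 < t) (y : E d) :
    HasFDerivAt (pot (tU W t)) (innerSL ℝ (y + grad (tU W t) y)) y :=
  (pert_tU hW ht).hasFDerivAt_pot y

theorem differentiableAt_pot_tU {t : ℝ} (ht : 0 < t) (y : E d) :
    DifferentiableAt ℝ (fun q : ℝ × E d => pot (tU W q.1) q.2) (t, y) := by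
  have h : DifferentiableAt ℝ (fun q : ℝ × E d => tU W q.1 q.2) (t, y) :=
    ((contDiffOn_tU hW (n := 1)).differentiableOn one_ne_zero).differentiableAt
      ((isOpen_Ioi.prod isOpen_univ).mem_nhds (mk_mem_prod (mem_Ioi.2 ht) (mem_univ _)))
  have h2 : DifferentiableAt ℝ (fun q : ℝ × E d => ‖q.2‖ ^ 2 / 2) (t, y) := by
    have := (differentiableAt_snd (𝕜 := ℝ) (p := ((t, y) : ℝ × E d))).norm_sq ℝ
    exact this.mul_const ((2 : ℝ)⁻¹)
  exact h2.add h

theorem sum_lap_tU {t : ℝ} (ht : 0 < t) (y : E d) :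
    ∑ i, dd (bas i) (dd (bas i) (tU W t)) y =
      LinearMap.trace ℝ (E d) (fderiv ℝ (grad (tU W t)) y).toLinearMap := by
  rw [sum_diag_eq_trace]
  refine Finset.sum_congr rfl fun i _ => ?_
  have e : dd (bas i) (tU W t) = fun x => ⟪grad (tU W t) x, bas i⟫ :=
    funext fun x => (inner_grad x (bas i)).symm
  rw [dd, e, fderiv_inner_apply ℝ (((pert_tU hW ht).contDiff_grad.differentiable one_ne_zero) y)
    (differentiableAt_const _)]
  simp [real_inner_comm]

theorem contEq_flow {a b : ℝ} (ha : 0 < a) : ContEq (flowField W) (flowDens W) a b := by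
  refine ⟨fun t _ y => exp_pos _,
    fun t ht y => (differentiableAt_pot_tU hW (ha.trans_le ht.1) y).neg.exp, fun t ht y => ?_⟩
  have ht0 : 0 < t := ha.trans_le ht.1
  have h1 := (((hasDerivAt_tU hW ht0 y).const_add (‖y‖ ^ 2 / 2)).neg).exp
  have h2 := ((hasFDerivAt_pot_tU hW ht0 y).neg).exp
  rw [partial_eq ((differentiableAt_pot_tU hW ht0 y).neg.exp) h1 h2,
    funext (flowField_eq hW ht0), ← sum_lap_tU hW ht0 y]
  simp only [flowDens, pot, smul_apply, neg_apply, innerSL_apply_apply, inner_add_left,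
    real_inner_self_eq_norm_sq, smul_eq_mul, Pi.neg_apply]
  ring

/-- The probability flow carries the laws. -/
theorem map_flowField {a b t : ℝ} (ha : 0 < a) (hab : a ≤ b) (ht : t ∈ Icc a b) :
    (law (tU W a)).map (fun y => odeFlow (flowField W) a b y t) = law (tU W t) := by
  have hV := fieldReg_flow hW (b := b) ha
  have := (pert_tU hW ha).isProbabilityMeasure_law
  have := (pert_tU hW (ha.trans_le ht.1)).isProbabilityMeasure_law
  refine map_normalised ?_ rfl rfl (hV.map_flow volume hab (contEq_flow hW ha) ht)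
  exact (continuous_iff_continuousAt.2 fun y => by
    obtain ⟨J, -, -, hJ⟩ := hV.hasFDerivAt_flow hab y
    exact (hJ t ht).continuousAt).measurable

theorem hasFDerivAt_tA_apply {g t : ℝ} (ht : 0 < t) {f : E d → E d} {f' : E d →L[ℝ] E d} {y : E d}
    (hf : HasFDerivAt f f' y) :
    HasFDerivAt (fun x => tA W g t x (f x))
      ((tA W g t y).comp f' + (fderiv ℝ (tA W g t) y).flip (f y)) y := by
  have hA : HasFDerivAt (tA W g t) (fderiv ℝ (tA W g t) y) y := by
    refine (DifferentiableAt.hasFDerivAt ?_)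
    have := ((contDiff_tv hW ht (n := 2)).fderiv_right (m := 1) le_rfl).differentiable one_ne_zero y
    exact this.const_smul g⁻¹
  exact hA.clm_apply hf

theorem fderiv_tA_symm {g t : ℝ} (ht : 0 < t) (y u p q : E d) :
    ⟪fderiv ℝ (tA W g t) y u p, q⟫ = ⟪p, fderiv ℝ (tA W g t) y u q⟫ := by
  have h1 := (hasFDerivAt_tA_apply hW (g := g) ht (hasFDerivAt_const p y)).inner ℝ
    (hasFDerivAt_const q y)
  have h2 := (hasFDerivAt_const p y).inner ℝ
    (hasFDerivAt_tA_apply hW (g := g) ht (hasFDerivAt_const q y))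
  rw [funext fun x => tA_symm hW g ht x p q] at h1
  have h := congrArg (fun L : E d →L[ℝ] ℝ => L u) (h1.unique h2)
  simpa [fderivInnerCLM_apply] using h

theorem hasFDerivAt_wOf {g t : ℝ} (ht : 0 < t) (p : E d × E d) :
    HasFDerivAt (wOf W g t) (ContinuousLinearMap.snd ℝ (E d) (E d) -
      (tA W g t p.1).comp (ContinuousLinearMap.fst ℝ (E d) (E d))) p := by
  have hv := ((contDiff_tv hW ht (n := 1)).differentiable one_ne_zero p.1).hasFDerivAt
  exact hasFDerivAt_snd.sub ((hv.const_smul g⁻¹).comp p hasFDerivAt_fst)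

theorem trace_couple {g t : ℝ} (ht : 0 < t) (p : E d × E d) :
    LinearMap.trace ℝ (E d × E d) (fderiv ℝ (coupleField W g t) p).toLinearMap =
      (∑ i, dd (bas i) (dd (bas i) (tU W t)) p.1) -
        g⁻¹ * ⟪∑ i, fderiv ℝ (fun x => fderiv ℝ (tv W t) x (bas i)) p.1 (bas i), wOf W g t p⟫ := by
  set A := tA W g t p.1
  set w := wOf W g t p
  set DA := fderiv ℝ (tA W g t) p.1
  set H := fderiv ℝ (grad (tU W t)) p.1
  have hA : HasFDerivAt (tA W g t) DA p.1 := by
    refine (DifferentiableAt.hasFDerivAt ?_)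
    exact (((contDiff_tv hW ht (n := 2)).fderiv_right (m := 1) le_rfl).differentiable one_ne_zero
      p.1).const_smul g⁻¹
  have hw := hasFDerivAt_wOf hW (g := g) ht p
  have hAp := hA.comp p hasFDerivAt_fst (f := Prod.fst)
  have h1 := hAp.clm_apply hw
  have h2 := hAp.clm_apply h1
  have hF : HasFDerivAt (fun q : E d × E d => flowField W t q.1)
      (H.comp (ContinuousLinearMap.fst ℝ (E d) (E d))) p := by
    rw [funext fun q : E d × E d => flowField_eq hW ht q.1]
    exact (((pert_tU hW ht).contDiff_grad.differentiable one_ne_zero p.1).hasFDerivAt).comp p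
      hasFDerivAt_fst
  have h : HasFDerivAt (coupleField W g t) _ p := (hF.sub h1).prodMk h2.neg
  rw [h.fderiv, trace_prod_eq, sum_diag_eq_trace, sum_diag_eq_trace,
    sum_lap_tU hW ht, sum_diag_eq_trace, ← Finset.sum_add_distrib, sum_inner, Finset.mul_sum,
    ← Finset.sum_sub_distrib]
  refine Finset.sum_congr rfl fun i _ => ?_
  have hflip : fderiv ℝ (fun x => fderiv ℝ (tv W t) x (bas i)) p.1 (bas i) =
      fderiv ℝ (fderiv ℝ (tv W t)) p.1 (bas i) (bas i) := by
    rw [fderiv_clm_apply (((contDiff_tv hW ht (n := 2)).fderiv_right (m := 1) le_rfl).differentiable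
      one_ne_zero p.1) (differentiableAt_const _)]
    simp
  have hDA : DA (bas i) (bas i) = g⁻¹ • fderiv ℝ (fderiv ℝ (tv W t)) p.1 (bas i) (bas i) := by
    simp only [DA]
    rw [show tA W g t = fun x => g⁻¹ • fderiv ℝ (tv W t) x from rfl,
      fderiv_fun_const_smul (((contDiff_tv hW ht (n := 2)).fderiv_right (m := 1) le_rfl).differentiable
        one_ne_zero p.1)]
    rfl
  have hs : ⟪bas i, DA (bas i) w⟫ = g⁻¹ * ⟪fderiv ℝ (fderiv ℝ (tv W t)) p.1 (bas i) (bas i), w⟫ := by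
    rw [← fderiv_tA_symm hW ht p.1 (bas i) (bas i) w, hDA, real_inner_smul_left]
  rw [hflip, ← hs]
  simp [inner_add_right, inner_sub_right, w, DA]
  ring

theorem contEq_couple {g a b : ℝ} (ha : 0 < a) :
    ContEq (coupleField W g) (coupleDens W g) a b := by
  have hd : ∀ t, 0 < t → ∀ p : E d × E d,
      DifferentiableAt ℝ (fun q : ℝ × (E d × E d) => coupleDens W g q.1 q.2) (t, p) := by
    intro t ht p
    have hπ : DifferentiableAt ℝ (fun q : ℝ × (E d × E d) => (q.1, q.2.1)) (t, p) := by fun_prop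
    have h1 := (differentiableAt_pot_tU hW ht p.1).comp (t, p) hπ
    have hv : DifferentiableAt ℝ (fun q : ℝ × E d => tv W q.1 q.2) (t, p.1) :=
      ((contDiffOn_tv hW (n := 1)).differentiableOn one_ne_zero).differentiableAt
        ((isOpen_Ioi.prod isOpen_univ).mem_nhds (mk_mem_prod (mem_Ioi.2 ht) (mem_univ _)))
    have hw : DifferentiableAt ℝ (fun q : ℝ × (E d × E d) => wOf W g q.1 q.2) (t, p) :=
      (differentiableAt_snd.snd).sub ((hv.comp (t, p) hπ).const_smul g⁻¹)
    have h3 : DifferentiableAt ℝ (fun q : ℝ × (E d × E d) => ‖wOf W g q.1 q.2‖ ^ 2 / 2) (t, p) :=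
      (hw.norm_sq ℝ).mul_const ((2 : ℝ)⁻¹)
    exact (h1.add h3).neg.exp
  refine ⟨fun t _ p => exp_pos _, fun t ht p => hd t (ha.trans_le ht.1) p, fun t ht p => ?_⟩
  have ht0 : 0 < t := ha.trans_le ht.1
  have hw1 : HasDerivAt (fun s => wOf W g s p) _ t :=
    (hasDerivAt_const t p.2).sub ((hasDerivAt_tv hW ht0 p.1).const_smul g⁻¹)
  have h1 := ((((hasDerivAt_tU hW ht0 p.1).const_add (‖p.1‖ ^ 2 / 2)).add
    (hw1.norm_sq.div_const 2)).neg).exp
  have h2 := ((((hasFDerivAt_pot_tU hW ht0 p.1).comp p hasFDerivAt_fst).add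
    ((hasFDerivAt_wOf hW (g := g) ht0 p).norm_sq.mul_const (1 / 2 : ℝ))).neg).exp
  have e2 : coupleDens W g t = fun q =>
      exp (-(pot (tU W t) q.1 + ‖wOf W g t q‖ ^ 2 * (1 / 2))) := by
    funext q; simp [coupleDens, div_eq_mul_inv]
  rw [partial_eq (hd t ht0 p) h1 (e2 ▸ h2), trace_couple hW ht0 p]
  simp only [coupleDens, pot, coupleField, Pi.neg_apply, Pi.add_apply, Function.comp_apply,
    flowField_eq hW ht0, smul_apply, neg_apply, add_apply, sub_apply,
    ContinuousLinearMap.comp_apply, ContinuousLinearMap.coe_fst', ContinuousLinearMap.coe_snd',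
    innerSL_apply_apply, smul_eq_mul, nsmul_eq_mul, Nat.cast_ofNat, div_eq_mul_inv, one_mul]
  linear_combination exp (-(‖p.1‖ ^ 2 * 2⁻¹ + tU W t p.1 + ‖wOf W g t p‖ ^ 2 * 2⁻¹)) *
    couple_algebra (tA W g t p.1) (fderiv ℝ (tv W t) p.1) (k := g⁻¹) (fun x => rfl)
      (tA_symm hW g ht0 p.1) p.1 (grad (tU W t) p.1) (wOf W g t p)
      (∑ i, fderiv ℝ (fun x => fderiv ℝ (tv W t) x (bas i)) p.1 (bas i))
      (∑ i, dd (bas i) (dd (bas i) (tU W t)) p.1)

theorem coupleLaw_eq {g t : ℝ} (ht : 0 < t) :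
    IsProbabilityMeasure (coupleLaw W g t) ∧ ∃ k : ℝ≥0∞, coupleLaw W g t =
      k • ((volume : Measure (E d)).prod volume).withDensity
        fun p => ENNReal.ofReal (coupleDens W g t p) := by
  have hP := pert_tU hW ht
  have := hP.isProbabilityMeasure_law
  have hvc : Continuous (tv W t) := (contDiff_tv hW ht (n := 1)).continuous
  set S := fun p : E d × E d => (p.1, g⁻¹ • tv W t p.1 + p.2)
  have hS : Continuous S := by fun_prop
  refine ⟨Measure.isProbabilityMeasure_map hS.measurable.aemeasurable, ?_⟩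
  have hmp : MeasurePreserving S ((volume : Measure (E d)).prod volume)
      ((volume : Measure (E d)).prod volume) :=
    (MeasurePreserving.id volume).skew_product (g := fun x c => g⁻¹ • tv W t x + c)
      (by fun_prop : Measurable fun p : E d × E d => g⁻¹ • tv W t p.1 + p.2)
      (ae_of_all _ fun x => map_add_left_eq_self volume _)
  set f : E d → ℝ≥0∞ := fun x => ENNReal.ofReal (exp (-pot (tU W t) x))
  set h : E d → ℝ≥0∞ := fun v => ENNReal.ofReal (exp (-gPot v))
  have hf : Measurable f := hP.decay.1.neg.rexp.measurable.ennreal_ofReal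
  have hh : Measurable h := decay_gPot.1.neg.rexp.measurable.ennreal_ofReal
  set c : ℝ≥0∞ := ENNReal.ofReal ((∫ y : E d, exp (-gPot y))⁻¹)
  have hγ : stdGaussian (E d) = c • (volume : Measure (E d)).withDensity h := by
    rw [stdGaussian_eq_withDensity, ← withDensity_smul c hh]
    congr 1
    funext x
    exact ENNReal.ofReal_mul (inv_nonneg.2 (integral_nonneg fun y => (exp_pos _).le))
  refine ⟨(∫⁻ x, ENNReal.ofReal (exp (-pot (tU W t) x)))⁻¹ * c, ?_⟩
  have hm : (fun p => f p.1 * h p.2) = fun p => ENNReal.ofReal (coupleDens W g t (S p)) := by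
    funext p
    simp only [f, h, S, coupleDens, wOf, add_sub_cancel_left, gPot, neg_add, exp_add]
    exact (ENNReal.ofReal_mul (exp_pos _).le).symm
  have hd : Measurable fun p => ENNReal.ofReal (coupleDens W g t p) :=
    (by unfold coupleDens wOf; have := hP.decay.1; fun_prop :
      Continuous (coupleDens W g t)).measurable.ennreal_ofReal
  rw [coupleLaw, law, gibbs, hγ, Measure.prod_smul_left, Measure.prod_smul_right, smul_smul,
    prod_withDensity hf hh, hm, Measure.map_smul]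
  congr 1
  refine Measure.ext fun T hT => ?_
  rw [Measure.map_apply hS.measurable hT, withDensity_apply _ (hS.measurable hT),
    withDensity_apply _ hT, hmp.setLIntegral_comp_preimage hT hd]

/-- The coupling flow carries the coupled laws. -/
theorem map_coupleField {g a b t : ℝ} (ha : 0 < a) (hab : a ≤ b) (ht : t ∈ Icc a b) :
    (coupleLaw W g a).map (fun p => odeFlow (coupleField W g) a b p t) = coupleLaw W g t := by
  have hV := fieldReg_couple hW (g := g) (b := b) ha
  obtain ⟨i1, k1, h1⟩ := coupleLaw_eq hW (g := g) ha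
  obtain ⟨i2, k2, h2⟩ := coupleLaw_eq hW (g := g) (ha.trans_le ht.1)
  refine map_normalised ?_ h1 h2
    (hV.map_flow ((volume : Measure (E d)).prod volume) hab (contEq_couple hW ha) ht)
  exact (continuous_iff_continuousAt.2 fun p => by
    obtain ⟨J, -, -, hJ⟩ := hV.hasFDerivAt_flow hab p
    exact (hJ t ht).continuousAt).measurable

end Vale.Agent.P347.Zero
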