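import Vale.Agent.P347.Zero.Ode

/-!
# P347, exponent zero: reparametrised flows and flows depending on a parameter

Affine changes of time keep regular fields regular; a flow does not depend on the end of its time
interval; the flow of a field depending continuously on a parameter is continuous in all arguments.
-/

open MeasureTheory Real Set Filter
open scoped Topology NNReal

namespace Vale.Agent.P347.Zero

variable {F : Type*} [NormedAddCommGroup F] [NormedSpace ℝ F] {V : ℝ → F → F} {a b : ℝ}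

/-- An affine change of time. -/
theorem FieldReg.affine (hV : FieldReg V a b) {c s a' b' : ℝ}
    (hm : MapsTo (fun u => c + s * u) (Icc a' b') (Icc a b)) :
    FieldReg (fun u x => s • V (c + s * u) x) a' b' := by
  obtain ⟨C, hC, hg⟩ := hV.growth
  have hφ : ContinuousOn (fun q : ℝ × F => (c + s * q.1, q.2)) (Icc a' b' ×ˢ univ) := by fun_prop
  have hmm : MapsTo (fun q : ℝ × F => (c + s * q.1, q.2)) (Icc a' b' ×ˢ univ) (Icc a b ×ˢ univ) :=
    fun q hq => ⟨hm hq.1, trivial⟩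
  refine ⟨(hV.cont.comp hφ hmm).const_smul s, fun u hu => (hV.diff _ (hm hu)).const_smul s, ?_,
    C * (|s| + 1), by nlinarith [abs_nonneg s], fun u hu x => ?_⟩
  · refine ((hV.contD.comp hφ hmm).const_smul s).congr fun q hq => ?_
    exact fderiv_fun_const_smul ((hV.diff _ (hm hq.1)) q.2) s
  · rw [norm_smul, Real.norm_eq_abs]
    have h := mul_le_mul_of_nonneg_left (hg _ (hm hu) x) (abs_nonneg s)
    nlinarith [norm_nonneg x, abs_nonneg s]

/-- An affine change of time along a trajectory. -/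
theorem IsTraj.affine {γ : ℝ → F} (h : IsTraj V a b γ) {c s a' b' : ℝ}
    (hm : MapsTo (fun u => c + s * u) (Icc a' b') (Icc a b)) :
    IsTraj (fun u x => s • V (c + s * u) x) a' b' (fun u => γ (c + s * u)) := fun u hu => by
  have h1 : HasDerivWithinAt (fun u => c + s * u) s (Icc a' b') u := by
    simpa using ((hasDerivWithinAt_id u (Icc a' b')).const_mul s).const_add c
  exact (h _ (hm hu)).scomp u h1 hm

theorem IsTraj.mono {γ : ℝ → F} (h : IsTraj V a b γ) {a' b' : ℝ} (ha : a ≤ a') (hb : b' ≤ b) :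
    IsTraj V a' b' γ :=
  fun t ht => (h t ⟨ha.trans ht.1, ht.2.trans hb⟩).mono (Icc_subset_Icc ha hb)

variable [FiniteDimensional ℝ F]

/-- The flow does not depend on the end of the interval. -/
theorem FieldReg.flow_restrict (hV : FieldReg V a b) {b' : ℝ} (hab : a ≤ b') (hb : b' ≤ b) (x : F)
    {t : ℝ} (ht : t ∈ Icc a b') : odeFlow V a b' x t = odeFlow V a b x t := by
  obtain ⟨h1, h2⟩ := hV.flow_spec (hab.trans hb) x
  have h := (hV.mono le_rfl hb).flow_eq hab (h1.mono le_rfl hb) ht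
  rwa [h2] at h

/-- Continuity of the flow in a parameter, the starting point and the time. -/
theorem continuousOn_paramFlow {P : Type*} [PseudoMetricSpace P] {Λ : Set P} (hΛ : IsCompact Λ)
    (hab : a ≤ b) {G : P → ℝ → F → F} (hV : ∀ l ∈ Λ, FieldReg (G l) a b)
    (hc : ContinuousOn (fun q : P × ℝ × F => G q.1 q.2.1 q.2.2) (Λ ×ˢ Icc a b ×ˢ univ))
    (hD : ContinuousOn (fun q : P × ℝ × F => fderiv ℝ (G q.1 q.2.1) q.2.2)
      (Λ ×ˢ Icc a b ×ˢ univ))
    {C : ℝ} (hC : 1 ≤ C) (hg : ∀ l ∈ Λ, ∀ t ∈ Icc a b, ∀ x, ‖G l t x‖ ≤ C * (1 + ‖x‖)) :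
    ContinuousOn (fun q : P × F × ℝ => odeFlow (G q.1) a b q.2.1 q.2.2)
      (Λ ×ˢ univ ×ˢ Icc a b) := by
  rintro ⟨l, x, t⟩ ⟨hl, -, ht⟩
  set R := (‖x‖ + 2) * exp (C * (b - a)) with hR
  have hcpt := hΛ.prod ((isCompact_Icc (a := a) (b := b)).prod (isCompact_closedBall (0 : F) R))
  have hsub : Λ ×ˢ Icc a b ×ˢ Metric.closedBall (0 : F) R ⊆ Λ ×ˢ Icc a b ×ˢ univ :=
    prod_mono le_rfl (prod_mono le_rfl (subset_univ _))
  obtain ⟨M, hM⟩ := hcpt.exists_bound_of_continuousOn (hD.mono hsub)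
  set K : ℝ≥0 := (max M 1).toNNReal
  have hK : ∀ m ∈ Λ, ∀ s ∈ Icc a b, LipschitzOnWith K (G m s) (Metric.closedBall 0 R) :=
    fun m hm s hs => Convex.lipschitzOnWith_of_nnnorm_fderiv_le
      (fun z _ => (hV m hm).diff s hs z) (fun z hz => by
        rw [← NNReal.coe_le_coe, coe_nnnorm, Real.coe_toNNReal']
        exact (hM (m, s, z) ⟨hm, hs, hz⟩).trans ((le_max_left _ _).trans (le_max_left _ _)))
      (convex_closedBall _ _)
  have hmem : ∀ m ∈ Λ, ∀ z : F, ‖z‖ ≤ ‖x‖ + 1 → ∀ s ∈ Icc a b,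
      odeFlow (G m) a b z s ∈ Metric.closedBall (0 : F) R := fun m hm z hz s hs => by
    simp only [Metric.mem_closedBall, dist_zero_right]
    refine ((hV m hm).norm_flow_le hab hC (hg m hm) z hs).trans ?_
    rw [hR]
    exact mul_le_mul_of_nonneg_right (by linarith) (exp_pos _).le
  have huc := hcpt.uniformContinuousOn_of_continuous (hc.mono hsub)
  rw [Metric.uniformContinuousOn_iff] at huc
  set T := exp (K * (b - a))
  have hT : 0 < T := exp_pos _
  rw [ContinuousWithinAt, Metric.tendsto_nhds]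
  intro ε hε
  obtain ⟨δ₁, hδ₁, huc⟩ := huc (ε / (3 * T)) (by positivity)
  have hct : ContinuousWithinAt (odeFlow (G l) a b x) (Icc a b) t :=
    (((hV l hl).flow_spec hab x).1 t ht).continuousWithinAt
  rw [Metric.continuousWithinAt_iff] at hct
  obtain ⟨δ₂, hδ₂, hct⟩ := hct (ε / 3) (by positivity)
  rw [eventually_nhdsWithin_iff]
  filter_upwards [Metric.ball_mem_nhds (l, x, t)
    (show 0 < min (min δ₁ δ₂) (min 1 (ε / (3 * T))) by positivity)] with q hq hqm
  obtain ⟨m, z, s⟩ := q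
  obtain ⟨hm, -, hs⟩ := hqm
  simp only [Metric.mem_ball, Prod.dist_eq, max_lt_iff] at hq
  obtain ⟨hq1, hq2, hq3⟩ := hq
  have hm1 : dist m l < δ₁ := hq1.trans_le ((min_le_left _ _).trans (min_le_left _ _))
  have hs2 : dist s t < δ₂ := hq3.trans_le ((min_le_left _ _).trans (min_le_right _ _))
  have hz1 : dist z x < 1 := hq2.trans_le ((min_le_right _ _).trans (min_le_left _ _))
  have hz2 : dist z x < ε / (3 * T) := hq2.trans_le ((min_le_right _ _).trans (min_le_right _ _))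
  have hzR : ‖z‖ ≤ ‖x‖ + 1 :=
    (norm_le_norm_add_norm_sub' z x).trans (by rw [dist_eq_norm] at hz1; linarith)
  have h1 := (hV l hl).flow_spec hab x
  have h2 := (hV m hm).flow_spec hab z
  set η := ε / (3 * T) with hη
  have key : dist (odeFlow (G m) a b z s) (odeFlow (G l) a b x s) ≤
      gronwallBound (dist z x) K (η + 0) (s - a) := by
    refine dist_le_of_approx_trajectories_ODE_of_mem (v := G l)
      (s := fun _ => Metric.closedBall (0 : F) R)
      (f' := fun u => G m u (odeFlow (G m) a b z u)) (g' := fun u => G l u (odeFlow (G l) a b x u))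
      (fun u hu => hK l hl u (Ico_subset_Icc_self hu)) h2.1.continuousOn
      (fun u hu => deriv_Ici hu (h2.1 u (Ico_subset_Icc_self hu))) (fun u hu => ?_)
      (fun u hu => hmem m hm z hzR u (Ico_subset_Icc_self hu)) h1.1.continuousOn
      (fun u hu => deriv_Ici hu (h1.1 u (Ico_subset_Icc_self hu))) (fun u hu => by rw [dist_self])
      (fun u hu => hmem l hl x (by linarith) u (Ico_subset_Icc_self hu)) ?_ s hs
    · have hb' := hmem m hm z hzR u (Ico_subset_Icc_self hu)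
      refine (huc (m, u, _) ⟨hm, Ico_subset_Icc_self hu, hb'⟩ (l, u, _)
        ⟨hl, Ico_subset_Icc_self hu, hb'⟩ ?_).le
      simp only [Prod.dist_eq, dist_self]
      exact max_lt hm1 hδ₁
    · rw [h2.2, h1.2]
  have hK1 : (1 : ℝ) ≤ K := by
    simp only [K, Real.coe_toNNReal']
    exact (le_max_right _ _).trans (le_max_left _ _)
  rw [gronwallBound_of_K_ne_0 (by linarith), add_zero] at key
  have e1 : exp ((K : ℝ) * (s - a)) ≤ T :=
    exp_le_exp.2 (mul_le_mul_of_nonneg_left (by linarith [hs.2]) K.coe_nonneg)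
  have e2 : (1 : ℝ) ≤ exp (K * (s - a)) :=
    one_le_exp (mul_nonneg K.coe_nonneg (sub_nonneg.2 hs.1))
  have e3 : η / K * (exp (K * (s - a)) - 1) ≤ η * T :=
    mul_le_mul (div_le_self (by positivity) hK1) (by linarith) (by linarith) (by positivity)
  have e4 : dist z x * exp (K * (s - a)) ≤ η * T :=
    mul_le_mul hz2.le e1 (exp_pos _).le (by positivity)
  have e5 : η * T = ε / 3 := by rw [hη]; field_simp
  calc dist (odeFlow (G m) a b z s) (odeFlow (G l) a b x t)
      ≤ dist (odeFlow (G m) a b z s) (odeFlow (G l) a b x s) +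
        dist (odeFlow (G l) a b x s) (odeFlow (G l) a b x t) := dist_triangle _ _ _
    _ < ε := by linarith [hct hs hs2]

/-- Regularity of a parameterised field from joint smoothness. -/
theorem paramReg_of_contDiffOn {H : ℝ → ℝ → F → F} {Λ : Set ℝ} {S : Set (ℝ × ℝ)} (hS : IsOpen S)
    (hsub : Λ ×ˢ Icc a b ⊆ S)
    (h : ContDiffOn ℝ 1 (fun q : ℝ × ℝ × F => H q.1 q.2.1 q.2.2)
      {q | (q.1, q.2.1) ∈ S})
    {C : ℝ} (hC : 1 ≤ C) (hg : ∀ l ∈ Λ, ∀ t ∈ Icc a b, ∀ x, ‖H l t x‖ ≤ C * (1 + ‖x‖)) :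
    (∀ l ∈ Λ, FieldReg (H l) a b) ∧
      (IsCompact Λ → a ≤ b → ContinuousOn (fun q : ℝ × F × ℝ => odeFlow (H q.1) a b q.2.1 q.2.2)
        (Λ ×ˢ univ ×ˢ Icc a b)) := by
  set f := fun q : ℝ × ℝ × F => H q.1 q.2.1 q.2.2
  have ho : IsOpen {q : ℝ × ℝ × F | (q.1, q.2.1) ∈ S} :=
    hS.preimage (continuous_fst.prodMk (continuous_fst.comp continuous_snd))
  have hs : Λ ×ˢ Icc a b ×ˢ univ ⊆ {q : ℝ × ℝ × F | (q.1, q.2.1) ∈ S} :=
    fun q hq => hsub ⟨hq.1, hq.2.1⟩
  have hd : ∀ q ∈ Λ ×ˢ Icc a b ×ˢ (univ : Set F), HasFDerivAt (H q.1 q.2.1)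
      ((fderiv ℝ f q).comp ((ContinuousLinearMap.inr ℝ ℝ (ℝ × F)).comp
        (ContinuousLinearMap.inr ℝ ℝ F))) q.2.2 := fun q hq => by
    have h1 : DifferentiableAt ℝ f q :=
      (h.differentiableOn one_ne_zero).differentiableAt (ho.mem_nhds (hs hq))
    exact HasFDerivAt.comp (f := fun v : F => (q.1, q.2.1, v)) (g := f) q.2.2 h1.hasFDerivAt
      ((hasFDerivAt_prodMk_right q.1 (q.2.1, q.2.2)).comp q.2.2
        (hasFDerivAt_prodMk_right q.2.1 q.2.2))
  have hcD : ContinuousOn (fun q : ℝ × ℝ × F => fderiv ℝ (H q.1 q.2.1) q.2.2)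
      (Λ ×ˢ Icc a b ×ˢ univ) := by
    refine ContinuousOn.congr ?_ fun q hq => (hd q hq).fderiv
    exact ((h.continuousOn_fderiv_of_isOpen ho le_rfl).mono hs).clm_comp continuousOn_const
  have hc := h.continuousOn.mono hs
  have hV : ∀ l ∈ Λ, FieldReg (H l) a b := fun l hl => by
    have hm : MapsTo (fun q : ℝ × F => (l, q)) (Icc a b ×ˢ univ) (Λ ×ˢ Icc a b ×ˢ univ) :=
      fun q hq => ⟨hl, hq⟩
    exact ⟨hc.comp (continuousOn_const.prodMk continuousOn_id) hm,
      fun t ht x => (hd (l, t, x) ⟨hl, ht, trivial⟩).differentiableAt,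
      hcD.comp (continuousOn_const.prodMk continuousOn_id) hm, C, hC, hg l hl⟩
  exact ⟨hV, fun hΛ hab => continuousOn_paramFlow hΛ hab hV hc hcD hC hg⟩

end Vale.Agent.P347.Zero
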