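import Vale.Agent.P347.Zero.GeoErr

/-!
# P347, exponent zero: the system of a band holds along exact trajectories

`BandData` lists what is used of the probability flow, the coupled flow, the auxiliary flows, the
rotation flows and the short probability flows from a common root. From it the residuals of the
system are bounded.
-/

open MeasureTheory ProbabilityTheory Set Real
open scoped BigOperators

namespace Vale.Agent.P347.Zero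

variable {d : ℕ}

/-- The roots. -/
abbrev GRoot (d : ℕ) : Type := (E d × E d) × E d

/-- The velocity of `w`. -/
noncomputable def wVel (W : E d → ℝ) (g t : ℝ) (y : E d) : E d :=
  -(g⁻¹ • (deriv (fun s => tv W s y) t + fderiv ℝ (tv W t) y (flowField W t y)))

/-- A chain of derivatives along a random curve on `[a, b]`, with top derivative of mean size `K`. -/
structure PathChain (W : E d → ℝ) (m : ℕ) (a b K : ℝ) (f : ℕ → ℝ → GRoot d → E d) : Prop where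
  deriv : ∀ r, ∀ k ≤ m, ∀ t ∈ Icc a b,
    HasDerivWithinAt (fun s => f k s r) (f (k + 1) t r) (Icc a b) t
  cont : ∀ r, ContinuousOn (fun s => f (m + 1) s r) (Icc a b)
  mean : ∀ a' h, 0 ≤ h → Icc a' (a' + h) ⊆ Icc a b →
    MeanLe (rootLaw W) (fun r => ∫ s in a'..(a' + h), ‖f (m + 1) s r‖) (h * K)

/-- The trajectories of a band and their chains. -/
structure BandData (W : E d → ℝ) (g T e θ₀ : ℝ) (m : ℕ) (K κ : ℝ) where
  /-- probability flow -/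
  yP : ℝ → GRoot d → E d
  /-- coupled position -/
  yC : ℝ → GRoot d → E d
  /-- coupled `w` -/
  wC : ℝ → GRoot d → E d
  /-- primitive of the correction -/
  yO : ℝ → GRoot d → E d
  /-- auxiliary position -/
  yX : ℝ → ℝ → GRoot d → E d
  /-- auxiliary `w` -/
  wX : ℝ → ℝ → GRoot d → E d
  /-- rotation flow -/
  yH : ℝ → ℝ → ℝ → GRoot d → E d
  /-- short probability flow -/
  yF : ℝ → ℝ → ℝ → GRoot d → E d
  /-- chains -/
  fP : ℕ → ℝ → GRoot d → E d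
  fC : ℕ → ℝ → GRoot d → E d
  fL : ℕ → ℝ → GRoot d → E d
  fO : ℕ → ℝ → GRoot d → E d
  fXA : ℝ → ℕ → ℝ → GRoot d → E d
  fXL : ℝ → ℕ → ℝ → GRoot d → E d
  fXv : ℝ → ℕ → ℝ → GRoot d → E d
  fHv : ℝ → ℝ → ℕ → ℝ → GRoot d → E d
  fFd : ℝ → ℝ → ℕ → ℝ → GRoot d → E d
  fFv : ℝ → ℝ → ℕ → ℝ → GRoot d → E d
  pcP : PathChain W m 1 T K fP
  pcC : PathChain W m 1 T K fC
  pcL : PathChain W m 1 T K fL
  pcO : PathChain W m 1 T K fO
  pcXA : ∀ τ ∈ Icc 1 T, PathChain W m 0 θ₀ (K * κ ^ (m + 1)) (fXA τ)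
  pcXL : ∀ τ ∈ Icc 1 T, PathChain W m 0 θ₀ (K * κ ^ (m + 1)) (fXL τ)
  pcXv : ∀ τ ∈ Icc 1 T, PathChain W m 0 θ₀ (K * κ ^ (m + 1)) (fXv τ)
  pcHv : ∀ τ ∈ Icc 1 T, ∀ θ ∈ Icc 0 θ₀, PathChain W m 0 e K (fHv τ θ)
  pcFd : ∀ τ ∈ Icc 1 T, ∀ θ ∈ Icc 0 θ₀, PathChain W m τ (τ + e) K (fFd τ θ)
  pcFv : ∀ τ ∈ Icc 1 T, ∀ θ ∈ Icc 0 θ₀, PathChain W m τ (τ + e) K (fFv τ θ)
  dP : ∀ r, ∀ t ∈ Icc 1 T, HasDerivWithinAt (fun s => yP s r) (fP 0 t r) (Icc 1 T) t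
  dC : ∀ r, ∀ t ∈ Icc 1 T, HasDerivWithinAt (fun s => yC s r) (fC 0 t r) (Icc 1 T) t
  dW : ∀ r, ∀ t ∈ Icc 1 T, HasDerivWithinAt (fun s => wC s r) (fL 0 t r) (Icc 1 T) t
  dO : ∀ r, ∀ t ∈ Icc 1 T, HasDerivWithinAt (fun s => yO s r) (fO 0 t r) (Icc 1 T) t
  dX : ∀ τ ∈ Icc 1 T, ∀ r, ∀ t ∈ Icc 0 θ₀,
    HasDerivWithinAt (fun θ => yX τ θ r) (fXA τ 0 t r) (Icc 0 θ₀) t
  dXW : ∀ τ ∈ Icc 1 T, ∀ r, ∀ t ∈ Icc 0 θ₀,
    HasDerivWithinAt (fun θ => wX τ θ r) (fXL τ 0 t r) (Icc 0 θ₀) t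
  dF : ∀ τ ∈ Icc 1 T, ∀ θ ∈ Icc 0 θ₀, ∀ r, ∀ t ∈ Icc τ (τ + e),
    HasDerivWithinAt (fun s => yF τ θ s r) (fFd τ θ 0 t r) (Icc τ (τ + e)) t
  rot : ∀ τ ∈ Icc 1 T, ∀ θ ∈ Icc 0 θ₀, ∀ r, ∀ x ∈ Icc 0 e,
    yH τ θ x r = cos x • yX τ θ r + sin x • wX τ θ r -
      ∫ u in 0..x, sin (x - u) • (exp (-τ) • tv W τ (yH τ θ u r))
  vP : ∀ t ∈ Icc 1 T, ∀ r, fP 0 t r = exp (-t) • tv W t (yP t r)
  vC : ∀ t ∈ Icc 1 T, ∀ r,
    fC 0 t r = exp (-t) • tv W t (yC t r) - tA W g t (yC t r) (wC t r)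
  vL : ∀ t ∈ Icc 1 T, ∀ r, fL 0 t r = wVel W g t (yC t r)
  vO : ∀ t ∈ Icc 1 T, ∀ r, fO 0 t r = g • tA W g t (yC t r) (tA W g t (yC t r) (wC t r))
  vXA : ∀ τ ∈ Icc 1 T, ∀ θ ∈ Icc 0 θ₀, ∀ r,
    fXA τ 0 θ r = -(tA W g τ (yX τ θ r) (wX τ θ r))
  vXL : ∀ τ ∈ Icc 1 T, ∀ θ ∈ Icc 0 θ₀, ∀ r, fXL τ 0 θ r = wVel W g τ (yX τ θ r)
  vXv : ∀ τ ∈ Icc 1 T, ∀ θ ∈ Icc 0 θ₀, ∀ r, fXv τ 0 θ r = tv W τ (yX τ θ r)
  vXv1 : ∀ τ ∈ Icc 1 T, ∀ r,
    fXv τ 1 0 r = -(g • tA W g τ (yC τ r) (tA W g τ (yC τ r) (wC τ r)))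
  vHv : ∀ τ ∈ Icc 1 T, ∀ θ ∈ Icc 0 θ₀, ∀ x ∈ Icc 0 e, ∀ r,
    fHv τ θ 0 x r = tv W τ (yH τ θ x r)
  vHv1 : ∀ τ ∈ Icc 1 T, ∀ θ ∈ Icc 0 θ₀, ∀ r,
    fHv τ θ 1 0 r = g • tA W g τ (yX τ θ r) (wX τ θ r)
  vFd : ∀ τ ∈ Icc 1 T, ∀ θ ∈ Icc 0 θ₀, ∀ s ∈ Icc τ (τ + e), ∀ r,
    fFd τ θ 0 s r = exp (-s) • tv W s (yF τ θ s r)
  vFv : ∀ τ ∈ Icc 1 T, ∀ θ ∈ Icc 0 θ₀, ∀ s ∈ Icc τ (τ + e), ∀ r,
    fFv τ θ 0 s r = tv W s (yF τ θ s r)
  vFv1 : ∀ τ ∈ Icc 1 T, ∀ θ ∈ Icc 0 θ₀, ∀ r,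
    g⁻¹ • fFv τ θ 1 τ r = -wVel W g τ (yX τ θ r)
  yC_one : ∀ r, yC 1 r = yP 1 r
  wC_one : ∀ r, wC 1 r = r.2
  yX_zero : ∀ τ ∈ Icc 1 T, ∀ r, yX τ 0 r = yC τ r
  wX_zero : ∀ τ ∈ Icc 1 T, ∀ r, wX τ 0 r = wC τ r
  yH_zero : ∀ τ ∈ Icc 1 T, ∀ θ ∈ Icc 0 θ₀, ∀ r, yH τ θ 0 r = yX τ θ r
  yF_zero : ∀ τ ∈ Icc 1 T, ∀ θ ∈ Icc 0 θ₀, ∀ r, yF τ θ τ r = yX τ θ r
  lawP : ∀ t ∈ Icc 1 T, Measurable (yP t) ∧ (rootLaw W).map (yP t) = law (tU W t)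
  lawH : ∀ τ ∈ Icc 1 T, ∀ θ ∈ Icc 0 θ₀, ∀ x ∈ Icc 0 e,
    Measurable (yH τ θ x) ∧ (rootLaw W).map (yH τ θ x) = law (tU W τ)
  lawF : ∀ τ ∈ Icc 1 T, ∀ θ ∈ Icc 0 θ₀, ∀ s ∈ Icc τ (τ + e),
    Measurable (yF τ θ s) ∧ (rootLaw W).map (yF τ θ s) = law (tU W s)
  top : MeanLe (rootLaw W) (fun r => ‖yP T r - r.1.2‖) (K * exp (-T))
  measO : Measurable fun r => yO T r - yO 1 r
  output : ∀ f : E d → ℝ, LipschitzWith 1 f → (∃ M, ∀ x, |f x| ≤ M) →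
    |∫ r, f (tv W 1 (yP 1 r) + g • r.2 - (yO T r - yO 1 r)) ∂rootLaw W -
      ∫ z, f ((∫ x, grad W x ∂law W) + g • z) ∂stdGaussian (E d)| ≤ K * exp (-T)

namespace BandData

variable {m : ℕ} {q : GPar m} {W : E d → ℝ} {T K κ : ℝ}
  (D : BandData W q.g T q.e q.θ₀ m K κ) (hq : q.Ok T)

/-- The points. -/
noncomputable def pts : q.Idx → GRoot d → E d
  | .inl (i, j) => D.yP (q.τn i j)
  | .inr (.inl (i, j, a, p)) => D.yH (q.τn i j) (q.θ₀ * q.ρ.τ a) (q.e * q.ρ.τ p)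
  | .inr (.inr (i, j, a, p)) =>
      D.yF (q.τn i j) (q.θ₀ * q.ρ.τ a) (q.τn i j + q.e * q.ρ.τ p)

/-- The drifts at the points. -/
noncomputable def vals (r : GRoot d) (x : q.Idx) : E d := tv W (q.tmI x) (D.pts x r)

/-- The value of a row. -/
noncomputable def val (r : GRoot d) : (q.Idx → ℝ) →ₗ[ℝ] E d :=
  Fintype.linearCombination ℝ (D.vals r)

theorem val_unit (r : GRoot d) (x : q.Idx) : D.val r (q.unit x) = D.vals r x := by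
  rw [val, GPar.unit, Fintype.linearCombination_apply_single, one_smul]

/-- The top derivatives along the rotation flow from a base point. -/
noncomputable def jH (τ θ : ℝ) (r : GRoot d) : ℝ :=
  q.ρ.Λ * q.g⁻¹ * q.e ^ (m - 1) * ∫ s in 0..(0 + q.e), ‖D.fHv τ θ (m + 1) s r‖

/-- The top derivatives along the short probability flow from a base point. -/
noncomputable def jF (τ θ : ℝ) (r : GRoot d) : ℝ :=
  q.ρ.Λ * q.g⁻¹ * q.e ^ (m - 1) * ∫ s in τ..(τ + q.e), ‖D.fFv τ θ (m + 1) s r‖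

/-- The error bound of the coupled trajectory and the probability flow. -/
noncomputable def bC (r : GRoot d) : ℝ :=
  ‖D.yP T r - r.1.2‖ +
    2 * ∑ i, (2 * q.ρ.Λ * q.hs ^ (m + 1) *
      ∫ s in q.cellA i..(q.cellA i + q.hs), ‖D.fP (m + 1) s r‖) +
    ∑ i, (2 * q.ρ.Λ * q.hs ^ (m + 1) *
      (∫ s in q.cellA i..(q.cellA i + q.hs), ‖D.fC (m + 1) s r‖) +
        q.ρ.Λ * q.hs * ∑ j, D.jH (q.τn i j) 0 r)

/-- The error bound of the coupled `w`. -/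
noncomputable def bL (r : GRoot d) : ℝ :=
  ∑ i, (2 * q.ρ.Λ * q.hs ^ (m + 1) *
    (∫ s in q.cellA i..(q.cellA i + q.hs), ‖D.fL (m + 1) s r‖) +
      q.ρ.Λ * q.hs * ∑ j, D.jF (q.τn i j) 0 r)

/-- The error bound of the auxiliary position. -/
noncomputable def bX (i : Fin q.N) (j : Fin (m + 1)) (r : GRoot d) : ℝ :=
  D.bC r + (2 * q.ρ.Λ * q.θ₀ ^ (m + 1) *
    (∫ s in 0..(0 + q.θ₀), ‖D.fXA (q.τn i j) (m + 1) s r‖) +
      q.ρ.Λ * q.θ₀ * ∑ a, D.jH (q.τn i j) (q.θ₀ * q.ρ.τ a) r)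

/-- The error bound of the auxiliary `w`. -/
noncomputable def bW (i : Fin q.N) (j : Fin (m + 1)) (r : GRoot d) : ℝ :=
  D.bL r + (2 * q.ρ.Λ * q.θ₀ ^ (m + 1) *
    (∫ s in 0..(0 + q.θ₀), ‖D.fXL (q.τn i j) (m + 1) s r‖) +
      q.ρ.Λ * q.θ₀ * ∑ a, D.jF (q.τn i j) (q.θ₀ * q.ρ.τ a) r)

/-- The error bound of the correction. -/
noncomputable def bO (r : GRoot d) : ℝ :=
  ∑ i, (2 * q.ρ.Λ * q.hs ^ (m + 1) *
    (∫ s in q.cellA i..(q.cellA i + q.hs), ‖D.fO (m + 1) s r‖) +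
      q.ρ.Λ * q.hs * ∑ j, q.ρ.Λ * q.θ₀ ^ (m - 1) *
        ∫ s in 0..(0 + q.θ₀), ‖D.fXv (q.τn i j) (m + 1) s r‖)

include hq

theorem θ_mem (a : Fin (m + 1)) : q.θ₀ * q.ρ.τ a ∈ Icc 0 q.θ₀ :=
  ⟨mul_nonneg (zero_le_one.trans hq.one_le_θ₀) (q.ρ.τ_mem a).1,
    mul_le_of_le_one_right (zero_le_one.trans hq.one_le_θ₀) (q.ρ.τ_mem a).2⟩

theorem e_mem (p : Fin (m + 1)) : q.e * q.ρ.τ p ∈ Icc 0 q.e :=
  ⟨mul_nonneg hq.e_pos.le (q.ρ.τ_mem p).1, mul_le_of_le_one_right hq.e_pos.le (q.ρ.τ_mem p).2⟩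

theorem s_mem (τ : ℝ) (p : Fin (m + 1)) : τ + q.e * q.ρ.τ p ∈ Icc τ (τ + q.e) :=
  ⟨le_add_of_nonneg_right (e_mem hq p).1, by linarith [(e_mem hq p).2]⟩

theorem zero_memθ : (0 : ℝ) ∈ Icc 0 q.θ₀ := left_mem_Icc.2 (zero_le_one.trans hq.one_le_θ₀)

theorem zero_meme : (0 : ℝ) ∈ Icc 0 q.e := left_mem_Icc.2 hq.e_pos.le

variable (hm : 1 ≤ m)
include hm

theorem err_aw (r : GRoot d) (i : Fin q.N) (j a : Fin (m + 1)) :
    ‖tA W q.g (q.τn i j) (D.yX (q.τn i j) (q.θ₀ * q.ρ.τ a) r)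
        (D.wX (q.τn i j) (q.θ₀ * q.ρ.τ a) r) - D.val r (q.rowAw i j a)‖ ≤
      D.jH (q.τn i j) (q.θ₀ * q.ρ.τ a) r := by
  have hτ := GPar.τn_mem hq i j
  have hθ := θ_mem hq a
  have hp := D.pcHv _ hτ _ hθ
  have h := q.ρ.fd hm (fun k s => D.fHv (q.τn i j) (q.θ₀ * q.ρ.τ a) k s r) (a := 0) hq.e_pos
    (by rw [zero_add]; exact hp.deriv r) (by rw [zero_add]; exact hp.cont r)
  have hg : 0 < q.g⁻¹ := inv_pos.2 hq.g_pos
  have e : tA W q.g (q.τn i j) (D.yX (q.τn i j) (q.θ₀ * q.ρ.τ a) r)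
      (D.wX (q.τn i j) (q.θ₀ * q.ρ.τ a) r) - D.val r (q.rowAw i j a) =
      q.g⁻¹ • (D.fHv (q.τn i j) (q.θ₀ * q.ρ.τ a) 1 0 r - ∑ p, (q.ρ.c p / q.e) •
        D.fHv (q.τn i j) (q.θ₀ * q.ρ.τ a) 0 (0 + q.e * q.ρ.τ p) r) := by
    rw [smul_sub, D.vHv1 _ hτ _ hθ, inv_smul_smul₀ hq.g_pos.ne', GPar.rowAw, map_sum,
      Finset.smul_sum]
    congr 1
    refine Finset.sum_congr rfl fun p _ => ?_
    rw [map_smul, val_unit, smul_smul, zero_add, D.vHv _ hτ _ hθ _ (e_mem hq p)]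
    show _ • tv W (q.τn i j) _ = _
    congr 1
    field_simp
  rw [e, norm_smul, Real.norm_eq_abs, abs_of_pos hg]
  exact (mul_le_mul_of_nonneg_left h hg.le).trans_eq (by unfold jH; ring)

theorem err_lw (r : GRoot d) (i : Fin q.N) (j a : Fin (m + 1)) :
    ‖wVel W q.g (q.τn i j) (D.yX (q.τn i j) (q.θ₀ * q.ρ.τ a) r) - D.val r (q.rowLw i j a)‖ ≤
      D.jF (q.τn i j) (q.θ₀ * q.ρ.τ a) r := by
  have hτ := GPar.τn_mem hq i j
  have hθ := θ_mem hq a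
  have hp := D.pcFv _ hτ _ hθ
  have h := q.ρ.fd hm (fun k s => D.fFv (q.τn i j) (q.θ₀ * q.ρ.τ a) k s r) hq.e_pos
    (hp.deriv r) (hp.cont r)
  have hg : 0 < q.g⁻¹ := inv_pos.2 hq.g_pos
  have e : wVel W q.g (q.τn i j) (D.yX (q.τn i j) (q.θ₀ * q.ρ.τ a) r) -
      D.val r (q.rowLw i j a) =
      -(q.g⁻¹ • (D.fFv (q.τn i j) (q.θ₀ * q.ρ.τ a) 1 (q.τn i j) r - ∑ p, (q.ρ.c p / q.e) •
        D.fFv (q.τn i j) (q.θ₀ * q.ρ.τ a) 0 (q.τn i j + q.e * q.ρ.τ p) r)) := by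
    rw [smul_sub, D.vFv1 _ hτ _ hθ, neg_sub, sub_neg_eq_add, add_comm, sub_eq_add_neg]
    congr 1
    rw [GPar.rowLw, map_sum, Finset.smul_sum, ← Finset.sum_neg_distrib]
    refine Finset.sum_congr rfl fun p _ => ?_
    rw [map_smul, val_unit, neg_smul, neg_neg, smul_smul, D.vFv _ hτ _ hθ _ (s_mem hq _ p)]
    show _ = _ • tv W (q.τn i j + q.e * q.ρ.τ p) _
    congr 1
    field_simp
  rw [e, norm_neg, norm_smul, Real.norm_eq_abs, abs_of_pos hg]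
  exact (mul_le_mul_of_nonneg_left h hg.le).trans_eq (by unfold jF; ring)

omit hm in
theorem base_zero (r : GRoot d) (i : Fin q.N) (j : Fin (m + 1)) :
    D.yX (q.τn i j) (q.θ₀ * q.ρ.τ 0) r = D.yC (q.τn i j) r ∧
      D.wX (q.τn i j) (q.θ₀ * q.ρ.τ 0) r = D.wC (q.τn i j) r ∧
      D.pts (q.iH i j 0 0) r = D.yC (q.τn i j) r := by
  have hτ := GPar.τn_mem hq i j
  have h0 : q.θ₀ * q.ρ.τ 0 = 0 := by rw [q.ρ.τ_zero, mul_zero]
  have he0 : q.e * q.ρ.τ 0 = 0 := by rw [q.ρ.τ_zero, mul_zero]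
  refine ⟨by rw [h0, D.yX_zero _ hτ], by rw [h0, D.wX_zero _ hτ], ?_⟩
  show D.yH (q.τn i j) (q.θ₀ * q.ρ.τ 0) (q.e * q.ρ.τ 0) r = _
  rw [h0, he0, D.yH_zero _ hτ _ (zero_memθ hq), D.yX_zero _ hτ]

omit hm in
theorem cellP_eq (r : GRoot d) (i : Fin q.N) :
    q.cellErr (D.val r) q.flP (fun k s => D.fP k s r) i =
      2 * q.ρ.Λ * q.hs ^ (m + 1) * ∫ s in q.cellA i..(q.cellA i + q.hs), ‖D.fP (m + 1) s r‖ := by
  rw [GPar.cellErr, add_eq_left, Finset.sum_eq_zero (fun j _ => ?_), mul_zero]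
  rw [D.vP _ (GPar.τn_mem hq i j), GPar.flP, map_smul, val_unit, norm_eq_zero, sub_eq_zero]
  rfl

omit hm in
theorem err_P (r : GRoot d) (i : Fin q.N) (j : Fin (m + 1)) :
    ‖D.yP (q.τn i j) r - (r.1.2 + D.val r (q.rowP i j))‖ ≤ ‖D.yP T r - r.1.2‖ +
      2 * ∑ i', (2 * q.ρ.Λ * q.hs ^ (m + 1) *
        ∫ s in q.cellA i'..(q.cellA i' + q.hs), ‖D.fP (m + 1) s r‖) := by
  have h1 := GPar.pref_err hq (D.val r) q.flP (fun k s => D.fP k s r) (fun s => D.yP s r)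
    (D.pcP.deriv r) (D.pcP.cont r) (D.dP r) i j
  have h2 := GPar.total_err hq (D.val r) q.flP (fun k s => D.fP k s r) (fun s => D.yP s r)
    (D.pcP.deriv r) (D.pcP.cont r) (D.dP r)
  simp only [D.cellP_eq hq r] at h1 h2
  have e : D.yP (q.τn i j) r - (r.1.2 + D.val r (q.rowP i j)) = (D.yP T r - r.1.2) +
      (D.yP (q.τn i j) r - D.yP 1 r - D.val r (q.pref q.flP i j)) -
      (D.yP T r - D.yP 1 r - D.val r (q.total q.flP)) := by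
    rw [GPar.rowP, map_sub]; abel
  rw [e]
  refine (norm_sub_le _ _).trans ((add_le_add (norm_add_le _ _) le_rfl).trans ?_)
  linarith

theorem err_C (r : GRoot d) (i : Fin q.N) (j : Fin (m + 1)) :
    ‖D.yC (q.τn i j) r - (r.1.2 + D.val r (q.rowC i j))‖ ≤ D.bC r := by
  have h1 := GPar.pref_err hq (D.val r) (fun i j => q.flC i j - q.rowAw i j 0)
    (fun k s => D.fC k s r) (fun s => D.yC s r) (D.pcC.deriv r) (D.pcC.cont r) (D.dC r) i j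
  have h2 := GPar.total_err hq (D.val r) q.flP (fun k s => D.fP k s r) (fun s => D.yP s r)
    (D.pcP.deriv r) (D.pcP.cont r) (D.dP r)
  simp only [D.cellP_eq hq r] at h2
  have hΛ := q.ρ.one_le_Λ
  have hcell : ∀ i', q.cellErr (D.val r) (fun i j => q.flC i j - q.rowAw i j 0)
      (fun k s => D.fC k s r) i' ≤ 2 * q.ρ.Λ * q.hs ^ (m + 1) *
        (∫ s in q.cellA i'..(q.cellA i' + q.hs), ‖D.fC (m + 1) s r‖) +
          q.ρ.Λ * q.hs * ∑ j', D.jH (q.τn i' j') 0 r := by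
    intro i'
    refine add_le_add le_rfl (mul_le_mul_of_nonneg_left (Finset.sum_le_sum fun j' _ => ?_)
      (mul_nonneg (by linarith) hq.hs_pos.le))
    obtain ⟨hy, hw, hp⟩ := D.base_zero hq r i' j'
    have h := D.err_aw hq hm r i' j' 0
    rw [hy, hw, q.ρ.τ_zero, mul_zero] at h
    simp only []
    rw [D.vC _ (GPar.τn_mem hq i' j'), map_sub, GPar.flC, map_smul, val_unit]
    show ‖_ - _ - (exp _ • tv W (q.τn i' j') (D.pts (q.iH i' j' 0 0) r) - _)‖ ≤ _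
    rw [hp, sub_sub_sub_cancel_left, norm_sub_rev]
    exact h
  have h0 := D.yC_one r
  have e : D.yC (q.τn i j) r - (r.1.2 + D.val r (q.rowC i j)) = (D.yP T r - r.1.2) +
      (D.yC (q.τn i j) r - D.yC 1 r - D.val r (q.pref (fun i j => q.flC i j - q.rowAw i j 0) i j)) -
      (D.yP T r - D.yP 1 r - D.val r (q.total q.flP)) := by
    rw [GPar.rowC, map_add, map_neg, h0]; abel
  rw [e]
  refine (norm_sub_le _ _).trans ((add_le_add (norm_add_le _ _) le_rfl).trans ?_)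
  have h1' := h1.trans (Finset.sum_le_sum fun i' _ => hcell i')
  have h3 : 0 ≤ ∑ i', (2 * q.ρ.Λ * q.hs ^ (m + 1) *
      ∫ s in q.cellA i'..(q.cellA i' + q.hs), ‖D.fP (m + 1) s r‖) := (norm_nonneg _).trans h2
  unfold bC
  linarith

theorem err_Wc (r : GRoot d) (i : Fin q.N) (j : Fin (m + 1)) :
    ‖D.wC (q.τn i j) r - (r.2 + D.val r (q.rowWc i j))‖ ≤ D.bL r := by
  have h1 := GPar.pref_err hq (D.val r) (fun i j => q.rowLw i j 0)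
    (fun k s => D.fL k s r) (fun s => D.wC s r) (D.pcL.deriv r) (D.pcL.cont r) (D.dW r) i j
  have hΛ := q.ρ.one_le_Λ
  rw [GPar.rowWc, ← sub_sub]
  rw [D.wC_one] at h1
  refine h1.trans (Finset.sum_le_sum fun i' _ => ?_)
  refine add_le_add le_rfl (mul_le_mul_of_nonneg_left (Finset.sum_le_sum fun j' _ => ?_)
    (mul_nonneg (by linarith) hq.hs_pos.le))
  obtain ⟨hy, hw, hp⟩ := D.base_zero hq r i' j'
  have h := D.err_lw hq hm r i' j' 0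
  rw [hy, q.ρ.τ_zero, mul_zero] at h
  simp only []
  rw [D.vL _ (GPar.τn_mem hq i' j')]
  exact h

theorem err_X (r : GRoot d) (i : Fin q.N) (j a : Fin (m + 1)) :
    ‖D.yX (q.τn i j) (q.θ₀ * q.ρ.τ a) r - (r.1.2 + D.val r (q.rowX i j a))‖ ≤ D.bX i j r ∧
      ‖D.wX (q.τn i j) (q.θ₀ * q.ρ.τ a) r - (r.2 + D.val r (q.rowW i j a))‖ ≤ D.bW i j r := by
  have hτ := GPar.τn_mem hq i j
  have hθ0 : 0 < q.θ₀ := lt_of_lt_of_le one_pos hq.one_le_θ₀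
  have hΛ := q.ρ.one_le_Λ
  have hI : Icc (0 : ℝ) (0 + q.θ₀) = Icc 0 q.θ₀ := by rw [zero_add]
  constructor
  · have hp := D.pcXA _ hτ
    have h := q.ρ.incr_err (D.val r) (fun a' => -q.rowAw i j a')
      (fun k s => D.fXA (q.τn i j) k s r) (fun θ => D.yX (q.τn i j) θ r) (a := 0) hθ0
      (q.ρ.τ_mem a) (by rw [hI]; exact hp.deriv r) (by rw [hI]; exact hp.cont r)
      (by rw [hI]; exact D.dX _ hτ r)
    rw [zero_add, D.yX_zero _ hτ] at h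
    have e : D.yX (q.τn i j) (q.θ₀ * q.ρ.τ a) r - (r.1.2 + D.val r (q.rowX i j a)) =
        (D.yC (q.τn i j) r - (r.1.2 + D.val r (q.rowC i j))) +
        (D.yX (q.τn i j) (q.θ₀ * q.ρ.τ a) r - D.yC (q.τn i j) r -
          D.val r (∑ a', q.ρ.wt (fun _ => 1) 0 q.θ₀ (q.ρ.τ a) a' • -q.rowAw i j a')) := by
      rw [GPar.rowX, map_sub]
      simp only [smul_neg, Finset.sum_neg_distrib, map_neg]
      abel
    rw [e]
    refine (norm_add_le _ _).trans (add_le_add (D.err_C hq hm r i j) (h.trans ?_))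
    refine add_le_add (by rw [zero_add]) (mul_le_mul_of_nonneg_left
      (Finset.sum_le_sum fun a' _ => ?_) (mul_nonneg (by linarith) hθ0.le))
    rw [zero_add, D.vXA _ hτ _ (θ_mem hq a'), map_neg, ← neg_sub', norm_neg]
    exact D.err_aw hq hm r i j a'
  · have hp := D.pcXL _ hτ
    have h := q.ρ.incr_err (D.val r) (fun a' => q.rowLw i j a')
      (fun k s => D.fXL (q.τn i j) k s r) (fun θ => D.wX (q.τn i j) θ r) (a := 0) hθ0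
      (q.ρ.τ_mem a) (by rw [hI]; exact hp.deriv r) (by rw [hI]; exact hp.cont r)
      (by rw [hI]; exact D.dXW _ hτ r)
    rw [zero_add, D.wX_zero _ hτ] at h
    have e : D.wX (q.τn i j) (q.θ₀ * q.ρ.τ a) r - (r.2 + D.val r (q.rowW i j a)) =
        (D.wC (q.τn i j) r - (r.2 + D.val r (q.rowWc i j))) +
        (D.wX (q.τn i j) (q.θ₀ * q.ρ.τ a) r - D.wC (q.τn i j) r -
          D.val r (∑ a', q.ρ.wt (fun _ => 1) 0 q.θ₀ (q.ρ.τ a) a' • q.rowLw i j a')) := by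
      rw [GPar.rowW, map_add]
      abel
    rw [e]
    refine (norm_add_le _ _).trans (add_le_add (D.err_Wc hq hm r i j) (h.trans ?_))
    refine add_le_add (by rw [zero_add]) (mul_le_mul_of_nonneg_left
      (Finset.sum_le_sum fun a' _ => ?_) (mul_nonneg (by linarith) hθ0.le))
    rw [zero_add, D.vXL _ hτ _ (θ_mem hq a')]
    exact D.err_lw hq hm r i j a'

theorem err_H (r : GRoot d) (i : Fin q.N) (j a p : Fin (m + 1)) :
    ‖D.pts (q.iH i j a p) r - (cos (q.e * q.ρ.τ p) • r.1.2 + sin (q.e * q.ρ.τ p) • r.2 +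
        D.val r (q.rowH i j a p))‖ ≤
      D.bX i j r + D.bW i j r + 2 * q.ρ.Λ * q.e ^ (m + 1) *
        ∫ s in 0..(0 + q.e), ‖D.fHv (q.τn i j) (q.θ₀ * q.ρ.τ a) (m + 1) s r‖ := by
  have hτ := GPar.τn_mem hq i j
  have hθ := θ_mem hq a
  have hp := D.pcHv _ hτ _ hθ
  have hI : Icc (0 : ℝ) (0 + q.e) = Icc 0 q.e := by rw [zero_add]
  set x := q.e * q.ρ.τ p
  set c := exp (-q.τn i j)
  have hc : c ≤ 1 := exp_le_one_iff.2 (by linarith [hτ.1])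
  have h := q.ρ.seg_err (D.val r) (fun p' => c • q.unit (q.iH i j a p'))
    (k := fun u => sin (x - u)) (by fun_prop)
    (fun k s => c • D.fHv (q.τn i j) (q.θ₀ * q.ρ.τ a) k s r) (a := 0) hq.e_pos (q.ρ.τ_mem p)
    (fun u _ => abs_sin_le_one _)
    (by rw [hI]; exact fun k hk t ht => (hp.deriv r k hk t ht).const_smul c)
    (by rw [hI]; exact (hp.cont r).const_smul c)
  have hz : ∀ p', ‖c • D.fHv (q.τn i j) (q.θ₀ * q.ρ.τ a) 0 (0 + q.e * q.ρ.τ p') r -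
      D.val r (c • q.unit (q.iH i j a p'))‖ = 0 := fun p' => by
    rw [map_smul, val_unit, zero_add, D.vHv _ hτ _ hθ _ (e_mem hq p'), norm_eq_zero, sub_eq_zero]
    rfl
  simp only [hz, Finset.sum_const_zero, mul_zero, add_zero, mul_one] at h
  have hint : ∫ u in 0..(0 + x), sin (x - u) • c • D.fHv (q.τn i j) (q.θ₀ * q.ρ.τ a) 0 u r =
      ∫ u in 0..x, sin (x - u) • (exp (-q.τn i j) •
        tv W (q.τn i j) (D.yH (q.τn i j) (q.θ₀ * q.ρ.τ a) u r)) := by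
    rw [zero_add]
    refine intervalIntegral.integral_congr fun u hu => ?_
    rw [uIcc_of_le (e_mem hq p).1] at hu
    simp only [c]
    rw [D.vHv _ hτ _ hθ _ ⟨hu.1, hu.2.trans (e_mem hq p).2⟩]
  rw [hint] at h
  have e : D.pts (q.iH i j a p) r - (cos x • r.1.2 + sin x • r.2 + D.val r (q.rowH i j a p)) =
      cos x • (D.yX (q.τn i j) (q.θ₀ * q.ρ.τ a) r - (r.1.2 + D.val r (q.rowX i j a))) +
      sin x • (D.wX (q.τn i j) (q.θ₀ * q.ρ.τ a) r - (r.2 + D.val r (q.rowW i j a))) -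
      ((∫ u in 0..x, sin (x - u) • (exp (-q.τn i j) •
          tv W (q.τn i j) (D.yH (q.τn i j) (q.θ₀ * q.ρ.τ a) u r))) -
        D.val r (∑ p', q.ρ.wt (fun u => sin (x - u)) 0 q.e (q.ρ.τ p) p' •
          c • q.unit (q.iH i j a p'))) := by
    show D.yH (q.τn i j) (q.θ₀ * q.ρ.τ a) x r - _ = _
    rw [D.rot _ hτ _ hθ r x (e_mem hq p), GPar.rowH]
    simp only [x, c, map_sub, map_add, map_smul, map_sum, smul_smul, smul_sub, smul_add]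
    abel
  rw [e]
  obtain ⟨hX, hW⟩ := D.err_X hq hm r i j a
  refine (norm_sub_le _ _).trans (add_le_add ((norm_add_le _ _).trans (add_le_add ?_ ?_))
    (h.trans (mul_le_mul_of_nonneg_left ?_ ?_)))
  · rw [norm_smul]
    exact (mul_le_of_le_one_left (norm_nonneg _) (abs_cos_le_one _)).trans hX
  · rw [norm_smul]
    exact (mul_le_of_le_one_left (norm_nonneg _) (abs_sin_le_one _)).trans hW
  · refine intervalIntegral.integral_mono_on (by linarith [hq.e_pos]) ?_ ?_ fun s _ => ?_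
    · exact ContinuousOn.intervalIntegrable_of_Icc (by linarith [hq.e_pos])
        (by rw [hI]; exact ((hp.cont r).const_smul c).norm)
    · exact ContinuousOn.intervalIntegrable_of_Icc (by linarith [hq.e_pos])
        (by rw [hI]; exact (hp.cont r).norm)
    · rw [norm_smul, Real.norm_eq_abs, abs_of_pos (exp_pos _)]
      exact mul_le_of_le_one_left (norm_nonneg _) hc
  · have := q.ρ.one_le_Λ
    have := hq.e_pos
    positivity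

theorem err_F (r : GRoot d) (i : Fin q.N) (j a p : Fin (m + 1)) :
    ‖D.pts (q.iF i j a p) r - (r.1.2 + D.val r (q.rowF i j a p))‖ ≤
      D.bX i j r + 2 * q.ρ.Λ * q.e ^ (m + 1) * ∫ s in (q.τn i j)..(q.τn i j + q.e),
        ‖D.fFd (q.τn i j) (q.θ₀ * q.ρ.τ a) (m + 1) s r‖ := by
  have hτ := GPar.τn_mem hq i j
  have hθ := θ_mem hq a
  have hp := D.pcFd _ hτ _ hθ
  have h := q.ρ.incr_err (D.val r)
    (fun p' => exp (-(q.τn i j + q.e * q.ρ.τ p')) • q.unit (q.iF i j a p'))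
    (fun k s => D.fFd (q.τn i j) (q.θ₀ * q.ρ.τ a) k s r)
    (fun s => D.yF (q.τn i j) (q.θ₀ * q.ρ.τ a) s r) hq.e_pos (q.ρ.τ_mem p) (hp.deriv r) (hp.cont r)
    (D.dF _ hτ _ hθ r)
  have hz : ∀ p', ‖D.fFd (q.τn i j) (q.θ₀ * q.ρ.τ a) 0 (q.τn i j + q.e * q.ρ.τ p') r -
      D.val r (exp (-(q.τn i j + q.e * q.ρ.τ p')) • q.unit (q.iF i j a p'))‖ = 0 := fun p' => by
    rw [map_smul, val_unit, D.vFd _ hτ _ hθ _ (s_mem hq _ p'), norm_eq_zero, sub_eq_zero]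
    rfl
  simp only [hz, Finset.sum_const_zero, mul_zero, add_zero, D.yF_zero _ hτ _ hθ] at h
  have e : D.pts (q.iF i j a p) r - (r.1.2 + D.val r (q.rowF i j a p)) =
      (D.yX (q.τn i j) (q.θ₀ * q.ρ.τ a) r - (r.1.2 + D.val r (q.rowX i j a))) +
      (D.yF (q.τn i j) (q.θ₀ * q.ρ.τ a) (q.τn i j + q.e * q.ρ.τ p) r -
        D.yX (q.τn i j) (q.θ₀ * q.ρ.τ a) r -
        D.val r (∑ p', q.ρ.wt (fun _ => 1) (q.τn i j) q.e (q.ρ.τ p) p' •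
          exp (-(q.τn i j + q.e * q.ρ.τ p')) • q.unit (q.iF i j a p'))) := by
    rw [GPar.rowF]
    simp only [map_add, map_sum, map_smul, smul_smul]
    show D.yF _ _ _ r - _ = _
    abel
  rw [e]
  exact (norm_add_le _ _).trans (add_le_add (D.err_X hq hm r i j a).1 h)

theorem err_O (r : GRoot d) :
    ‖D.yO T r - D.yO 1 r - D.val r q.rowOut‖ ≤ D.bO r := by
  have hneg : q.rowOut =
      q.total (fun i j => -∑ a, (q.ρ.c a / q.θ₀) • q.unit (q.iH i j a 0)) := by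
    simp only [GPar.rowOut, GPar.total, GPar.cellInt, smul_neg, Finset.sum_neg_distrib]
  rw [hneg]
  refine (GPar.total_err hq (D.val r) _ (fun k s => D.fO k s r) (fun s => D.yO s r)
    (D.pcO.deriv r) (D.pcO.cont r) (D.dO r)).trans (Finset.sum_le_sum fun i _ => ?_)
  have hΛ := q.ρ.one_le_Λ
  refine add_le_add le_rfl (mul_le_mul_of_nonneg_left (Finset.sum_le_sum fun j _ => ?_)
    (mul_nonneg (by linarith) hq.hs_pos.le))
  have hτ := GPar.τn_mem hq i j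
  have hθ0 : 0 < q.θ₀ := lt_of_lt_of_le one_pos hq.one_le_θ₀
  have hp := D.pcXv _ hτ
  have h := q.ρ.fd hm (fun k s => D.fXv (q.τn i j) k s r) (a := 0) hθ0
    (by rw [zero_add]; exact hp.deriv r) (by rw [zero_add]; exact hp.cont r)
  have e : D.fO 0 (q.τn i j) r -
      D.val r (-∑ a, (q.ρ.c a / q.θ₀) • q.unit (q.iH i j a 0)) =
      -(D.fXv (q.τn i j) 1 0 r - ∑ a, (q.ρ.c a / q.θ₀) •
        D.fXv (q.τn i j) 0 (0 + q.θ₀ * q.ρ.τ a) r) := by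
    rw [D.vO _ hτ, map_neg, map_sum, neg_sub, D.vXv1 _ hτ, sub_neg_eq_add, sub_neg_eq_add,
      add_comm]
    congr 1
    refine Finset.sum_congr rfl fun a _ => ?_
    rw [map_smul, val_unit, zero_add, D.vXv _ hτ _ (θ_mem hq a)]
    show _ • tv W (q.τn i j) (D.yH (q.τn i j) (q.θ₀ * q.ρ.τ a) (q.e * q.ρ.τ 0) r) = _
    rw [q.ρ.τ_zero, mul_zero, D.yH_zero _ hτ _ (θ_mem hq a)]
  rw [e, norm_neg]
  exact h

end BandData

end Vale.Agent.P347.Zero
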