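import Vale.Agent.P347.Zero.ChainDef
import Vale.Agent.P347.Zero.GeoHolds
import Vale.Agent.P347.Zero.Trajectory

/-!
# P347, exponent zero: from a derivative chain to a chain along one random trajectory

Sums, differences and multiples of chains, and the chain that a random trajectory with the right
marginals induces on the root.
-/

open MeasureTheory ProbabilityTheory Set Real
open scoped BigOperators

namespace Vale.Agent.P347.Zero

variable {d : ℕ} {X : Type} [NormedAddCommGroup X] [NormedSpace ℝ X] [MeasurableSpace X]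
  [OpensMeasurableSpace X] {m : ℕ} {S : Set ℝ} {V : ℝ → X → X} {μ : ℝ → Measure X}
  {G G' : ℕ → ℝ → X → E d} {M M' : ℕ → ℝ}

namespace Chain

/-- The difference of two chains. -/
theorem sub (h : Chain m S V μ G M) (h' : Chain m S V μ G' M') :
    Chain m S V μ (fun k t x => G k t x - G' k t x) (fun k => M k + M' k) where
  cont k hk := (h.cont k hk).sub (h'.cont k hk)
  deriv k hk t ht z s hz := (h.deriv k hk t ht z s hz).sub (h'.deriv k hk t ht z s hz)
  bound k hk t ht := by
    obtain ⟨a, b⟩ := h.bound k hk t ht
    obtain ⟨a', b'⟩ := h'.bound k hk t ht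
    have hi : Integrable (fun x => ‖G k t x - G' k t x‖) (μ t) :=
      (a.add a').mono'
        ((h.continuous_fix hk ht).sub (h'.continuous_fix hk ht)).norm.measurable.aestronglyMeasurable
        (ae_of_all _ fun x => by rw [norm_norm]; exact norm_sub_le _ _)
    refine ⟨hi, (integral_mono hi (a.add a') fun x => norm_sub_le _ _).trans ?_⟩
    simp only [Pi.add_apply]
    rw [integral_add a a']
    exact add_le_add b b'

omit [OpensMeasurableSpace X] in
/-- A multiple of a chain. -/
theorem const_smul (h : Chain m S V μ G M) (c : ℝ) :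
    Chain m S V μ (fun k t x => c • G k t x) (fun k => |c| * M k) where
  cont k hk := (h.cont k hk).const_smul c
  deriv k hk t ht z s hz := (h.deriv k hk t ht z s hz).const_smul c
  bound k hk t ht := by
    obtain ⟨a, b⟩ := h.bound k hk t ht
    simp only [norm_smul, Real.norm_eq_abs]
    exact ⟨a.const_mul _, by
      rw [integral_const_mul]; exact mul_le_mul_of_nonneg_left b (abs_nonneg c)⟩

omit [OpensMeasurableSpace X] in
/-- The opposite of a chain. -/
theorem neg (h : Chain m S V μ G M) : Chain m S V μ (fun k t x => -G k t x) M where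
  cont k hk := (h.cont k hk).neg
  deriv k hk t ht z s hz := (h.deriv k hk t ht z s hz).neg
  bound k hk t ht := by simpa only [norm_neg] using h.bound k hk t ht

/-- The chain along a random trajectory on the root. -/
theorem pathChain (hC : Chain (m + 1) S V μ G M) {η B : ℝ} {W : E d → ℝ} (hW : Pert η B W)
    {a b K : ℝ} (hsub : Icc a b ⊆ S) (z : ℝ → GRoot d → X)
    (hm : ∀ t ∈ Icc a b, Measurable (z t)) (hlaw : ∀ t ∈ Icc a b, (rootLaw W).map (z t) = μ t)
    (hd : ∀ r, ∀ t ∈ Icc a b, HasDerivWithinAt (fun u => z u r) (V t (z t r)) (Icc a b) t)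
    (hK : M (m + 1) ≤ K) :
    PathChain W m a b K (fun k t r => G k t (z t r)) where
  deriv r := (hC.path hsub (hd r)).1
  cont r := (hC.path hsub (hd r)).2 (m + 1) le_rfl
  mean a' h hh hs := by
    have := isProbability_rootLaw hW
    obtain ⟨h1, h2⟩ := hC.integral_path (P := rootLaw W) le_rfl hh (hs.trans hsub) (Y := z)
      (fun t ht => hm t (hs ht)) (fun t ht => hlaw t (hs ht))
      (fun r t ht => ((hd r t (hs ht)).continuousWithinAt).mono hs)
    exact ⟨fun r => intervalIntegral.integral_nonneg (le_add_of_nonneg_right hh)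
      fun _ _ => norm_nonneg _, h1, h2.trans (mul_le_mul_of_nonneg_left hK hh)⟩

end Chain

/-- A larger size. -/
theorem PathChain.mono {W : E d → ℝ} {a b K K' : ℝ} {f : ℕ → ℝ → GRoot d → E d}
    (h : PathChain W m a b K f) (hK : K ≤ K') : PathChain W m a b K' f :=
  ⟨h.deriv, h.cont, fun a' h' hh hs => (h.mean a' h' hh hs).mono
    (mul_le_mul_of_nonneg_left hK hh)⟩

end Vale.Agent.P347.Zero
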