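import Vale.Agent.P347.Quad

/-!
# P347, exponent zero: the rules of the geometry of a band

Along a chain of derivatives `f k` on `[a, a + h]`: the integral of `f 0` against a bounded kernel
over an initial segment, and the derivative of `f 0` at `a`, as combinations of the values at fixed
nodes, with errors in terms of `∫ ‖f (m + 1)‖`.
-/

open MeasureTheory Set Finset
open scoped BigOperators

namespace Vale.Agent.P347.Zero

variable {d : ℕ}

/-- Rules of order `m` on the unit interval. -/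
structure GRule (m : ℕ) where
  /-- the nodes -/
  τ : Fin (m + 1) → ℝ
  /-- the interpolation weights -/
  ℓ : Fin (m + 1) → ℝ → ℝ
  /-- the weights of the derivative at `0` -/
  c : Fin (m + 1) → ℝ
  /-- the size of all weights -/
  Λ : ℝ
  one_le_Λ : 1 ≤ Λ
  τ_zero : τ 0 = 0
  τ_mem : ∀ i, τ i ∈ Icc (0 : ℝ) 1
  ℓ_cont : ∀ i, Continuous (ℓ i)
  sum_ℓ_le : ∀ t ∈ Icc (0 : ℝ) 1, ∑ i, |ℓ i t| ≤ Λ
  sum_c_le : ∑ i, |c i| ≤ Λ
  exact_ℓ : ∀ j ≤ m, ∀ t : ℝ, ∑ i, ℓ i t * τ i ^ j = t ^ j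
  exact_c : ∀ j ≤ m, ∑ i, c i * τ i ^ j = if j = 1 then 1 else 0

theorem exists_gRule (m : ℕ) : Nonempty (GRule m) := by
  set τ : Fin (m + 1) → ℝ := fun i => (i : ℕ) / ((m : ℝ) + 1) with hτ
  set p : Fin (m + 1) → Polynomial ℝ := fun i => Lagrange.basis Finset.univ τ i
  have hτ01 : ∀ i, τ i ∈ Icc (0 : ℝ) 1 := fun i => by
    refine ⟨by positivity, ?_⟩
    rw [hτ, div_le_one (by positivity)]
    have : ((i : ℕ) : ℝ) ≤ m := Nat.cast_le.2 (by omega)
    linarith
  have hinj : Function.Injective τ := fun i j hij => by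
    simp only [hτ] at hij
    rw [div_left_inj' (by positivity)] at hij
    exact Fin.ext (by exact_mod_cast hij)
  have hX : ∀ j ≤ m, (Polynomial.X ^ j : Polynomial ℝ) =
      ∑ i, Polynomial.C (τ i ^ j) * p i := by
    intro j hj
    have hlt : ((Polynomial.X ^ j : Polynomial ℝ)).degree <
        (Finset.univ : Finset (Fin (m + 1))).card := by
      rw [Polynomial.degree_X_pow, Finset.card_univ, Fintype.card_fin]
      exact_mod_cast Nat.lt_succ_of_le hj
    have e := Lagrange.eq_interpolate (f := (Polynomial.X ^ j : Polynomial ℝ)) hinj.injOn hlt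
    simpa [Lagrange.interpolate_apply, p] using e
  choose b hb using fun i => isCompact_Icc.exists_bound_of_continuousOn
    ((p i).continuous.continuousOn (s := Icc (0 : ℝ) 1))
  refine ⟨⟨τ, fun i t => (p i).eval t, fun i => (p i).derivative.eval 0,
    ∑ i, |b i| + ∑ i, |(p i).derivative.eval 0| + 1, ?_, by simp [hτ], hτ01,
    fun i => (p i).continuous, fun t ht => ?_, ?_, fun j hj t => ?_, fun j hj => ?_⟩⟩
  · linarith [Finset.sum_nonneg fun i (_ : i ∈ Finset.univ) => abs_nonneg (b i),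
      Finset.sum_nonneg fun i (_ : i ∈ Finset.univ) => abs_nonneg ((p i).derivative.eval 0)]
  · have h := Finset.sum_le_sum fun i (_ : i ∈ Finset.univ) => (hb i t ht).trans (le_abs_self (b i))
    simp only [Real.norm_eq_abs] at h
    linarith [Finset.sum_nonneg fun i (_ : i ∈ Finset.univ) => abs_nonneg ((p i).derivative.eval 0)]
  · linarith [Finset.sum_nonneg fun i (_ : i ∈ Finset.univ) => abs_nonneg (b i)]
  · have e := congrArg (Polynomial.eval t) (hX j hj)
    simp only [Polynomial.eval_pow, Polynomial.eval_X, Polynomial.eval_finsetSum,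
      Polynomial.eval_mul, Polynomial.eval_C] at e
    rw [e]
    exact Finset.sum_congr rfl fun i _ => mul_comm _ _
  · have e := congrArg (fun q : Polynomial ℝ => q.derivative.eval 0) (hX j hj)
    simp only [Polynomial.derivative_sum, Polynomial.derivative_C_mul, Polynomial.eval_finsetSum,
      Polynomial.eval_mul, Polynomial.eval_C, Polynomial.derivative_X_pow, Polynomial.eval_pow,
      Polynomial.eval_X] at e
    rw [show ∑ i, (p i).derivative.eval 0 * τ i ^ j =
      ∑ i, τ i ^ j * (p i).derivative.eval 0 from Finset.sum_congr rfl fun i _ => mul_comm _ _, ← e]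
    rcases j with _ | _ | j <;> simp

namespace GRule

variable {m : ℕ} (ρ : GRule m)

open Quad in
/-- A combination exact on polynomials of degree `m`, applied to a chain. -/
theorem exact_to_bound {a' : Fin (m + 1) → ℝ} {b : ℕ → ℝ}
    (hab : ∀ j ≤ m, ∑ i, a' i * ρ.τ i ^ j = b j) (f : ℕ → ℝ → E d) {a h : ℝ} (hh : 0 < h)
    (hd : ∀ k ≤ m, ∀ t ∈ Icc a (a + h), HasDerivWithinAt (f k) (f (k + 1) t) (Icc a (a + h)) t)
    (hc : ContinuousOn (f (m + 1)) (Icc a (a + h))) :
    ‖(∑ j ∈ range (m + 1), (b j * h ^ j / j.factorial) • f j a) -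
        ∑ i, a' i • f 0 (a + h * ρ.τ i)‖ ≤
      (∑ i, |a' i|) * h ^ m * ∫ s in a..(a + h), ‖f (m + 1) s‖ := by
  have e : ∑ i, a' i • taylor f a m (a + h * ρ.τ i) =
      ∑ j ∈ range (m + 1), (b j * h ^ j / j.factorial) • f j a := by
    simp only [taylor, Finset.smul_sum, smul_smul, add_sub_cancel_left]
    rw [Finset.sum_comm]
    refine Finset.sum_congr rfl fun j hj => ?_
    rw [← Finset.sum_smul, ← hab j (Nat.lt_succ_iff.1 (Finset.mem_range.1 hj)), Finset.sum_mul,
      Finset.sum_div]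
    congr 1
    exact Finset.sum_congr rfl fun i _ => by ring
  rw [← e, ← Finset.sum_sub_distrib]
  refine (norm_sum_le _ _).trans ?_
  rw [mul_assoc, Finset.sum_mul]
  refine Finset.sum_le_sum fun i _ => ?_
  rw [← smul_sub, norm_smul, Real.norm_eq_abs, norm_sub_rev]
  exact mul_le_mul_of_nonneg_left (remainder_le m f a h hh hd hc (mem_node a h hh (ρ.τ_mem i)))
    (abs_nonneg _)

/-- Interpolation. -/
theorem interp (f : ℕ → ℝ → E d) {a h : ℝ} (hh : 0 < h)
    (hd : ∀ k ≤ m, ∀ t ∈ Icc a (a + h), HasDerivWithinAt (f k) (f (k + 1) t) (Icc a (a + h)) t)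
    (hc : ContinuousOn (f (m + 1)) (Icc a (a + h))) {t : ℝ} (ht : t ∈ Icc a (a + h)) :
    ‖f 0 t - ∑ i, ρ.ℓ i ((t - a) / h) • f 0 (a + h * ρ.τ i)‖ ≤
      2 * ρ.Λ * h ^ m * ∫ s in a..(a + h), ‖f (m + 1) s‖ := by
  set u := (t - a) / h with hu
  have hu01 : u ∈ Icc (0 : ℝ) 1 := by
    refine ⟨div_nonneg (by linarith [ht.1]) hh.le, ?_⟩
    rw [hu, div_le_one hh]; linarith [ht.2]
  have h1 := Quad.remainder_le m f a h hh hd hc ht
  have h2 := ρ.exact_to_bound (a' := fun i => ρ.ℓ i u) (b := fun j => u ^ j)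
    (fun j hj => ρ.exact_ℓ j hj u) f hh hd hc
  have e : Quad.taylor f a m t = ∑ j ∈ range (m + 1), (u ^ j * h ^ j / j.factorial) • f j a :=
    Finset.sum_congr rfl fun j _ => by
      congr 2
      rw [hu, div_pow, div_mul_cancel₀ _ (pow_ne_zero _ hh.ne')]
  rw [← e] at h2
  have hJ : 0 ≤ h ^ m * ∫ s in a..(a + h), ‖f (m + 1) s‖ := mul_nonneg (by positivity)
    (intervalIntegral.integral_nonneg (by linarith) fun s _ => norm_nonneg _)
  refine (norm_sub_le_norm_sub_add_norm_sub _ (Quad.taylor f a m t) _).trans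
    ((add_le_add h1 h2).trans ?_)
  have h4 := mul_le_mul_of_nonneg_right (ρ.sum_ℓ_le u hu01) hJ
  nlinarith [mul_le_mul_of_nonneg_right ρ.one_le_Λ hJ]

/-- The weights of an integral against a kernel over an initial segment. -/
noncomputable def wt (k : ℝ → ℝ) (a h x : ℝ) (i : Fin (m + 1)) : ℝ :=
  ∫ t in a..(a + h * x), k t * ρ.ℓ i ((t - a) / h)

theorem wt_zero (k : ℝ → ℝ) (a h : ℝ) (i : Fin (m + 1)) : ρ.wt k a h 0 i = 0 := by simp [wt]

theorem sum_wt_le {k : ℝ → ℝ} (hk : Continuous k) {a h x K : ℝ} (hh : 0 < h)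
    (hx : x ∈ Icc (0 : ℝ) 1) (hK : ∀ t ∈ Icc a (a + h), |k t| ≤ K) :
    ∑ i, |ρ.wt k a h x i| ≤ K * ρ.Λ * h := by
  have hle : a ≤ a + h * x := le_add_of_nonneg_right (mul_nonneg hh.le hx.1)
  have hK0 : 0 ≤ K := (abs_nonneg _).trans (hK a ⟨le_rfl, by linarith⟩)
  have hc : ∀ i, Continuous fun t => k t * ρ.ℓ i ((t - a) / h) := fun i =>
    hk.mul ((ρ.ℓ_cont i).comp (by fun_prop))
  calc ∑ i, |ρ.wt k a h x i|
      ≤ ∑ i, ∫ t in a..(a + h * x), |k t * ρ.ℓ i ((t - a) / h)| :=
        Finset.sum_le_sum fun i _ => intervalIntegral.abs_integral_le_integral_abs hle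
    _ = ∫ t in a..(a + h * x), ∑ i, |k t * ρ.ℓ i ((t - a) / h)| :=
        (intervalIntegral.integral_finsetSum fun i _ =>
          ((hc i).abs.intervalIntegrable _ _)).symm
    _ ≤ ∫ _ in a..(a + h * x), K * ρ.Λ := by
        refine intervalIntegral.integral_mono_on hle
          ((continuous_finsetSum _ fun i _ => (hc i).abs).intervalIntegrable _ _)
          intervalIntegrable_const fun t ht => ?_
        have htI : t ∈ Icc a (a + h) :=
          ⟨ht.1, ht.2.trans (by linarith [mul_le_of_le_one_right hh.le hx.2])⟩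
        simp only [abs_mul, ← Finset.mul_sum]
        refine mul_le_mul (hK t htI) (ρ.sum_ℓ_le _ ⟨div_nonneg (by linarith [htI.1]) hh.le, ?_⟩)
          (Finset.sum_nonneg fun i _ => abs_nonneg _) hK0
        rw [div_le_one hh]; linarith [htI.2]
    _ = (h * x) * (K * ρ.Λ) := by simp; ring
    _ ≤ K * ρ.Λ * h := by
        have h0 : 0 ≤ K * ρ.Λ := mul_nonneg hK0 (by linarith [ρ.one_le_Λ])
        rw [mul_comm]
        exact mul_le_mul_of_nonneg_left (mul_le_of_le_one_right hh.le hx.2) h0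

/-- Integration against a kernel over an initial segment. -/
theorem quad {k : ℝ → ℝ} (hk : Continuous k) (f : ℕ → ℝ → E d) {a h x K : ℝ} (hh : 0 < h)
    (hx : x ∈ Icc (0 : ℝ) 1) (hK : ∀ t ∈ Icc a (a + h), |k t| ≤ K)
    (hd : ∀ k ≤ m, ∀ t ∈ Icc a (a + h), HasDerivWithinAt (f k) (f (k + 1) t) (Icc a (a + h)) t)
    (hc : ContinuousOn (f (m + 1)) (Icc a (a + h))) :
    ‖(∫ t in a..(a + h * x), k t • f 0 t) - ∑ i, ρ.wt k a h x i • f 0 (a + h * ρ.τ i)‖ ≤
      2 * ρ.Λ * K * h ^ (m + 1) * ∫ s in a..(a + h), ‖f (m + 1) s‖ := by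
  set J := ∫ s in a..(a + h), ‖f (m + 1) s‖
  have hJ : 0 ≤ J := intervalIntegral.integral_nonneg (by linarith) fun s _ => norm_nonneg _
  have hle : a ≤ a + h * x := le_add_of_nonneg_right (mul_nonneg hh.le hx.1)
  have hsub : Icc a (a + h * x) ⊆ Icc a (a + h) :=
    Icc_subset_Icc_right (by linarith [mul_le_of_le_one_right hh.le hx.2])
  have hK0 : 0 ≤ K := (abs_nonneg _).trans (hK a ⟨le_rfl, by linarith⟩)
  have hf0 : ContinuousOn (f 0) (Icc a (a + h)) := fun t ht =>
    (hd 0 (Nat.zero_le m) t ht).continuousWithinAt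
  have hi1 : IntervalIntegrable (fun t => k t • f 0 t) volume a (a + h * x) :=
    ((hk.continuousOn.smul hf0).mono hsub).intervalIntegrable_of_Icc hle
  have hcl : ∀ i, Continuous fun t => k t * ρ.ℓ i ((t - a) / h) := fun i =>
    hk.mul ((ρ.ℓ_cont i).comp (by fun_prop))
  have hi : ∀ i, IntervalIntegrable
      (fun t => (k t * ρ.ℓ i ((t - a) / h)) • f 0 (a + h * ρ.τ i)) volume a (a + h * x) :=
    fun i => ((hcl i).smul continuous_const).intervalIntegrable _ _
  have e : ∑ i, ρ.wt k a h x i • f 0 (a + h * ρ.τ i) = ∫ t in a..(a + h * x),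
      k t • ∑ i, ρ.ℓ i ((t - a) / h) • f 0 (a + h * ρ.τ i) := by
    simp only [wt, Finset.smul_sum, smul_smul]
    rw [intervalIntegral.integral_finsetSum fun i _ => hi i]
    exact Finset.sum_congr rfl fun i _ => (intervalIntegral.integral_smul_const _ _).symm
  have hi2 : IntervalIntegrable
      (fun t => k t • ∑ i, ρ.ℓ i ((t - a) / h) • f 0 (a + h * ρ.τ i)) volume a (a + h * x) := by
    simp only [Finset.smul_sum, smul_smul]
    exact (continuous_finsetSum _ fun i _ => (hcl i).smul continuous_const).intervalIntegrable _ _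
  rw [e, ← intervalIntegral.integral_sub hi1 hi2]
  refine (intervalIntegral.norm_integral_le_of_norm_le_const (C := K * (2 * ρ.Λ * h ^ m * J))
    fun t ht => ?_).trans ?_
  · rw [uIoc_of_le hle] at ht
    have htI := hsub (Ioc_subset_Icc_self ht)
    rw [← smul_sub, norm_smul, Real.norm_eq_abs]
    exact mul_le_mul (hK t htI) (ρ.interp f hh hd hc htI) (norm_nonneg _) hK0
  · rw [add_sub_cancel_left, abs_of_nonneg (mul_nonneg hh.le hx.1)]
    have h0 : 0 ≤ K * (2 * ρ.Λ * h ^ m * J) := by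
      have := ρ.one_le_Λ; positivity
    calc K * (2 * ρ.Λ * h ^ m * J) * (h * x) ≤ K * (2 * ρ.Λ * h ^ m * J) * h :=
          mul_le_mul_of_nonneg_left (mul_le_of_le_one_right hh.le hx.2) h0
      _ = _ := by ring

/-- The derivative at the left end. -/
theorem fd (hm : 1 ≤ m) (f : ℕ → ℝ → E d) {a h : ℝ} (hh : 0 < h)
    (hd : ∀ k ≤ m, ∀ t ∈ Icc a (a + h), HasDerivWithinAt (f k) (f (k + 1) t) (Icc a (a + h)) t)
    (hc : ContinuousOn (f (m + 1)) (Icc a (a + h))) :
    ‖f 1 a - ∑ i, (ρ.c i / h) • f 0 (a + h * ρ.τ i)‖ ≤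
      ρ.Λ * h ^ (m - 1) * ∫ s in a..(a + h), ‖f (m + 1) s‖ := by
  have h2 := ρ.exact_to_bound (a' := ρ.c) (b := fun j => if j = 1 then 1 else 0)
    (fun j hj => ρ.exact_c j hj) f hh hd hc
  have e : (∑ j ∈ range (m + 1), ((if j = 1 then (1 : ℝ) else 0) * h ^ j / j.factorial) • f j a)
      = h • f 1 a := by
    rw [Finset.sum_eq_single 1 (fun b _ hb => by simp [hb])
      (fun h1 => absurd (Finset.mem_range.2 (by omega)) h1)]
    simp
  rw [e] at h2
  have e2 : f 1 a - ∑ i, (ρ.c i / h) • f 0 (a + h * ρ.τ i) =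
      h⁻¹ • (h • f 1 a - ∑ i, ρ.c i • f 0 (a + h * ρ.τ i)) := by
    rw [smul_sub, Finset.smul_sum, smul_smul, inv_mul_cancel₀ hh.ne', one_smul]
    simp only [smul_smul, div_eq_inv_mul]
  rw [e2, norm_smul, Real.norm_eq_abs, abs_inv, abs_of_pos hh]
  refine (mul_le_mul_of_nonneg_left (h2.trans (mul_le_mul_of_nonneg_right
    (mul_le_mul_of_nonneg_right ρ.sum_c_le (by positivity))
    (intervalIntegral.integral_nonneg (by linarith) fun s _ => norm_nonneg _)))
    (inv_nonneg.2 hh.le)).trans_eq ?_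
  obtain ⟨m, rfl⟩ : ∃ n, m = n + 1 := ⟨m - 1, by omega⟩
  rw [Nat.add_sub_cancel, pow_succ]
  field_simp

end GRule

end Vale.Agent.P347.Zero
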