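import Vale.Agent.P347.Zero.Band
import Vale.Agent.P347.Zero.GeoRule

/-!
# P347, exponent zero: the affine system of one band

The evaluation points: `P i j` on the probability flow at the node `j` of the cell `i`; `H i j q p`
on the rotation flow after `e τ_p` from the auxiliary flow at parameter `θ₀ τ_q` from the coupled
trajectory at node `(i, j)` (so `H i j 0 0` is the coupled trajectory itself); `F i j q p` on the
probability flow after time `e τ_p` from the same base point. A row is the vector of coefficients of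
the drifts `tv` at the points.
-/

open MeasureTheory Set Finset Real
open scoped BigOperators

namespace Vale.Agent.P347.Zero

/-- The `ℓ¹` norm of a coefficient vector. -/
noncomputable def nrm1 {α : Type*} [Fintype α] (v : α → ℝ) : ℝ := ∑ x, |v x|

section nrm1

variable {α β : Type*} [Fintype α]

theorem nrm1_nonneg (v : α → ℝ) : 0 ≤ nrm1 v := Finset.sum_nonneg fun _ _ => abs_nonneg _

theorem nrm1_smul (a : ℝ) (v : α → ℝ) : nrm1 (a • v) = |a| * nrm1 v := by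
  simp [nrm1, Finset.mul_sum, abs_mul]

theorem nrm1_neg (v : α → ℝ) : nrm1 (-v) = nrm1 v := by simp [nrm1]

theorem nrm1_add_le (u v : α → ℝ) : nrm1 (u + v) ≤ nrm1 u + nrm1 v := by
  rw [nrm1, nrm1, nrm1, ← Finset.sum_add_distrib]
  exact Finset.sum_le_sum fun x _ => abs_add_le _ _

theorem nrm1_sub_le (u v : α → ℝ) : nrm1 (u - v) ≤ nrm1 u + nrm1 v := by
  rw [sub_eq_add_neg, ← nrm1_neg v]
  exact nrm1_add_le u (-v)

theorem nrm1_sum_le (s : Finset β) (v : β → α → ℝ) :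
    nrm1 (∑ b ∈ s, v b) ≤ ∑ b ∈ s, nrm1 (v b) := by
  unfold nrm1
  rw [Finset.sum_comm]
  refine Finset.sum_le_sum fun x _ => ?_
  rw [Finset.sum_apply]
  exact Finset.abs_sum_le_sum_abs _ _

theorem nrm1_comb_le (s : Finset β) (a : β → ℝ) (v : β → α → ℝ) {K L : ℝ} (hK : 0 ≤ K)
    (hv : ∀ b ∈ s, nrm1 (v b) ≤ K) (ha : ∑ b ∈ s, |a b| ≤ L) :
    nrm1 (∑ b ∈ s, a b • v b) ≤ L * K := by
  refine (nrm1_sum_le _ _).trans ((Finset.sum_le_sum fun b hb => ?_).trans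
    ((Finset.sum_mul _ _ _).ge.trans (mul_le_mul_of_nonneg_right ha hK)))
  rw [nrm1_smul]
  exact mul_le_mul_of_nonneg_left (hv b hb) (abs_nonneg _)

theorem nrm1_single [DecidableEq α] (a : α) : nrm1 (Pi.single a (1 : ℝ) : α → ℝ) = 1 := by
  rw [nrm1, Finset.sum_eq_single a (fun b _ hb => by simp [hb])
    (fun h => absurd (Finset.mem_univ a) h)]
  simp

end nrm1

/-- The parameters of a band system. -/
structure GPar (m : ℕ) where
  /-- the rule -/
  ρ : GRule m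
  /-- the number of cells -/
  N : ℕ
  /-- the length of a cell -/
  hs : ℝ
  /-- the step of the difference gadgets -/
  e : ℝ
  /-- the length of the auxiliary flow -/
  θ₀ : ℝ
  /-- the noise level -/
  g : ℝ

namespace GPar

variable {m : ℕ} (q : GPar m)

/-- The indices of the evaluation points. -/
abbrev Idx (q : GPar m) : Type :=
  (Fin q.N × Fin (m + 1)) ⊕
    ((Fin q.N × Fin (m + 1) × Fin (m + 1) × Fin (m + 1)) ⊕
      (Fin q.N × Fin (m + 1) × Fin (m + 1) × Fin (m + 1)))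

/-- A point of the probability flow. -/
def iP (i : Fin q.N) (j : Fin (m + 1)) : q.Idx := .inl (i, j)

/-- A point of a rotation flow. -/
def iH (i : Fin q.N) (j a p : Fin (m + 1)) : q.Idx := .inr (.inl (i, j, a, p))

/-- A point of a short probability flow. -/
def iF (i : Fin q.N) (j a p : Fin (m + 1)) : q.Idx := .inr (.inr (i, j, a, p))

/-- The start of a cell. -/
noncomputable def cellA (i : Fin q.N) : ℝ := 1 + q.hs * (i : ℕ)

/-- A node. -/
noncomputable def τn (i : Fin q.N) (j : Fin (m + 1)) : ℝ := q.cellA i + q.hs * q.ρ.τ j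

/-- The unit vector of a point. -/
noncomputable def unit (x : q.Idx) : q.Idx → ℝ := Pi.single x 1

/-- The drift on the probability flow. -/
noncomputable def flP (i : Fin q.N) (j : Fin (m + 1)) : q.Idx → ℝ :=
  exp (-q.τn i j) • q.unit (q.iP i j)

/-- The drift on the coupled trajectory. -/
noncomputable def flC (i : Fin q.N) (j : Fin (m + 1)) : q.Idx → ℝ :=
  exp (-q.τn i j) • q.unit (q.iH i j 0 0)

/-- The integral over a cell up to the relative position `x`. -/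
noncomputable def cellInt (F : Fin q.N → Fin (m + 1) → q.Idx → ℝ) (i : Fin q.N) (x : ℝ) :
    q.Idx → ℝ :=
  ∑ j, q.ρ.wt (fun _ => 1) (q.cellA i) q.hs x j • F i j

/-- The integral over all cells. -/
noncomputable def total (F : Fin q.N → Fin (m + 1) → q.Idx → ℝ) : q.Idx → ℝ :=
  ∑ i, q.cellInt F i 1

/-- The integral from `1` to a node. -/
noncomputable def pref (F : Fin q.N → Fin (m + 1) → q.Idx → ℝ) (i : Fin q.N) (j : Fin (m + 1)) :
    q.Idx → ℝ :=
  (∑ i' ∈ Finset.univ.filter (· < i), q.cellInt F i' 1) + q.cellInt F i (q.ρ.τ j)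

/-- `A w` at a base point. -/
noncomputable def rowAw (i : Fin q.N) (j a : Fin (m + 1)) : q.Idx → ℝ :=
  ∑ p, (q.ρ.c p / (q.e * q.g)) • q.unit (q.iH i j a p)

/-- The velocity of `w` at a base point. -/
noncomputable def rowLw (i : Fin q.N) (j a : Fin (m + 1)) : q.Idx → ℝ :=
  ∑ p, (-(q.ρ.c p / (q.e * q.g))) • q.unit (q.iF i j a p)

/-- The probability flow. -/
noncomputable def rowP (i : Fin q.N) (j : Fin (m + 1)) : q.Idx → ℝ :=
  q.pref q.flP i j - q.total q.flP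

/-- The coupled trajectory. -/
noncomputable def rowC (i : Fin q.N) (j : Fin (m + 1)) : q.Idx → ℝ :=
  -q.total q.flP + q.pref (fun i j => q.flC i j - q.rowAw i j 0) i j

/-- The coupled `w`. -/
noncomputable def rowWc (i : Fin q.N) (j : Fin (m + 1)) : q.Idx → ℝ :=
  q.pref (fun i j => q.rowLw i j 0) i j

/-- The auxiliary flow. -/
noncomputable def rowX (i : Fin q.N) (j a : Fin (m + 1)) : q.Idx → ℝ :=
  q.rowC i j - ∑ a', q.ρ.wt (fun _ => 1) 0 q.θ₀ (q.ρ.τ a) a' • q.rowAw i j a'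

/-- The auxiliary `w`. -/
noncomputable def rowW (i : Fin q.N) (j a : Fin (m + 1)) : q.Idx → ℝ :=
  q.rowWc i j + ∑ a', q.ρ.wt (fun _ => 1) 0 q.θ₀ (q.ρ.τ a) a' • q.rowLw i j a'

/-- The rotation flow. -/
noncomputable def rowH (i : Fin q.N) (j a p : Fin (m + 1)) : q.Idx → ℝ :=
  cos (q.e * q.ρ.τ p) • q.rowX i j a + sin (q.e * q.ρ.τ p) • q.rowW i j a -
    ∑ p', (q.ρ.wt (fun u => sin (q.e * q.ρ.τ p - u)) 0 q.e (q.ρ.τ p) p' * exp (-q.τn i j)) •
      q.unit (q.iH i j a p')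

/-- The short probability flow. -/
noncomputable def rowF (i : Fin q.N) (j a p : Fin (m + 1)) : q.Idx → ℝ :=
  q.rowX i j a + ∑ p', (q.ρ.wt (fun _ => 1) (q.τn i j) q.e (q.ρ.τ p) p' *
    exp (-(q.τn i j + q.e * q.ρ.τ p'))) • q.unit (q.iF i j a p')

/-- The correction. -/
noncomputable def rowOut : q.Idx → ℝ :=
  -q.total fun i j => ∑ a, (q.ρ.c a / q.θ₀) • q.unit (q.iH i j a 0)

/-- The time of a point. -/
noncomputable def tmI : q.Idx → ℝ
  | .inl (i, j) => q.τn i j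
  | .inr (.inl (i, j, _, _)) => q.τn i j
  | .inr (.inr (i, j, _, p)) => q.τn i j + q.e * q.ρ.τ p

/-- The coefficient of `Z`. -/
noncomputable def kyI : q.Idx → ℝ
  | .inl _ => 1
  | .inr (.inl (_, _, _, p)) => cos (q.e * q.ρ.τ p)
  | .inr (.inr _) => 1

/-- The coefficient of `w`. -/
noncomputable def kwI : q.Idx → ℝ
  | .inl _ => 0
  | .inr (.inl (_, _, _, p)) => sin (q.e * q.ρ.τ p)
  | .inr (.inr _) => 0

/-- The rows. -/
noncomputable def rowI : q.Idx → q.Idx → ℝ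
  | .inl (i, j) => q.rowP i j
  | .inr (.inl (i, j, a, p)) => q.rowH i j a p
  | .inr (.inr (i, j, a, p)) => q.rowF i j a p

/-- The system. -/
noncomputable def geo (hN : 0 < q.N) : Geo where
  n := Fintype.card q.Idx
  tm x := q.tmI ((Fintype.equivFin q.Idx).symm x)
  ky x := q.kyI ((Fintype.equivFin q.Idx).symm x)
  kw x := q.kwI ((Fintype.equivFin q.Idx).symm x)
  C x y := q.rowI ((Fintype.equivFin q.Idx).symm x) ((Fintype.equivFin q.Idx).symm y)
  out x := q.rowOut ((Fintype.equivFin q.Idx).symm x)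
  i₀ := Fintype.equivFin q.Idx (q.iP ⟨0, hN⟩ 0)

/-- Admissible parameters for the horizon `T`. -/
structure Ok (T : ℝ) : Prop where
  one_le_T : 1 ≤ T
  hs_pos : 0 < q.hs
  hs_le : q.hs ≤ q.e
  N_hs : (q.N : ℝ) * q.hs = T - 1
  e_pos : 0 < q.e
  e_le : q.e ≤ 1
  one_le_θ₀ : 1 ≤ q.θ₀
  g_pos : 0 < q.g
  g_le : q.g ≤ 1

section size

variable {q} {T : ℝ} (hq : q.Ok T)
include hq

theorem τn_mem (i : Fin q.N) (j : Fin (m + 1)) : q.τn i j ∈ Icc 1 T := by
  have h := q.ρ.τ_mem j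
  have hh := hq.hs_pos
  have hi : ((i : ℕ) : ℝ) + 1 ≤ q.N := by exact_mod_cast i.2
  have h1 : q.hs * ((i : ℕ) : ℝ) + q.hs * q.ρ.τ j ≤ T - 1 := by
    rw [← hq.N_hs, mul_comm (q.N : ℝ), ← mul_add]
    exact mul_le_mul_of_nonneg_left (by linarith [h.2]) hh.le
  have h2 : 0 ≤ q.hs * ((i : ℕ) : ℝ) := by positivity
  have h3 : 0 ≤ q.hs * q.ρ.τ j := mul_nonneg hh.le h.1
  unfold τn cellA
  constructor <;> linarith

theorem cellA_mem (i : Fin q.N) : q.cellA i ∈ Icc 1 T ∧ q.cellA i + q.hs ≤ T := by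
  have h0 := τn_mem hq i 0
  rw [τn, q.ρ.τ_zero, mul_zero, add_zero] at h0
  refine ⟨h0, ?_⟩
  have hi : ((i : ℕ) : ℝ) + 1 ≤ q.N := by exact_mod_cast i.2
  have h1 : q.hs * (((i : ℕ) : ℝ) + 1) ≤ T - 1 := by
    rw [← hq.N_hs, mul_comm (q.N : ℝ)]
    exact mul_le_mul_of_nonneg_left hi hq.hs_pos.le
  unfold cellA; linarith

omit hq in
theorem nrm1_exp_unit {t : ℝ} (ht : 0 ≤ t) (x : q.Idx) : nrm1 (exp (-t) • q.unit x) ≤ 1 := by
  rw [nrm1_smul, unit, nrm1_single, mul_one, abs_of_pos (exp_pos _)]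
  exact exp_le_one_iff.2 (by linarith)

theorem cellInt_le {F : Fin q.N → Fin (m + 1) → q.Idx → ℝ} {K : ℝ} (hK : 0 ≤ K)
    (hF : ∀ i j, nrm1 (F i j) ≤ K) (i : Fin q.N) {x : ℝ} (hx : x ∈ Icc (0 : ℝ) 1) :
    nrm1 (q.cellInt F i x) ≤ q.ρ.Λ * q.hs * K := by
  refine nrm1_comb_le _ _ _ hK (fun j _ => hF i j) ?_
  simpa using q.ρ.sum_wt_le (k := fun _ => 1) continuous_const hq.hs_pos hx (K := 1)
    fun t _ => by simp

theorem total_le {F : Fin q.N → Fin (m + 1) → q.Idx → ℝ} {K : ℝ} (hK : 0 ≤ K)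
    (hF : ∀ i j, nrm1 (F i j) ≤ K) : nrm1 (q.total F) ≤ q.ρ.Λ * T * K := by
  have hΛ : 0 ≤ q.ρ.Λ := zero_le_one.trans q.ρ.one_le_Λ
  refine (nrm1_sum_le _ _).trans ((Finset.sum_le_sum fun i _ =>
    cellInt_le hq hK hF i (right_mem_Icc.2 zero_le_one)).trans ?_)
  rw [Finset.sum_const, Finset.card_univ, Fintype.card_fin, nsmul_eq_mul]
  calc (q.N : ℝ) * (q.ρ.Λ * q.hs * K) = q.ρ.Λ * ((q.N : ℝ) * q.hs) * K := by ring
    _ ≤ q.ρ.Λ * T * K := by rw [hq.N_hs]; gcongr; linarith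

theorem pref_le {F : Fin q.N → Fin (m + 1) → q.Idx → ℝ} {K : ℝ} (hK : 0 ≤ K)
    (hF : ∀ i j, nrm1 (F i j) ≤ K) (i : Fin q.N) (j : Fin (m + 1)) :
    nrm1 (q.pref F i j) ≤ q.ρ.Λ * T * K := by
  have hΛ : 0 ≤ q.ρ.Λ := zero_le_one.trans q.ρ.one_le_Λ
  refine (nrm1_add_le _ _).trans ?_
  have hc : (Finset.univ.filter (· < i)).card + 1 ≤ q.N := by
    have h := Finset.card_lt_card (s := Finset.univ.filter (· < i)) (t := Finset.univ)
      (Finset.filter_ssubset.2 ⟨i, Finset.mem_univ i, lt_irrefl i⟩)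
    rw [Finset.card_univ, Fintype.card_fin] at h
    omega
  refine (add_le_add ((nrm1_sum_le _ _).trans (Finset.sum_le_sum fun i' _ =>
    cellInt_le hq hK hF i' (right_mem_Icc.2 zero_le_one)))
      (cellInt_le hq hK hF i (q.ρ.τ_mem j))).trans ?_
  rw [Finset.sum_const, nsmul_eq_mul, ← add_one_mul]
  calc (((Finset.univ.filter (· < i)).card : ℝ) + 1) * (q.ρ.Λ * q.hs * K)
      ≤ (q.N : ℝ) * (q.ρ.Λ * q.hs * K) := by
        refine mul_le_mul_of_nonneg_right ?_ (by have := hq.hs_pos; positivity)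
        exact_mod_cast hc
    _ = q.ρ.Λ * ((q.N : ℝ) * q.hs) * K := by ring
    _ ≤ q.ρ.Λ * T * K := by rw [hq.N_hs]; gcongr; linarith

theorem one_le_scale : 1 ≤ q.ρ.Λ / (q.e * q.g) := by
  rw [one_le_div (mul_pos hq.e_pos hq.g_pos)]
  exact (mul_le_one₀ hq.e_le hq.g_pos.le hq.g_le).trans q.ρ.one_le_Λ

theorem rowAw_le (i : Fin q.N) (j a : Fin (m + 1)) :
    nrm1 (q.rowAw i j a) ≤ q.ρ.Λ / (q.e * q.g) := by
  have h0 := mul_pos hq.e_pos hq.g_pos
  refine (nrm1_comb_le _ _ _ zero_le_one (fun p _ => (nrm1_single _).le) ?_).trans_eq (mul_one _)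
  simp only [abs_div, abs_of_pos h0, ← Finset.sum_div]
  gcongr
  exact q.ρ.sum_c_le

theorem rowLw_le (i : Fin q.N) (j a : Fin (m + 1)) :
    nrm1 (q.rowLw i j a) ≤ q.ρ.Λ / (q.e * q.g) := by
  have h0 := mul_pos hq.e_pos hq.g_pos
  refine (nrm1_comb_le _ _ _ zero_le_one (fun p _ => (nrm1_single _).le) ?_).trans_eq (mul_one _)
  simp only [abs_neg, abs_div, abs_of_pos h0, ← Finset.sum_div]
  gcongr
  exact q.ρ.sum_c_le

theorem rowP_le (i : Fin q.N) (j : Fin (m + 1)) : nrm1 (q.rowP i j) ≤ 2 * (q.ρ.Λ * T) := by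
  have hF : ∀ i j, nrm1 (q.flP i j) ≤ 1 := fun i j =>
    nrm1_exp_unit (by linarith [(τn_mem hq i j).1]) _
  refine (nrm1_sub_le _ _).trans ((add_le_add (pref_le hq zero_le_one hF i j)
    (total_le hq zero_le_one hF)).trans_eq ?_)
  ring

theorem rowC_le (i : Fin q.N) (j : Fin (m + 1)) :
    nrm1 (q.rowC i j) ≤ 3 * (q.ρ.Λ * T) * (q.ρ.Λ / (q.e * q.g)) := by
  have hK := one_le_scale hq
  have hF : ∀ i j, nrm1 (q.flP i j) ≤ 1 := fun i j =>
    nrm1_exp_unit (by linarith [(τn_mem hq i j).1]) _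
  have hG : ∀ i j, nrm1 (q.flC i j - q.rowAw i j 0) ≤ 2 * (q.ρ.Λ / (q.e * q.g)) := fun i j =>
    (nrm1_sub_le _ _).trans ((add_le_add ((nrm1_exp_unit (by linarith [(τn_mem hq i j).1])
      _).trans hK) (rowAw_le hq i j 0)).trans_eq (two_mul _).symm)
  refine (nrm1_add_le _ _).trans ((add_le_add ((nrm1_neg _).trans_le (total_le hq zero_le_one hF))
    (pref_le hq (by linarith) hG i j)).trans ?_)
  have hT : 0 ≤ q.ρ.Λ * T := mul_nonneg (by linarith [q.ρ.one_le_Λ]) (by linarith [hq.one_le_T])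
  nlinarith

theorem rowWc_le (i : Fin q.N) (j : Fin (m + 1)) :
    nrm1 (q.rowWc i j) ≤ q.ρ.Λ * T * (q.ρ.Λ / (q.e * q.g)) := by
  have hK := one_le_scale hq
  refine (pref_le hq (by linarith) (fun i j => rowLw_le hq i j 0) i j).trans_eq ?_
  ring

theorem sum_wt_aux (a : Fin (m + 1)) :
    ∑ a', |q.ρ.wt (fun _ => 1) 0 q.θ₀ (q.ρ.τ a) a'| ≤ q.ρ.Λ * q.θ₀ := by
  simpa using q.ρ.sum_wt_le (k := fun _ => 1) (a := 0) continuous_const
    (lt_of_lt_of_le one_pos hq.one_le_θ₀) (q.ρ.τ_mem a) (K := 1) fun t _ => by simp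

/-- The common scale of all rows. -/
theorem rowXW_le (i : Fin q.N) (j a : Fin (m + 1)) :
    nrm1 (q.rowX i j a) ≤ 4 * q.ρ.Λ ^ 2 * (T * q.θ₀ / (q.e * q.g)) ∧
      nrm1 (q.rowW i j a) ≤ 4 * q.ρ.Λ ^ 2 * (T * q.θ₀ / (q.e * q.g)) := by
  have hK := one_le_scale hq
  have hθ := hq.one_le_θ₀
  have hT := hq.one_le_T
  have hΛ := q.ρ.one_le_Λ
  set K := q.ρ.Λ / (q.e * q.g) with hKdef
  have e : q.ρ.Λ ^ 2 * (T * q.θ₀ / (q.e * q.g)) = q.ρ.Λ * T * q.θ₀ * K := by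
    rw [hKdef]; field_simp
  have hA : 0 ≤ q.ρ.Λ * T := by positivity
  have h1 : q.ρ.Λ * T * K ≤ q.ρ.Λ * T * q.θ₀ * K :=
    mul_le_mul_of_nonneg_right (le_mul_of_one_le_right hA hθ) (by linarith)
  have h2 : q.ρ.Λ * q.θ₀ * K ≤ q.ρ.Λ * T * q.θ₀ * K := by
    refine mul_le_mul_of_nonneg_right (mul_le_mul_of_nonneg_right ?_ (by linarith)) (by linarith)
    exact le_mul_of_one_le_right (by linarith) hT
  rw [mul_assoc (4 : ℝ), e]
  constructor
  · refine (nrm1_sub_le _ _).trans ((add_le_add (rowC_le hq i j) (nrm1_comb_le _ _ _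
      (by linarith : (0 : ℝ) ≤ K) (fun a' _ => rowAw_le hq i j a') (sum_wt_aux hq a))).trans ?_)
    nlinarith
  · refine (nrm1_add_le _ _).trans ((add_le_add (rowWc_le hq i j) (nrm1_comb_le _ _ _
      (by linarith : (0 : ℝ) ≤ K) (fun a' _ => rowLw_le hq i j a') (sum_wt_aux hq a))).trans ?_)
    nlinarith

theorem rowI_le (x : q.Idx) :
    nrm1 (q.rowI x) ≤ 9 * q.ρ.Λ ^ 2 * (T * q.θ₀ / (q.e * q.g)) := by
  have hθ := hq.one_le_θ₀
  have hT := hq.one_le_T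
  have hΛ := q.ρ.one_le_Λ
  have he := hq.e_pos
  set S := q.ρ.Λ ^ 2 * (T * q.θ₀ / (q.e * q.g)) with hS
  have hΛS : q.ρ.Λ * T ≤ S := by
    have hK := one_le_scale hq
    have e : S = q.ρ.Λ * T * (q.θ₀ * (q.ρ.Λ / (q.e * q.g))) := by rw [hS]; field_simp
    rw [e]
    exact le_mul_of_one_le_right (by positivity) (one_le_mul_of_one_le_of_one_le hθ hK)
  have hΛe : q.ρ.Λ * q.e ≤ S := le_trans
    ((mul_le_of_le_one_right (by linarith) hq.e_le).trans (le_mul_of_one_le_right (by linarith) hT))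
    hΛS
  rw [mul_assoc (9 : ℝ), ← hS]
  rcases x with ⟨i, j⟩ | ⟨i, j, a, p⟩ | ⟨i, j, a, p⟩
  · have : 0 ≤ S := le_trans (by positivity) hΛS
    exact (rowP_le hq i j).trans (by linarith)
  · obtain ⟨hX, hW⟩ := rowXW_le hq i j a
    rw [mul_assoc (4 : ℝ), ← hS] at hX hW
    have h3 : nrm1 (∑ p', (q.ρ.wt (fun u => sin (q.e * q.ρ.τ p - u)) 0 q.e (q.ρ.τ p) p' *
        exp (-q.τn i j)) • q.unit (q.iH i j a p')) ≤ q.ρ.Λ * q.e := by
      refine (nrm1_comb_le _ _ _ zero_le_one (fun p' _ => (nrm1_single _).le) ?_).trans_eq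
        (mul_one _)
      refine le_trans (Finset.sum_le_sum fun p' _ => ?_) (by
        simpa using q.ρ.sum_wt_le (k := fun u => sin (q.e * q.ρ.τ p - u)) (a := 0) (by fun_prop) he
          (q.ρ.τ_mem p) (K := 1) fun t _ => abs_sin_le_one _)
      rw [abs_mul, abs_of_pos (exp_pos _)]
      exact mul_le_of_le_one_right (abs_nonneg _)
        (exp_le_one_iff.2 (by linarith [(τn_mem hq i j).1]))
    show nrm1 (q.rowH i j a p) ≤ _
    refine (nrm1_sub_le _ _).trans ((add_le_add (nrm1_add_le _ _) h3).trans ?_)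
    rw [nrm1_smul, nrm1_smul]
    have h4 := mul_le_of_le_one_left (nrm1_nonneg (q.rowX i j a)) (abs_cos_le_one (q.e * q.ρ.τ p))
    have h5 := mul_le_of_le_one_left (nrm1_nonneg (q.rowW i j a)) (abs_sin_le_one (q.e * q.ρ.τ p))
    linarith
  · obtain ⟨hX, -⟩ := rowXW_le hq i j a
    rw [mul_assoc (4 : ℝ), ← hS] at hX
    have h3 : nrm1 (∑ p', (q.ρ.wt (fun _ => 1) (q.τn i j) q.e (q.ρ.τ p) p' *
        exp (-(q.τn i j + q.e * q.ρ.τ p'))) • q.unit (q.iF i j a p')) ≤ q.ρ.Λ * q.e := by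
      refine (nrm1_comb_le _ _ _ zero_le_one (fun p' _ => (nrm1_single _).le) ?_).trans_eq
        (mul_one _)
      refine le_trans (Finset.sum_le_sum fun p' _ => ?_) (by
        simpa using q.ρ.sum_wt_le (k := fun _ => 1) (a := q.τn i j) continuous_const he
          (q.ρ.τ_mem p) (K := 1) fun t _ => by simp)
      rw [abs_mul, abs_of_pos (exp_pos _)]
      refine mul_le_of_le_one_right (abs_nonneg _) (exp_le_one_iff.2 ?_)
      nlinarith [(τn_mem hq i j).1, (q.ρ.τ_mem p').1]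
    show nrm1 (q.rowF i j a p) ≤ _
    exact (nrm1_add_le _ _).trans (by linarith [nrm1_nonneg (q.rowX i j a)])

theorem rowOut_le : nrm1 q.rowOut ≤ q.ρ.Λ ^ 2 * (T / q.θ₀) := by
  have hθ : 0 < q.θ₀ := lt_of_lt_of_le one_pos hq.one_le_θ₀
  have hΛ := q.ρ.one_le_Λ
  rw [rowOut, nrm1_neg]
  refine (total_le hq (K := q.ρ.Λ / q.θ₀) (by positivity) fun i j => ?_).trans_eq (by ring)
  refine (nrm1_comb_le _ _ _ zero_le_one (fun a _ => (nrm1_single _).le) ?_).trans_eq (mul_one _)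
  simp only [abs_div, abs_of_pos hθ, ← Finset.sum_div]
  gcongr
  exact q.ρ.sum_c_le

theorem geo_sized (hN : 0 < q.N) :
    (q.geo hN).Sized (9 * q.ρ.Λ ^ 2 * (T * q.θ₀ / (q.e * q.g))) (q.ρ.Λ ^ 2 * (T / q.θ₀)) := by
  set ε := Fintype.equivFin q.Idx
  have h0 : ε.symm (q.geo hN).i₀ = q.iP ⟨0, hN⟩ 0 := ε.symm_apply_apply _
  refine ⟨fun x => ?_, ?_, ?_, ?_, fun x => ?_, fun x => ?_, ?_⟩
  · show 1 ≤ q.tmI (ε.symm x)
    rcases ε.symm x with ⟨i, j⟩ | ⟨i, j, a, p⟩ | ⟨i, j, a, p⟩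
    · exact (τn_mem hq i j).1
    · exact (τn_mem hq i j).1
    · exact le_add_of_le_of_nonneg (τn_mem hq i j).1 (mul_nonneg hq.e_pos.le (q.ρ.τ_mem p).1)
  · show q.tmI (ε.symm (q.geo hN).i₀) = 1
    rw [h0]
    simp [tmI, iP, τn, cellA, q.ρ.τ_zero]
  · show q.kyI (ε.symm (q.geo hN).i₀) = 1
    rw [h0]
    rfl
  · show q.kwI (ε.symm (q.geo hN).i₀) = 0
    rw [h0]
    rfl
  · show |q.kyI (ε.symm x)| ≤ 1
    rcases ε.symm x with ⟨i, j⟩ | ⟨i, j, a, p⟩ | ⟨i, j, a, p⟩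
    · simp [kyI]
    · exact abs_cos_le_one _
    · simp [kyI]
  · show ∑ y, |q.rowI (ε.symm x) (ε.symm y)| ≤ _
    rw [ε.symm.sum_comp (fun y => |q.rowI (ε.symm x) y|)]
    exact rowI_le hq _
  · show ∑ y, |q.rowOut (ε.symm y)| ≤ _
    rw [ε.symm.sum_comp (fun y => |q.rowOut y|)]
    exact rowOut_le hq

omit hq in
theorem geo_card (hN : 0 < q.N) : (q.geo hN).n ≤ 3 * (m + 1) ^ 3 * q.N := by
  show Fintype.card q.Idx ≤ _
  simp only [Fintype.card_sum, Fintype.card_prod, Fintype.card_fin]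
  have h : q.N * (m + 1) ≤ q.N * ((m + 1) * ((m + 1) * (m + 1))) :=
    Nat.mul_le_mul_left _ (Nat.le_mul_of_pos_right _ (by positivity))
  have e : 3 * (m + 1) ^ 3 * q.N = 3 * (q.N * ((m + 1) * ((m + 1) * (m + 1)))) := by ring
  omega

end size

end GPar

end Vale.Agent.P347.Zero
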