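import Vale.Agent.P347.Zero.GeoDef

/-!
# P347, exponent zero: errors of the rows along one trajectory

`L` turns a row into the combination of the values it stands for. If the values `L (F i)` at the
nodes are close to those of a chain `f`, the rows of the integrals are close to the integrals.
-/

open MeasureTheory Set Finset Real
open scoped BigOperators

namespace Vale.Agent.P347.Zero

variable {d : ℕ}

/-- `f` is nonnegative, integrable, and has mean at most `K`. -/
structure MeanLe {Ω : Type*} [MeasurableSpace Ω] (μ : Measure Ω) (f : Ω → ℝ) (K : ℝ) : Prop where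
  nonneg : ∀ ω, 0 ≤ f ω
  integrable : Integrable f μ
  mean_le : ∫ ω, f ω ∂μ ≤ K

namespace MeanLe

variable {Ω : Type*} [MeasurableSpace Ω] {μ : Measure Ω} {f g : Ω → ℝ} {K K' : ℝ}

theorem mono (h : MeanLe μ f K) (hK : K ≤ K') : MeanLe μ f K' :=
  ⟨h.nonneg, h.integrable, h.mean_le.trans hK⟩

theorem add (hf : MeanLe μ f K) (hg : MeanLe μ g K') : MeanLe μ (fun ω => f ω + g ω) (K + K') :=
  ⟨fun ω => add_nonneg (hf.nonneg ω) (hg.nonneg ω), hf.integrable.add hg.integrable, by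
    rw [integral_add hf.integrable hg.integrable]; exact add_le_add hf.mean_le hg.mean_le⟩

theorem const_mul (hf : MeanLe μ f K) {c : ℝ} (hc : 0 ≤ c) :
    MeanLe μ (fun ω => c * f ω) (c * K) :=
  ⟨fun ω => mul_nonneg hc (hf.nonneg ω), hf.integrable.const_mul c, by
    rw [integral_const_mul]; exact mul_le_mul_of_nonneg_left hf.mean_le hc⟩

theorem sum {ι : Type*} (s : Finset ι) {f : ι → Ω → ℝ} {K : ι → ℝ}
    (h : ∀ i ∈ s, MeanLe μ (f i) (K i)) :
    MeanLe μ (fun ω => ∑ i ∈ s, f i ω) (∑ i ∈ s, K i) :=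
  ⟨fun ω => Finset.sum_nonneg fun i hi => (h i hi).nonneg ω,
    integrable_finsetSum s fun i hi => (h i hi).integrable, by
      rw [integral_finsetSum s fun i hi => (h i hi).integrable]
      exact Finset.sum_le_sum fun i hi => (h i hi).mean_le⟩

theorem of_norm_le (hg : MeanLe μ g K) {e : Ω → E d} (he : AEStronglyMeasurable e μ)
    (hle : ∀ ω, ‖e ω‖ ≤ g ω) : MeanLe μ (fun ω => ‖e ω‖) K :=
  have hi : Integrable (fun ω => ‖e ω‖) μ :=
    hg.integrable.mono' he.norm (ae_of_all _ fun ω => by rw [norm_norm]; exact hle ω)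
  ⟨fun ω => norm_nonneg _, hi, (integral_mono hi hg.integrable hle).trans hg.mean_le⟩

end MeanLe

namespace GRule

variable {m : ℕ} (ρ : GRule m) {α : Type*}

/-- An integral over an initial segment against a kernel, as a combination of given values. -/
theorem seg_err (L : (α → ℝ) →ₗ[ℝ] E d) (F : Fin (m + 1) → α → ℝ) {k : ℝ → ℝ} (hk : Continuous k)
    (f : ℕ → ℝ → E d) {a h x K : ℝ} (hh : 0 < h) (hx : x ∈ Icc (0 : ℝ) 1)
    (hK : ∀ t ∈ Icc a (a + h), |k t| ≤ K)
    (hd : ∀ k ≤ m, ∀ t ∈ Icc a (a + h), HasDerivWithinAt (f k) (f (k + 1) t) (Icc a (a + h)) t)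
    (hc : ContinuousOn (f (m + 1)) (Icc a (a + h))) :
    ‖(∫ t in a..(a + h * x), k t • f 0 t) - L (∑ i, ρ.wt k a h x i • F i)‖ ≤
      2 * ρ.Λ * K * h ^ (m + 1) * (∫ s in a..(a + h), ‖f (m + 1) s‖) +
        K * ρ.Λ * h * ∑ i, ‖f 0 (a + h * ρ.τ i) - L (F i)‖ := by
  set S := ∑ i, ‖f 0 (a + h * ρ.τ i) - L (F i)‖
  refine (norm_sub_le_norm_sub_add_norm_sub _ (∑ i, ρ.wt k a h x i • f 0 (a + h * ρ.τ i)) _).trans
    (add_le_add (ρ.quad hk f hh hx hK hd hc) ?_)
  simp only [map_sum, map_smul, ← Finset.sum_sub_distrib, ← smul_sub]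
  refine (norm_sum_le _ _).trans ((Finset.sum_le_sum fun i _ => ?_).trans
    ((Finset.sum_mul _ _ S).ge.trans (mul_le_mul_of_nonneg_right (ρ.sum_wt_le hk hh hx hK)
      (Finset.sum_nonneg fun _ _ => norm_nonneg _))))
  rw [norm_smul, Real.norm_eq_abs]
  exact mul_le_mul_of_nonneg_left (Finset.single_le_sum (f := fun i =>
    ‖f 0 (a + h * ρ.τ i) - L (F i)‖) (fun _ _ => norm_nonneg _) (Finset.mem_univ i)) (abs_nonneg _)

/-- An increment over an initial segment, as a combination of given values. -/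
theorem incr_err (L : (α → ℝ) →ₗ[ℝ] E d) (F : Fin (m + 1) → α → ℝ) (f : ℕ → ℝ → E d)
    (y : ℝ → E d) {a h x : ℝ} (hh : 0 < h) (hx : x ∈ Icc (0 : ℝ) 1)
    (hd : ∀ k ≤ m, ∀ t ∈ Icc a (a + h), HasDerivWithinAt (f k) (f (k + 1) t) (Icc a (a + h)) t)
    (hc : ContinuousOn (f (m + 1)) (Icc a (a + h)))
    (hy : ∀ t ∈ Icc a (a + h), HasDerivWithinAt y (f 0 t) (Icc a (a + h)) t) :
    ‖y (a + h * x) - y a - L (∑ i, ρ.wt (fun _ => 1) a h x i • F i)‖ ≤
      2 * ρ.Λ * h ^ (m + 1) * (∫ s in a..(a + h), ‖f (m + 1) s‖) +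
        ρ.Λ * h * ∑ i, ‖f 0 (a + h * ρ.τ i) - L (F i)‖ := by
  have hle : a ≤ a + h * x := le_add_of_nonneg_right (mul_nonneg hh.le hx.1)
  have hsub : Icc a (a + h * x) ⊆ Icc a (a + h) :=
    Icc_subset_Icc_right (by linarith [mul_le_of_le_one_right hh.le hx.2])
  have hf0 : ContinuousOn (f 0) (Icc a (a + h)) := fun t ht =>
    (hd 0 (Nat.zero_le m) t ht).continuousWithinAt
  have e : ∫ t in a..(a + h * x), f 0 t = y (a + h * x) - y a :=
    intervalIntegral.integral_eq_sub_of_hasDerivAt_of_le hle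
      (fun t ht => ((hy t (hsub ht)).continuousWithinAt).mono hsub)
      (fun t ht => (hy t (hsub (Ioo_subset_Icc_self ht))).hasDerivAt
        (Icc_mem_nhds ht.1 (ht.2.trans_le (by linarith [mul_le_of_le_one_right hh.le hx.2]))))
      ((hf0.mono hsub).intervalIntegrable_of_Icc hle)
  simpa [e] using ρ.seg_err L F (k := fun _ => 1) continuous_const f hh hx (K := 1)
    (fun t _ => by simp) hd hc

end GRule

namespace GPar

variable {m : ℕ} (q : GPar m)

/-- The error of one cell. -/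
noncomputable def cellErr (L : (q.Idx → ℝ) →ₗ[ℝ] E d) (F : Fin q.N → Fin (m + 1) → q.Idx → ℝ)
    (f : ℕ → ℝ → E d) (i : Fin q.N) : ℝ :=
  2 * q.ρ.Λ * q.hs ^ (m + 1) * (∫ s in q.cellA i..(q.cellA i + q.hs), ‖f (m + 1) s‖) +
    q.ρ.Λ * q.hs * ∑ j, ‖f 0 (q.τn i j) - L (F i j)‖

variable {q} {T : ℝ} (hq : q.Ok T)
include hq

theorem cell_subset (i : Fin q.N) : Icc (q.cellA i) (q.cellA i + q.hs) ⊆ Icc 1 T :=
  Icc_subset_Icc (cellA_mem hq i).1.1 (cellA_mem hq i).2

variable (L : (q.Idx → ℝ) →ₗ[ℝ] E d) (F : Fin q.N → Fin (m + 1) → q.Idx → ℝ) (f : ℕ → ℝ → E d)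
  (y : ℝ → E d)
  (hd : ∀ k ≤ m, ∀ t ∈ Icc 1 T, HasDerivWithinAt (f k) (f (k + 1) t) (Icc 1 T) t)
  (hc : ContinuousOn (f (m + 1)) (Icc 1 T))
  (hy : ∀ t ∈ Icc 1 T, HasDerivWithinAt y (f 0 t) (Icc 1 T) t)
include hd hc hy

theorem cell_err (i : Fin q.N) {x : ℝ} (hx : x ∈ Icc (0 : ℝ) 1) :
    ‖y (q.cellA i + q.hs * x) - y (q.cellA i) - L (q.cellInt F i x)‖ ≤ q.cellErr L F f i := by
  have h := cell_subset hq i
  exact q.ρ.incr_err L (F i) f y hq.hs_pos hx (fun k hk t ht => (hd k hk t (h ht)).mono h)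
    (hc.mono h) fun t ht => (hy t (h ht)).mono h

theorem cellErr_nonneg (i : Fin q.N) : 0 ≤ q.cellErr L F f i :=
  (norm_nonneg _).trans (cell_err hq L F f y hd hc hy i (left_mem_Icc.2 zero_le_one))

/-- The increment up to a node. -/
theorem pref_err (i : Fin q.N) (j : Fin (m + 1)) :
    ‖y (q.τn i j) - y 1 - L (q.pref F i j)‖ ≤ ∑ i', q.cellErr L F f i' := by
  set φ : ℕ → E d := fun k => y (1 + q.hs * k)
  have hsum : ∑ i' ∈ Finset.univ.filter (· < i), (y (q.cellA i' + q.hs * 1) - y (q.cellA i')) =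
      y (q.cellA i) - y 1 := by
    have e1 : ∀ i' : Fin q.N, y (q.cellA i' + q.hs * 1) - y (q.cellA i') =
        φ ((i' : ℕ) + 1) - φ i' := by
      intro i'
      simp only [φ, cellA]
      push_cast
      ring_nf
    simp only [e1]
    rw [show Finset.univ.filter (· < i) = Finset.Iio i by ext; simp]
    have := (Finset.sum_map (Finset.Iio i) Fin.valEmbedding fun k => φ (k + 1) - φ k).symm
    rw [Fin.map_valEmbedding_Iio, Nat.Iio_eq_range, Finset.sum_range_sub φ] at this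
    simpa [φ, cellA] using this
  have e : y (q.τn i j) - y 1 - L (q.pref F i j) =
      (∑ i' ∈ Finset.univ.filter (· < i),
        (y (q.cellA i' + q.hs * 1) - y (q.cellA i') - L (q.cellInt F i' 1))) +
      (y (q.τn i j) - y (q.cellA i) - L (q.cellInt F i (q.ρ.τ j))) := by
    rw [Finset.sum_sub_distrib, hsum, pref, map_add, map_sum]
    abel
  rw [e]
  refine (norm_add_le _ _).trans ((add_le_add ((norm_sum_le _ _).trans (Finset.sum_le_sum
    fun i' _ => cell_err hq L F f y hd hc hy i' (right_mem_Icc.2 zero_le_one)))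
    (cell_err hq L F f y hd hc hy i (q.ρ.τ_mem j))).trans ?_)
  rw [add_comm, ← Finset.sum_insert (show i ∉ Finset.univ.filter (· < i) by simp)]
  exact Finset.sum_le_sum_of_subset_of_nonneg (Finset.subset_univ _)
    fun i' _ _ => cellErr_nonneg hq L F f y hd hc hy i'

/-- The increment over all cells. -/
theorem total_err : ‖y T - y 1 - L (q.total F)‖ ≤ ∑ i, q.cellErr L F f i := by
  set φ : ℕ → E d := fun k => y (1 + q.hs * k)
  have hsum : ∑ i : Fin q.N, (y (q.cellA i + q.hs * 1) - y (q.cellA i)) = y T - y 1 := by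
    have e1 : ∀ i' : Fin q.N, y (q.cellA i' + q.hs * 1) - y (q.cellA i') =
        φ ((i' : ℕ) + 1) - φ i' := by
      intro i'
      simp only [φ, cellA]
      push_cast
      ring_nf
    simp only [e1]
    rw [Fin.sum_univ_eq_sum_range (fun k => φ (k + 1) - φ k), Finset.sum_range_sub φ]
    have hT : 1 + q.hs * (q.N : ℝ) = T := by linarith [hq.N_hs, mul_comm (q.N : ℝ) q.hs]
    simp [φ, hT]
  have e : y T - y 1 - L (q.total F) =
      ∑ i, (y (q.cellA i + q.hs * 1) - y (q.cellA i) - L (q.cellInt F i 1)) := by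
    rw [Finset.sum_sub_distrib, hsum, total, map_sum]
  rw [e]
  exact (norm_sum_le _ _).trans (Finset.sum_le_sum fun i _ =>
    cell_err hq L F f y hd hc hy i (right_mem_Icc.2 zero_le_one))

end GPar

end Vale.Agent.P347.Zero
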