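import Vale.Agent.P347.Zero.Shift

/-!
# P347, exponent zero: the sampler targets along the bands

`tgt W k b m` is the law of `(1 - γ²) (m + b X) + γ² m + b γ √(1 - γ²) Z`, `X ∼ law (shiftW W m b)`,
`γ = bT 1 ^ k`. One band takes `tgt W k` at the next centre and scale to `tgt W (k + 1)`.
-/

open MeasureTheory ProbabilityTheory Real
open scoped RealInnerProductSpace

namespace Vale.Agent.P347.Zero

variable {d : ℕ}

/-- the ratio after `k` bands -/
noncomputable def gam (k : ℕ) : ℝ := bT 1 ^ k

/-- the mean part of a target point -/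
noncomputable def tgtPt (k : ℕ) (b : ℝ) (m x : E d) : E d :=
  (1 - gam k ^ 2) • (m + b • x) + gam k ^ 2 • m

/-- the noise level of a target -/
noncomputable def tgtNoise (k : ℕ) (b : ℝ) : ℝ := b * gam k * √(1 - gam k ^ 2)

/-- the target of `k` bands from scale `b` at the centre `m` -/
noncomputable def tgt (W : E d → ℝ) (k : ℕ) (b : ℝ) (m : E d) : Measure (E d) :=
  ((law (shiftW W m b)).prod (stdGaussian (E d))).map
    fun p => tgtPt k b m p.1 + tgtNoise k b • p.2

theorem gam_pos (k : ℕ) : 0 < gam k := pow_pos (bT_pos one_pos) k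

theorem gam_le_one (k : ℕ) : gam k ≤ 1 := pow_le_one₀ (bT_pos one_pos).le (bT_lt_one one_pos).le

theorem gam_succ (k : ℕ) : gam (k + 1) = bT 1 * gam k := by rw [gam, gam, pow_succ']

variable {η B : ℝ} {W : E d → ℝ} (hW : Pert η B W)
include hW

theorem isProbabilityMeasure_tgt (k : ℕ) {b : ℝ} (hb : 0 < b) (hb1 : b ≤ 1) (m : E d) :
    IsProbabilityMeasure (tgt W k b m) := by
  have := (shift_pert_one hW m hb hb1).isProbabilityMeasure_law
  exact Measure.isProbabilityMeasure_map (by unfold tgtPt; fun_prop)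

/-- integrals of a target -/
theorem integral_tgt (k : ℕ) {b : ℝ} (hb : 0 < b) (hb1 : b ≤ 1) (m : E d) {f : E d → ℝ}
    (hf : Continuous f) {M : ℝ} (hM : ∀ x, |f x| ≤ M) :
    ∫ x, f x ∂tgt W k b m =
      ∫ x, sm (tgtNoise k b) f (tgtPt k b m x) ∂law (shiftW W m b) := by
  have := (shift_pert_one hW m hb hb1).isProbabilityMeasure_law
  have hm : Measurable fun p : E d × E d => tgtPt k b m p.1 + tgtNoise k b • p.2 := by
    unfold tgtPt; fun_prop
  rw [tgt, integral_map hm.aemeasurable hf.aestronglyMeasurable, integral_prod]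
  · simp only [sm]
  · exact (integrable_const M).mono' (hf.measurable.comp hm).aestronglyMeasurable
      (ae_of_all _ fun p => hM _)

omit hW in
theorem tgtPt_zero (b : ℝ) (m x : E d) : tgtPt 0 b m x = m := by
  simp [tgtPt, gam]

omit hW in
theorem tgtNoise_zero (b : ℝ) : tgtNoise 0 b = 0 := by simp [tgtNoise, gam]

theorem tgt_zero {b : ℝ} (hb : 0 < b) (hb1 : b ≤ 1) (m : E d) :
    tgt W 0 b m = Measure.dirac m := by
  have := (shift_pert_one hW m hb hb1).isProbabilityMeasure_law
  rw [tgt]
  simp only [tgtPt_zero, tgtNoise_zero, zero_smul, add_zero, Measure.map_const, measure_univ,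
    one_smul]

/-- one band -/
theorem integral_tgt_succ (k : ℕ) {b : ℝ} (hb : 0 < b) (hb1 : b ≤ 1) (m : E d) {f : E d → ℝ}
    (hf : Continuous f) {M : ℝ} (hM : ∀ x, |f x| ≤ M) :
    ∫ x, f x ∂tgt W (k + 1) b m =
      ∫ y, ∫ x, f x ∂tgt W k (b * bT 1) (m + (b * exp (-1)) • y)
        ∂law (tU (shiftW W m b) 1) := by
  have hP := shift_pert_one hW m hb hb1
  have hβ := bT_pos one_pos
  have hb' : 0 < b * bT 1 := mul_pos hb hβ
  have hb1' : b * bT 1 ≤ 1 := mul_le_one₀ hb1 hβ.le (bT_lt_one one_pos).le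
  have hfp : PolyBd f := PolyBd.of_bound fun x => by rw [Real.norm_eq_abs]; exact hM x
  set a := tgtNoise k (b * bT 1)
  set G : E d × E d → ℝ := fun p => sm a f ((1 - gam k ^ 2) • (m + b • p.1) +
    gam k ^ 2 • (m + (b * exp (-1)) • p.2))
  have hGc : Continuous G := (sm_continuous hf hfp a).comp (by fun_prop)
  have hGp : PolyBd G := by
    have hγ : IsProbabilityMeasure (stdGaussian (E d)) := inferInstance
    refine PolyBd.of_bound (B := M) fun p => ?_
    refine (norm_integral_le_of_norm_le (integrable_const M) (ae_of_all _ fun z => ?_)).trans_eq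
      (by simp)
    rw [Real.norm_eq_abs]; exact hM _
  have h := tower hP one_pos hGc hGp
  have := hP.isProbabilityMeasure_law
  have hR : ∀ y, ∫ x, f x ∂tgt W k (b * bT 1) (m + (b * exp (-1)) • y) =
      ∫ z, G (exp (-1) • y + bT 1 • z, y) ∂law (post (bT 1) (shiftW W m b) y) := fun y => by
    rw [integral_tgt hW k hb' hb1' _ hf hM, post_shift m b one_pos]
    refine integral_congr_ae (ae_of_all _ fun z => ?_)
    simp only [G, tgtPt, a]
    congr 1
    module
  simp only [hR]
  rw [← h, integral_tgt hW (k + 1) hb hb1 m hf hM, integral_prod]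
  · refine integral_congr_ae (ae_of_all _ fun x => ?_)
    dsimp only [G]
    have e : ∀ z : E d, (1 - gam k ^ 2) • (m + b • x) +
        gam k ^ 2 • (m + (b * exp (-1)) • (exp (-1) • x + bT 1 • z)) =
          tgtPt (k + 1) b m x + (gam k ^ 2 * b * exp (-1) * bT 1) • z := fun z => by
      simp only [tgtPt, gam_succ, mul_pow, bT_sq one_pos, b2]
      rw [show exp (-(2 * (1 : ℝ))) = exp (-1) * exp (-1) by rw [← exp_add]; norm_num]
      module
    simp only [e]
    show sm (tgtNoise (k + 1) b) f (tgtPt (k + 1) b m x) =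
      sm (gam k ^ 2 * b * exp (-1) * bT 1) (sm a f) (tgtPt (k + 1) b m x)
    rw [sm_sm hf hfp]
    congr 1
    have hg := gam_pos k
    have hg1 := gam_le_one k
    have h1 : 0 ≤ 1 - gam k ^ 2 := by nlinarith
    have h2 : 0 ≤ 1 - gam (k + 1) ^ 2 := by nlinarith [gam_le_one (k + 1), gam_pos (k + 1)]
    refine (Real.sqrt_eq_iff_eq_sq (by positivity) ?_).2 ?_ |>.symm
    · exact mul_nonneg (mul_nonneg hb.le (gam_pos _).le) (Real.sqrt_nonneg _)
    · simp only [tgtNoise, a, mul_pow, Real.sq_sqrt h1, Real.sq_sqrt h2]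
      simp only [gam_succ, mul_pow, bT_sq one_pos, b2, exp_neg_sq]
      ring
  · exact (integrable_const M).mono'
      (hGc.comp (by fun_prop)).aestronglyMeasurable (ae_of_all _ fun p => by
        refine (norm_integral_le_of_norm_le (integrable_const M) (ae_of_all _ fun z => ?_)).trans_eq
          (by simp)
        rw [Real.norm_eq_abs]; exact hM _)

end Vale.Agent.P347.Zero
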