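import Vale.Agent.P347.Zero.Prim
import Vale.Agent.P347.Zero.Target

/-!
# P347, exponent zero: the statements of one band of the primitive and of the sampler

These are the interfaces between the band step and the induction on the levels.
-/

open MeasureTheory ProbabilityTheory Real
open scoped RealInnerProductSpace

namespace Vale.Agent.P347.Zero

variable {d : ℕ}

/-- From one draw `N(m, b² / I)`: a draw close to `tgt W j b m` blurred by `b γ_j / √I`. -/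
def Samp (d q : ℕ) (η b : ℝ) (j : ℕ) (I L e : ℝ) : Prop :=
  ∃ (Ω : Type) (_ : MeasurableSpace Ω) (_ : StandardBorelSpace Ω) (_ : Nonempty Ω) (P : Measure Ω)
    (F : (E d → ℝ × E d) → E d × Ω → E d), IsProbabilityMeasure P ∧ QC d q F ∧
    ∀ (B : ℝ) (W : E d → ℝ), Pert η B W →
      (∀ ω x y, ‖F (oracleOf (pot W)) (x, ω) - F (oracleOf (pot W)) (y, ω)‖ ≤ L * ‖x - y‖) ∧
      ∀ (m : E d) (f : E d → ℝ), LipschitzWith 1 f → (∃ M, ∀ x, |f x| ≤ M) →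
        |∫ p, f (F (oracleOf (pot W)) p) ∂drawLaw P m (b ^ 2 / I) -
          ∫ p, f (p.1 + (b * gam j / √I) • p.2) ∂(tgt W j b m).prod (stdGaussian (E d))| ≤
            e * wt W m

/-- The gain factor of the internal drifts. -/
noncomputable def bandΓ (C T θ₀ e g₁ : ℝ) : ℝ := C * T * θ₀ / (e * g₁)

/-- The weight of the correction. -/
noncomputable def bandΩ (C T θ₀ : ℝ) : ℝ := C * T / θ₀

/-- The number of nodes of one band. -/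
noncomputable def bandP (C T e : ℝ) (K : ℕ) : ℕ := ⌈C * (T / e) ^ 2 * (K + 2)⌉₊

/-- The truncation error of one band; the power `p` does not depend on the order `k`. -/
noncomputable def bandRes (C : ℝ) (p q k d : ℕ) (η b T θ₀ e g₁ : ℝ) : ℝ :=
  C * T ^ q * ((d : ℝ) * θ₀ / (e * g₁ * b * η)) ^ p *
    (e ^ k + (η * θ₀ / g₁) ^ k + exp (-T))

/-- The conditions on the parameters of one band. -/
structure BandCond (C : ℝ) (d K : ℕ) (η b T θ₀ e g₁ g' I I' L' : ℝ) : Prop where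
  d_pos : 0 < d
  eta_pos : 0 < η
  eta_le : η ≤ 1 / 8
  b_pos : 0 < b
  b_le : b ≤ 1
  e_pos : 0 < e
  e_le : e ≤ 1 / 8
  one_le_θ₀ : 1 ≤ θ₀
  two_le_T : 2 ≤ T
  g₁_pos : 0 < g₁
  g₁_le : g₁ ≤ 1
  eta_θ₀ : η * θ₀ ≤ g₁
  L'_nonneg : 0 ≤ L'
  g'_nonneg : 0 ≤ g'
  one_le_I' : 1 ≤ I'
  contract : bandΓ C T θ₀ e g₁ * L' ≤ 1 / 2
  absorb : bandΓ C T θ₀ e g₁ ^ 2 * bandP C T e K * g' ^ 2 * (I + I') ≤ 1 / 10

/-- One band of the primitive. -/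
def BandStep : Prop :=
  ∃ p : ℕ, ∀ k : ℕ, ∃ (C : ℝ) (pT : ℕ), 1 ≤ C ∧
    ∀ (d K q₁ q' q'' : ℕ) (η b T θ₀ e g₁ g gn g' g'' I I' I'' L₁ L' L'' e₁ e' e'' : ℝ),
      BandCond C d K η b T θ₀ e g₁ g' I I' L' →
      bandΓ C T θ₀ e g₁ ^ 2 * bandP C T e K * g' ^ 2 * I'' ≤ 1 / 10 →
      0 ≤ g → g ^ 2 = gn ^ 2 + 2 * g₁ ^ 2 → 0 ≤ gn → 0 ≤ g'' → 1 ≤ I'' →
      1 + 100 * bandP C T e K * (I' + I'') ≤ 2 / 5 * I →
      bandΩ C T θ₀ ^ 2 * bandP C T e K * g'' ^ 2 ≤ g₁ ^ 2 →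
      0 ≤ L₁ → 0 ≤ L'' → 0 ≤ e₁ → 0 ≤ e' → 0 ≤ e'' →
      Prim d q₁ η (b * bT 1) ((b * bT 1) ^ 2 / I) gn L₁ e₁ →
      (∀ b', 0 < b' → b' ≤ 1 → Prim d q' η b' (b' ^ 2 / I') g' L' e') →
      (∀ b', 0 < b' → b' ≤ 1 → Prim d q'' η b' (b' ^ 2 / I'') g'' L'' e'') →
      Prim d (q₁ + bandP C T e K * (q' + q'')) η b (b ^ 2 / I) g
        (L₁ * (1 + C * bandΓ C T θ₀ e g₁ * L') + C * bandΩ C T θ₀ * L'')
        (e₁ * (1 + 4 * η) + C * ((L₁ + bandΩ C T θ₀ * L'') * (bandΓ C T θ₀ e g₁ *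
          (e' + (bandΓ C T θ₀ e g₁ * L') ^ K) + bandRes C p pT k d η b T θ₀ e g₁) +
          bandΩ C T θ₀ * e'' + bandRes C p pT k d η b T θ₀ e g₁))

/-- One band of the sampler; `g₁` is only a scale of the system here. -/
def SampStep : Prop :=
  ∃ p : ℕ, ∀ k : ℕ, ∃ (C : ℝ) (pT : ℕ), 1 ≤ C ∧
    ∀ (d K q₁ q' j : ℕ) (η b T θ₀ e g₁ g' I I' L₁ L' e₁ e' : ℝ),
      BandCond C d K η b T θ₀ e g₁ g' I I' L' →
      1 + 100 * bandP C T e K * I' ≤ 2 / 5 * I → 0 ≤ L₁ → 0 ≤ e₁ → 0 ≤ e' →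
      Samp d q₁ η (b * bT 1) j I L₁ e₁ →
      (∀ b', 0 < b' → b' ≤ 1 → Prim d q' η b' (b' ^ 2 / I') g' L' e') →
      Samp d (q₁ + bandP C T e K * q') η b (j + 1) I
        (L₁ * (1 + C * bandΓ C T θ₀ e g₁ * L'))
        (e₁ * (1 + 4 * η) + C * L₁ * (bandΓ C T θ₀ e g₁ *
          (e' + (bandΓ C T θ₀ e g₁ * L') ^ K) + bandRes C p pT k d η b T θ₀ e g₁))

/-- Systems for one band exist (independent of the potential). -/
def GeoExists : Prop :=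
  ∃ p : ℕ, ∀ k : ℕ, ∃ (C : ℝ) (pT : ℕ), 1 ≤ C ∧ ∀ e θ₀ T g : ℝ, 0 < e → e ≤ 1 / 8 → 1 ≤ θ₀ → 2 ≤ T →
    0 < g → g ≤ 1 →
    ∃ G : Geo, (G.n : ℝ) ≤ C * (T / e) ^ 2 ∧ G.Sized (C * T * θ₀ / (e * g)) (C * T / θ₀) ∧
      ∀ (d : ℕ) (η B : ℝ) (W : E d → ℝ), 0 < d → Pert η B W → η * θ₀ ≤ g →
        G.Holds W g (C * (1 + B) * T ^ pT * ((d : ℝ) * θ₀ / (e * g)) ^ p *
          (e ^ k + (η * θ₀ / g) ^ k + exp (-T)))

end Vale.Agent.P347.Zero
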