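import Vale.Agent.P347.Zero.GeoMain
import Vale.Agent.P347.Zero.Steps

/-!
# P347, exponent zero: the choice of the system of a band

Given the trajectory data, the system with `⌈(T - 1) / e⌉` cells and rules of order `k + 1` satisfies
`GeoExists` with the powers `p = 2`, `pT = 1`.
-/

open MeasureTheory Real

namespace Vale.Agent.P347.Zero

variable {d : ℕ}

theorem Geo.Holds.weaken {G : Geo} {W : E d → ℝ} {g R R' : ℝ} (h : G.Holds W g R) (hR : R ≤ R') :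
    G.Holds W g R' := by
  obtain ⟨Y, h1, h2, h3⟩ := h
  exact ⟨Y, h1, fun i => ⟨(h2 i).1, (h2 i).2.trans hR⟩, fun f hf hb => (h3 f hf hb).trans hR⟩

theorem Geo.Sized.weaken {G : Geo} {Γ Γ' Ω Ω' : ℝ} (h : G.Sized Γ Ω) (hΓ : Γ ≤ Γ') (hΩ : Ω ≤ Ω') :
    G.Sized Γ' Ω' :=
  ⟨h.one_le_tm, h.tm_i₀, h.ky_i₀, h.kw_i₀, h.abs_ky, fun i => (h.row i).trans hΓ,
    h.out_le.trans hΩ⟩

/-- Systems for one band exist. -/
theorem geoExists_of_data (h : BandDataExists) : GeoExists := by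
  refine ⟨2, fun k => ?_⟩
  obtain ⟨ρ⟩ := exists_gRule (k + 1)
  obtain ⟨C₀, hC₀, hdata⟩ := h (k + 1)
  have hΛ := ρ.one_le_Λ
  set C : ℝ := 9 * ρ.Λ ^ 2 + 6 * ((k : ℝ) + 2) ^ 3 + (4 * (k : ℝ) + 28) * ρ.Λ ^ 2 * C₀ with hCdef
  have h6 : 0 ≤ 6 * ((k : ℝ) + 2) ^ 3 := by positivity
  have h28 : 0 ≤ (4 * (k : ℝ) + 28) * ρ.Λ ^ 2 * C₀ := by positivity
  have hΛ2 : 1 ≤ ρ.Λ ^ 2 := one_le_pow₀ hΛ
  refine ⟨C, 1, by linarith, fun e θ₀ T g he he8 hθ hT hg hg1 => ?_⟩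
  set N := ⌈(T - 1) / e⌉₊ with hNdef
  have hN : 0 < N := Nat.ceil_pos.2 (div_pos (by linarith) he)
  have hNR : (0 : ℝ) < N := Nat.cast_pos.2 hN
  let q : GPar (k + 1) := ⟨ρ, N, (T - 1) / N, e, θ₀, g⟩
  have hq : q.Ok T :=
    { one_le_T := by linarith
      hs_pos := div_pos (by linarith) hNR
      hs_le := by
        show (T - 1) / (N : ℝ) ≤ e
        rw [div_le_iff₀ hNR]
        have := (div_le_iff₀ he).1 (Nat.le_ceil ((T - 1) / e))
        linarith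
      N_hs := mul_div_cancel₀ _ hNR.ne'
      e_pos := he
      e_le := by linarith [show q.e = e from rfl]
      one_le_θ₀ := hθ
      g_pos := hg
      g_le := hg1 }
  have hTe : 1 ≤ T / e := by rw [one_le_div he]; linarith
  refine ⟨q.geo hN, ?_, (GPar.geo_sized hq hN).weaken ?_ ?_, fun d η B W hd hW hη => ?_⟩
  · have hn : ((q.geo hN).n : ℝ) ≤ 3 * ((k : ℝ) + 1 + 1) ^ 3 * N := by
      exact_mod_cast GPar.geo_card (q := q) hN
    have hN2 : (N : ℝ) ≤ 2 * (T / e) ^ 2 := by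
      have h1 := (Nat.ceil_lt_add_one (by positivity : 0 ≤ T / e)).le
      have h2 : N ≤ ⌈T / e⌉₊ := Nat.ceil_mono (by gcongr; linarith)
      have h3 : (N : ℝ) ≤ (⌈T / e⌉₊ : ℝ) := Nat.cast_le.2 h2
      nlinarith
    refine hn.trans ((mul_le_mul_of_nonneg_left hN2 (by positivity)).trans ?_)
    rw [show (k : ℝ) + 1 + 1 = k + 2 by ring,
      show 3 * ((k : ℝ) + 2) ^ 3 * (2 * (T / e) ^ 2) = 6 * ((k : ℝ) + 2) ^ 3 * (T / e) ^ 2 by ring]
    exact mul_le_mul_of_nonneg_right (by linarith) (by positivity)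
  · show 9 * ρ.Λ ^ 2 * (T * θ₀ / (e * g)) ≤ C * T * θ₀ / (e * g)
    rw [mul_assoc C, mul_div_assoc C]
    exact mul_le_mul_of_nonneg_right (by linarith) (by positivity)
  · show ρ.Λ ^ 2 * (T / θ₀) ≤ C * T / θ₀
    rw [mul_div_assoc C]
    exact mul_le_mul_of_nonneg_right (by linarith) (by positivity)
  obtain ⟨D⟩ := hdata d η B W g T e θ₀ hd hW hg hg1 hT he he8 hθ hη
  have hB := hW.bound_nonneg
  have hη0 := hW.eta_nonneg
  have hθκ : θ₀ * (η / g) ≤ 1 := by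
    rw [← mul_div_assoc, div_le_one hg]
    linarith
  have hκ0 : 0 ≤ θ₀ * (η / g) := by positivity
  refine (BandData.geo_holds (q := q) D hq (Nat.le_add_left 1 k) (by positivity) (by positivity) hθκ
    hW hN).weaken ?_
  show (4 * ((k + 1 : ℕ) : ℝ) + 24) * (T * θ₀) * (ρ.Λ ^ 2 * (C₀ * (1 + B) * d / g) / g *
    (e ^ (k + 1) + (θ₀ * (η / g)) ^ (k + 1) + exp (-T))) ≤ _
  set X := e ^ k + (η * θ₀ / g) ^ k + exp (-T) with hX
  have hXle : e ^ (k + 1) + (θ₀ * (η / g)) ^ (k + 1) + exp (-T) ≤ X := by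
    rw [hX, show η * θ₀ / g = θ₀ * (η / g) by ring]
    exact add_le_add (add_le_add (pow_le_pow_of_le_one he.le (by linarith) (Nat.le_succ k))
      (pow_le_pow_of_le_one hκ0 hθκ (Nat.le_succ k))) le_rfl
  have hd1 : (1 : ℝ) ≤ d := Nat.one_le_cast.2 hd
  have hD : (d : ℝ) * θ₀ / g ^ 2 ≤ ((d : ℝ) * θ₀ / (e * g)) ^ 2 := by
    rw [show ((d : ℝ) * θ₀ / (e * g)) ^ 2 = (d : ℝ) * θ₀ / g ^ 2 * ((d : ℝ) * θ₀ / e ^ 2) by
      field_simp]
    refine le_mul_of_one_le_right (by positivity) ?_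
    rw [one_le_div (by positivity)]
    exact (pow_le_one₀ he.le (by linarith)).trans (one_le_mul_of_one_le_of_one_le hd1 hθ)
  push_cast
  calc (4 * ((k : ℝ) + 1) + 24) * (T * θ₀) * (ρ.Λ ^ 2 * (C₀ * (1 + B) * d / g) / g *
        (e ^ (k + 1) + (θ₀ * (η / g)) ^ (k + 1) + exp (-T)))
      ≤ (4 * ((k : ℝ) + 1) + 24) * (T * θ₀) * (ρ.Λ ^ 2 * (C₀ * (1 + B) * d / g) / g * X) := by
        gcongr
    _ = (4 * (k : ℝ) + 28) * ρ.Λ ^ 2 * C₀ * (1 + B) * T * ((d : ℝ) * θ₀ / g ^ 2) * X := by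
        field_simp
        ring
    _ ≤ C * (1 + B) * T ^ 1 * ((d : ℝ) * θ₀ / (e * g)) ^ 2 * X := by
        rw [pow_one]
        gcongr
        linarith

end Vale.Agent.P347.Zero
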