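import Mathlib

/-!
# P347, exponent zero: the schedule of the primitive induction

`δ` is the exponent of the perturbation (`η = d ^ (-δ)`), `θ` the allowed exponent of the cost.
Level `n` of the primitive has noise `η d ^ lam δ n` and error `d ^ (-mp δ * n)` up to a fixed
power of `d`; a child one level down gains `mp δ`, a child `lvJ δ` levels down gains `lvJ δ * mp δ`
and may have noise smaller by the factor `d ^ drop δ`. All grid, band and finite difference
exponents are multiples (at most `64`) of `uu δ θ`, which is so small that such a multiple, times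
the number of levels, is below both `mp δ` and `θ`.
-/

open Real Filter
open scoped Topology

namespace Vale.Agent.P347.Zero

/-- The number of levels skipped by a descending child. -/
noncomputable def lvJ (δ : ℝ) : ℕ := ⌈128 / δ⌉₊

/-- The gain of one level. -/
noncomputable def mp (δ : ℝ) : ℝ := δ / (16 * lvJ δ)

/-- The exponent of the speed-up of the auxiliary flow. -/
noncomputable def mu (δ : ℝ) : ℝ := 4 * mp δ

/-- The descent of the noise exponent for a child `lvJ δ` levels down. -/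
noncomputable def drop (δ : ℝ) : ℝ := 6 * mp δ

/-- The number of levels. -/
noncomputable def depth (δ : ℝ) : ℕ := ⌈5 / mp δ⌉₊

/-- The noise exponent of level `n`, relative to `η`. -/
noncomputable def lam (δ : ℝ) (n : ℕ) : ℝ := δ / 4 + drop δ / lvJ δ * n

/-- The exponent of all grids, bands and finite difference steps. -/
noncomputable def uu (δ θ : ℝ) : ℝ := min θ (mp δ) / (64 * depth δ)

/-- The order of all quadrature, iteration and extrapolation rules. -/
noncomputable def ordM (δ θ : ℝ) : ℕ := ⌈20 / uu δ θ⌉₊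

variable {δ θ : ℝ}

theorem lvJ_pos (hδ : 0 < δ) : 0 < lvJ δ := Nat.ceil_pos.2 (by positivity)

theorem le_lvJ (hδ : 0 < δ) : 128 ≤ δ * lvJ δ := by
  have h := (div_le_iff₀ hδ).1 (Nat.le_ceil (128 / δ))
  rw [lvJ]; linarith

theorem mp_pos (hδ : 0 < δ) : 0 < mp δ := by
  have := lvJ_pos hδ
  unfold mp; positivity

theorem lvJ_mul_mp (hδ : 0 < δ) : (lvJ δ : ℝ) * mp δ = δ / 16 := by
  have : (lvJ δ : ℝ) ≠ 0 := Nat.cast_ne_zero.2 (lvJ_pos hδ).ne'
  unfold mp; field_simp

theorem mp_le (hδ : 0 < δ) (hδ1 : δ ≤ 1) : mp δ ≤ δ / 2048 := by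
  have h : (128 : ℝ) ≤ lvJ δ := by nlinarith [le_lvJ hδ, (lvJ δ).cast_nonneg (α := ℝ)]
  have h' := lvJ_mul_mp hδ
  nlinarith [mp_pos hδ]

theorem mu_pos (hδ : 0 < δ) : 0 < mu δ := by have := mp_pos hδ; unfold mu; linarith

theorem drop_pos (hδ : 0 < δ) : 0 < drop δ := by have := mp_pos hδ; unfold drop; linarith

theorem depth_pos (hδ : 0 < δ) : 0 < depth δ := by
  have := mp_pos hδ
  exact Nat.ceil_pos.2 (by positivity)

/-- The last level has gained five powers of `d`. -/
theorem five_le_depth (hδ : 0 < δ) : 5 ≤ mp δ * depth δ := by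
  have h := (div_le_iff₀ (mp_pos hδ)).1 (Nat.le_ceil (5 / mp δ))
  rw [depth]; linarith

theorem lam_zero : lam δ 0 = δ / 4 := by simp [lam]

theorem le_lam (hδ : 0 < δ) (n : ℕ) : δ / 4 ≤ lam δ n := by
  have := drop_pos hδ
  have : 0 ≤ drop δ / lvJ δ * n := by positivity
  unfold lam; linarith

theorem lam_mono (hδ : 0 < δ) {m n : ℕ} (h : m ≤ n) : lam δ m ≤ lam δ n := by
  have := drop_pos hδ
  unfold lam; gcongr

/-- A child `lvJ δ` levels down has exactly the descended noise. -/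
theorem lam_sub (hδ : 0 < δ) {n : ℕ} (h : lvJ δ ≤ n) :
    lam δ (n - lvJ δ) = lam δ n - drop δ := by
  have : (lvJ δ : ℝ) ≠ 0 := Nat.cast_ne_zero.2 (lvJ_pos hδ).ne'
  rw [lam, lam, Nat.cast_sub h]; field_simp; ring

/-- The noise exponents stay below `δ / 2`. -/
theorem lam_le (hδ : 0 < δ) (hδ1 : δ ≤ 1) {n : ℕ} (hn : n ≤ depth δ) : lam δ n ≤ δ / 2 := by
  have hmp := mp_pos hδ
  have hJ : (0 : ℝ) < lvJ δ := Nat.cast_pos.2 (lvJ_pos hδ)
  have hn' : (n : ℝ) * mp δ ≤ 5 + mp δ := by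
    have h1 : (n : ℝ) ≤ 5 / mp δ + 1 :=
      (Nat.cast_le.2 hn).trans (Nat.ceil_lt_add_one (by positivity)).le
    calc (n : ℝ) * mp δ ≤ (5 / mp δ + 1) * mp δ := mul_le_mul_of_nonneg_right h1 hmp.le
      _ = 5 + mp δ := by field_simp
  have h2 : drop δ / lvJ δ * n ≤ δ / 4 := by
    rw [div_mul_eq_mul_div, div_le_iff₀ hJ, drop]
    nlinarith [le_lvJ hδ, mp_le hδ hδ1]
  unfold lam; linarith

section uu

variable (hδ : 0 < δ) (hθ : 0 < θ)
include hδ hθ

theorem uu_pos : 0 < uu δ θ := by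
  have := mp_pos hδ
  have := depth_pos hδ
  unfold uu; positivity

theorem twenty_le_ordM : 20 ≤ uu δ θ * ordM δ θ := by
  have h := (div_le_iff₀ (uu_pos hδ hθ)).1 (Nat.le_ceil (20 / uu δ θ))
  rw [ordM]; linarith

theorem ordM_pos : 0 < ordM δ θ := by
  have := uu_pos hδ hθ
  exact Nat.ceil_pos.2 (by positivity)

/-- A multiple of the small exponent, times the number of levels, is negligible. -/
theorem uu_budget {a : ℝ} (ha' : a ≤ 64) {n : ℕ} (hn : n ≤ depth δ) :
    a * uu δ θ * n ≤ min θ (mp δ) := by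
  have hu := uu_pos hδ hθ
  have hD : (0 : ℝ) < depth δ := Nat.cast_pos.2 (depth_pos hδ)
  calc a * uu δ θ * n ≤ 64 * uu δ θ * depth δ := by gcongr
    _ = min θ (mp δ) := by unfold uu; field_simp

theorem uu_le_mp {a : ℝ} (ha' : a ≤ 64) : a * uu δ θ ≤ mp δ := by
  have h := uu_budget hδ hθ ha' (n := 1) (depth_pos hδ)
  rw [Nat.cast_one, mul_one] at h
  exact h.trans (min_le_right _ _)

/-- The gain of the child one level down. -/
theorem gain_one {a : ℝ} (ha' : a ≤ 64) : mp δ ≤ mu δ - a * uu δ θ := by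
  have := uu_le_mp hδ hθ ha'
  have := mp_pos hδ
  unfold mu; linarith

/-- The gain of a descending child: the exponent of `η / noise`. -/
theorem gain_descend (hδ1 : δ ≤ 1) {a : ℝ} (ha' : a ≤ 64) (n : ℕ) :
    (lvJ δ : ℝ) * mp δ ≤ lam δ n - drop δ - a * uu δ θ := by
  have := uu_le_mp hδ hθ ha'
  have := mp_le hδ hδ1
  have := le_lam hδ n
  rw [lvJ_mul_mp hδ, drop]; linarith

/-- The gain of the uses through the drift. -/
theorem gain_drift (hδ1 : δ ≤ 1) {a : ℝ} (ha' : a ≤ 64) :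
    (lvJ δ : ℝ) * mp δ ≤ δ - mu δ - a * uu δ θ := by
  have := uu_le_mp hδ hθ ha'
  have := mp_le hδ hδ1
  rw [lvJ_mul_mp hδ, mu]; linarith

/-- The descent suffices for the speed-up, the steps and the information budget. -/
theorem descent {a b : ℝ} (ha' : a ≤ 64) (hb' : b ≤ 64) {n : ℕ}
    (hn : n ≤ depth δ) : mu δ + a * uu δ θ + b * uu δ θ * n ≤ drop δ := by
  have := uu_le_mp hδ hθ ha'
  have h := (uu_budget hδ hθ hb' hn).trans (min_le_right _ _)
  unfold mu drop; linarith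

/-- The noise is below every unit-scale slack. -/
theorem lam_add_le (hδ1 : δ ≤ 1) {a : ℝ} (ha' : a ≤ 64) {n : ℕ} (hn : n ≤ depth δ) :
    lam δ n + a * uu δ θ ≤ 3 * δ / 4 := by
  have := uu_le_mp hδ hθ ha'
  have := mp_le hδ hδ1
  have := lam_le hδ hδ1 hn
  linarith

end uu

/-- A constant times powers of the logarithm is below any positive power of `d`. -/
theorem eventually_log_le (C : ℝ) (k : ℕ) {ε : ℝ} (hε : 0 < ε) :
    ∀ᶠ d : ℕ in atTop, C * (1 + Real.log d) ^ k ≤ (d : ℝ) ^ ε := by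
  have h : Tendsto (fun x : ℝ => (|C| + 1) * (2 ^ k * ((1 : ℝ) + Real.log x ^ k)) / x ^ ε) atTop
      (𝓝 0) := by
    have h1 : Tendsto (fun x : ℝ => 1 / x ^ ε) atTop (𝓝 0) := by
      simpa only [one_div, Pi.inv_def] using
        (tendsto_rpow_atTop hε).inv_tendsto_atTop
    have h2 : Tendsto (fun x : ℝ => Real.log x ^ k / x ^ ε) atTop (𝓝 0) := by
      have h := (isLittleO_log_rpow_rpow_atTop (k : ℝ) hε).tendsto_div_nhds_zero
      simpa only [Real.rpow_natCast] using h
    have := ((h1.add h2).const_mul ((|C| + 1) * 2 ^ k))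
    rw [add_zero, mul_zero] at this
    exact this.congr fun x => by ring
  filter_upwards [(h.comp tendsto_natCast_atTop_atTop).eventually_le_const zero_lt_one,
    eventually_ge_atTop 1] with d hd hd1
  have hd0 : (0 : ℝ) < d := by exact_mod_cast hd1
  have hl : 0 ≤ Real.log d := Real.log_nonneg (by exact_mod_cast hd1)
  rw [Function.comp_apply, div_le_one (Real.rpow_pos_of_pos hd0 _)] at hd
  refine le_trans (mul_le_mul (le_abs_self C |>.trans (le_add_of_nonneg_right zero_le_one)) ?_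
    (by positivity) (by positivity)) hd
  rcases le_total (Real.log d) 1 with h | h
  · calc (1 + Real.log d) ^ k ≤ 2 ^ k := pow_le_pow_left₀ (by linarith) (by linarith) k
      _ ≤ 2 ^ k * (1 + Real.log d ^ k) :=
        le_mul_of_one_le_right (by positivity) (le_add_of_nonneg_right (by positivity))
  · calc (1 + Real.log d) ^ k ≤ (2 * Real.log d) ^ k :=
          pow_le_pow_left₀ (by linarith) (by linarith) k
      _ ≤ 2 ^ k * (1 + Real.log d ^ k) := by rw [mul_pow]; gcongr; linarith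

/-- The product over the levels of per-level factors `C (1 + log d) ^ k d ^ (a u)` is negligible. -/
theorem eventually_levels_le (hδ : 0 < δ) (hθ : 0 < θ) (C : ℝ) (hC : 0 ≤ C) (k : ℕ) {a : ℝ}
    (ha' : a ≤ 63) :
    ∀ᶠ d : ℕ in atTop, ∀ n ≤ depth δ,
      (C * (1 + Real.log d) ^ k * (d : ℝ) ^ (a * uu δ θ)) ^ n ≤ (d : ℝ) ^ min θ (mp δ) := by
  filter_upwards [eventually_log_le C k (uu_pos hδ hθ), eventually_ge_atTop 1] with d hd hd1 n hn
  have hd1' : (1 : ℝ) ≤ d := by exact_mod_cast hd1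
  have hl : 0 ≤ Real.log d := Real.log_nonneg hd1'
  calc (C * (1 + Real.log d) ^ k * (d : ℝ) ^ (a * uu δ θ)) ^ n
      ≤ ((d : ℝ) ^ uu δ θ * (d : ℝ) ^ (a * uu δ θ)) ^ n := by
        gcongr
    _ = (d : ℝ) ^ ((a + 1) * uu δ θ * n) := by
        rw [← Real.rpow_add (by linarith), ← Real.rpow_natCast, ← Real.rpow_mul (by linarith)]
        ring_nf
    _ ≤ (d : ℝ) ^ min θ (mp δ) :=
        Real.rpow_le_rpow_of_exponent_le hd1' (uu_budget hδ hθ (by linarith) hn)

/-- A truncation error of order `ordM` absorbs twenty powers of `d`. -/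
theorem trunc_le (hδ : 0 < δ) (hθ : 0 < θ) {d : ℕ} (hd : 1 ≤ d) :
    ((d : ℝ) ^ (-uu δ θ)) ^ ordM δ θ ≤ (d : ℝ) ^ (-20 : ℝ) := by
  rw [← Real.rpow_natCast, ← Real.rpow_mul (Nat.cast_nonneg d)]
  refine Real.rpow_le_rpow_of_exponent_le (by exact_mod_cast hd) ?_
  have := twenty_le_ordM hδ hθ
  linarith

/-- The error bound of level `n`. -/
noncomputable def errB (δ C A : ℝ) (d n : ℕ) : ℝ := C ^ n * A * (d : ℝ) ^ (-(mp δ * n))

theorem errB_zero (C A : ℝ) (d : ℕ) : errB δ C A d 0 = A := by simp [errB]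

theorem errB_nonneg {C A : ℝ} (hC : 0 ≤ C) (hA : 0 ≤ A) (d n : ℕ) : 0 ≤ errB δ C A d n := by
  unfold errB; positivity

/-- One level of the error induction. -/
theorem errB_step (hδ : 0 < δ) {C c A T : ℝ} (hc : 0 ≤ c) (hC : 1 ≤ C) (h3 : 3 * c ≤ C)
    (hA : 0 ≤ A) {d n : ℕ} (hd : 1 ≤ d) (hn : n < depth δ)
    (hT : T ≤ A * (d : ℝ) ^ (-(mp δ * depth δ))) :
    c * ((d : ℝ) ^ (-mp δ) * errB δ C A d n +
        (d : ℝ) ^ (-((lvJ δ : ℝ) * mp δ)) * errB δ C A d (n + 1 - lvJ δ) + T) ≤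
      errB δ C A d (n + 1) := by
  have hd1 : (1 : ℝ) ≤ d := by exact_mod_cast hd
  have hd0 : (0 : ℝ) < d := by linarith
  have hmp := mp_pos hδ
  set X := C ^ n * A * (d : ℝ) ^ (-(mp δ * (n + 1 : ℕ)))
  have e1 : (d : ℝ) ^ (-mp δ) * errB δ C A d n ≤ X := by
    refine le_of_eq ?_
    simp only [errB, X]
    push_cast
    rw [show -(mp δ * ((n : ℝ) + 1)) = -mp δ + -(mp δ * n) by ring, Real.rpow_add hd0]
    ring
  have e2 : (d : ℝ) ^ (-((lvJ δ : ℝ) * mp δ)) * errB δ C A d (n + 1 - lvJ δ) ≤ X := by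
    have hJ := lvJ_pos hδ
    have hm : n + 1 - lvJ δ ≤ n := by omega
    have hs : ((n + 1 : ℕ) : ℝ) ≤ (lvJ δ : ℝ) + ((n + 1 - lvJ δ : ℕ) : ℝ) := by
      exact_mod_cast (by omega : n + 1 ≤ lvJ δ + (n + 1 - lvJ δ))
    rw [errB, mul_left_comm, ← Real.rpow_add hd0]
    refine mul_le_mul ?_ (Real.rpow_le_rpow_of_exponent_le hd1 (by nlinarith))
      (Real.rpow_nonneg hd0.le _) (by positivity)
    exact mul_le_mul_of_nonneg_right (pow_le_pow_right₀ hC hm) hA
  have e3 : T ≤ X := by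
    refine hT.trans ?_
    refine mul_le_mul (le_mul_of_one_le_left hA (one_le_pow₀ hC))
      (Real.rpow_le_rpow_of_exponent_le hd1 ?_) (Real.rpow_nonneg hd0.le _) (by positivity)
    have : ((n + 1 : ℕ) : ℝ) ≤ depth δ := by exact_mod_cast hn
    nlinarith
  refine (mul_le_mul_of_nonneg_left (add_le_add (add_le_add e1 e2) e3) hc).trans ?_
  have hX : 0 ≤ X := by positivity
  calc c * (X + X + X) = (3 * c) * X := by ring
    _ ≤ C * X := mul_le_mul_of_nonneg_right h3 hX
    _ = _ := by simp only [errB, X, pow_succ]; ring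

/-- The last level is five powers of `d` below the base error. -/
theorem errB_depth (hδ : 0 < δ) {C A : ℝ} (hC : 0 ≤ C) (hA : 0 ≤ A) {d : ℕ} (hd : 1 ≤ d) :
    errB δ C A d (depth δ) ≤ C ^ depth δ * A * (d : ℝ) ^ (-5 : ℝ) :=
  mul_le_mul_of_nonneg_left (Real.rpow_le_rpow_of_exponent_le (by exact_mod_cast hd)
    (by linarith [five_le_depth hδ])) (by positivity)

/-- Counting queries (or information) through the levels. -/
theorem levels_rec {Q : ℕ → ℝ} {P : ℝ} (hP : 1 ≤ P) (h : ∀ n, Q (n + 1) ≤ P * (Q n + 1)) (n : ℕ) :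
    Q n ≤ (2 * P) ^ n * (max (Q 0) 0 + 1) := by
  induction n with
  | zero => simpa using (le_max_left (Q 0) 0).trans (le_add_of_nonneg_right zero_le_one)
  | succ n ih =>
    have h1 : (1 : ℝ) ≤ (2 * P) ^ n * (max (Q 0) 0 + 1) :=
      one_le_mul_of_one_le_of_one_le (one_le_pow₀ (by linarith))
        (le_add_of_nonneg_left (le_max_right _ _))
    calc Q (n + 1) ≤ P * (Q n + 1) := h n
      _ ≤ P * (2 * ((2 * P) ^ n * (max (Q 0) 0 + 1))) := by
          refine mul_le_mul_of_nonneg_left ?_ (by linarith); linarith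
      _ = _ := by ring

end Vale.Agent.P347.Zero
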