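import Vale.Agent.P347.Zero.Steps
import Vale.Agent.P347.Zero.Schedule
import Vale.Agent.P347.Recursion

/-!
# P347, exponent zero: the parameters of the levels

`η = d ^ (-θ)`, every band has `T = (20 p + 40) log d`, step `d ^ (-uu)` and speed `d ^ mu`; a level
has `nBands d + 1` shares of noise. `Large` collects what is needed of `d`; all other inequalities
between the parameters follow by comparing exponents.
-/

open MeasureTheory ProbabilityTheory Real Filter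
open scoped Topology

namespace Vale.Agent.P347.Zero

/-- The number of bands of a level. -/
noncomputable def nBands (d : ℕ) : ℕ := ⌈14 * Real.log d / -Real.log (bT 1)⌉₊

/-- The time horizon of a band. -/
noncomputable def bigT (p d : ℕ) : ℝ := (20 * p + 40) * Real.log d

/-- The order of the rules. -/
noncomputable def order (θ : ℝ) (p : ℕ) : ℕ := ⌈(20 * (p : ℝ) + 40) / uu θ θ⌉₊

/-- The number of Picard rounds. -/
noncomputable def rounds (θ : ℝ) : ℕ := ⌈300 / θ⌉₊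

/-- The factor of queries and of information per level. -/
noncomputable def blockN (θ : ℝ) (p : ℕ) (C : ℝ) (d : ℕ) : ℕ :=
  1000 * (nBands d + 1) * bandP C (bigT p d) ((d : ℝ) ^ (-uu θ θ)) (rounds θ)

/-- The noise of level `n`. -/
noncomputable def noiseL (θ : ℝ) (d n : ℕ) : ℝ := (d : ℝ) ^ (lam θ n - θ)

/-- The noise scale of one band of level `n`. -/
noncomputable def bandNoise (θ : ℝ) (d n : ℕ) : ℝ := noiseL θ d n / √(2 * (nBands d + 1))

/-- What is needed of `d`. -/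
structure Large (θ : ℝ) (p : ℕ) (C : ℝ) (pT d : ℕ) : Prop where
  two_le : 2 ≤ d
  num_le : 1000 * ((rounds θ : ℝ) + 2) ≤ (d : ℝ) ^ uu θ θ
  pow_le : (3 : ℝ) ^ depth θ ≤ (d : ℝ) ^ uu θ θ
  C_le : C ≤ (d : ℝ) ^ uu θ θ
  two_le_T : 2 ≤ bigT p d
  T_le : bigT p d ≤ (d : ℝ) ^ uu θ θ
  Tpow_le : bigT p d ^ pT ≤ (d : ℝ) ^ uu θ θ
  bands_le : (nBands d : ℝ) + 1 ≤ (d : ℝ) ^ uu θ θ

theorem half_le_bT_one : 1 / 2 ≤ bT 1 := by
  have h : (2 : ℝ) + 1 ≤ exp 2 := add_one_le_exp 2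
  have h' : exp (-(2 * 1 : ℝ)) ≤ 3⁻¹ := by
    rw [mul_one, exp_neg]; exact inv_anti₀ (by norm_num) (by linarith)
  refine Real.le_sqrt_of_sq_le ?_
  linarith

theorem neg_log_bT_pos : 0 < -Real.log (bT 1) := by
  have := Real.log_neg (bT_pos one_pos) (bT_lt_one one_pos)
  linarith

theorem gam_eq_exp (k : ℕ) : gam k = exp ((k : ℝ) * Real.log (bT 1)) := by
  rw [gam, exp_nat_mul, exp_log (bT_pos one_pos)]

theorem gam_nBands_le {d : ℕ} (hd : 1 ≤ d) : gam (nBands d) ≤ (d : ℝ) ^ (-14 : ℝ) := by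
  have hL := neg_log_bT_pos
  have h := (div_le_iff₀ hL).1 (Nat.le_ceil (14 * Real.log d / -Real.log (bT 1)))
  rw [gam_eq_exp, Real.rpow_def_of_pos (by exact_mod_cast hd)]
  refine exp_le_exp.2 ?_
  rw [nBands]; linarith

theorem le_gam_nBands {d : ℕ} (hd : 2 ≤ d) : (d : ℝ) ^ (-15 : ℝ) ≤ gam (nBands d) := by
  have hL := neg_log_bT_pos
  have hl : 0 ≤ Real.log d := Real.log_natCast_nonneg d
  have h0 := Nat.ceil_lt_add_one (a := 14 * Real.log d / -Real.log (bT 1)) (by positivity)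
  have h : ((nBands d : ℝ) - 1) * -Real.log (bT 1) ≤ 14 * Real.log d :=
    (le_div_iff₀ hL).1 (by rw [nBands]; linarith)
  have h2 : -Real.log (bT 1) ≤ Real.log d := by
    rw [← Real.log_inv]
    refine Real.log_le_log (by have := bT_pos one_pos; positivity) ?_
    calc (bT 1)⁻¹ ≤ (1 / 2 : ℝ)⁻¹ := inv_anti₀ (by norm_num) half_le_bT_one
      _ ≤ d := by norm_num; exact_mod_cast hd
  rw [gam_eq_exp, Real.rpow_def_of_pos (by exact_mod_cast (by omega : 0 < d))]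
  refine exp_le_exp.2 ?_
  linarith

theorem eventually_le_rpow (c : ℝ) {a : ℝ} (ha : 0 < a) :
    ∀ᶠ d : ℕ in atTop, c ≤ (d : ℝ) ^ a :=
  ((tendsto_rpow_atTop ha).comp tendsto_natCast_atTop_atTop).eventually_ge_atTop c

theorem eventually_large {θ : ℝ} (hθ : 0 < θ) (p : ℕ) (C : ℝ) (pT : ℕ) :
    ∀ᶠ d : ℕ in atTop, Large θ p C pT d := by
  have hu := uu_pos hθ hθ
  have hL := neg_log_bT_pos
  filter_upwards [eventually_ge_atTop 2, eventually_le_rpow (1000 * ((rounds θ : ℝ) + 2)) hu,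
    eventually_le_rpow ((3 : ℝ) ^ depth θ) hu, eventually_le_rpow C hu,
    eventually_log_le (20 * (p : ℝ) + 40) 1 hu,
    eventually_log_le ((20 * (p : ℝ) + 40) ^ pT) pT hu,
    eventually_log_le (14 / -Real.log (bT 1) + 2) 1 hu]
    with d hd h1 h2 h3 h4 h5 h6
  have hd' : (2 : ℝ) ≤ d := by exact_mod_cast hd
  have hl : 0 ≤ Real.log d := Real.log_natCast_nonneg d
  have hp : (0 : ℝ) ≤ p := Nat.cast_nonneg p
  have hl2 : (1 : ℝ) / 20 ≤ Real.log d :=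
    le_trans (by linarith [Real.log_two_gt_d9]) (Real.log_le_log (by norm_num) hd')
  refine ⟨hd, h1, h2, h3, ?_, le_trans ?_ h4, le_trans ?_ h5, le_trans ?_ h6⟩
  · unfold bigT; nlinarith
  · unfold bigT; rw [pow_one]; gcongr; linarith
  · unfold bigT; rw [← mul_pow]; gcongr; linarith
  · have := Nat.ceil_lt_add_one (a := 14 * Real.log d / -Real.log (bT 1)) (by positivity)
    have e : 14 * Real.log d / -Real.log (bT 1) = 14 / -Real.log (bT 1) * Real.log d := by ring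
    have : 0 ≤ 14 / -Real.log (bT 1) := by positivity
    rw [pow_one, nBands]
    nlinarith

theorem lvJ_le_depth_bound {θ : ℝ} (hθ : 0 < θ) (hθ1 : θ ≤ 1) : mp θ * depth θ ≤ 6 := by
  have hmp := mp_pos hθ
  have h := Nat.ceil_lt_add_one (a := 5 / mp θ) (by positivity)
  have h' := mp_le hθ hθ1
  calc mp θ * depth θ ≤ mp θ * (5 / mp θ + 1) := by rw [depth]; gcongr
    _ = 5 + mp θ := by field_simp
    _ ≤ 6 := by linarith

namespace Large

variable {θ C : ℝ} {p pT d : ℕ} (F : Large θ p C pT d)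
include F

theorem d_pos : (0 : ℝ) < d := Nat.cast_pos.2 (by have := F.two_le; omega)

theorem one_le_d : (1 : ℝ) ≤ d := by exact_mod_cast (by have := F.two_le; omega : 1 ≤ d)

theorem mono {x a b : ℝ} (h : x ≤ (d : ℝ) ^ a) (hab : a ≤ b) : x ≤ (d : ℝ) ^ b :=
  h.trans (Real.rpow_le_rpow_of_exponent_le F.one_le_d hab)

theorem mul {x y a b : ℝ} (hx : x ≤ (d : ℝ) ^ a) (hy : y ≤ (d : ℝ) ^ b) (hy0 : 0 ≤ y) :
    x * y ≤ (d : ℝ) ^ (a + b) := by
  rw [Real.rpow_add F.d_pos]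
  exact mul_le_mul hx hy hy0 (Real.rpow_nonneg F.d_pos.le _)

theorem num {c : ℝ} (hc : c ≤ 2000) : c ≤ (d : ℝ) ^ uu θ θ :=
  hc.trans (le_trans (by have : (0 : ℝ) ≤ rounds θ := Nat.cast_nonneg _; linarith) F.num_le)

theorem small {x a : ℝ} (h : x ≤ (d : ℝ) ^ a) (ha : a ≤ -uu θ θ) : x ≤ 1 / 1000 := by
  refine (F.mono h ha).trans ?_
  rw [Real.rpow_neg F.d_pos.le, one_div]
  exact inv_anti₀ (by norm_num) (F.num (by norm_num))

variable (hθ : 0 < θ) (hθ1 : θ ≤ 1 / 4) (hC : 1 ≤ C)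
include hθ hθ1

omit F in
/-- The sizes of the small exponents. -/
theorem exps : 0 < uu θ θ ∧ 64 * (uu θ θ * depth θ) ≤ mp θ ∧ 64 * uu θ θ ≤ mp θ ∧
    uu θ θ ≤ uu θ θ * depth θ ∧ mp θ ≤ θ / 2048 ∧ mu θ = 4 * mp θ ∧ drop θ = 6 * mp θ := by
  have hu := uu_pos hθ hθ
  refine ⟨hu, ?_, uu_le_mp hθ hθ le_rfl, le_mul_of_one_le_right hu.le ?_, mp_le hθ (by linarith),
    rfl, rfl⟩
  · have := (uu_budget hθ hθ (le_refl 64) (le_refl (depth θ))).trans (min_le_right _ _)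
    linarith
  · exact_mod_cast depth_pos hθ

theorem eta_small : (d : ℝ) ^ (-θ) ≤ 1 / 1000 := by
  obtain ⟨hu, -, h3, -, h5, -, -⟩ := exps hθ hθ1
  exact F.small le_rfl (by linarith)

theorem e_small : (d : ℝ) ^ (-uu θ θ) ≤ 1 / 8 :=
  (F.small le_rfl le_rfl).trans (by norm_num)

theorem le_bandNoise (n : ℕ) : (d : ℝ) ^ (lam θ n - θ - 2 * uu θ θ) ≤ bandNoise θ d n := by
  have hM : (1 : ℝ) ≤ (nBands d : ℝ) + 1 := le_add_of_nonneg_left (Nat.cast_nonneg _)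
  have hs : √(2 * ((nBands d : ℝ) + 1)) ≤ (d : ℝ) ^ (2 * uu θ θ) := by
    refine le_trans ?_ ((F.mul (F.num (by norm_num : (2 : ℝ) ≤ 2000)) F.bands_le
      (by positivity)).trans_eq (by ring_nf))
    exact Real.sqrt_le_iff.2 ⟨by positivity, by nlinarith⟩
  rw [Real.rpow_sub F.d_pos, bandNoise, noiseL]
  exact div_le_div_of_nonneg_left (Real.rpow_nonneg F.d_pos.le _) (by positivity) hs

omit F hθ hθ1 in
theorem noiseL_pos (h : 2 ≤ d) (n : ℕ) : 0 < noiseL θ d n :=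
  Real.rpow_pos_of_pos (Nat.cast_pos.2 (by omega)) _

theorem bandNoise_le_one {n : ℕ} (hn : n ≤ depth θ) : bandNoise θ d n ≤ 1 := by
  have h2 : (1 : ℝ) ≤ √(2 * ((nBands d : ℝ) + 1)) :=
    Real.one_le_sqrt.2 (by have : (0 : ℝ) ≤ nBands d := Nat.cast_nonneg _; linarith)
  refine (div_le_self (noiseL_pos F.two_le n).le h2).trans ?_
  exact Real.rpow_le_one_of_one_le_of_nonpos F.one_le_d
    (by have := lam_le hθ (by linarith) hn; linarith)

include hC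

theorem gainG_le {a g₁ : ℝ} (hg : (d : ℝ) ^ a ≤ g₁) :
    bandΓ C (bigT p d) ((d : ℝ) ^ mu θ) ((d : ℝ) ^ (-uu θ θ)) g₁ ≤
      (d : ℝ) ^ (mu θ + 3 * uu θ θ - a) := by
  have hT := F.two_le_T
  have h1 : C * bigT p d * (d : ℝ) ^ mu θ ≤ (d : ℝ) ^ (uu θ θ + uu θ θ + mu θ) :=
    F.mul (F.mul F.C_le F.T_le (by linarith)) le_rfl (Real.rpow_nonneg F.d_pos.le _)
  have h2 : (d : ℝ) ^ (-uu θ θ + a) ≤ (d : ℝ) ^ (-uu θ θ) * g₁ := by
    rw [Real.rpow_add F.d_pos]; exact mul_le_mul_of_nonneg_left hg (Real.rpow_nonneg F.d_pos.le _)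
  refine (div_le_div₀ (Real.rpow_nonneg F.d_pos.le _) h1
    (Real.rpow_pos_of_pos F.d_pos _) h2).trans_eq ?_
  rw [← Real.rpow_sub F.d_pos]; ring_nf

theorem gainO_le : bandΩ C (bigT p d) ((d : ℝ) ^ mu θ) ≤ (d : ℝ) ^ (2 * uu θ θ - mu θ) := by
  have hT := F.two_le_T
  refine (div_le_div_of_nonneg_right (F.mul F.C_le F.T_le (by linarith))
    (Real.rpow_nonneg F.d_pos.le _)).trans_eq ?_
  rw [← Real.rpow_sub F.d_pos]; ring_nf

theorem bandP_le : (bandP C (bigT p d) ((d : ℝ) ^ (-uu θ θ)) (rounds θ) : ℝ) ≤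
    (d : ℝ) ^ (7 * uu θ θ) := by
  have hu := (exps hθ hθ1).1
  have hT := F.two_le_T
  set a := C * (bigT p d / (d : ℝ) ^ (-uu θ θ)) ^ 2 * ((rounds θ : ℝ) + 2) with ha
  have ha0 : 0 ≤ a := by positivity
  have h1 : bigT p d / (d : ℝ) ^ (-uu θ θ) ≤ (d : ℝ) ^ (2 * uu θ θ) := by
    refine (div_le_div_of_nonneg_right F.T_le (Real.rpow_nonneg F.d_pos.le _)).trans_eq ?_
    rw [← Real.rpow_sub F.d_pos]; ring_nf
  have h2 : a ≤ (d : ℝ) ^ (uu θ θ + (2 * uu θ θ + 2 * uu θ θ) + uu θ θ) := by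
    rw [ha, pow_two]
    refine F.mul (F.mul F.C_le (F.mul h1 h1 (by positivity)) (by positivity)) ?_ (by positivity)
    have : (0 : ℝ) ≤ rounds θ := Nat.cast_nonneg _
    linarith [F.num_le]
  have h3 : 2 * a + 2 ≤ 4 * (d : ℝ) ^ (6 * uu θ θ) := by
    rw [show uu θ θ + (2 * uu θ θ + 2 * uu θ θ) + uu θ θ = 6 * uu θ θ by ring] at h2
    linarith [Real.one_le_rpow F.one_le_d (by positivity : 0 ≤ 6 * uu θ θ)]
  have h4 := F.mul (F.num (by norm_num : (2 : ℝ) ≤ 2000)) (le_refl ((d : ℝ) ^ (6 * uu θ θ)))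
    (Real.rpow_nonneg F.d_pos.le _)
  rw [show uu θ θ + 6 * uu θ θ = 7 * uu θ θ by ring] at h4
  have h5 := Nat.ceil_lt_add_one ha0
  rw [bandP, ← ha]
  linarith

theorem one_le_bandP : 1 ≤ bandP C (bigT p d) ((d : ℝ) ^ (-uu θ θ)) (rounds θ) := by
  have hT : 0 < bigT p d := by have := F.two_le_T; linarith
  have := Real.rpow_pos_of_pos F.d_pos (-uu θ θ)
  exact Nat.ceil_pos.2 (by positivity)

theorem blockN_le : (blockN θ p C d : ℝ) ≤ (d : ℝ) ^ (9 * uu θ θ) := by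
  rw [blockN]; push_cast
  exact (F.mul (F.mul (F.num (by norm_num)) F.bands_le (by positivity)) (F.bandP_le hθ hθ1 hC)
    (by positivity)).trans_eq (by ring_nf)

theorem one_le_blockN : 1 ≤ blockN θ p C d :=
  Nat.one_le_iff_ne_zero.2 (by
    have := F.one_le_bandP hθ hθ1 hC
    unfold blockN; positivity)

theorem blockN_pow_le {n : ℕ} (hn : n ≤ depth θ + 1) :
    (blockN θ p C d : ℝ) ^ n ≤ (d : ℝ) ^ (18 / 64 * mp θ) := by
  obtain ⟨hu, h2, -, h4, -, -, -⟩ := exps hθ hθ1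
  refine (pow_le_pow_left₀ (Nat.cast_nonneg _) (F.blockN_le hθ hθ1 hC) n).trans ?_
  rw [← Real.rpow_natCast, ← Real.rpow_mul F.d_pos.le]
  refine Real.rpow_le_rpow_of_exponent_le F.one_le_d ?_
  have hn' : (n : ℝ) ≤ depth θ + 1 := by exact_mod_cast hn
  nlinarith

theorem bandRes_le {b g₁ : ℝ} (hb : (d : ℝ) ^ (-15 : ℝ) ≤ b) (hg : (d : ℝ) ^ (-2 : ℝ) ≤ g₁)
    (hy : (d : ℝ) ^ (-θ) * (d : ℝ) ^ mu θ / g₁ ≤ (d : ℝ) ^ (-uu θ θ)) :
    bandRes C p pT (order θ p) d ((d : ℝ) ^ (-θ)) b (bigT p d) ((d : ℝ) ^ mu θ)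
      ((d : ℝ) ^ (-uu θ θ)) g₁ ≤ (d : ℝ) ^ (-20 : ℝ) := by
  obtain ⟨hu, -, h3, -, h5, h6, -⟩ := exps hθ hθ1
  have hd := F.d_pos
  have hA : 20 * (p : ℝ) + 40 ≤ uu θ θ * order θ p := by
    have h := (div_le_iff₀ hu).1 (Nat.le_ceil ((20 * (p : ℝ) + 40) / uu θ θ))
    rw [order]; linarith
  have hX : (d : ℝ) * (d : ℝ) ^ mu θ /
      ((d : ℝ) ^ (-uu θ θ) * g₁ * b * (d : ℝ) ^ (-θ)) ≤ (d : ℝ) ^ (20 : ℝ) := by
    have h1 : (d : ℝ) ^ (-uu θ θ + -2 + -15 + -θ) ≤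
        (d : ℝ) ^ (-uu θ θ) * g₁ * b * (d : ℝ) ^ (-θ) := by
      rw [Real.rpow_add hd, Real.rpow_add hd, Real.rpow_add hd]
      have hb0 : 0 ≤ b := (Real.rpow_nonneg hd.le _).trans hb
      have hg0 : 0 ≤ g₁ := (Real.rpow_nonneg hd.le _).trans hg
      gcongr
    refine (div_le_div₀ (by positivity) le_rfl (Real.rpow_pos_of_pos hd _) h1).trans ?_
    rw [← Real.rpow_one_add' hd.le (by linarith [mu_pos hθ]), ← Real.rpow_sub hd]
    exact Real.rpow_le_rpow_of_exponent_le F.one_le_d (by linarith)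
  have hXp : ((d : ℝ) * (d : ℝ) ^ mu θ /
      ((d : ℝ) ^ (-uu θ θ) * g₁ * b * (d : ℝ) ^ (-θ))) ^ p ≤ (d : ℝ) ^ (20 * (p : ℝ)) := by
    have hb0 : 0 ≤ b := (Real.rpow_nonneg hd.le _).trans hb
    have hg0 : 0 ≤ g₁ := (Real.rpow_nonneg hd.le _).trans hg
    refine (pow_le_pow_left₀ (by positivity) hX p).trans_eq ?_
    rw [← Real.rpow_natCast, ← Real.rpow_mul hd.le]
  have hk : ((d : ℝ) ^ (-uu θ θ)) ^ order θ p ≤ (d : ℝ) ^ (-(20 * (p : ℝ) + 40)) := by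
    rw [← Real.rpow_natCast, ← Real.rpow_mul hd.le]
    exact Real.rpow_le_rpow_of_exponent_le F.one_le_d (by linarith)
  have hg0 : 0 ≤ g₁ := (Real.rpow_nonneg hd.le _).trans hg
  have hyk := (pow_le_pow_left₀ (by positivity) hy (order θ p)).trans hk
  have hT : exp (-bigT p d) = (d : ℝ) ^ (-(20 * (p : ℝ) + 40)) := by
    rw [Real.rpow_def_of_pos hd, bigT]; ring_nf
  have hsum : ((d : ℝ) ^ (-uu θ θ)) ^ order θ p +
      ((d : ℝ) ^ (-θ) * (d : ℝ) ^ mu θ / g₁) ^ order θ p + exp (-bigT p d) ≤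
        (d : ℝ) ^ (uu θ θ + -(20 * (p : ℝ) + 40)) := by
    refine le_trans ?_ (F.mul (F.num (by norm_num : (3 : ℝ) ≤ 2000)) le_rfl
      (Real.rpow_nonneg hd.le _))
    linarith
  have hT0 : 0 ≤ bigT p d := by linarith [F.two_le_T]
  have hb0 : 0 ≤ b := (Real.rpow_nonneg hd.le _).trans hb
  unfold bandRes
  refine F.mono (F.mul (F.mul (F.mul F.C_le F.Tpow_le (by positivity)) hXp (by positivity))
    hsum (by positivity)) ?_
  linarith

end Large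

end Vale.Agent.P347.Zero
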