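import Vale.Agent.P347.Zero.FlowAux
import Vale.Agent.P347.Zero.FlowParam

/-!
# P347, exponent zero: the fields of the evaluation points

The Hamiltonian field at a frozen time, the shifted probability flow, the auxiliary field as a
function of the frozen time, and their continuity in that time.
-/

open MeasureTheory ProbabilityTheory Real Set
open scoped RealInnerProductSpace Topology ENNReal
open Vale.Agent.P347.Deriv

namespace Vale.Agent.P347.Zero

variable {d : ℕ}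

/-- The Hamiltonian field at the frozen time `t`. -/
noncomputable def hmcVec (W : E d → ℝ) (t : ℝ) (_x : ℝ) (p : E d × E d) : E d × E d :=
  (p.2, -(p.1 + flowField W t p.1))

/-- The probability flow seen from time `t`. -/
noncomputable def pfVec (W : E d → ℝ) (t u : ℝ) (y : E d) : E d := flowField W (t + u) y

variable {η B : ℝ} {W : E d → ℝ} (hW : Pert η B W)
include hW

/-- The material derivative of `tv` as a derivative on space-time. -/
theorem deriv_add_fderiv_tv {t : ℝ} (ht : 0 < t) (y u : E d) :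
    deriv (fun s => tv W s y) t + fderiv ℝ (tv W t) y u =
      fderiv ℝ (fun q : ℝ × E d => tv W q.1 q.2) (t, y) (1, u) := by
  set H := fun q : ℝ × E d => tv W q.1 q.2
  have hd : HasFDerivAt H (fderiv ℝ H (t, y)) (t, y) :=
    (((contDiffOn_tv hW (n := 1)).differentiableOn one_ne_zero).differentiableAt
      ((isOpen_Ioi.prod isOpen_univ).mem_nhds (mk_mem_prod (mem_Ioi.2 ht) (mem_univ _)))).hasFDerivAt
  have h1 : HasDerivAt (fun s => tv W s y) (fderiv ℝ H (t, y) (1, 0)) t :=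
    HasFDerivAt.comp_hasDerivAt (f := fun s : ℝ => (s, y)) (l := H) t hd
      ((hasDerivAt_id t).prodMk (hasDerivAt_const t y))
  rw [h1.deriv, fderiv_snd_eq (n := 0) (f := tv W) ((contDiffOn_tv hW (n := 1)).of_le (by simp)) ht,
    ContinuousLinearMap.comp_apply, ← map_add]
  simp [H]

theorem contDiffOn_flowField :
    ContDiffOn ℝ 1 (fun q : ℝ × E d => flowField W q.1 q.2) (Ioi 0 ×ˢ univ) := by
  have he : ContDiff ℝ 1 fun q : ℝ × E d => exp (-q.1) := by fun_prop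
  exact he.contDiffOn.smul (contDiffOn_tv hW (n := 1))

theorem contDiffOn_auxVec (g : ℝ) : ContDiffOn ℝ 1
    (fun q : ℝ × ℝ × (E d × E d) => auxVec W g q.1 q.2.1 q.2.2)
    {q | (q.1, q.2.1) ∈ Ioi (0 : ℝ) ×ˢ (univ : Set ℝ)} := by
  set S : Set (ℝ × ℝ × (E d × E d)) := {q | (q.1, q.2.1) ∈ Ioi (0 : ℝ) ×ˢ univ}
  have hm : MapsTo (fun q : ℝ × ℝ × (E d × E d) => (q.1, q.2.2.1)) S (Ioi 0 ×ˢ univ) :=
    fun q hq => mk_mem_prod hq.1 (mem_univ _)
  have hπ : ContDiff ℝ 1 fun q : ℝ × ℝ × (E d × E d) => (q.1, q.2.2.1) := by fun_prop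
  have hA := ((contDiffOn_tA hW g (n := 1)).comp hπ.contDiffOn hm).clm_apply
    (contDiff_snd.snd.snd.contDiffOn (s := S))
  have hD := (((contDiffOn_tv hW (n := 2)).fderiv_of_isOpen (isOpen_Ioi.prod isOpen_univ)
    (m := 1) le_rfl).comp hπ.contDiffOn hm).clm_apply
      ((contDiffOn_const (c := (1 : ℝ))).prodMk ((contDiffOn_flowField hW).comp hπ.contDiffOn hm))
  refine (hA.neg.prodMk (hD.const_smul g⁻¹).neg).congr fun q hq => ?_
  rw [auxVec, deriv_add_fderiv_tv hW hq.1]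
  rfl

theorem contDiffOn_hmcVec : ContDiffOn ℝ 1
    (fun q : ℝ × ℝ × (E d × E d) => hmcVec W q.1 q.2.1 q.2.2)
    {q | (q.1, q.2.1) ∈ Ioi (0 : ℝ) ×ˢ (univ : Set ℝ)} := by
  set S : Set (ℝ × ℝ × (E d × E d)) := {q | (q.1, q.2.1) ∈ Ioi (0 : ℝ) ×ˢ univ}
  have hm : MapsTo (fun q : ℝ × ℝ × (E d × E d) => (q.1, q.2.2.1)) S (Ioi 0 ×ˢ univ) :=
    fun q hq => mk_mem_prod hq.1 (mem_univ _)
  have hπ : ContDiff ℝ 1 fun q : ℝ × ℝ × (E d × E d) => (q.1, q.2.2.1) := by fun_prop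
  exact (contDiff_snd.snd.snd.contDiffOn (s := S)).prodMk
    ((contDiff_snd.snd.fst.contDiffOn (s := S)).add
      ((contDiffOn_flowField hW).comp hπ.contDiffOn hm)).neg

theorem aux_growth {g a b : ℝ} (ha : 0 < a) :
    ∃ C : ℝ, 1 ≤ C ∧ ∀ t ∈ Icc a b, ∀ (θ : ℝ) p,
      ‖auxVec W g t θ p‖ ≤ C * (1 + ‖p‖) := by
  obtain ⟨M, hM1, hM⟩ := (fieldReg_flow hW (b := b) ha).growth
  have hba : 0 < bT a := bT_pos ha
  set c : ℝ := exp b * ((d : ℝ) * ((d : ℝ) * ((65 * ((1 + 1).factorial : ℝ) ^ 2 + 1) / bT a)))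
  have hc0 : 0 ≤ c := by positivity
  set k := |g⁻¹|
  have hk : 0 ≤ k := abs_nonneg _
  refine ⟨1 + k * c + k * (1 + M), by nlinarith [mul_nonneg hk hc0], fun t ht θ p => ?_⟩
  have ht0 : 0 < t := ha.trans_le ht.1
  have hAle : ∀ x : E d, ‖tA W g t p.1 x‖ ≤ k * ‖x‖ := fun x => by
    refine (ContinuousLinearMap.le_opNorm _ _).trans (mul_le_mul_of_nonneg_right ?_ (norm_nonneg _))
    rw [tA, norm_smul, Real.norm_eq_abs]
    refine mul_le_of_le_one_right (abs_nonneg _) ((norm_fderiv_tv_le hW ht0 _).trans ?_)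
    exact mul_le_one₀ hW.eta_le_one (exp_pos _).le (exp_le_one_iff.2 (by linarith))
  have hL : ‖∑ i, fderiv ℝ (fun x => fderiv ℝ (tv W t) x (bas i)) p.1 (bas i)‖ ≤ c := by
    refine (lap_le hW ht0 p.1).trans ?_
    have hb' : bT a ≤ bT t := Real.sqrt_le_sqrt (by
      have : exp (-(2 * t)) ≤ exp (-(2 * a)) := exp_le_exp.2 (by linarith [ht.1])
      linarith)
    have h2 := bT_pos ht0
    refine mul_le_mul (exp_le_exp.2 ht.2) ?_ (by positivity) (exp_pos _).le
    gcongr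
  have hp1 := norm_fst_le p
  have hp2 := norm_snd_le p
  have hf : ‖p.1 + flowField W t p.1‖ ≤ (1 + M) * (1 + ‖p‖) := by
    refine (norm_add_le _ _).trans ?_
    nlinarith [hM t ht p.1, mul_le_mul_of_nonneg_left hp1 (by linarith : (0 : ℝ) ≤ M)]
  rw [auxVec_eq hW ht0 θ p, Prod.norm_def, norm_neg]
  refine max_le ((hAle _).trans ?_) ((norm_add_le _ _).trans ?_)
  · nlinarith [mul_le_mul_of_nonneg_left hp2 hk, mul_nonneg hk hc0, norm_nonneg p,
      mul_nonneg (mul_nonneg hk (by linarith : (0 : ℝ) ≤ M)) (norm_nonneg p)]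
  · rw [norm_neg, norm_smul, Real.norm_eq_abs]
    nlinarith [mul_le_mul_of_nonneg_left hL hk, (hAle _).trans (mul_le_mul_of_nonneg_left hf hk),
      mul_nonneg (mul_nonneg hk hc0) (norm_nonneg p), norm_nonneg p]

theorem hmc_growth {a b : ℝ} (ha : 0 < a) :
    ∃ C : ℝ, 1 ≤ C ∧ ∀ t ∈ Icc a b, ∀ (x : ℝ) p, ‖hmcVec W t x p‖ ≤ C * (1 + ‖p‖) := by
  obtain ⟨M, hM1, hM⟩ := (fieldReg_flow hW (b := b) ha).growth
  refine ⟨1 + M, by linarith, fun t ht x p => ?_⟩
  have hp1 := norm_fst_le p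
  rw [hmcVec, Prod.norm_def, norm_neg]
  refine max_le ?_ ((norm_add_le _ _).trans ?_)
  · nlinarith [norm_snd_le p, norm_nonneg p]
  · nlinarith [hM t ht p.1, mul_le_mul_of_nonneg_left hp1 (by linarith : (0 : ℝ) ≤ M)]

/-- The auxiliary flows over a compact range of frozen times. -/
theorem auxParam (g : ℝ) {T θ₀ : ℝ} : (∀ t ∈ Icc 1 T, FieldReg (auxVec W g t) 0 θ₀) ∧
    (0 ≤ θ₀ → ContinuousOn
      (fun q : ℝ × (E d × E d) × ℝ => odeFlow (auxVec W g q.1) 0 θ₀ q.2.1 q.2.2)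
      (Icc 1 T ×ˢ univ ×ˢ Icc 0 θ₀)) := by
  obtain ⟨C, hC, hg⟩ := aux_growth hW (g := g) (b := T) one_pos
  have h := paramReg_of_contDiffOn (a := 0) (b := θ₀) (Λ := Icc 1 T)
    (isOpen_Ioi.prod isOpen_univ) (prod_mono (fun t ht => zero_lt_one.trans_le ht.1) (subset_univ _))
    (contDiffOn_auxVec hW g) hC fun l hl t _ x => hg l hl t x
  exact ⟨h.1, h.2 isCompact_Icc⟩

/-- The Hamiltonian flows over a compact range of frozen times. -/
theorem hmcParam {T : ℝ} : (∀ t ∈ Icc 1 T, FieldReg (hmcVec W t) 0 1) ∧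
    ContinuousOn (fun q : ℝ × (E d × E d) × ℝ => odeFlow (hmcVec W q.1) 0 1 q.2.1 q.2.2)
      (Icc 1 T ×ˢ univ ×ˢ Icc 0 1) := by
  obtain ⟨C, hC, hg⟩ := hmc_growth hW (b := T) one_pos
  have h := paramReg_of_contDiffOn (a := 0) (b := 1) (Λ := Icc 1 T)
    (isOpen_Ioi.prod isOpen_univ) (prod_mono (fun t ht => zero_lt_one.trans_le ht.1) (subset_univ _))
    (contDiffOn_hmcVec hW) hC fun l hl t _ x => hg l hl t x
  exact ⟨h.1, h.2 isCompact_Icc zero_le_one⟩

/-- The probability flows from a compact range of times. -/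
theorem pfParam {T : ℝ} : (∀ t ∈ Icc 1 T, FieldReg (pfVec W t) 0 1) ∧
    ContinuousOn (fun q : ℝ × E d × ℝ => odeFlow (pfVec W q.1) 0 1 q.2.1 q.2.2)
      (Icc 1 T ×ˢ univ ×ˢ Icc 0 1) := by
  obtain ⟨C, hC, hg⟩ := (fieldReg_flow hW (b := T + 1) one_pos).growth
  have hπ : ContDiff ℝ 1 fun q : ℝ × ℝ × E d => (q.1 + q.2.1, q.2.2) := by fun_prop
  have hsm : ContDiffOn ℝ 1 (fun q : ℝ × ℝ × E d => pfVec W q.1 q.2.1 q.2.2)
      {q | (q.1, q.2.1) ∈ {r : ℝ × ℝ | 0 < r.1 + r.2}} :=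
    (contDiffOn_flowField hW).comp hπ.contDiffOn fun q hq => ⟨hq, trivial⟩
  have h := paramReg_of_contDiffOn (a := 0) (b := 1) (Λ := Icc 1 T)
    (isOpen_lt continuous_const (continuous_fst.add continuous_snd))
    (fun r hr => by
      have h1 := hr.1.1; have h2 := hr.2.1
      show (0 : ℝ) < r.1 + r.2
      linarith) hsm hC
    fun l hl t ht x => hg _ ⟨by linarith [hl.1, ht.1], by linarith [hl.2, ht.2]⟩ x
  exact ⟨h.1, h.2 isCompact_Icc zero_le_one⟩

theorem contEq_hmc {t a b : ℝ} (ht : 0 < t) :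
    ContEq (hmcVec W t) (auxDens W t) a b := by
  have hd : ∀ p, HasFDerivAt (auxDens W t 0) _ p := fun p =>
    ((((hasFDerivAt_pot_tU hW ht p.1).comp p hasFDerivAt_fst).add
      ((hasFDerivAt_snd (𝕜 := ℝ) (E := E d) (F := E d) (p := p)).norm_sq.mul_const
        (2⁻¹ : ℝ))).neg).exp
  have hdd : ∀ θ p, DifferentiableAt ℝ (fun q : ℝ × (E d × E d) => auxDens W t q.1 q.2) (θ, p) :=
    fun θ p => DifferentiableAt.comp (g := auxDens W t 0) (f := Prod.snd) (θ, p)
      (hd p).differentiableAt differentiableAt_snd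
  refine ⟨fun θ _ p => exp_pos _, fun θ _ p => hdd θ p, fun θ _ p => ?_⟩
  have h1 : HasDerivAt (fun s => auxDens W t s p) 0 θ := hasDerivAt_const θ _
  rw [partial_eq (hdd θ p) h1 (hd p)]
  have hF : DifferentiableAt ℝ (flowField W t) p.1 :=
    ((contDiff_tv hW ht (n := 1)).differentiable one_ne_zero p.1).const_smul (exp (-t))
  have h : HasFDerivAt (hmcVec W t θ) ((ContinuousLinearMap.snd ℝ (E d) (E d)).prod
      (-(ContinuousLinearMap.fst ℝ (E d) (E d) +
        (fderiv ℝ (flowField W t) p.1).comp (ContinuousLinearMap.fst ℝ (E d) (E d))))) p :=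
    hasFDerivAt_snd.prodMk ((hasFDerivAt_fst.add (hF.hasFDerivAt.comp p hasFDerivAt_fst)).neg)
  rw [h.fderiv, trace_prod_eq, sum_diag_eq_trace, sum_diag_eq_trace]
  simp [auxDens, hmcVec, flowField_eq hW ht, inner_add_right,
    real_inner_comm p.2]
  ring

/-- The Hamiltonian flow keeps `law (tU W t) ⊗ γ`. -/
theorem map_hmcVec {t a b x : ℝ} (ht : 0 < t) (hV : FieldReg (hmcVec W t) a b) (hab : a ≤ b)
    (hx : x ∈ Icc a b) :
    ((law (tU W t)).prod (stdGaussian (E d))).map (fun p => odeFlow (hmcVec W t) a b p x) =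
      (law (tU W t)).prod (stdGaussian (E d)) := by
  obtain ⟨hP, k, hk⟩ := coupleLaw_eq hW (g := (0 : ℝ)) ht
  have e : coupleLaw W 0 t = (law (tU W t)).prod (stdGaussian (E d)) := by
    simp [coupleLaw]
  rw [e] at hP hk
  have e2 : coupleDens W 0 t = auxDens W t 0 := by
    funext p; simp [coupleDens, auxDens, wOf]
  rw [e2] at hk
  refine map_normalised ?_ hk hk
    (hV.map_flow ((volume : Measure (E d)).prod volume) hab (contEq_hmc hW ht) hx)
  exact (continuous_iff_continuousAt.2 fun p => by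
    obtain ⟨J, -, -, hJ⟩ := hV.hasFDerivAt_flow hab p
    exact (hJ x hx).continuousAt).measurable

/-- The shifted probability flow carries the laws. -/
theorem map_pfVec {t u : ℝ} (ht : 0 < t) (hV : FieldReg (pfVec W t) 0 1) (hu : u ∈ Icc (0 : ℝ) 1) :
    (law (tU W t)).map (fun y => odeFlow (pfVec W t) 0 1 y u) = law (tU W (t + u)) := by
  have hab : t ≤ t + 1 := by linarith
  have hW' := fieldReg_flow hW (b := t + 1) ht
  rw [← map_flowField hW ht hab (t := t + u) ⟨by linarith [hu.1], by linarith [hu.2]⟩]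
  congr 1
  funext y
  obtain ⟨h1, h2⟩ := hW'.flow_spec hab y
  have hm : MapsTo (fun v : ℝ => t + 1 * v) (Icc 0 1) (Icc t (t + 1)) := fun v hv =>
    ⟨by linarith [hv.1], by linarith [hv.2]⟩
  have h3 : IsTraj (pfVec W t) 0 1 (fun v => odeFlow (flowField W) t (t + 1) y (t + 1 * v)) :=
    fun v hv => by simpa [pfVec] using h1.affine hm v hv
  have h4 := hV.flow_eq zero_le_one h3 hu
  simp only [mul_zero, add_zero, h2, one_mul] at h4
  exact h4

end Vale.Agent.P347.Zero
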