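import Vale.Agent.P347.Zero.Ops
import Vale.Agent.P347.Zero.TrajFields

/-!
# P347, exponent zero: the operators are the derivatives along the four fields

`matD`, `totD`, `xA` and `hamD` applied to a smooth family give its derivative along the
probability flow, the coupling field in `(y, w)`, the auxiliary field and the Hamiltonian field.
-/

open MeasureTheory ProbabilityTheory Real Set Function
open scoped RealInnerProductSpace

namespace Vale.Agent.P347.Zero

open Deriv

variable {d : ℕ}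

/-- The material derivative of `tv` along the probability flow. -/
noncomputable def matTv (W : E d → ℝ) (t : ℝ) (y : E d) : E d :=
  deriv (fun s => tv W s y) t + fderiv ℝ (tv W t) y (flowField W t y)

/-- The coupling field in the coordinates `(y, w)`. -/
noncomputable def coupVec (W : E d → ℝ) (g t : ℝ) (z : E d × E d) : E d × E d :=
  (flowField W t z.1 - tA W g t z.1 z.2, -(g⁻¹ • matTv W t z.1))

theorem auxVec_eq_matTv (W : E d → ℝ) (g t θ : ℝ) (z : E d × E d) :
    auxVec W g t θ z = (-(tA W g t z.1 z.2), -(g⁻¹ • matTv W t z.1)) := rfl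

theorem coupVec_eq_add (W : E d → ℝ) (g t θ : ℝ) (z : E d × E d) :
    coupVec W g t z = (flowField W t z.1, 0) + auxVec W g t θ z := by
  simp [coupVec, auxVec_eq_matTv, sub_eq_add_neg]

/-! ### Coordinates -/

theorem sum_coord (v : E d) : ∑ j, ⟪bas j, v⟫ • bas j = v :=
  (EuclideanSpace.basisFun (Fin d) ℝ).sum_repr' v

theorem eq_of_coord {u v : E d} (h : ∀ j, ⟪bas j, u⟫ = ⟪bas j, v⟫) : u = v := by
  rw [← sum_coord u, ← sum_coord v]
  simp only [h]

theorem dd_sum_dir {V : Type*} [NormedAddCommGroup V] [NormedSpace ℝ V] {f : V → ℝ} (z : V)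
    {ι : Type*} (s : Finset ι) (c : ι → ℝ) (u : ι → V) :
    dd (∑ i ∈ s, c i • u i) f z = ∑ i ∈ s, c i * dd (u i) f z := by
  simp [Deriv.dd, map_sum]

/-- a derivative in a pair of directions, by coordinates -/
theorem dd_pair {f : Z d → ℝ} (z : Z d) (a b : E d) :
    dd (a, b) f z = ∑ j, ⟪bas j, a⟫ * dd (ex j) f z + ∑ j, ⟪bas j, b⟫ * dd (ev j) f z := by
  have e : (a, b) = (∑ j, ⟪bas j, a⟫ • ex j) + ∑ j, ⟪bas j, b⟫ • ev j := by
    refine Prod.ext ?_ ?_ <;>
      simp only [Prod.fst_add, Prod.snd_add, Prod.fst_sum, Prod.snd_sum, Prod.smul_fst,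
        Prod.smul_snd, ex, ev, smul_zero, Finset.sum_const_zero, add_zero, zero_add, sum_coord]
  conv_lhs => rw [e]
  show fderiv ℝ f z _ = _
  simp only [map_add, map_sum, map_smul, smul_eq_mul, Deriv.dd]

section Pert

variable {η B : ℝ} {W : E d → ℝ} (hW : Pert η B W)
include hW

theorem tv_coord {t : ℝ} (ht : 0 < t) (y : E d) (k : Fin d) :
    ⟪bas k, tv W t y⟫ = exp t * dd (bas k) (tU W t) y := by
  rw [tv_eq_grad hW ht, real_inner_smul_right, real_inner_comm, inner_grad]
  rfl

theorem flowField_coord {t : ℝ} (ht : 0 < t) (y : E d) (k : Fin d) :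
    ⟪bas k, flowField W t y⟫ = dd (bas k) (tU W t) y := by
  rw [flowField_eq hW ht, real_inner_comm, inner_grad]
  rfl

theorem fderiv_tv_coord {t : ℝ} (ht : 0 < t) (y u : E d) (k : Fin d) :
    ⟪bas k, fderiv ℝ (tv W t) y u⟫ = exp t * dd u (dd (bas k) (tU W t)) y := by
  have hd : Differentiable ℝ (tv W t) := (contDiff_tv hW ht (n := 1)).differentiable one_ne_zero
  have h1 : ⟪bas k, fderiv ℝ (tv W t) y u⟫ = dd u (fun x => ⟪bas k, tv W t x⟫) y := by
    rw [Deriv.dd, fderiv_inner_apply (𝕜 := ℝ) (differentiableAt_const _) (hd y)]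
    simp
  rw [h1, show (fun x => ⟪bas k, tv W t x⟫) = fun x => exp t * dd (bas k) (tU W t) x from
    funext fun x => tv_coord hW ht x k, dd_const_mul ((good_tU hW ht 2).dd _).differentiable]

end Pert

variable (p : Par) {t : ℝ}

theorem aM_eq (t : ℝ) (i k : Fin p.d) :
    aM p t i k = fun y => p.g⁻¹ * exp t * dd (bas i) (dd (bas k) (tU p.W t)) y := rfl

theorem aM_symm (ht : 0 < t) (i k : Fin p.d) : aM p t i k = aM p t k i := by
  funext y
  simp only [aM, dd_comm (good_tU p.pert ht 2) (bas i) (bas k)]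

theorem tA_coord (ht : 0 < t) (y w : E p.d) (i : Fin p.d) :
    ⟪bas i, tA p.W p.g t y w⟫ = ∑ k, aM p t i k y * ⟪bas k, w⟫ := by
  rw [tA, smul_apply, real_inner_smul_right, fderiv_tv_coord p.pert ht]
  conv_lhs => rw [← sum_coord w]
  rw [dd_sum_dir, Finset.mul_sum, Finset.mul_sum]
  refine Finset.sum_congr rfl fun k _ => ?_
  rw [aM, congrFun (dd_comm (good_tU p.pert ht 2) (bas k) (bas i)) y]
  ring

/-- The material derivative of `tv` in coordinates, in divergence form. -/
theorem matTv_coord (ht : 0 < t) (y : E p.d) (k : Fin p.d) :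
    ⟪bas k, p.g⁻¹ • matTv p.W t y⟫ =
      -∑ j, ((⟪bas j, y⟫ + dd (bas j) (tU p.W t) y) * aM p t j k y -
        dd (bas j) (aM p t j k) y) := by
  have hU := smJ_tU p
  set φ : ℝ → E p.d → ℝ := fun s x => dd (bas k) (tU p.W s) x
  have hv : HasDerivAt (fun s => tv p.W s y) (deriv (fun s => tv p.W s y) t) t :=
    (hasDerivAt_tv p.pert ht y).differentiableAt.hasDerivAt
  have hφ : HasDerivAt (fun s => φ s y) (deriv (fun s => φ s y) t) t := (hU.dd _).hasDerivAt ht y
  have h1 : HasDerivAt (fun s => ⟪bas k, tv p.W s y⟫) ⟪bas k, deriv (fun s => tv p.W s y) t⟫ t := by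
    simpa using (hasDerivAt_const t (bas k)).inner ℝ hv
  have h2 : HasDerivAt (fun s => exp s * φ s y)
      (exp t * φ t y + exp t * deriv (fun s => φ s y) t) t := (Real.hasDerivAt_exp t).mul hφ
  have e1 : ⟪bas k, deriv (fun s => tv p.W s y) t⟫ =
      exp t * φ t y + exp t * deriv (fun s => φ s y) t :=
    h1.unique (h2.congr_of_eventuallyEq (Filter.eventually_of_mem (isOpen_Ioi.mem_nhds ht)
      fun s hs => tv_coord p.pert hs y k))
  have e2 : ⟪bas k, fderiv ℝ (tv p.W t) y (flowField p.W t y)⟫ =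
      exp t * ∑ j, dd (bas j) (tU p.W t) y * dd (bas j) (φ t) y := by
    rw [fderiv_tv_coord p.pert ht]
    conv_lhs => rw [← sum_coord (flowField p.W t y)]
    rw [dd_sum_dir]
    simp only [flowField_coord p.pert ht, φ]
  have hb := bP_dd_tU p k ht y
  simp only [bP, bG, drift] at hb
  have e3 : ∀ j, dd (bas j) (aM p t j k) y =
      p.g⁻¹ * exp t * dd (bas j) (dd (bas j) (φ t)) y := fun j => by
    rw [aM_eq, dd_const_mul ((good_tU p.pert ht 3).dd _ |>.dd _).differentiable]
  simp only [e3]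
  have e4 : ∀ j, aM p t j k y = p.g⁻¹ * exp t * dd (bas j) (φ t) y := fun _ => rfl
  simp only [e4]
  rw [matTv, real_inner_smul_right, inner_add_right, e1, e2, Finset.sum_sub_distrib]
  have a1 : ∑ j, (⟪bas j, y⟫ + dd (bas j) (tU p.W t) y) *
      (p.g⁻¹ * exp t * dd (bas j) (φ t) y) =
      p.g⁻¹ * exp t * ∑ j, (⟪bas j, y⟫ + dd (bas j) (tU p.W t) y) * dd (bas j) (φ t) y := by
    rw [Finset.mul_sum]; exact Finset.sum_congr rfl fun j _ => by ring
  rw [a1, ← Finset.mul_sum]
  simp only [add_mul, mul_assoc, Finset.sum_add_distrib, ← Finset.mul_sum] at hb ⊢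
  simp only [φ] at hb ⊢
  linear_combination p.g⁻¹ * exp t * hb

/-! ### The operators -/

variable {ι : ℕ → Type} {F : Fam ι}

theorem dd_dX_eq (z : Z p.d) (i : ι p.d) (j : Fin p.d) :
    dXF F p t (i, j) z = dd (ex j) (F p t i) z := rfl

theorem matD_eq (ht : 0 < t) (i : ι p.d) (z : Z p.d) :
    matD F p t i z = deriv (fun s => F p s i z) t +
      dd (flowField p.W t z.1, 0) (F p t i) z := by
  rw [dd_pair]
  simp only [matD, bF, bG, delX, delG, dXF, Deriv.dX, driftZ, drift, px,
    flowField_coord p.pert ht, inner_zero_right, zero_mul, Finset.sum_const_zero, add_zero,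
    Finset.sum_sub_distrib, add_mul, Finset.sum_add_distrib, mul_assoc, ← Finset.mul_sum]
  ring

theorem hamD_eq (hF : ∀ i, SmJ fun t z => F p t i z) (ht : 0 < t) (x : ℝ) (i : ι p.d) (z : Z p.d) :
    hamD F p t i z = dd (hmcVec p.W t x z) (F p t i) z := by
  rw [hmcVec, dd_pair]
  simp only [hamD, delV, delX, delG, dXF, dVF, Deriv.dX, Deriv.dV, inner_neg_right, inner_add_right,
    flowField_coord p.pert ht, (hF i).dd_comm (ev _) (ex _) ht, Finset.sum_sub_distrib, neg_mul,
    Finset.sum_neg_distrib, px, pv]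
  ring

theorem xA_eq (hF : ∀ i, SmJ fun t z => F p t i z) (ht : 0 < t) (θ : ℝ) (i : ι p.d) (z : Z p.d) :
    xA F p t i z = dd (auxVec p.W p.g t θ z) (F p t i) z := by
  have hf : ∀ u, Differentiable ℝ (dd u (F p t i)) := fun u => ((hF i).dd u).differentiable ht
  have hA : ∀ j k, Differentiable ℝ (aM p t j k) := fun j k =>
    (((good_tU p.pert ht 3).dd _).dd _).differentiable.const_mul _
  have hA' : ∀ j k, Differentiable ℝ fun z : Z p.d => aM p t j k z.1 := fun j k =>
    (hA j k).comp differentiable_fst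
  have h1 : ∀ j, dd (ex j) (mulF (aM p t) (Deriv.dV (F p t)) (i, j)) z =
      ∑ k, (dd (bas j) (aM p t j k) z.1 * dd (ev k) (F p t i) z +
        aM p t j k z.1 * dd (ex j) (dd (ev k) (F p t i)) z) := fun j => by
    show dd (ex j) (fun z => ∑ k, aM p t j k z.1 * dd (ev k) (F p t i) z) z = _
    rw [dd_sum _ fun k _ => (hA' j k).fun_mul (hf _)]
    refine Finset.sum_congr rfl fun k _ => ?_
    rw [dd_mul (hA' j k) (hf _), dd_fst (hA j k)]
    rfl
  have h2 : ∀ j, dd (ev j) (mulF (aM p t) (Deriv.dX (F p t)) (i, j)) z =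
      ∑ k, aM p t j k z.1 * dd (ev j) (dd (ex k) (F p t i)) z := fun j => by
    show dd (ev j) (fun z => ∑ k, aM p t j k z.1 * dd (ex k) (F p t i) z) z = _
    rw [dd_sum _ fun k _ => (hA' j k).fun_mul (hf _)]
    refine Finset.sum_congr rfl fun k _ => ?_
    rw [dd_mul (hA' j k) (hf _), dd_fst (hA j k)]
    simp [ev, Deriv.dd]
  have h3 : ∑ j, ∑ k, aM p t j k z.1 * dd (ev j) (dd (ex k) (F p t i)) z =
      ∑ j, ∑ k, aM p t j k z.1 * dd (ex j) (dd (ev k) (F p t i)) z := by
    rw [Finset.sum_comm]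
    refine Finset.sum_congr rfl fun j _ => Finset.sum_congr rfl fun k _ => ?_
    rw [aM_symm p ht k j, (hF i).dd_comm (ev k) (ex j) ht]
  rw [auxVec_eq_matTv, dd_pair]
  simp only [xA, delX, delV, delG, mulA, dXF, dVF, h1, h2, mulF, Deriv.dX, Deriv.dV,
    inner_neg_right, tA_coord p ht, matTv_coord p ht, neg_neg, px, pv]
  simp only [Finset.sum_sub_distrib, Finset.sum_add_distrib, h3, neg_mul, sub_mul,
    Finset.sum_neg_distrib, Finset.mul_sum, Finset.sum_mul]
  rw [Finset.sum_comm (f := fun j k => aM p t j k z.1 * ⟪bas k, z.2⟫ * dd (ex j) (F p t i) z)]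
  rw [Finset.sum_comm (f := fun k j => (⟪bas j, z.1⟫ + dd (bas j) (tU p.W t) z.1) *
    aM p t j k z.1 * dd (ev k) (F p t i) z)]
  rw [Finset.sum_comm (f := fun k j => dd (bas j) (aM p t j k) z.1 * dd (ev k) (F p t i) z)]
  have e : ∀ j k, aM p t j k z.1 * ⟪bas k, z.2⟫ * dd (ex j) (F p t i) z =
      ⟪bas k, z.2⟫ * (aM p t k j z.1 * dd (ex j) (F p t i) z) := fun j k => by
    rw [aM_symm p ht k j]; ring
  simp only [e, mul_assoc]
  ring

theorem totD_eq (hF : ∀ i, SmJ fun t z => F p t i z) (ht : 0 < t) (i : ι p.d) (z : Z p.d) :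
    totD F p t i z = deriv (fun s => F p s i z) t + dd (coupVec p.W p.g t z) (F p t i) z := by
  rw [totD, matD_eq p ht, xA_eq p hF ht 0, coupVec_eq_add p.W p.g t 0 z, add_assoc]
  congr 1
  exact (map_add (fderiv ℝ (F p t i) z) _ _).symm

/-! ### Derivatives along curves -/

/-- The derivative of a smooth family along a curve. -/
theorem SmJ.comp_curve {V : Type} [NormedAddCommGroup V] [NormedSpace ℝ V] {f : ℝ → V → ℝ}
    (h : SmJ f) (ht : 0 < t) {z : ℝ → V} {u : V} {s : Set ℝ} (hz : HasDerivWithinAt z u s t) :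
    HasDerivWithinAt (fun r => f r (z r))
      (_root_.deriv (fun r => f r (z t)) t + Deriv.dd u (f t) (z t)) s t := by
  have hd := ((h.at_pt 1 ht (z t)).differentiableAt (by simp)).hasFDerivAt
  refine (hd.comp_hasDerivWithinAt (f := fun r => (r, z r)) t
    ((hasDerivWithinAt_id t s).prodMk hz)).congr_deriv ?_
  rw [h.deriv_eq ht, h.dd_eq ht, ← map_add]
  simp

/-! ### The values at order zero -/

theorem vec_eq {F : Fam fun d => Fin d} {v : E p.d} {z : Z p.d}
    (h : ∀ j, F p t j z = ⟪bas j, v⟫) : vec F p t z = v := by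
  simp only [vec, h, sum_coord]

theorem vec_tvF (ht : 0 < t) (z : Z p.d) : vec tvF p t z = tv p.W t z.1 :=
  vec_eq p fun j => (tv_coord p.pert ht z.1 j).symm

theorem vec_flowF (ht : 0 < t) (z : Z p.d) : vec (decay tvF) p t z = flowField p.W t z.1 :=
  vec_eq p fun j => by
    rw [flowField_coord p.pert ht, decay, tvF, ← mul_assoc, ← exp_add, neg_add_cancel, exp_zero,
      one_mul]

theorem vec_awF (ht : 0 < t) (z : Z p.d) : vec awF p t z = tA p.W p.g t z.1 z.2 :=
  vec_eq p fun j => by rw [tA_coord p ht]; rfl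

theorem vec_aawF (ht : 0 < t) (z : Z p.d) :
    vec aawF p t z = tA p.W p.g t z.1 (tA p.W p.g t z.1 z.2) :=
  vec_eq p fun j => by
    rw [tA_coord p ht, aawF]
    refine Finset.sum_congr rfl fun k _ => ?_
    rw [tA_coord p ht]
    rfl

theorem vec_ltvF (ht : 0 < t) (z : Z p.d) :
    vec ltvF p t z = p.g⁻¹ • matTv p.W t z.1 :=
  vec_eq p fun j => by
    have e : ∀ k : Fin p.d, mulA (α := fun d => Fin d) idF p t (j, k) =
        fun z : Z p.d => aM p t k j z.1 := fun k => by
      funext z; simp [mulA, mulF, idF]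
    have hA : ∀ k, Differentiable ℝ (aM p t k j) := fun k =>
      (((good_tU p.pert ht 3).dd _).dd _).differentiable.const_mul _
    have e2 : ∀ k, dd (ex k) (fun z : Z p.d => aM p t k j z.1) z =
        dd (bas k) (aM p t k j) z.1 := fun k => by
      rw [dd_fst (hA k)]; rfl
    rw [matTv_coord p ht]
    simp only [ltvF, delX, delG, e, e2]
    rfl

end Vale.Agent.P347.Zero
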