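import Vale.Agent.P347.Zero.Sobolev

/-!
# P347, exponent zero: families of functions on phase space and the operators of the four flows

A family assigns to every instance and time finitely many functions of `z = (y, w)`.
-/

open MeasureTheory ProbabilityTheory Real Set Function
open scoped RealInnerProductSpace

namespace Vale.Agent.P347.Zero

open Deriv

/-- families of functions on phase space -/
abbrev Fam (ι : ℕ → Type) : Type := (p : Par) → ℝ → ι p.d → Z p.d → ℝ

/-- the drift of the backward operator on phase space -/
noncomputable def driftZ (p : Par) (i : Fin p.d) (t : ℝ) (z : Z p.d) : ℝ := drift p i t z.1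

/-- the backward operator on a family -/
noncomputable def bF {ι : ℕ → Type} (F : Fam ι) : Fam ι :=
  fun p t i z => bG ex (driftZ p) (fun t z => F p t i z) t z

/-- position divergence -/
noncomputable def delX {α : ℕ → Type} (F : Fam fun d => α d × Fin d) : Fam α :=
  fun p t => delG ex (px (tU p.W t)) (F p t)

/-- velocity divergence -/
noncomputable def delV {α : ℕ → Type} (F : Fam fun d => α d × Fin d) : Fam α :=
  fun p t => delG ev pv (F p t)

/-- position derivatives -/
noncomputable def dXF {ι : ℕ → Type} (F : Fam ι) : Fam fun d => ι d × Fin d :=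
  fun p t => Deriv.dX (F p t)

/-- velocity derivatives -/
noncomputable def dVF {ι : ℕ → Type} (F : Fam ι) : Fam fun d => ι d × Fin d :=
  fun p t => Deriv.dV (F p t)

/-- the scalars of multipliers: `1` or `e^t / g` -/
noncomputable def scal (s : ℕ) (p : Par) (t : ℝ) : ℝ := (p.g⁻¹ * exp t) ^ s

/-- multiplication by a split tensor -/
noncomputable def mulT {α : ℕ → Type} {L P Q : Type} [Fintype Q] [DecidableEq Q] (s : ℕ)
    (e : P ⊕ Q ≃ L) (T : TF L) (F : Fam fun d => α d × (Q → Fin d)) :
    Fam fun d => α d × (P → Fin d) :=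
  fun p t => mulF (flatM e fun y J => scal s p t * T p t y J) (F p t)

/-- the entries of `tA` -/
noncomputable def aM (p : Par) (t : ℝ) (i k : Fin p.d) (y : E p.d) : ℝ :=
  p.g⁻¹ * exp t * dd (bas i) (dd (bas k) (tU p.W t)) y

/-- multiplication by `tA` -/
noncomputable def mulA {α : ℕ → Type} (F : Fam fun d => α d × Fin d) : Fam fun d => α d × Fin d :=
  fun p t => mulF (aM p t) (F p t)

/-- the material derivative along the probability flow -/
noncomputable def matD {ι : ℕ → Type} (F : Fam ι) : Fam ι :=
  fun p t i z => bF F p t i z - delX (dXF F) p t i z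

/-- the derivative along the auxiliary field -/
noncomputable def xA {ι : ℕ → Type} (F : Fam ι) : Fam ι :=
  fun p t i z => delX (mulA (dVF F)) p t i z - delV (mulA (dXF F)) p t i z

/-- the derivative along the coupled field in `(y, w)` -/
noncomputable def totD {ι : ℕ → Type} (F : Fam ι) : Fam ι :=
  fun p t i z => matD F p t i z + xA F p t i z

/-- the derivative along the Hamiltonian field -/
noncomputable def hamD {ι : ℕ → Type} (F : Fam ι) : Fam ι :=
  fun p t i z => delV (dXF F) p t i z - delX (dVF F) p t i z

/-- multiply by `e^{-t}` -/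
noncomputable def decay {ι : ℕ → Type} (F : Fam ι) : Fam ι :=
  fun p t i z => exp (-t) * F p t i z

/-- the coordinates of `tv` -/
noncomputable def tvF : Fam fun d => Fin d :=
  fun p t j z => exp t * dd (bas j) (tU p.W t) z.1

/-- the identity matrix -/
noncomputable def idF : Fam fun d => Fin d × Fin d :=
  fun _ _ q _ => if q.1 = q.2 then 1 else 0

/-- the coordinates of `tA w` -/
noncomputable def awF : Fam fun d => Fin d :=
  fun p t i z => ∑ k, aM p t i k z.1 * pv k z

/-- the coordinates of `tA (tA w)` -/
noncomputable def aawF : Fam fun d => Fin d :=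
  fun p t i z => ∑ k, aM p t i k z.1 * awF p t k z

/-- the coordinates of `g⁻¹` times the material derivative of `tv` -/
noncomputable def ltvF : Fam fun d => Fin d :=
  fun p t j z => -delX (α := fun d => Fin d) (mulA idF) p t j z

/-- a family indexed by the coordinates as a vector -/
noncomputable def vec (F : Fam fun d => Fin d) (p : Par) (t : ℝ) (z : Z p.d) : E p.d :=
  ∑ j, F p t j z • bas j

/-- the instances of the calculus -/
def Par.OK (p : Par) : Prop := 0 < p.g ∧ p.η ≤ p.g

/-- the size of `tv` -/
noncomputable def baseB (p : Par) : ℝ := ‖∫ x, grad p.W x ∂law p.W‖ + p.η * √p.d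

/-- smooth, of polynomial growth, and of mean square at most `C ((η / g) ^ k b) ^ 2` for `t ≥ 1` -/
structure Sized (k : ℕ) (b : Par → ℝ) {ι : ℕ → Type} [∀ d, Fintype (ι d)] (F : Fam ι) : Prop where
  smJ : ∀ p i, SmJ fun t z => F p t i z
  good : ∀ (p : Par) (t : ℝ), 0 < t → ∀ i n, Good n (F p t i)
  size : ∃ C : ℝ, 0 ≤ C ∧ ∀ p : Par, p.OK → ∀ t : ℝ, 1 ≤ t →
    ss (tU p.W t) (F p t) ≤ C * ((p.η / p.g) ^ k * b p) ^ 2

end Vale.Agent.P347.Zero
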