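import Vale.Agent.P347.Zero.Band
import Vale.Agent.P347.Samples

/-!
# P347, exponent zero: the primitive

`Prim d q η b V g L e`: from one draw `N(m, V)` of an unknown centre, `q` queries give a draw that
is within `e (√d + ‖∇W m‖)` of `N(aOf W b m, g²)` against bounded `1`-Lipschitz tests, by a map
that is `L`-Lipschitz in the draw.
-/

open MeasureTheory ProbabilityTheory Real Set
open scoped RealInnerProductSpace

namespace Vale.Agent.P347.Zero

variable {d : ℕ}

/-- The weight of the errors. -/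
noncomputable def wt (W : E d → ℝ) (m : E d) : ℝ := √d + ‖grad W m‖

theorem wt_nonneg (W : E d → ℝ) (m : E d) : 0 ≤ wt W m := by unfold wt; positivity

/-- The law of a procedure fed with one draw `N(m, V)`. -/
noncomputable def drawLaw {Ω : Type} [MeasurableSpace Ω] (P : Measure Ω) (m : E d) (V : ℝ) :
    Measure (E d × Ω) :=
  ((stdGaussian (E d)).prod P).map fun p => (m + √V • p.1, p.2)

/-- The primitive at scale `b`. -/
def Prim (d q : ℕ) (η b V g L e : ℝ) : Prop :=
  ∃ (Ω : Type) (_ : MeasurableSpace Ω) (_ : StandardBorelSpace Ω) (_ : Nonempty Ω) (P : Measure Ω)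
    (F : (E d → ℝ × E d) → E d × Ω → E d), IsProbabilityMeasure P ∧ QC d q F ∧
    ∀ (B : ℝ) (W : E d → ℝ), Pert η B W →
      (∀ ω x y, ‖F (oracleOf (pot W)) (x, ω) - F (oracleOf (pot W)) (y, ω)‖ ≤ L * ‖x - y‖) ∧
      ∀ (m : E d) (f : E d → ℝ), LipschitzWith 1 f → (∃ M, ∀ x, |f x| ≤ M) →
        |∫ p, f (F (oracleOf (pot W)) p) ∂drawLaw P m V -
          ∫ z, f (aOf W b m + g • z) ∂stdGaussian (E d)| ≤ e * wt W m

theorem Prim.mono {q q' : ℕ} {η b V g L L' e e' : ℝ} (h : Prim d q η b V g L e) (hq : q ≤ q')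
    (hL : L ≤ L') (he : e ≤ e') : Prim d q' η b V g L' e' := by
  obtain ⟨Ω, i1, i2, i3, P, F, hP, hF, h⟩ := h
  exact ⟨Ω, i1, i2, i3, P, F, hP, hF.mono hq, fun B W hW => ⟨fun ω x y =>
    ((h B W hW).1 ω x y).trans (mul_le_mul_of_nonneg_right hL (norm_nonneg _)), fun m f hf hM =>
    ((h B W hW).2 m f hf hM).trans (mul_le_mul_of_nonneg_right he (wt_nonneg W m))⟩⟩

end Vale.Agent.P347.Zero
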