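import Vale.Agent.P347.Zero.Defs
import Vale.Agent.P347.Step
import Vale.Agent.P347.LangPoincare
import Vale.Agent.P347.LsmDeriv
import Vale.Agent.P347.PostBias

/-!
# P347, exponent zero: the proximal chain contracts

`rgoK W h y` is the conditional law of `x ∼ law W` given `x + √h ξ = y`. Its means of `L`-Lipschitz
functions are `L / (1 + h)`-Lipschitz in `y`, so the chain `x ↦ x + √h ξ ↦ rgoK` forgets its start
geometrically.
-/

open MeasureTheory ProbabilityTheory Real Set Function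
open scoped RealInnerProductSpace

namespace Vale.Agent.P347.Zero

open Deriv

variable {d : ℕ}

/-- The conditional law of `x` given the blurred point `y`. -/
noncomputable def rgoK (W : E d → ℝ) (h : ℝ) (y : E d) : Measure (E d) :=
  (law (rgo W h y)).map (rgoMap W h y)

/-- The mean of `u` under `rgoK`. -/
noncomputable def kn (W : E d → ℝ) (h : ℝ) (u : E d → ℝ) (y : E d) : ℝ := ∫ x, u x ∂rgoK W h y

/-- The perturbation seen in the coordinate `√(rgoC h) x`. -/
noncomputable def wc (W : E d → ℝ) (h : ℝ) (z : E d) : ℝ := W ((√(rgoC h))⁻¹ • z)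

/-- The tilt seen in that coordinate. -/
noncomputable def xiOf (h : ℝ) (d : ℕ) : E d →L[ℝ] E d :=
  (h * √(rgoC h))⁻¹ • ContinuousLinearMap.id ℝ (E d)

theorem good_one_of_lip {f : E d → ℝ} (hf : ContDiff ℝ 1 f) (hp : PolyBd f)
    (hp' : PolyBd fun x => fderiv ℝ f x) : Good 1 f := by
  refine ⟨hf.differentiable one_ne_zero, hp, fun u => ⟨?_, ?_⟩⟩
  · exact (hf.continuous_fderiv one_ne_zero).clm_apply continuous_const
  · exact hp'.mul_of_le (PolyBd.const u) fun x => ContinuousLinearMap.le_opNorm _ _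

theorem abs_cov_le {W f g : E d → ℝ} {η B A A' : ℝ} (hW : Pert η B W) (hf : Good 2 f)
    (hg : Good 2 g) (hA : 0 ≤ A) (hA' : 0 ≤ A') (hfA : ∀ x, ‖fderiv ℝ f x‖ ≤ A)
    (hgA : ∀ x, ‖fderiv ℝ g x‖ ≤ A') :
    |∫ x, f x * g x ∂law W - (∫ x, f x ∂law W) * ∫ x, g x ∂law W| ≤ A * A' := by
  have := hW.isProbabilityMeasure_law
  set mf := ∫ x, f x ∂law W
  set mg := ∫ x, g x ∂law W
  have var : ∀ (k : E d → ℝ) (K : ℝ), Good 2 k → (∀ x, ‖fderiv ℝ k x‖ ≤ K) → 0 ≤ K →
      Integrable (fun x => (k x - ∫ y, k y ∂law W) ^ 2) (law W) ∧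
      √(∫ x, (k x - ∫ y, k y ∂law W) ^ 2 ∂law W) ≤ K := by
    intro k K hk hkK hK
    have hk1 : Integrable k (law W) := hW.integrable_law hk.polyBd hk.continuous
    have hk2 : Integrable (fun x => k x ^ 2) (law W) :=
      hW.integrable_law (hk.sq).polyBd (hk.sq).continuous
    set m := ∫ y, k y ∂law W
    have e : (fun x => (k x - m) ^ 2) = fun x => k x ^ 2 - 2 * m * k x + m ^ 2 := by
      funext x; ring
    refine ⟨?_, ?_⟩
    · rw [e]; exact (hk2.sub' (hk1.const_mul _)).add (integrable_const _)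
    · have hv : ∫ x, (k x - m) ^ 2 ∂law W = ∫ x, k x ^ 2 ∂law W - m ^ 2 := by
        rw [e, integral_add (hk2.sub' (hk1.const_mul _)) (integrable_const _),
          integral_sub hk2 (hk1.const_mul _), integral_const_mul, integral_const]
        simp [m]; ring
      rw [hv, Real.sqrt_le_left hK]
      refine (hW.poincare_exact hk).trans ?_
      refine (integral_mono_of_nonneg (ae_of_all _ fun x => sq_nonneg _) (integrable_const (K ^ 2))
        (ae_of_all _ fun x => pow_le_pow_left₀ (norm_nonneg _) (hkK x) 2)).trans ?_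
      simp
  obtain ⟨i1, v1⟩ := var f A hf hfA hA
  obtain ⟨i2, v2⟩ := var g A' hg hgA hA'
  have hfi : Integrable f (law W) := hW.integrable_law hf.polyBd hf.continuous
  have hgi : Integrable g (law W) := hW.integrable_law hg.polyBd hg.continuous
  have hfgi : Integrable (fun x => f x * g x) (law W) :=
    hW.integrable_law (hf.mul hg).polyBd (hf.mul hg).continuous
  have i3 : Integrable (fun x => (f x - mf) * (g x - mg)) (law W) := by
    have e : (fun x => (f x - mf) * (g x - mg)) =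
        fun x => f x * g x - mg * f x - mf * g x + mf * mg := by funext x; ring
    rw [e]
    exact ((hfgi.sub' (hfi.const_mul _)).sub' (hgi.const_mul _)).add (integrable_const _)
  have e : ∫ x, f x * g x ∂law W - mf * mg = ∫ x, (f x - mf) * (g x - mg) ∂law W := by
    have e' : (fun x => (f x - mf) * (g x - mg)) =
        fun x => f x * g x - mg * f x - mf * g x + mf * mg := by funext x; ring
    have i' := (hfgi.sub' (hfi.const_mul mg))
    rw [e', integral_add (i'.sub' (hgi.const_mul _)) (integrable_const _),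
      integral_sub i' (hgi.const_mul _), integral_sub hfgi (hfi.const_mul _), integral_const_mul,
      integral_const_mul, integral_const]
    simp [mf, mg]; ring
  rw [e]
  exact (abs_integral_mul_le_sqrt i1 i2 i3).trans
    (mul_le_mul v1 v2 (Real.sqrt_nonneg _) hA)

section
variable {W : E d → ℝ} (hW : Pert 1 0 W)
include hW

theorem wc_pert {h : ℝ} (hh : 0 < h) : Pert 1 0 (wc W h) := by
  have hc := rgoC_pos hh
  have h1 : (√(rgoC h))⁻¹ ^ 2 * 1 ≤ 1 := by
    rw [mul_one, inv_pow, Real.sq_sqrt hc.le]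
    exact inv_le_one_of_one_le₀ (one_le_rgoC hh)
  have h0 : grad W 0 = 0 := by
    have := hW.grad_zero_le
    simpa using this
  have := hW.affine (b := (√(rgoC h))⁻¹) 0 0 h1 le_rfl (le_refl (0 : ℝ))
    (by simp [h0])
  have e : wc W h = fun z => W ((√(rgoC h))⁻¹ • z) := rfl
  rw [e]; simpa using this

theorem kn_eq_tm {h : ℝ} (hh : 0 < h) {u : E d → ℝ} (hu : Continuous u) (y : E d) :
    kn W h u y = tm (wc W h) (fun z => u ((√(rgoC h))⁻¹ • z)) (fun _ => 1) (xiOf h d y) := by
  have hc := rgoC_pos hh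
  set r := √(rgoC h) with hr
  have hr0 : r ≠ 0 := (Real.sqrt_pos.2 hc).ne'
  have hrr : r ^ 2 = rgoC h := Real.sq_sqrt hc.le
  obtain ⟨A, hA, hy⟩ : ∃ A : ℝ, 0 ≤ A ∧ ‖y‖ ≤ A * √d := by
    rcases Nat.eq_zero_or_pos d with rfl | hd
    · exact ⟨0, le_rfl, by simp [Subsingleton.elim y 0]⟩
    · refine ⟨‖y‖ / √d, by positivity, ?_⟩
      rw [div_mul_cancel₀ _ (Real.sqrt_pos.2 (Nat.cast_pos.2 hd)).ne']
  have hp := hW.rgo_pert hh hA hy
  have hq := (wc_pert hW hh).pert_tilt (xiOf h d y)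
  set p := rgoPt W h y
  have key : ∀ z, exp (-pot (tilt (wc W h) (xiOf h d y)) (z + r • p)) =
      exp (‖y‖ ^ 2 / (2 * h)) * exp (-(rgoC h / 2 * ‖p - rgoCenter h y‖ ^ 2 +
        ‖y‖ ^ 2 / (2 * (1 + h)))) * exp (-pot (rgo W h y) z) := by
    intro z
    rw [← exp_add, ← exp_add]
    congr 1
    have h2 := Pert.pot_rgo (W := W) hh y z
    have e1 : z + r • p = r • rgoMap W h y z := by
      simp only [rgoMap, p, ← hr, smul_add, smul_smul, mul_inv_cancel₀ hr0, one_smul]
      abel
    set x := rgoMap W h y z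
    have e2 : pot (tilt (wc W h) (xiOf h d y)) (z + r • p) =
        rgoC h * ‖x‖ ^ 2 / 2 + W x - ⟪x, y⟫ / h := by
      rw [e1]
      simp only [pot, tilt, wc, ← hr, smul_smul, inv_mul_cancel₀ hr0, one_smul, norm_smul,
        mul_pow, Real.norm_eq_abs, sq_abs, hrr, xiOf, ContinuousLinearMap.smul_apply,
        ContinuousLinearMap.id_apply, real_inner_smul_left, real_inner_smul_right,
        real_inner_comm y x]
      field_simp
      ring
    have e3 : pot W x + ‖x - y‖ ^ 2 / (2 * h) =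
        rgoC h * ‖x‖ ^ 2 / 2 + W x - ⟪x, y⟫ / h + ‖y‖ ^ 2 / (2 * h) := by
      rw [norm_sub_sq_real, pot, rgoC]
      field_simp
      ring
    rw [e2]
    linarith
  have tr : ∀ g : E d → ℝ, ∫ z, exp (-pot (tilt (wc W h) (xiOf h d y)) z) • g z =
      ∫ z, exp (-pot (tilt (wc W h) (xiOf h d y)) (z + r • p)) • g (z + r • p) := fun g =>
    (integral_add_right_eq_self (fun z => exp (-pot (tilt (wc W h) (xiOf h d y)) z) • g z)
      (r • p)).symm
  have t1 := tr fun z => u (r⁻¹ • z) * 1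
  have t0 := tr fun _ => 1
  simp only [smul_eq_mul, mul_one] at t0 t1
  have hmap : Measurable (rgoMap W h y) := by unfold rgoMap; fun_prop
  rw [kn, rgoK, integral_map hmap.aemeasurable hu.aestronglyMeasurable, tm, hp.integral_law,
    hq.integral_law]
  simp only [smul_eq_mul, mul_one, ← hr]
  rw [t0, t1]
  simp only [key]
  have e4 : ∀ z, r⁻¹ • (z + r • p) = rgoMap W h y z := fun z => by
    simp only [rgoMap, p, ← hr, smul_add, smul_smul, inv_mul_cancel₀ hr0, one_smul]
    abel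
  simp only [e4, mul_assoc, integral_const_mul]
  field_simp

/-- `kn` contracts Lipschitz constants by `1 + h`. -/
theorem kn_step {h : ℝ} (hh : 0 < h) {u : E d → ℝ} (hu : Good 2 u) {L : ℝ} (hL : 0 ≤ L)
    (huL : ∀ x, ‖fderiv ℝ u x‖ ≤ L) :
    Good 2 (kn W h u) ∧ ∀ y, ‖fderiv ℝ (kn W h u) y‖ ≤ L / (1 + h) := by
  have hc := rgoC_pos hh
  set r := √(rgoC h) with hr
  have hr0 : 0 < r := Real.sqrt_pos.2 hc
  have hrr : r * r = rgoC h := Real.mul_self_sqrt hc.le
  have hS := wc_pert hW hh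
  set A : E d →L[ℝ] E d := r⁻¹ • ContinuousLinearMap.id ℝ (E d)
  set f : E d → ℝ := fun z => u (A z)
  have hfg : Good 2 f := hu.comp A
  have e : kn W h u = fun y => tm (wc W h) f (fun _ => 1) (xiOf h d y) := by
    funext y; rw [kn_eq_tm hW hh hu.continuous]; rfl
  have hT : ∀ n, Good n (tm (wc W h) f fun _ => 1) := fun n =>
    hS.good_tm hfg.continuous hfg.polyBd n fun k => good_const k 1
  rw [e]
  refine ⟨(hT 2).comp (xiOf h d), fun y => ?_⟩
  refine ContinuousLinearMap.opNorm_le_bound _ (by positivity) fun v => ?_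
  set ξ := xiOf h d y
  have hd1 := hS.hasFDerivAt_tm hfg.continuous hfg.polyBd (H := fun _ => 1) (good_const 1 1) ξ
  have hcomp : fderiv ℝ (fun y => tm (wc W h) f (fun _ => 1) (xiOf h d y)) y v =
      dd (xiOf h d v) (tm (wc W h) f fun _ => 1) ξ := by
    have hh2 := ((hd1.1).hasFDerivAt.comp y (xiOf h d).hasFDerivAt).fderiv
    rw [Function.comp_def] at hh2
    rw [hh2]
    rfl
  set v' := xiOf h d v
  have hQ := hS.pert_tilt ξ
  have hg2 : Good 2 fun z : E d => ⟪z, v'⟫ := by
    have := good_linear (V := E d) 2 (innerSL ℝ v')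
    simpa [real_inner_comm v'] using this
  have hop : ∀ z, opD v' (fun _ => (1 : ℝ)) (ξ, z) = ⟪z, v'⟫ := fun z => by
    simp [opD, zc, dd_const]
  rw [Real.norm_eq_abs, hcomp, hd1.2 v']
  simp only [tm, mul_one, one_mul, hop, zc]
  have hgA : ∀ x, ‖fderiv ℝ (fun z : E d => ⟪z, v'⟫) x‖ ≤ ‖v'‖ := fun x => by
    have h1 : HasFDerivAt (fun z : E d => ⟪z, v'⟫) (innerSL ℝ v') x := by
      simpa [real_inner_comm v'] using (innerSL ℝ v').hasFDerivAt
    rw [h1.fderiv, innerSL_apply_norm]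
  have hfA : ∀ x, ‖fderiv ℝ f x‖ ≤ L * r⁻¹ := fun x => by
    have hh2 := (((hu.differentiable) (A x)).hasFDerivAt.comp x A.hasFDerivAt).fderiv
    rw [Function.comp_def] at hh2
    rw [hh2]
    refine (ContinuousLinearMap.opNorm_comp_le _ _).trans ?_
    refine mul_le_mul (huL _) ?_ (norm_nonneg _) hL
    refine ContinuousLinearMap.opNorm_le_bound _ (by positivity) fun w => ?_
    simp [A, norm_smul, abs_of_pos hr0]
  refine (abs_cov_le hQ hfg hg2 (by positivity) (norm_nonneg v') hfA hgA).trans ?_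
  have e2 : ‖v'‖ = (h * r)⁻¹ * ‖v‖ := by
    simp [v', xiOf, norm_smul, abs_of_pos hh, abs_of_pos hr0, hr]
  rw [e2]
  refine le_of_eq ?_
  have e3 : h * (r * r) = 1 + h := by rw [hrr, rgoC]; field_simp
  rw [← e3]
  field_simp

end

end Vale.Agent.P347.Zero
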