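import Vale.Agent.P347.Zero.Prox

/-!
# P347, exponent zero: the laws of the proximal chain
-/

open MeasureTheory ProbabilityTheory Real Set Function
open scoped RealInnerProductSpace

namespace Vale.Agent.P347.Zero

open Deriv

variable {d : ℕ}

/-- The law after `k` rounds of blurring and resampling, started from the blurred point `0`. -/
noncomputable def proxLaw (W : E d → ℝ) (h : ℝ) : ℕ → Measure (E d)
  | 0 => rgoK W h 0
  | k + 1 => (blur h (proxLaw W h k)).bind (rgoK W h)

/-- One backward step on test functions. -/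
noncomputable def proxT (W : E d → ℝ) (h : ℝ) (v : E d → ℝ) : E d → ℝ := sm √h (kn W h v)

/-- A smooth substitute of the norm. -/
noncomputable def sqrtOnePlusSq (x : E d) : ℝ := √(1 + ‖x‖ ^ 2)

section
variable {W : E d → ℝ} (hW : Pert 1 0 W)
include hW

theorem measurable_rgoK {h : ℝ} (hh : 0 < h) : Measurable (rgoK W h) :=
  Measure.measurable_of_measurable_coe _ fun _ hS => hW.measurable_map_rgo hh hS

theorem isProb_rgoK {h : ℝ} (hh : 0 < h) (y : E d) : IsProbabilityMeasure (rgoK W h y) :=
  hW.isProbabilityMeasure_map_rgo hh y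

theorem blur_bind_rgoK {h : ℝ} (hh : 0 < h) : (blur h (law W)).bind (rgoK W h) = law W := by
  refine Measure.ext fun S hS => ?_
  rw [Measure.bind_apply hS (measurable_rgoK hW hh).aemeasurable]
  exact hW.lintegral_map_rgo_blur hh hS

theorem isProb_proxLaw {h : ℝ} (hh : 0 < h) : ∀ k, IsProbabilityMeasure (proxLaw W h k)
  | 0 => isProb_rgoK hW hh 0
  | k + 1 => by
    have := isProb_proxLaw hh k
    refine ⟨?_⟩
    rw [proxLaw, Measure.bind_apply MeasurableSet.univ (measurable_rgoK hW hh).aemeasurable,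
      lintegral_congr fun y => (isProb_rgoK hW hh y).measure_univ]
    simp

omit hW in
theorem integrable_proxT_aux {μ : Measure (E d)} [IsProbabilityMeasure μ] {f : E d → ℝ}
    (hf : Continuous f) {M : ℝ} (hM : ∀ x, |f x| ≤ M) : Integrable f μ :=
  Integrable.of_bound hf.aestronglyMeasurable M (ae_of_all _ fun x => hM x)

theorem integral_bind_rgoK {h : ℝ} (hh : 0 < h) {μ : Measure (E d)} [IsProbabilityMeasure μ]
    {v : E d → ℝ} (hv : Continuous v) (hi : Integrable v (μ.bind (rgoK W h))) :
    ∫ x, v x ∂μ.bind (rgoK W h) = ∫ y, kn W h v y ∂μ := by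
  let κ : Kernel (E d) (E d) := ⟨rgoK W h, measurable_rgoK hW hh⟩
  have e : μ.bind (rgoK W h) = (κ ∘ₖ Kernel.const Unit μ) () := by
    rw [Kernel.comp_apply]; simp [κ]
  rw [e] at hi ⊢
  rw [Kernel.integral_comp hi, Kernel.const_apply]
  rfl

/-- A bounded test pushed one step back. -/
theorem integral_proxLaw_succ {h : ℝ} (hh : 0 < h) {v : E d → ℝ} (hv : Good 2 v) {M : ℝ}
    (hM : ∀ x, |v x| ≤ M) {L : ℝ} (hL : 0 ≤ L) (hvL : ∀ x, ‖fderiv ℝ v x‖ ≤ L) (k : ℕ) :
    ∫ x, v x ∂proxLaw W h (k + 1) = ∫ x, proxT W h v x ∂proxLaw W h k := by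
  have := isProb_proxLaw hW hh k
  have := isProb_proxLaw hW hh (k + 1)
  have hk : ∀ y, |kn W h v y| ≤ M := fun y => by
    have := isProb_rgoK hW hh y
    exact (norm_integral_le_of_norm_le_const (μ := rgoK W h y) (f := v)
      (ae_of_all _ fun x => hM x)).trans (by simp)
  rw [proxLaw, integral_bind_rgoK hW hh hv.continuous
    (integrable_proxT_aux (μ := proxLaw W h (k + 1)) hv.continuous hM),
    integral_blur h _ (kn_step hW hh hv hL hvL).1.continuous hk]
  rfl

theorem integral_law_proxT {h : ℝ} (hh : 0 < h) {v : E d → ℝ} (hv : Good 2 v) {M : ℝ}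
    (hM : ∀ x, |v x| ≤ M) {L : ℝ} (hL : 0 ≤ L) (hvL : ∀ x, ‖fderiv ℝ v x‖ ≤ L) :
    ∫ x, v x ∂law W = ∫ x, proxT W h v x ∂law W := by
  have := hW.isProbabilityMeasure_law
  have hk : ∀ y, |kn W h v y| ≤ M := fun y => by
    have := isProb_rgoK hW hh y
    exact (norm_integral_le_of_norm_le_const (μ := rgoK W h y) (f := v)
      (ae_of_all _ fun x => hM x)).trans (by simp)
  conv_lhs => rw [← blur_bind_rgoK hW hh]
  rw [integral_bind_rgoK hW hh hv.continuous (by
      rw [blur_bind_rgoK hW hh]; exact integrable_proxT_aux hv.continuous hM),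
    integral_blur h _ (kn_step hW hh hv hL hvL).1.continuous hk]
  rfl

theorem proxT_step {h : ℝ} (hh : 0 < h) {v : E d → ℝ} (hv : Good 2 v) {L : ℝ} (hL : 0 ≤ L)
    (hvL : ∀ x, ‖fderiv ℝ v x‖ ≤ L) {M : ℝ} (hM : ∀ x, |v x| ≤ M) :
    Good 2 (proxT W h v) ∧ (∀ x, ‖fderiv ℝ (proxT W h v) x‖ ≤ L / (1 + h)) ∧
      ∀ x, |proxT W h v x| ≤ M := by
  obtain ⟨hg, hb⟩ := kn_step hW hh hv hL hvL
  have hg1 : Good 1 (kn W h v) := hg.mono (by omega)
  refine ⟨good_sm (n := 0) hg1 (Real.sqrt_pos.2 hh).ne', fun x => ?_, fun x => ?_⟩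
  · rw [proxT, (sm_hasFDerivAt hg.contDiff_one hg.polyBd hg.polyBd_fderiv √h x).fderiv]
    exact (norm_integral_le_of_norm_le_const (μ := stdGaussian (E d))
      (ae_of_all _ fun z => hb _)).trans (by simp)
  · have hk : ∀ y, |kn W h v y| ≤ M := fun y => by
      have := isProb_rgoK hW hh y
      exact (norm_integral_le_of_norm_le_const (μ := rgoK W h y) (f := v)
        (ae_of_all _ fun x => hM x)).trans (by simp)
    rw [proxT, sm]
    exact (norm_integral_le_of_norm_le_const (μ := stdGaussian (E d))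
      (f := fun z => kn W h v (x + √h • z)) (ae_of_all _ fun z => hk _)).trans (by simp)

/-- The chain forgets its start geometrically. -/
theorem proxLaw_forget {h : ℝ} (hh : 0 < h) {M : ℝ} : ∀ (k : ℕ) (v : E d → ℝ) (L : ℝ), Good 2 v →
    0 ≤ L → (∀ x, ‖fderiv ℝ v x‖ ≤ L) → (∀ x, |v x| ≤ M) →
    |∫ x, v x ∂proxLaw W h k - ∫ x, v x ∂law W| ≤
      L / (1 + h) ^ k * ((1 + √h) * √d + ∫ x, ‖x‖ ∂law W) := by
  intro k
  induction k with
  | zero =>
    intro v L hv hL hvL hM
    obtain ⟨hg, hb⟩ := kn_step hW hh hv hL hvL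
    have := hW.isProbabilityMeasure_law
    have := isProb_rgoK hW hh (0 : E d)
    have e0 : ∫ x, v x ∂proxLaw W h 0 = kn W h v 0 := rfl
    have hk : ∀ y, |kn W h v y| ≤ M := fun y => by
      have := isProb_rgoK hW hh y
      exact (norm_integral_le_of_norm_le_const (μ := rgoK W h y) (f := v)
        (ae_of_all _ fun x => hM x)).trans (by simp)
    have e1 : ∫ x, v x ∂law W = ∫ y, kn W h v y ∂blur h (law W) := by
      conv_lhs => rw [← blur_bind_rgoK hW hh]
      exact integral_bind_rgoK hW hh hv.continuous (by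
        rw [blur_bind_rgoK hW hh]; exact integrable_proxT_aux hv.continuous hM)
    have hi : Integrable (kn W h v) (blur h (law W)) := integrable_proxT_aux hg.continuous hk
    have hl : ∀ y, |kn W h v 0 - kn W h v y| ≤ L * ‖y‖ := fun y => by
      refine ((convex_univ.norm_image_sub_le_of_norm_fderiv_le
        (fun z _ => hg.differentiable z) (fun z _ => hb z) (mem_univ y) (mem_univ 0)).trans ?_)
      rw [zero_sub, norm_neg]
      exact mul_le_mul_of_nonneg_right (div_le_self hL (by linarith)) (norm_nonneg _)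
    have hn1 : Integrable (fun x : E d => ‖x‖) (law W) :=
      hW.integrable_law PolyBd.id.norm continuous_norm
    have hn2 : Integrable (fun x : E d => ‖x‖) (stdGaussian (E d)) :=
      PolyBd.id.norm.integrable _ continuous_norm.aestronglyMeasurable
    have hmp : Integrable (fun p : E d × E d => ‖p.1 + √h • p.2‖)
        ((law W).prod (stdGaussian (E d))) := by
      refine ((hn1.comp_fst (stdGaussian (E d))).add
        ((hn2.comp_snd (law W)).const_mul √h)).mono' (by fun_prop) (ae_of_all _ fun p => ?_)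
      rw [norm_norm]
      refine (norm_add_le _ _).trans (le_of_eq ?_)
      simp [norm_smul, abs_of_nonneg (Real.sqrt_nonneg h)]
    rw [e0, e1, pow_zero, div_one]
    have hsub : kn W h v 0 - ∫ y, kn W h v y ∂blur h (law W) =
        ∫ y, (kn W h v 0 - kn W h v y) ∂blur h (law W) := by
      rw [integral_sub (integrable_const _) hi]; simp
    have hc : Continuous fun y => kn W h v 0 - kn W h v y := continuous_const.sub hg.continuous
    rw [hsub, blur, integral_map (by fun_prop) hc.aestronglyMeasurable]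
    refine (norm_integral_le_of_norm_le (hmp.const_mul L) (ae_of_all _ fun p => by rw [Real.norm_eq_abs]; exact hl _)).trans ?_
    rw [integral_const_mul]
    refine mul_le_mul_of_nonneg_left ?_ hL
    have i2 : Integrable (fun p : E d × E d => ‖p.1‖ + √h * ‖p.2‖)
        ((law W).prod (stdGaussian (E d))) :=
      (hn1.comp_fst (stdGaussian (E d))).add ((hn2.comp_snd (law W)).const_mul √h)
    refine (integral_mono hmp i2 fun p => (norm_add_le _ _).trans (le_of_eq ?_)).trans ?_
    · simp [norm_smul, abs_of_nonneg (Real.sqrt_nonneg h)]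
    · rw [integral_add (hn1.comp_fst _) ((hn2.comp_snd _).const_mul _), integral_const_mul,
        integral_fun_fst (f := fun x : E d => ‖x‖), integral_fun_snd (f := fun x : E d => ‖x‖)]
      simp only [probReal_univ, one_smul]
      nlinarith [integral_norm_stdGaussian_le (d := d), Real.sqrt_nonneg h, Real.sqrt_nonneg (d : ℝ)]
  | succ k ih =>
    intro v L hv hL hvL hM
    obtain ⟨h1, h2, h3⟩ := proxT_step hW hh hv hL hvL hM
    rw [integral_proxLaw_succ hW hh hv hM hL hvL k, integral_law_proxT hW hh hv hM hL hvL]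
    refine (ih _ _ h1 (by positivity) h2 h3).trans (le_of_eq ?_)
    rw [pow_succ, div_div, mul_comm ((1 + h)) _]

end

end Vale.Agent.P347.Zero
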