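import Vale.Agent.P347.Zero.Ops

/-!
# P347, exponent zero: a class of families closed under the backward operator

Starting from one family killed by the backward operator the class is closed under derivatives,
divergences and flat multipliers; the count `k` of multipliers `tA` is the power of `η / g` in
the size of a member.
-/

open MeasureTheory ProbabilityTheory Real Set Function
open scoped RealInnerProductSpace

namespace Vale.Agent.P347.Zero

open Deriv

theorem Bd.cols {d : ℕ} {σ c : ℝ} : ∀ {r : ℕ} {ι κ κ' : Type} [Fintype ι] [Fintype κ] [Fintype κ']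
    (f : κ' ≃ κ) {M : ι → κ → E d → ℝ}, Bd σ c r M → Bd σ c r (fun i k => M i (f k))
  | 0, ι, κ, κ', _, _, _, f, M, h => ⟨fun x a => by
      have e := h.1 x fun k => a (f.symm k)
      rw [← f.sum_comp fun k => a (f.symm k) ^ 2] at e
      simp only [← f.sum_comp fun k => M _ k x * a (f.symm k), Equiv.symm_apply_apply] at e
      exact e, fun i k => h.2 _ _⟩
  | r + 1, ι, κ, κ', _, _, _, f, M, h => ⟨fun x a => by
      have e := h.1 x fun k => a (f.symm k)
      rw [← f.sum_comp fun k => a (f.symm k) ^ 2] at e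
      simp only [← f.sum_comp fun k => M _ k x * a (f.symm k), Equiv.symm_apply_apply] at e
      exact e, fun i k => h.2.1 _ _, Bd.cols (r := r) f h.2.2⟩

/-- functions `Unit → Fin d` are coordinates -/
def unitEquiv (d : ℕ) : Fin d ≃ (Unit → Fin d) := (Equiv.funUnique Unit (Fin d)).symm

theorem tD_two (p : Par) {t : ℝ} (ht : 0 < t) (y : E p.d) (a b : Unit → Fin p.d) :
    tD (Unit ⊕ Unit) p t y (Sum.elim a b) = dd (bas (a ())) (dd (bas (b ())) (tU p.W t)) y := by
  simp only [tD]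
  rw [ddL_perm (good_tU p.pert ht) (legs_sum a b)]
  simp [legs, ddL]

theorem exists_bd_hess (r : ℕ) : ∃ C : ℝ, 0 ≤ C ∧ ∀ (p : Par) (t : ℝ), 1 ≤ t →
    Bd 1 C r (hessM (tU p.W t)) := by
  have hT : Ten (Unit ⊕ Unit) (tD (Unit ⊕ Unit)) := Ten.base (by simp)
  obtain ⟨C, hC, h⟩ := Ten.bd r (Equiv.refl (Unit ⊕ Unit)) hT
  refine ⟨C, hC, fun p t ht => ?_⟩
  have hle : p.η * exp (-t) ≤ 1 :=
    mul_le_one₀ p.pert.eta_le_one (exp_pos _).le (exp_le_one_iff.2 (by linarith))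
  have hb := Bd.cols (unitEquiv p.d) (Bd.rows (unitEquiv p.d) (h p t ht 1 one_pos hle))
  convert hb using 1
  funext i k y
  have e := tD_two p (show 0 < t by linarith) y (unitEquiv p.d i) (unitEquiv p.d k)
  simp only [flatM, inv_one, one_mul, hessM]
  exact (e.trans rfl).symm

section
variable {ι₀ : ℕ → Type} [∀ d, Fintype (ι₀ d)]

/-- the seed of the class -/
structure Base (F₀ : Fam ι₀) (b : Par → ℝ) : Prop where
  smJ : ∀ p i, SmJ fun t z => F₀ p t i z
  good : ∀ (p : Par) (t : ℝ), 0 < t → ∀ i n, Good n (F₀ p t i)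
  bZero : ∀ (p : Par) (t : ℝ), 0 < t → ∀ i z, bF F₀ p t i z = 0
  size : ∀ r, ∃ C : ℝ, 0 ≤ C ∧ ∀ p : Par, p.OK → ∀ t : ℝ, 1 ≤ t →
    Deriv.Q (tU p.W t) 1 r (F₀ p t) ≤ C * b p ^ 2

/-- the class generated by `F₀` -/
inductive Reg (F₀ : Fam ι₀) : ℕ → (ι : ℕ → Type) → [∀ d, Fintype (ι d)] → Fam ι → Prop
  | base : Reg F₀ 0 ι₀ F₀
  | add {k : ℕ} {ι : ℕ → Type} [∀ d, Fintype (ι d)] {F G : Fam ι} :
      Reg F₀ k ι F → Reg F₀ k ι G → Reg F₀ k ι (fun p t i z => F p t i z + G p t i z)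
  | smul {k : ℕ} {ι : ℕ → Type} [∀ d, Fintype (ι d)] (c : ℝ) {F : Fam ι} :
      Reg F₀ k ι F → Reg F₀ k ι (fun p t i z => c * F p t i z)
  | decay {k : ℕ} {ι : ℕ → Type} [∀ d, Fintype (ι d)] {F : Fam ι} :
      Reg F₀ k ι F → Reg F₀ k ι (decay F)
  | reindex {k : ℕ} {ι ι' : ℕ → Type} [∀ d, Fintype (ι d)] [∀ d, Fintype (ι' d)]
      (f : ∀ d, ι' d ≃ ι d) {F : Fam ι} :
      Reg F₀ k ι F → Reg F₀ k ι' (fun p t i z => F p t (f p.d i) z)
  | mono {k k' : ℕ} (h : k' ≤ k) {ι : ℕ → Type} [∀ d, Fintype (ι d)] {F : Fam ι} :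
      Reg F₀ k ι F → Reg F₀ k' ι F
  | congr {k : ℕ} {ι : ℕ → Type} [∀ d, Fintype (ι d)] {F G : Fam ι}
      (h : ∀ p t, 0 < t → ∀ i z, G p t i z = F p t i z) : Reg F₀ k ι F → Reg F₀ k ι G
  | mulT {k : ℕ} (s : ℕ) (hs : s ≤ 1) {α : ℕ → Type} [∀ d, Fintype (α d)] {L P Q : Type}
      [Fintype L] [DecidableEq L] [Fintype P] [DecidableEq P] [Fintype Q] [DecidableEq Q]
      [Nonempty P] [Nonempty Q] (e : P ⊕ Q ≃ L) {T : TF L} (hT : Ten L T)
      {F : Fam fun d => α d × (Q → Fin d)} :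
      Reg F₀ k (fun d => α d × (Q → Fin d)) F →
        Reg F₀ (k + s) (fun d => α d × (P → Fin d)) (mulT s e T F)
  | dX {k : ℕ} {ι : ℕ → Type} [∀ d, Fintype (ι d)] {F : Fam ι} :
      Reg F₀ k ι F → Reg F₀ k (fun d => ι d × Fin d) (dXF F)
  | dV {k : ℕ} {ι : ℕ → Type} [∀ d, Fintype (ι d)] {F : Fam ι} :
      Reg F₀ k ι F → Reg F₀ k (fun d => ι d × Fin d) (dVF F)
  | delX {k : ℕ} {α : ℕ → Type} [∀ d, Fintype (α d)] {F : Fam fun d => α d × Fin d} :
      Reg F₀ k (fun d => α d × Fin d) F → Reg F₀ k α (delX F)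
  | delV {k : ℕ} {α : ℕ → Type} [∀ d, Fintype (α d)] {F : Fam fun d => α d × Fin d} :
      Reg F₀ k (fun d => α d × Fin d) F → Reg F₀ k α (delV F)

theorem smJ_px (p : Par) (j : Fin p.d) : SmJ fun t z => px (tU p.W t) j z :=
  (SmJ.space fun _ => (innerSL ℝ (bas j)).contDiff.comp contDiff_fst).add
    (((smJ_tU p).dd (bas j)).comp_lin (ContinuousLinearMap.fst ℝ (E p.d) (E p.d)))

theorem smJ_pv (p : Par) (j : Fin p.d) : SmJ fun (_ : ℝ) z => pv (d := p.d) j z :=
  SmJ.space fun _ => (innerSL ℝ (bas j)).contDiff.comp contDiff_snd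

theorem smJ_driftZ (p : Par) (i : Fin p.d) : SmJ (driftZ p i) :=
  (smJ_drift p i).comp_lin (ContinuousLinearMap.fst ℝ (E p.d) (E p.d))

theorem contDiffOn_scal (s : ℕ) (p : Par) (n : ℕ) : ContDiffOn ℝ n (scal s p) (Ioi 0) :=
  ((contDiff_const.mul Real.contDiff_exp).pow s).contDiffOn

theorem smJ_mulT_entry (p : Par) (s : ℕ) {L : Type} [Fintype L] [DecidableEq L] {T : TF L}
    (hT : Ten L T) (J : L → Fin p.d) : SmJ fun t (z : Z p.d) => scal s p t * T p t z.1 J :=
  (SmJ.time fun n => contDiffOn_scal s p n).mul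
    ((hT.smJ p J).comp_lin (ContinuousLinearMap.fst ℝ (E p.d) (E p.d)))

variable {F₀ : Fam ι₀} {b : Par → ℝ}

theorem Reg.smJ {k : ℕ} {ι : ℕ → Type} [∀ d, Fintype (ι d)] {F : Fam ι} (h : Reg F₀ k ι F)
    (h₀ : Base F₀ b) (p : Par) : ∀ i, SmJ fun t z => F p t i z := by
  induction h with
  | base => exact h₀.smJ p
  | add _ _ ih1 ih2 => exact fun i => (ih1 i).add (ih2 i)
  | smul c _ ih => exact fun i => (SmJ.const c).mul (ih i)
  | decay _ ih =>
    exact fun i => (SmJ.time fun n => (Real.contDiff_exp.comp contDiff_neg).contDiffOn).mul (ih i)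
  | reindex f _ ih => exact fun i => ih _
  | mono _ _ ih => exact ih
  | congr h _ ih => exact fun i => (ih i).congr fun t ht z => h p t ht i z
  | mulT s _ e hT _ ih => exact fun i => SmJ.sum _ fun b _ => (smJ_mulT_entry p s hT _).mul (ih _)
  | dX _ ih => exact fun i => (ih _).dd _
  | dV _ ih => exact fun i => (ih _).dd _
  | @delX k α _ F _ ih =>
    exact fun i => SmJ.sum (F := fun j t z =>
      px (tU p.W t) j z * F p t (i, j) z - dd (ex j) (F p t (i, j)) z) Finset.univ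
        fun j _ => ((smJ_px p j).mul (ih _)).sub ((ih _).dd _)
  | @delV k α _ F _ ih =>
    exact fun i => SmJ.sum (F := fun j t z => pv j z * F p t (i, j) z - dd (ev j) (F p t (i, j)) z) Finset.univ
        fun j _ => ((smJ_pv p j).mul (ih _)).sub ((ih _).dd _)

theorem good_px_tU (p : Par) {t : ℝ} (ht : 0 < t) (j : Fin p.d) (n : ℕ) :
    Good n (px (tU p.W t) j) := good_px (good_tU p.pert ht (n + 1)) j

theorem Reg.good {k : ℕ} {ι : ℕ → Type} [∀ d, Fintype (ι d)] {F : Fam ι} (h : Reg F₀ k ι F)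
    (h₀ : Base F₀ b) (p : Par) {t : ℝ} (ht : 0 < t) : ∀ i n, Good n (F p t i) := by
  induction h with
  | base => exact h₀.good p t ht
  | add _ _ ih1 ih2 => exact fun i n => (ih1 i n).add (ih2 i n)
  | smul c _ ih => exact fun i n => (ih i n).const_mul c
  | decay _ ih => exact fun i n => (ih i n).const_mul _
  | reindex f _ ih => exact fun i => ih _
  | mono _ _ ih => exact ih
  | congr h _ ih => intro i n; rw [funext (h p t ht i)]; exact ih i n
  | mulT s _ e hT _ ih =>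
    exact fun i n => good_mulF (fun a b => (hT.good p ht _ n).const_mul _) (fun q => ih q n) i
  | dX _ ih => exact fun i n => (ih _ (n + 1)).dd _
  | dV _ ih => exact fun i n => (ih _ (n + 1)).dd _
  | delX _ ih => exact fun i n => good_delG (fun j n => good_px_tU p ht j n) ih i n
  | delV _ ih => exact fun i n => good_delG (fun j n => good_pv n j) ih i n

/-- multiplication by the Hessian of `tU`, scaled -/
theorem Reg.hess {k : ℕ} (s : ℕ) (hs : s ≤ 1) {α : ℕ → Type} [∀ d, Fintype (α d)]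
    {F : Fam fun d => α d × Fin d} (h : Reg F₀ k (fun d => α d × Fin d) F) :
    Reg F₀ (k + s) (fun d => α d × Fin d) (fun p t i z =>
      ∑ j, scal s p t * dd (bas i.2) (dd (bas j) (tU p.W t)) z.1 * F p t (i.1, j) z) := by
  have h1 := h.reindex fun d => (Equiv.refl (α d)).prodCongr (Equiv.funUnique Unit (Fin d))
  have h2 := (h1.mulT s hs (Equiv.refl (Unit ⊕ Unit)) (Ten.base (by simp))).reindex
    fun d => (Equiv.refl (α d)).prodCongr (unitEquiv d)
  refine Reg.congr (fun p t ht i z => ?_) h2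
  refine Fintype.sum_equiv (unitEquiv p.d) _ _ fun j => ?_
  have e := tD_two p ht z.1 (unitEquiv p.d i.2) (unitEquiv p.d j)
  simp only [flatM, Equiv.refl_symm, Equiv.refl_apply]
  show _ = (scal s p t * tD (Unit ⊕ Unit) p t z.1
    (Sum.elim (unitEquiv p.d i.2) (unitEquiv p.d j))) * F p t (i.1, j) z
  rw [e]
  rfl

theorem Reg.mulA {k : ℕ} {α : ℕ → Type} [∀ d, Fintype (α d)] {F : Fam fun d => α d × Fin d}
    (h : Reg F₀ k (fun d => α d × Fin d) F) :
    Reg F₀ (k + 1) (fun d => α d × Fin d) (Zero.mulA F) :=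
  Reg.congr (fun p t _ i z => by simp [Zero.mulA, mulF, aM, scal]) (h.hess 1 le_rfl)

/-! ### The backward operator -/

theorem bG_fst (p : Par) {m : ℝ → E p.d → ℝ} (hm : SmJ m) {t : ℝ} (ht : 0 < t) (z : Z p.d) :
    bG ex (driftZ p) (fun t z => m t z.1) t z = bP p m t z.1 := by
  have e1 : ∀ i, dd (ex i) (fun z : Z p.d => m t z.1) = fun z => dd (bas i) (m t) z.1 :=
    fun i => dd_fst (hm.differentiable ht) _
  have e2 : ∀ i, dd (ex i) (fun z : Z p.d => dd (bas i) (m t) z.1) =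
      fun z => dd (bas i) (dd (bas i) (m t)) z.1 :=
    fun i => dd_fst ((hm.dd _).differentiable ht) _
  simp only [bP, bG, driftZ, e1, e2]

theorem dd_ex_driftZ (p : Par) (j i : Fin p.d) {t : ℝ} (ht : 0 < t) (z : Z p.d) :
    dd (ex j) (driftZ p i t) z =
      (if i = j then 1 else 0) + 2 * dd (bas j) (dd (bas i) (tU p.W t)) z.1 := by
  show dd (ex j) (fun z : Z p.d => drift p i t z.1) z = _
  rw [dd_fst ((smJ_drift p i).differentiable ht)]
  show dd (bas j) (drift p i t) z.1 = _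
  rw [dd_drift p i (bas j) ht, inner_bas]

theorem bG_dd_ex (p : Par) {f : ℝ → Z p.d → ℝ} (hf : SmJ f) (j : Fin p.d) {t : ℝ} (ht : 0 < t)
    (z : Z p.d) : bG ex (driftZ p) (fun t z => dd (ex j) (f t) z) t z =
      dd (ex j) (bG ex (driftZ p) f t) z - dd (ex j) (f t) z -
        2 * ∑ i, dd (bas j) (dd (bas i) (tU p.W t)) z.1 * dd (ex i) (f t) z := by
  rw [bG_dd (smJ_driftZ p) hf (ex j) ht, sub_sub]
  congr 1
  simp only [dd_ex_driftZ p j _ ht, add_mul, Finset.sum_add_distrib, Finset.mul_sum, mul_assoc]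
  simp

theorem bG_dd_ev (p : Par) {f : ℝ → Z p.d → ℝ} (hf : SmJ f) (j : Fin p.d) {t : ℝ} (ht : 0 < t)
    (z : Z p.d) : bG ex (driftZ p) (fun t z => dd (ev j) (f t) z) t z =
      dd (ev j) (bG ex (driftZ p) f t) z := by
  rw [bG_dd (smJ_driftZ p) hf (ev j) ht, sub_eq_self]
  refine Finset.sum_eq_zero fun i _ => mul_eq_zero_of_left ?_ _
  show dd (ev j) (fun z : Z p.d => drift p i t z.1) z = 0
  rw [dd_fst ((smJ_drift p i).differentiable ht)]
  simp [ev, Deriv.dd]

theorem bG_px (p : Par) (j : Fin p.d) {t : ℝ} (ht : 0 < t) (z : Z p.d) :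
    bG ex (driftZ p) (fun t z => px (tU p.W t) j z) t z = px (tU p.W t) j z := by
  have hl : SmJ fun (_ : ℝ) (y : E p.d) => ⟪bas j, y⟫ :=
    SmJ.space fun _ => (innerSL ℝ (bas j)).contDiff
  show bG ex (driftZ p) (fun t z => (fun t y => ⟪bas j, y⟫ + dd (bas j) (tU p.W t) y) t z.1) t z = _
  rw [bG_fst p (hl.add ((smJ_tU p).dd _)) ht, bP, bG_add hl ((smJ_tU p).dd _) ht]
  change bG bas (drift p) _ t z.1 + bP p _ t z.1 = _
  rw [bP_dd_tU p j ht]
  have e : ∀ i, dd (bas i) (fun y : E p.d => ⟪bas j, y⟫) = fun _ => ⟪bas j, bas i⟫ := fun i => by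
    funext y
    show fderiv ℝ (⇑(innerSL ℝ (bas j))) y (bas i) = _
    rw [ContinuousLinearMap.fderiv]
    rfl
  simp only [bG, e, dd_const, deriv_const, Finset.sum_const_zero, sub_zero, zero_add, inner_bas]
  simp [drift, px]
  ring

theorem bG_pv (p : Par) (j : Fin p.d) (t : ℝ) (z : Z p.d) :
    bG ex (driftZ p) (fun _ z => pv j z) t z = 0 := by
  simp [bG, dd_pv, ex, dd_const]

theorem dd_ex_px (p : Par) (i j : Fin p.d) {t : ℝ} (ht : 0 < t) (z : Z p.d) :
    dd (ex i) (px (tU p.W t) j) z =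
      (if j = i then 1 else 0) + dd (bas i) (dd (bas j) (tU p.W t)) z.1 := by
  rw [dd_px (good_tU p.pert ht 2), ← inner_bas]
  rfl

theorem bF_delX {α : ℕ → Type} {F : Fam fun d => α d × Fin d} (p : Par)
    (hF : ∀ i, SmJ fun t z => F p t i z) {t : ℝ} (ht : 0 < t) (a : α p.d) (z : Z p.d) :
    bF (delX F) p t a z = delX (bF F) p t a z + delX F p t a z := by
  simp only [bF, delX, delG]
  rw [bG_sum _ (fun j _ => ((smJ_px p j).mul (hF _)).sub ((hF _).dd _)) ht,
    ← Finset.sum_add_distrib]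
  refine Finset.sum_congr rfl fun j _ => ?_
  have hs : SmJ fun t z => px (tU p.W t) j z * F p t (a, j) z := (smJ_px p j).mul (hF _)
  rw [show (fun t z => px (tU p.W t) j z * F p t (a, j) z - dd (ex j) (F p t (a, j)) z) =
      fun t z => px (tU p.W t) j z * F p t (a, j) z + (-1) * dd (ex j) (F p t (a, j)) z from
    funext₂ fun t z => by ring,
    bG_add hs ((SmJ.const _).mul ((hF _).dd _)) ht, bG_const_mul _ ((hF _).dd _) ht,
    bG_mul (smJ_px p j) (hF _) ht, bG_px p j ht, bG_dd_ex p (hF _) j ht]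
  simp only [dd_ex_px p _ j ht, add_mul, Finset.sum_add_distrib, ite_mul, one_mul, zero_mul,
    Finset.sum_ite_eq, Finset.mem_univ, if_true,
    show ∀ i, dd (bas i) (dd (bas j) (tU p.W t)) z.1 = dd (bas j) (dd (bas i) (tU p.W t)) z.1 from
      fun i => congrFun ((smJ_tU p).dd_comm (bas i) (bas j) ht) z.1,
    show bF F p t (a, j) = bG ex (driftZ p) (fun t z => F p t (a, j) z) t from rfl]
  ring

theorem bF_delV {α : ℕ → Type} {F : Fam fun d => α d × Fin d} (p : Par)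
    (hF : ∀ i, SmJ fun t z => F p t i z) {t : ℝ} (ht : 0 < t) (a : α p.d) (z : Z p.d) :
    bF (delV F) p t a z = delV (bF F) p t a z := by
  simp only [bF, delV, delG]
  rw [bG_sum _ (fun j _ => ((smJ_pv p j).mul (hF _)).sub ((hF _).dd _)) ht]
  refine Finset.sum_congr rfl fun j _ => ?_
  have hs : SmJ fun t z => pv j z * F p t (a, j) z := (smJ_pv p j).mul (hF _)
  rw [show (fun t z => pv j z * F p t (a, j) z - dd (ev j) (F p t (a, j)) z) =
      fun t z => pv j z * F p t (a, j) z + (-1) * dd (ev j) (F p t (a, j)) z from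
    funext₂ fun t z => by ring,
    bG_add hs ((SmJ.const _).mul ((hF _).dd _)) ht, bG_const_mul _ ((hF _).dd _) ht,
    bG_mul (smJ_pv p j) (hF _) ht, bG_pv p j, bG_dd_ev p (hF _) j ht]
  simp [dd_pv, ex, show bF F p t (a, j) = bG ex (driftZ p) (fun t z => F p t (a, j) z) t from rfl]
  ring

theorem deriv_scal (s : ℕ) (p : Par) (t : ℝ) : deriv (scal s p) t = s * scal s p t := by
  have h := (((Real.hasDerivAt_exp t).const_mul p.g⁻¹).fun_pow s)
  rw [show scal s p = fun t => (p.g⁻¹ * exp t) ^ s from rfl, h.deriv]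
  rcases s with _ | s
  · simp
  · simp only [scal, add_tsub_cancel_right, pow_succ]
    ring

/-- The class is closed under the backward operator. -/
theorem Reg.bT {k : ℕ} {ι : ℕ → Type} [∀ d, Fintype (ι d)] {F : Fam ι} (h : Reg F₀ k ι F)
    (h₀ : Base F₀ b) : Reg F₀ k ι (bF F) := by
  induction h with
  | base => exact Reg.congr (fun p t ht i z => by rw [h₀.bZero p t ht i z, zero_mul]) (Reg.base.smul 0)
  | add hF hG ih1 ih2 =>
    exact Reg.congr (fun p t ht i z => bG_add (hF.smJ h₀ p i) (hG.smJ h₀ p i) ht z) (ih1.add ih2)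
  | smul c hF ih =>
    exact Reg.congr (fun p t ht i z => bG_const_mul c (hF.smJ h₀ p i) ht z) (ih.smul c)
  | @decay k ι _ F hF ih =>
    refine Reg.congr (fun p t ht i z => ?_) (ih.decay.add (hF.decay.smul (-1)))
    refine (bG_time_mul (k := fun t => exp (-t))
      (fun n => (Real.contDiff_exp.comp contDiff_neg).contDiffOn) (hF.smJ h₀ p i) ht z).trans ?_
    rw [(hasDerivAt_neg t).exp.deriv]
    simp only [Zero.decay, bF]
    ring
  | @reindex k ι ι' _ _ f F hF ih => exact Reg.congr (fun p t ht i z => rfl) (ih.reindex f)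
  | mono hk _ ih => exact ih.mono hk
  | congr h hF ih =>
    exact Reg.congr (fun p t ht i z => bG_congr (fun t ht z => h p t ht i z) ht z) ih
  | @mulT k s hs α _ L P Q _ _ _ _ _ _ _ _ e T hT F hF ih =>
    let e' : P ⊕ (Q ⊕ Unit) ≃ L ⊕ Unit :=
      (Equiv.sumAssoc P Q Unit).symm.trans (e.sumCongr (Equiv.refl Unit))
    have h1 := hF.mulT s hs e ((hT.smul (s : ℝ)).add hT.bT)
    have h2 := ih.mulT s hs e hT
    have h3 := (hF.dX.reindex fun d =>
      ((Equiv.refl (α d)).prodCongr ((Equiv.sumArrowEquivProdArrow Q Unit (Fin d)).trans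
        ((Equiv.refl _).prodCongr (Equiv.funUnique Unit (Fin d))))).trans
          (Equiv.prodAssoc _ _ _).symm).mulT s hs e' hT.dY
    refine Reg.congr (fun p t ht i z => ?_) ((h1.add h2).add (h3.smul (-2)))
    set J : (Q → Fin p.d) → L → Fin p.d := fun c l => Sum.elim i.2 c (e.symm l) with hJ
    have hm : ∀ J, SmJ fun t y => scal s p t * T p t y J := fun J =>
      (SmJ.time fun n => contDiffOn_scal s p n).mul (hT.smJ p J)
    have hms : ∀ J, SmJ fun t (z : Z p.d) => scal s p t * T p t z.1 J := smJ_mulT_entry p s hT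
    have key : ∀ c, bG ex (driftZ p) (fun t z => scal s p t * T p t z.1 (J c) * F p t (i.1, c) z) t z =
        scal s p t * (s * T p t z.1 (J c) + bT' T p t z.1 (J c)) * F p t (i.1, c) z +
          scal s p t * T p t z.1 (J c) * bF F p t (i.1, c) z +
            -2 * ∑ j, scal s p t * dd (bas j) (fun y => T p t y (J c)) z.1 *
              dd (ex j) (F p t (i.1, c)) z := fun c => by
      rw [bG_mul (hms (J c)) (hF.smJ h₀ p _) ht,
        bG_fst p (m := fun t y => scal s p t * T p t y (J c)) (hm _) ht, bP,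
        bG_time_mul (fun n => contDiffOn_scal s p n) (hT.smJ p _) ht, deriv_scal]
      have ed : ∀ j, dd (ex j) (fun z : Z p.d => scal s p t * T p t z.1 (J c)) z =
          scal s p t * dd (bas j) (fun y => T p t y (J c)) z.1 := fun j => by
        rw [dd_fst (f := fun y => scal s p t * T p t y (J c)) ((hm _).differentiable ht),
          dd_const_mul (hT.good p ht _ 1).differentiable]
        rfl
      simp only [ed, bT', bP, bF]
      ring
    simp only [bF, Zero.mulT, mulF, flatM]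
    rw [bG_sum _ (fun c _ => (hms _).mul (hF.smJ h₀ p _)) ht]
    simp only [hJ] at key
    rw [Finset.sum_congr rfl fun c _ => key c, Finset.sum_add_distrib, Finset.sum_add_distrib]
    simp only [← Finset.mul_sum (a := (-2 : ℝ))]
    congr 1
    congr 1
    rw [← (((Equiv.refl (Q → Fin p.d)).prodCongr (unitEquiv p.d)).trans
      (Equiv.sumArrowEquivProdArrow Q Unit (Fin p.d)).symm).sum_comp, Fintype.sum_prod_type]
    refine Finset.sum_congr rfl fun c _ => Finset.sum_congr rfl fun j _ => ?_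
    simp only [dXF, Deriv.dX, Zero.dY]
    congr 1
    congr 1
    congr 2
    funext y
    congr 1
    funext l
    obtain ⟨x, rfl⟩ := e.surjective l
    rcases x with x | x <;> simp [e', unitEquiv, Equiv.sumArrowEquivProdArrow]
  | @dX k ι _ F hF ih =>
    refine Reg.congr (fun p t ht i z => ?_)
      ((ih.dX.add (hF.dX.smul (-1))).add ((hF.dX.hess 0 zero_le_one).smul (-2)))
    refine (bG_dd_ex p (hF.smJ h₀ p i.1) i.2 ht z).trans ?_
    simp only [dXF, Deriv.dX, scal, pow_zero, one_mul,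
      show bF F p t i.1 = bG ex (driftZ p) (fun t z => F p t i.1 z) t from rfl]
    ring
  | @dV k ι _ F hF ih =>
    exact Reg.congr (fun p t ht i z => bG_dd_ev p (hF.smJ h₀ p i.1) i.2 ht z) ih.dV
  | @delX k α _ F hF ih =>
    exact Reg.congr (fun p t ht i z => bF_delX p (hF.smJ h₀ p) ht i z) (ih.delX.add hF.delX)
  | @delV k α _ F hF ih =>
    exact Reg.congr (fun p t ht i z => bF_delV p (hF.smJ h₀ p) ht i z) ih.delV

/-! ### Size -/

theorem scal_mul_le {p : Par} (hp : p.OK) {s : ℕ} (hs : s ≤ 1) {t : ℝ} (ht : 0 ≤ t) :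
    0 ≤ scal s p t * (p.η * exp (-t)) ∧ scal s p t * (p.η * exp (-t)) ≤ (p.η / p.g) ^ s := by
  have hη := p.pert.eta_nonneg
  have hg := hp.1
  refine ⟨by unfold scal; positivity, ?_⟩
  interval_cases s
  · simp only [scal, pow_zero, one_mul]
    exact mul_le_one₀ p.pert.eta_le_one (exp_pos _).le (exp_le_one_iff.2 (by linarith))
  · refine le_of_eq ?_
    simp only [scal, pow_one, exp_neg]
    field_simp

theorem Reg.size {k : ℕ} {ι : ℕ → Type} [∀ d, Fintype (ι d)] {F : Fam ι} (h : Reg F₀ k ι F)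
    (h₀ : Base F₀ b) : ∀ r, ∃ C : ℝ, 0 ≤ C ∧ ∀ p : Par, p.OK → ∀ t : ℝ, 1 ≤ t →
      Deriv.Q (tU p.W t) 1 r (F p t) ≤ C * ((p.η / p.g) ^ k * b p) ^ 2 := by
  induction h with
  | base =>
    intro r
    obtain ⟨C, hC, h⟩ := h₀.size r
    exact ⟨C, hC, fun p hp t ht => (h p hp t ht).trans_eq (by simp)⟩
  | @add k ι _ F G hF hG ih1 ih2 =>
    intro r
    obtain ⟨C₁, h₁, f₁⟩ := ih1 r
    obtain ⟨C₂, h₂, f₂⟩ := ih2 r
    refine ⟨2 * C₁ + 2 * C₂, by positivity, fun p hp t ht => ?_⟩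
    have ht0 : 0 < t := by linarith
    refine (Q_add_le (σ := 1) (pert_tU p.pert ht0) r _ _ (fun i => hF.good h₀ p ht0 i r)
      (fun i => hG.good h₀ p ht0 i r)).trans ?_
    linarith [f₁ p hp t ht, f₂ p hp t ht]
  | @smul k ι _ c F hF ih =>
    intro r
    obtain ⟨C, hC, f⟩ := ih r
    refine ⟨c ^ 2 * C, by positivity, fun p hp t ht => ?_⟩
    rw [Q_smul r (F p t) c fun i => hF.good h₀ p (by linarith) i r, mul_assoc]
    exact mul_le_mul_of_nonneg_left (f p hp t ht) (sq_nonneg c)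
  | @decay k ι _ F hF ih =>
    intro r
    obtain ⟨C, hC, f⟩ := ih r
    refine ⟨C, hC, fun p hp t ht => ?_⟩
    have ht0 : 0 < t := by linarith
    show Deriv.Q (tU p.W t) 1 r (fun i z => exp (-t) * F p t i z) ≤ _
    rw [Q_smul r (F p t) _ fun i => hF.good h₀ p ht0 i r]
    refine (mul_le_of_le_one_left (Q_nonneg r _) ?_).trans (f p hp t ht)
    exact pow_le_one₀ (exp_pos _).le (exp_le_one_iff.2 (by linarith))
  | @reindex k ι ι' _ _ f F hF ih =>
    intro r
    obtain ⟨C, hC, g⟩ := ih r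
    exact ⟨C, hC, fun p hp t ht => (Q_reindex r (f p.d) (F p t)).trans_le (g p hp t ht)⟩
  | @mono k k' hk ι _ F hF ih =>
    intro r
    obtain ⟨C, hC, f⟩ := ih r
    refine ⟨C, hC, fun p hp t ht => (f p hp t ht).trans ?_⟩
    have hρ0 : 0 ≤ p.η / p.g := div_nonneg p.pert.eta_nonneg hp.1.le
    have h1 := pow_le_pow_of_le_one hρ0 ((div_le_one hp.1).2 hp.2) hk
    rw [mul_pow, mul_pow]
    exact mul_le_mul_of_nonneg_left (mul_le_mul_of_nonneg_right
      (pow_le_pow_left₀ (pow_nonneg hρ0 k) h1 2) (sq_nonneg _)) hC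
  | @congr k ι _ F G h hF ih =>
    intro r
    obtain ⟨C, hC, f⟩ := ih r
    refine ⟨C, hC, fun p hp t ht => ?_⟩
    rw [funext fun i => funext (h p t (by linarith) i)]
    exact f p hp t ht
  | @mulT k s hs α _ L P Q _ _ _ _ _ _ _ _ e T hT F hF ih =>
    intro r
    obtain ⟨C₁, h₁, f₁⟩ := exists_Q_flat_le e hT r
    obtain ⟨C₂, h₂, f₂⟩ := ih r
    refine ⟨C₁ * C₂, mul_nonneg h₁ h₂, fun p hp t ht => ?_⟩
    refine (f₁ p t ht (scal s p t) (α p.d) (F p t) (hF.good h₀ p (by linarith))).trans ?_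
    obtain ⟨l0, l1⟩ := scal_mul_le hp hs (by linarith : (0 : ℝ) ≤ t)
    have hb := f₂ p hp t ht
    refine (mul_le_mul (mul_le_mul_of_nonneg_left (pow_le_pow_left₀ l0 l1 2) h₁) hb
      (Q_nonneg r _) (mul_nonneg h₁ (sq_nonneg _))).trans_eq ?_
    rw [pow_add]; ring
  | @dX k ι _ F hF ih =>
    intro r
    obtain ⟨C, hC, f⟩ := ih (r + 1)
    refine ⟨C, hC, fun p hp t ht => le_trans ?_ (f p hp t ht)⟩
    have h1 := ss_nonneg (tU p.W t) (F p t)
    have h2 := Q_nonneg (U := tU p.W t) (σ := 1) r (Deriv.dV (F p t))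
    show Deriv.Q (tU p.W t) 1 r (Deriv.dX (F p t)) ≤ _
    simp only [Deriv.Q, one_pow, one_mul]
    linarith
  | @dV k ι _ F hF ih =>
    intro r
    obtain ⟨C, hC, f⟩ := ih (r + 1)
    refine ⟨C, hC, fun p hp t ht => le_trans ?_ (f p hp t ht)⟩
    have h1 := ss_nonneg (tU p.W t) (F p t)
    have h2 := Q_nonneg (U := tU p.W t) (σ := 1) r (Deriv.dX (F p t))
    show Deriv.Q (tU p.W t) 1 r (Deriv.dV (F p t)) ≤ _
    simp only [Deriv.Q, one_pow, one_mul]
    linarith
  | @delX k α _ F hF ih =>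
    intro r
    obtain ⟨c, hc, hH⟩ := exists_bd_hess r
    obtain ⟨C₁, h₁, f₁⟩ := exists_Q_delX_le c hc r
    obtain ⟨C₂, h₂, f₂⟩ := ih (r + 1)
    refine ⟨C₁ * C₂, mul_nonneg h₁ h₂, fun p hp t ht => ?_⟩
    have ht0 : 0 < t := by linarith
    refine (f₁ p.d p.η _ (tU p.W t) (pert_tU p.pert ht0) (good_tU p.pert ht0) (hH p t ht) (α p.d)
      (F p t) (hF.good h₀ p ht0)).trans ?_
    exact (mul_le_mul_of_nonneg_left (f₂ p hp t ht) h₁).trans_eq (mul_assoc _ _ _).symm
  | @delV k α _ F hF ih =>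
    intro r
    obtain ⟨C₁, h₁, f₁⟩ := exists_Q_delV_le r
    obtain ⟨C₂, h₂, f₂⟩ := ih (r + 1)
    refine ⟨C₁ * C₂, mul_nonneg h₁ h₂, fun p hp t ht => ?_⟩
    have ht0 : 0 < t := by linarith
    refine (f₁ p.d p.η _ (tU p.W t) (pert_tU p.pert ht0) (α p.d)
      (F p t) (hF.good h₀ p ht0)).trans ?_
    exact (mul_le_mul_of_nonneg_left (f₂ p hp t ht) h₁).trans_eq (mul_assoc _ _ _).symm

theorem Reg.sized {k : ℕ} {ι : ℕ → Type} [∀ d, Fintype (ι d)] {F : Fam ι} (h : Reg F₀ k ι F)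
    (h₀ : Base F₀ b) : Sized k b F where
  smJ := fun p i => h.smJ h₀ p i
  good := fun p _ ht i n => h.good h₀ p ht i n
  size := h.size h₀ 0

/-! ### The operators of the flows -/

theorem Reg.matD {k : ℕ} {ι : ℕ → Type} [∀ d, Fintype (ι d)] {F : Fam ι} (h : Reg F₀ k ι F)
    (h₀ : Base F₀ b) : Reg F₀ k ι (Zero.matD F) :=
  Reg.congr (fun p t _ i z => by simp [Zero.matD, sub_eq_add_neg])
    ((h.bT h₀).add (h.dX.delX.smul (-1)))

theorem Reg.xA {k : ℕ} {ι : ℕ → Type} [∀ d, Fintype (ι d)] {F : Fam ι} (h : Reg F₀ k ι F) :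
    Reg F₀ (k + 1) ι (Zero.xA F) :=
  Reg.congr (fun p t _ i z => by simp [Zero.xA, sub_eq_add_neg])
    (h.dV.mulA.delX.add (h.dX.mulA.delV.smul (-1)))

theorem Reg.totD {k : ℕ} {ι : ℕ → Type} [∀ d, Fintype (ι d)] {F : Fam ι} (h : Reg F₀ k ι F)
    (h₀ : Base F₀ b) : Reg F₀ k ι (Zero.totD F) :=
  (h.matD h₀).add (h.xA.mono (Nat.le_succ k))

theorem Reg.hamD {k : ℕ} {ι : ℕ → Type} [∀ d, Fintype (ι d)] {F : Fam ι} (h : Reg F₀ k ι F) :
    Reg F₀ k ι (Zero.hamD F) :=
  Reg.congr (fun p t _ i z => by simp [Zero.hamD, sub_eq_add_neg])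
    (h.dX.delV.add (h.dV.delX.smul (-1)))

end

end Vale.Agent.P347.Zero
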