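import Vale.Agent.P347.Zero.Band
import Vale.Agent.P347.Zero.FamilyLaw

/-!
# P347, exponent zero: the perturbation seen around a centre
-/

open MeasureTheory ProbabilityTheory Real Set Filter
open scoped RealInnerProductSpace Topology

namespace Vale.Agent.P347.Zero

open Deriv

variable {d : ℕ} {η B : ℝ} {W : E d → ℝ}

theorem shiftW_eq (W : E d → ℝ) (m : E d) (b : ℝ) :
    shiftW W m b = fun z => W (m + b • z) := rfl

variable (hW : Pert η B W)
include hW

theorem grad_shiftW (m : E d) (b : ℝ) (z : E d) :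
    grad (shiftW W m b) z = b • grad W (m + b • z) :=
  hW.grad_affine m b z

theorem contDiff_shiftW (m : E d) (b : ℝ) : ContDiff ℝ 2 (shiftW W m b) :=
  hW.contDiff.comp (by fun_prop)

theorem hess_shiftW (m : E d) (b : ℝ) (x v : E d) :
    0 ≤ ⟪fderiv ℝ (grad (shiftW W m b)) x v, v⟫ ∧
      ⟪fderiv ℝ (grad (shiftW W m b)) x v, v⟫ ≤ η * b ^ 2 * ‖v‖ ^ 2 := by
  rw [show fderiv ℝ (grad (shiftW W m b)) x v = b ^ 2 • fderiv ℝ (grad W) (m + b • x) v from
    hW.fderiv_grad_affine m b x v, real_inner_smul_left]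
  refine ⟨mul_nonneg (sq_nonneg b) (hW.hess_nonneg _ _), ?_⟩
  rw [mul_comm η, mul_assoc]
  exact mul_le_mul_of_nonneg_left (hW.hess_le _ _) (sq_nonneg b)

/-- moments free of the bound `B` -/
theorem shift_pert_one (m : E d) {b : ℝ} (hb : 0 < b) (hb1 : b ≤ 1) :
    Pert 1 (b * ‖grad W m‖ / √d) (shiftW W m b) := by
  have h := pert_of_hess (contDiff_shiftW hW m b) (fun x v => (hess_shiftW hW m b x v).1)
    fun x v => (hess_shiftW hW m b x v).2.trans (mul_le_of_le_one_left (sq_nonneg _)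
      (mul_le_one₀ hW.eta_le_one (sq_nonneg b) (pow_le_one₀ hb.le hb1)))
  rwa [grad_shiftW hW, smul_zero, add_zero, norm_smul, Real.norm_eq_abs, abs_of_pos hb] at h

theorem shift_pert (hη : 0 < η) (hd : 0 < d) (m : E d) {b : ℝ} (hb : 0 < b) (hb1 : b ≤ 1) :
    Pert (η * b ^ 2) (‖grad W m‖ / (η * b * √d)) (shiftW W m b) := by
  refine ⟨by positivity, mul_le_one₀ hW.eta_le_one (sq_nonneg b) (pow_le_one₀ hb.le hb1),
    by positivity, contDiff_shiftW hW m b, fun x v => (hess_shiftW hW m b x v).1,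
    fun x v => (hess_shiftW hW m b x v).2, le_of_eq ?_⟩
  have hs : (0 : ℝ) < √d := Real.sqrt_pos.2 (Nat.cast_pos.2 hd)
  rw [grad_shiftW hW, smul_zero, add_zero, norm_smul, Real.norm_eq_abs, abs_of_pos hb]
  field_simp

theorem mean_shift (m : E d) (b : ℝ) :
    ∫ z, grad (shiftW W m b) z ∂law (shiftW W m b) = b • aOf W b m := by
  simp only [grad_shiftW hW, integral_smul, aOf]

omit hW in
theorem post_shift (m : E d) (b : ℝ) {t : ℝ} (ht : 0 < t) (y : E d) :
    post (bT t) (shiftW W m b) y = shiftW W (m + (b * exp (-t)) • y) (b * bT t) := by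
  funext z
  simp only [post, shiftW, cosB_bT ht]
  congr 1
  module

theorem tv_shift (m : E d) (b : ℝ) {t : ℝ} (ht : 0 < t) (y : E d) :
    tv (shiftW W m b) t y = b • aOf W (b * bT t) (m + (b * exp (-t)) • y) := by
  rw [tv, post_shift m b ht]
  simp only [grad_shiftW hW, integral_smul, aOf, cosB_bT ht]
  congr 1
  refine integral_congr_ae (ae_of_all _ fun z => ?_)
  beta_reduce
  congr 1
  module

/-! ### `aOf` -/

theorem aOf_eq_fmean (m : E d) {b : ℝ} (hb : 0 < b) (hb1 : b ≤ 1) :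
    aOf W b m = fmean W (grad W) ((2 * b ^ 2)⁻¹, (b ^ 2)⁻¹ • m) := by
  have hP := shift_pert_one hW m hb hb1
  set θ : ℝ × E d := ((2 * b ^ 2)⁻¹, (b ^ 2)⁻¹ • m)
  have key : ∀ {G : Type} [NormedAddCommGroup G] [NormedSpace ℝ G] (h : E d → G),
      ∫ z, exp (-pot (shiftW W m b) z) • h (m + b • z) =
        (exp (-((2 * b ^ 2)⁻¹ * ‖m‖ ^ 2)) * (b ^ d)⁻¹) • fint W h θ := by
    intro G _ _ h
    have e : ∀ z, exp (-pot (shiftW W m b) z) • h (m + b • z) =
        exp (-((2 * b ^ 2)⁻¹ * ‖m‖ ^ 2)) • (fun x => fw W θ x • h x) (m + b • z) := fun z => by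
      simp only [fw, smul_smul, ← exp_add, suff_apply, θ, pot, shiftW]
      congr 2
      simp only [norm_add_sq_real, norm_smul, Real.norm_eq_abs, inner_add_left,
        real_inner_smul_left, real_inner_smul_right, mul_pow, sq_abs, real_inner_self_eq_norm_sq,
        real_inner_comm z m]
      field_simp
      ring
    simp only [e]
    rw [integral_smul, integral_affine _ hb fun x => fw W θ x • h x, smul_smul]
    rfl
  have h0 := key fun _ => (1 : ℝ)
  simp only [smul_eq_mul, mul_one] at h0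
  rw [aOf, hP.integral_law, key (grad W), h0, fmean, smul_smul]
  congr 1
  field_simp

theorem continuousAt_aOf (m : E d) {b : ℝ} (hb : 0 < b) (hb1 : b ≤ 1) :
    Tendsto (fun p : ℝ × E d => aOf W p.1 p.2) (𝓝[Ioc 0 1 ×ˢ univ] (b, m)) (𝓝 (aOf W b m)) := by
  have hne : (b : ℝ) ^ 2 ≠ 0 := pow_ne_zero 2 hb.ne'
  have hθ : ContinuousAt (fun p : ℝ × E d => ((2 * p.1 ^ 2)⁻¹, (p.1 ^ 2)⁻¹ • p.2)) (b, m) :=
    ((continuousAt_const.mul (continuousAt_fst.pow 2)).inv₀ (mul_ne_zero two_ne_zero hne)).prodMk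
      (((continuousAt_fst.pow 2).inv₀ hne).smul continuousAt_snd)
  have hmem : ((2 * b ^ 2)⁻¹, (b ^ 2)⁻¹ • m) ∈ posPar d :=
    show (0 : ℝ) < (2 * b ^ 2)⁻¹ by positivity
  have hf : Tendsto (fmean W (grad W)) (𝓝 ((2 * b ^ 2)⁻¹, (b ^ 2)⁻¹ • m))
      (𝓝 (fmean W (grad W) ((2 * b ^ 2)⁻¹, (b ^ 2)⁻¹ • m))) := by
    have hc := (contDiffOn_fmean hW hW.contDiff_grad.continuous hW.polyBd_grad (n := 0)).continuousOn
    exact (hc.continuousAt (isOpen_posPar.mem_nhds hmem)).tendsto
  rw [aOf_eq_fmean hW m hb hb1]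
  have h2 : Tendsto (fun p : ℝ × E d => fmean W (grad W) ((2 * p.1 ^ 2)⁻¹, (p.1 ^ 2)⁻¹ • p.2))
      (𝓝[Ioc 0 1 ×ˢ univ] (b, m)) (𝓝 (fmean W (grad W) ((2 * b ^ 2)⁻¹, (b ^ 2)⁻¹ • m))) :=
    hf.comp (hθ.tendsto.mono_left nhdsWithin_le_nhds)
  refine h2.congr' ?_
  filter_upwards [self_mem_nhdsWithin] with p hp
  exact (aOf_eq_fmean hW p.2 hp.1.1 hp.1.2).symm

theorem tendsto_aOf_one (m : E d) :
    Tendsto (fun c : ℝ => aOf W c m) (𝓝[<] 1) (𝓝 (aOf W 1 m)) := by
  have h0 : Tendsto (fun c : ℝ => (c, m)) (𝓝[<] 1) (𝓝[Ioc 0 1 ×ˢ univ] ((1 : ℝ), m)) := by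
    refine tendsto_nhdsWithin_iff.2 ⟨?_, ?_⟩
    · exact ((continuous_id.prodMk continuous_const).tendsto' 1 ((1 : ℝ), m) rfl).mono_left
        nhdsWithin_le_nhds
    · filter_upwards [Ioo_mem_nhdsLT (show (0 : ℝ) < 1 from one_pos)] with c hc
      exact ⟨⟨hc.1, hc.2.le⟩, trivial⟩
  have h1 := continuousAt_aOf hW m (b := 1) one_pos le_rfl
  exact Tendsto.comp (f := fun c : ℝ => (c, m)) (g := fun p : ℝ × E d => aOf W p.1 p.2) h1 h0

theorem norm_aOf_sub_le {b : ℝ} (hb : 0 < b) (hb1 : b ≤ 1) (m m' : E d) :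
    ‖aOf W b m - aOf W b m'‖ ≤ η * ‖m - m'‖ := by
  -- first for `b < 1`
  have key : ∀ b, 0 < b → b < 1 → ‖aOf W b m - aOf W b m'‖ ≤ η * ‖m - m'‖ := by
    intro b hb hb1
    set t := -(1 / 2 * Real.log (1 - b ^ 2))
    have h1 : 0 < 1 - b ^ 2 := by nlinarith
    have ht : 0 < t := by
      have : Real.log (1 - b ^ 2) < 0 := Real.log_neg h1 (by nlinarith)
      simp only [t]; linarith
    have hbT : bT t = b := by
      rw [bT_eq, b2, show -(2 * t) = Real.log (1 - b ^ 2) by simp only [t]; ring, Real.exp_log h1,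
        sub_sub_cancel, Real.sqrt_sq hb.le]
    have e : ∀ m, aOf W b m = tv W t (exp t • m) := fun m => by
      have e1 : exp (-t) • exp t • m = m := by
        rw [smul_smul, ← exp_add, neg_add_cancel, exp_zero, one_smul]
      have hc : cosB b = exp (-t) := hbT ▸ cosB_bT ht
      have hs : post b W (exp t • m) = shiftW W m b := by
        funext z; simp only [post, shiftW, hc, e1]
      simp only [tv, aOf, hbT, hs, hc, e1]
    rw [e, e]
    refine (Convex.norm_image_sub_le_of_norm_fderiv_le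
      (fun z _ => (contDiff_tv hW ht (n := 1)).differentiable one_ne_zero z)
      (fun z _ => norm_fderiv_tv_le hW ht z) convex_univ (mem_univ _) (mem_univ _)).trans_eq ?_
    rw [← smul_sub, norm_smul, Real.norm_eq_abs, abs_of_pos (exp_pos _)]
    rw [← mul_assoc, mul_assoc η, ← exp_add, neg_add_cancel, exp_zero, mul_one]
  rcases hb1.lt_or_eq with h | h
  · exact key b hb h
  subst h
  have hl := fun m => tendsto_aOf_one hW m
  refine le_of_tendsto ((hl m).sub (hl m')).norm ?_
  filter_upwards [Ioo_mem_nhdsLT (show (0 : ℝ) < 1 from one_pos)] with c hc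
  exact key c hc.1 hc.2

theorem lipschitz_aOf {b : ℝ} (hb : 0 < b) (hb1 : b ≤ 1) :
    LipschitzWith ⟨η, hW.eta_nonneg⟩ (aOf W b) :=
  LipschitzWith.of_dist_le_mul fun m m' => by
    rw [dist_eq_norm, dist_eq_norm]; exact norm_aOf_sub_le hW hb hb1 m m'

theorem continuous_aOf {b : ℝ} (hb : 0 < b) (hb1 : b ≤ 1) : Continuous (aOf W b) :=
  (lipschitz_aOf hW hb hb1).continuous

theorem polyBd_aOf {b : ℝ} (hb : 0 < b) (hb1 : b ≤ 1) : PolyBd (aOf W b) :=
  PolyBd.of_lipschitz hW.eta_nonneg (norm_aOf_sub_le hW hb hb1)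

theorem integral_norm_law_shift_le (m : E d) {b : ℝ} (hb : 0 < b) (hb1 : b ≤ 1) :
    ∫ z, ‖z‖ ∂law (shiftW W m b) ≤ 2 * (√d + b * ‖grad W m‖) := by
  have hP := shift_pert_one hW m hb hb1
  have := hP.isProbabilityMeasure_law
  have h := integral_abs_le_sqrt (f := fun z : E d => ‖z‖)
    (hP.integrable_law PolyBd.id.norm continuous_norm)
    (hP.integrable_law (PolyBd.id.norm.pow 2) (by fun_prop))
  simp only [abs_norm] at h
  refine h.trans (Real.sqrt_le_iff.2 ⟨by positivity, hP.integral_norm_sq_law_le.trans ?_⟩)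
  rcases Nat.eq_zero_or_pos d with rfl | hd
  · simp; positivity
  have hs : (0 : ℝ) < √d := Real.sqrt_pos.2 (Nat.cast_pos.2 hd)
  have e : (1 + b * ‖grad W m‖ / √d) ^ 2 * d = (√d + b * ‖grad W m‖) ^ 2 := by
    conv_lhs => enter [2]; rw [← Real.sq_sqrt (d.cast_nonneg (α := ℝ))]
    rw [← mul_pow]
    field_simp
  rw [mul_assoc, e, mul_pow]
  nlinarith [sq_nonneg (√(d : ℝ) + b * ‖grad W m‖)]

/-- the raw gradient at a blurred centre against `aOf` -/
theorem aOf_zero_err (m : E d) {b τ : ℝ} (hb : 0 < b) (hb1 : b ≤ 1) (hτ : 0 ≤ τ) :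
    ∫ ζ, ‖grad W (m + τ • ζ) - aOf W b m‖ ∂stdGaussian (E d) ≤
      2 * η * (τ + b) * (√d + ‖grad W m‖) := by
  have hη := hW.eta_nonneg
  have hg := hW.contDiff_grad.continuous
  have hP := shift_pert_one hW m hb hb1
  have := hP.isProbabilityMeasure_law
  have iz : Integrable (fun z : E d => ‖z‖) (law (shiftW W m b)) :=
    hP.integrable_law PolyBd.id.norm continuous_norm
  have hp : PolyBd fun z => grad W (m + b • z) :=
    hW.polyBd_grad.comp ((PolyBd.const m).add ((PolyBd.const b).smul PolyBd.id))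
  have h1 : ‖grad W m - aOf W b m‖ ≤ η * b * (2 * (√d + b * ‖grad W m‖)) := by
    have e : grad W m - aOf W b m = ∫ z, (grad W m - grad W (m + b • z)) ∂law (shiftW W m b) := by
      rw [integral_sub (integrable_const _) (hP.integrable_law hp (by fun_prop))]
      simp [aOf]
    rw [e]
    refine (norm_integral_le_of_norm_le (iz.const_mul (η * b)) (ae_of_all _ fun z => ?_)).trans ?_
    · refine (hW.grad_lipschitz _ _).trans_eq ?_
      rw [sub_add_cancel_left, norm_neg, norm_smul, Real.norm_eq_abs, abs_of_pos hb, mul_assoc]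
    · rw [integral_const_mul]
      exact mul_le_mul_of_nonneg_left (integral_norm_law_shift_le hW m hb hb1) (by positivity)
  have i1 : Integrable (fun ζ : E d => ‖ζ‖) (stdGaussian (E d)) :=
    PolyBd.id.norm.integrable _ continuous_norm.aestronglyMeasurable
  refine (integral_mono_of_nonneg (g := fun ζ : E d => η * τ * ‖ζ‖ + ‖grad W m - aOf W b m‖)
    (ae_of_all _ fun ζ => norm_nonneg _) ((i1.const_mul _).add (integrable_const _))
    (ae_of_all _ fun ζ => ?_)).trans ?_
  · refine (norm_sub_le_norm_sub_add_norm_sub _ (grad W m) _).trans (add_le_add ?_ le_rfl)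
    refine (hW.grad_lipschitz _ _).trans_eq ?_
    rw [add_sub_cancel_left, norm_smul, Real.norm_eq_abs, abs_of_nonneg hτ, mul_assoc]
  rw [integral_add (i1.const_mul _) (integrable_const _), integral_const_mul]
  simp only [integral_const, probReal_univ, one_smul]
  have h2 := mul_le_mul_of_nonneg_left (integral_norm_stdGaussian_le (d := d))
    (by positivity : 0 ≤ η * τ)
  have h3 : η * b * (2 * (√d + b * ‖grad W m‖)) ≤ 2 * η * b * (√d + ‖grad W m‖) := by
    rw [show η * b * (2 * (√d + b * ‖grad W m‖)) = 2 * η * b * (√d + b * ‖grad W m‖) by ring]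
    exact mul_le_mul_of_nonneg_left
      (add_le_add le_rfl (mul_le_of_le_one_left (norm_nonneg _) hb1)) (by positivity)
  nlinarith [mul_nonneg (mul_nonneg hη hτ) (Real.sqrt_nonneg (d : ℝ)),
    mul_nonneg (mul_nonneg hη hτ) (norm_nonneg (grad W m))]

theorem polyBd_moment (m : E d) (b t : ℝ) :
    PolyBd fun y => √d + ‖grad W (m + (b * exp (-t)) • y)‖ :=
  (PolyBd.const (√(d : ℝ))).add
    (hW.polyBd_grad.comp ((PolyBd.const m).add ((PolyBd.const _).smul PolyBd.id))).norm

theorem integrable_moment (m : E d) {b t : ℝ} (hb : 0 < b) (hb1 : b ≤ 1) (ht : 0 < t) :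
    Integrable (fun y => √d + ‖grad W (m + (b * exp (-t)) • y)‖) (law (tU (shiftW W m b) t)) :=
  (pert_tU (shift_pert_one hW m hb hb1) ht).integrable_law (polyBd_moment hW m b t)
    (continuous_const.add (hW.contDiff_grad.continuous.comp (by fun_prop)).norm)

theorem moment_le (m : E d) {b t : ℝ} (hb : 0 < b) (hb1 : b ≤ 1) (ht : 0 < t) :
    ∫ y, √d + ‖grad W (m + (b * exp (-t)) • y)‖ ∂law (tU (shiftW W m b) t) ≤
      (1 + 4 * η) * (√d + ‖grad W m‖) := by
  have hη := hW.eta_nonneg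
  have hP := shift_pert_one hW m hb hb1
  have hU := pert_tU hP ht
  have := hP.isProbabilityMeasure_law
  have := hU.isProbabilityMeasure_law
  set S := √(d : ℝ) + ‖grad W m‖
  have iy : Integrable (fun y : E d => ‖y‖) (law (tU (shiftW W m b) t)) :=
    hU.integrable_law PolyBd.id.norm continuous_norm
  have hy : ∫ y, ‖y‖ ∂law (tU (shiftW W m b) t) ≤ 3 * S := by
    rw [law_tU hP ht, integral_map (by fun_prop) continuous_norm.aestronglyMeasurable]
    have i1 : Integrable (fun p : E d × E d => ‖p.1‖)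
        ((law (shiftW W m b)).prod (stdGaussian (E d))) :=
      (hP.integrable_law PolyBd.id.norm continuous_norm).comp_fst _
    have i2 : Integrable (fun p : E d × E d => ‖p.2‖)
        ((law (shiftW W m b)).prod (stdGaussian (E d))) :=
      (PolyBd.id.norm.integrable _ continuous_norm.aestronglyMeasurable :
        Integrable (fun z : E d => ‖z‖) (stdGaussian (E d))).comp_snd _
    refine (integral_mono_of_nonneg (g := fun p : E d × E d => ‖p.1‖ + ‖p.2‖)
      (ae_of_all _ fun p => norm_nonneg _) (i1.add i2) (ae_of_all _ fun p => ?_)).trans ?_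
    · refine (norm_add_le _ _).trans (add_le_add ?_ ?_) <;>
        rw [norm_smul, Real.norm_eq_abs] <;>
        refine mul_le_of_le_one_left (norm_nonneg _) ?_
      · rw [abs_of_pos (exp_pos _)]; exact exp_le_one_iff.2 (by linarith)
      · rw [abs_of_pos (bT_pos ht)]; exact (bT_lt_one ht).le
    rw [integral_add i1 i2, integral_fun_fst (f := fun x : E d => ‖x‖),
      integral_fun_snd (f := fun x : E d => ‖x‖)]
    simp only [probReal_univ, one_smul]
    have h1 := integral_norm_law_shift_le hW m hb hb1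
    have h2 := integral_norm_stdGaussian_le (d := d)
    have h3 : b * ‖grad W m‖ ≤ ‖grad W m‖ := mul_le_of_le_one_left (norm_nonneg _) hb1
    simp only [S]
    linarith [norm_nonneg (grad W m)]
  refine (integral_mono_of_nonneg (g := fun y : E d => S + η * ‖y‖)
    (ae_of_all _ fun y => by positivity) ((integrable_const _).add (iy.const_mul η))
    (ae_of_all _ fun y => ?_)).trans ?_
  · have h := norm_le_norm_add_norm_sub' (grad W (m + (b * exp (-t)) • y)) (grad W m)
    have h2 := hW.grad_lipschitz (m + (b * exp (-t)) • y) m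
    rw [add_sub_cancel_left, norm_smul, Real.norm_eq_abs, abs_of_pos (by positivity)] at h2
    have h3 : b * exp (-t) * ‖y‖ ≤ ‖y‖ := mul_le_of_le_one_left (norm_nonneg _)
      (mul_le_one₀ hb1 (exp_pos _).le (exp_le_one_iff.2 (by linarith)))
    simp only [S]
    linarith [mul_le_mul_of_nonneg_left h3 hη]
  rw [integral_add (integrable_const _) (iy.const_mul η), integral_const_mul]
  simp only [integral_const, probReal_univ, one_smul]
  have hS : 0 ≤ S := by positivity
  nlinarith [mul_le_mul_of_nonneg_left hy hη, mul_nonneg hη hS]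

end Vale.Agent.P347.Zero
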