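import Vale.Agent.P347.Zero.Family

/-!
# P347, exponent zero: calculus of functions of time and state, and backward operators

`bG e c f = ∂_t f - ∑ ∂_{e i}^2 f + ∑ c i * ∂_{e i} f`; its Leibniz rule and its commutation with
a space derivative.
-/

open MeasureTheory ProbabilityTheory Real Set Function
open scoped RealInnerProductSpace

namespace Vale.Agent.P347.Zero

open Deriv

variable {d : ℕ} {V : Type} [NormedAddCommGroup V] [NormedSpace ℝ V]

/-- jointly smooth on positive times -/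
def SmJ (f : ℝ → V → ℝ) : Prop :=
  ∀ n : ℕ, ContDiffOn ℝ n (fun p : ℝ × V => f p.1 p.2) (Ioi 0 ×ˢ univ)

theorem isOpen_dom : IsOpen ((Ioi (0 : ℝ)) ×ˢ (univ : Set V)) := isOpen_Ioi.prod isOpen_univ

namespace SmJ

variable {f g : ℝ → V → ℝ}

theorem at_pt (h : SmJ f) (n : ℕ) {t : ℝ} (ht : 0 < t) (z : V) :
    ContDiffAt ℝ n (fun p : ℝ × V => f p.1 p.2) (t, z) :=
  (h n).contDiffAt (isOpen_dom.mem_nhds ⟨ht, trivial⟩)

theorem add (hf : SmJ f) (hg : SmJ g) : SmJ fun t z => f t z + g t z :=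
  fun n => (hf n).add (hg n)

theorem sub (hf : SmJ f) (hg : SmJ g) : SmJ fun t z => f t z - g t z :=
  fun n => (hf n).sub (hg n)

theorem mul (hf : SmJ f) (hg : SmJ g) : SmJ fun t z => f t z * g t z :=
  fun n => (hf n).mul (hg n)

theorem const (c : ℝ) : SmJ fun (_ : ℝ) (_ : V) => c := fun _ => contDiffOn_const

theorem time {c : ℝ → ℝ} (hc : ∀ n : ℕ, ContDiffOn ℝ n c (Ioi 0)) :
    SmJ fun t (_ : V) => c t := fun n =>
  (hc n).comp contDiffOn_fst fun _ hp => hp.1

theorem space {c : V → ℝ} (hc : ∀ n : ℕ, ContDiff ℝ n c) : SmJ fun (_ : ℝ) z => c z := fun n =>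
  ((hc n).comp contDiff_snd).contDiffOn

theorem sum {α : Type*} (s : Finset α) {F : α → ℝ → V → ℝ} (hF : ∀ a ∈ s, SmJ (F a)) :
    SmJ fun t z => ∑ a ∈ s, F a t z :=
  fun n => ContDiffOn.sum fun a ha => hF a ha n

theorem congr (hf : SmJ f) (h : ∀ t, 0 < t → ∀ z, g t z = f t z) : SmJ g := fun n =>
  (hf n).congr fun p hp => h p.1 hp.1 p.2

theorem comp_lin {V' : Type} [NormedAddCommGroup V'] [NormedSpace ℝ V'] (h : SmJ f)
    (A : V' →L[ℝ] V) : SmJ fun t z => f t (A z) := fun n =>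
  (h n).comp (contDiff_fst.prodMk (A.contDiff.comp contDiff_snd)).contDiffOn fun _ hp => ⟨hp.1, trivial⟩

theorem dd_eq (h : SmJ f) {t : ℝ} (ht : 0 < t) (u z : V) :
    dd u (f t) z = fderiv ℝ (fun p : ℝ × V => f p.1 p.2) (t, z) (0, u) := by
  have hd := (h.at_pt 1 ht z).differentiableAt (by simp)
  have e : fderiv ℝ (f t) z = (fderiv ℝ (fun p : ℝ × V => f p.1 p.2) (t, z)).comp
      ((0 : V →L[ℝ] ℝ).prod (ContinuousLinearMap.id ℝ V)) :=
    (hd.hasFDerivAt.comp z ((hasFDerivAt_const t z).prodMk (hasFDerivAt_id z))).fderiv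
  rw [Deriv.dd, e]
  simp

theorem deriv_eq (h : SmJ f) {t : ℝ} (ht : 0 < t) (z : V) :
    deriv (fun s => f s z) t = fderiv ℝ (fun p : ℝ × V => f p.1 p.2) (t, z) (1, 0) := by
  have hd := (h.at_pt 1 ht z).differentiableAt (by simp)
  exact (hd.hasFDerivAt.comp_hasDerivAt t
    ((hasDerivAt_id t).prodMk (hasDerivAt_const t z))).deriv

theorem hasDerivAt (h : SmJ f) {t : ℝ} (ht : 0 < t) (z : V) :
    HasDerivAt (fun s => f s z) (deriv (fun s => f s z) t) t := by
  have hd := (h.at_pt 1 ht z).differentiableAt (by simp)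
  exact (hd.comp t (differentiableAt_id.prodMk (differentiableAt_const z))).hasDerivAt

theorem differentiable (h : SmJ f) {t : ℝ} (ht : 0 < t) : Differentiable ℝ (f t) := fun z =>
  ((h.at_pt 1 ht z).differentiableAt (by simp)).comp z
    ((differentiableAt_const t).prodMk differentiableAt_id)

theorem fderiv_dir (h : SmJ f) (v : ℝ × V) (n : ℕ) :
    ContDiffOn ℝ n (fun p : ℝ × V => fderiv ℝ (fun p : ℝ × V => f p.1 p.2) p v)
      (Ioi 0 ×ˢ univ) :=
  ((h (n + 1)).fderiv_of_isOpen isOpen_dom (by simp)).clm_apply contDiffOn_const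

theorem dd (h : SmJ f) (u : V) : SmJ fun t z => Deriv.dd u (f t) z := fun n =>
  (h.fderiv_dir (0, u) n).congr fun p hp => h.dd_eq hp.1 u p.2

theorem deriv (h : SmJ f) : SmJ fun t z => _root_.deriv (fun s => f s z) t := fun n =>
  (h.fderiv_dir (1, 0) n).congr fun p hp => h.deriv_eq hp.1 p.2

/-- mixed derivatives agree -/
theorem deriv_dd (h : SmJ f) (u : V) {t : ℝ} (ht : 0 < t) (z : V) :
    _root_.deriv (fun s => Deriv.dd u (f s) z) t =
      Deriv.dd u (fun y => _root_.deriv (fun s => f s y) t) z := by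
  set F := fun p : ℝ × V => f p.1 p.2
  have h2 : ContDiffAt ℝ 2 F (t, z) := h.at_pt 2 ht z
  have hF' : DifferentiableAt ℝ (fderiv ℝ F) (t, z) :=
    (h2.fderiv_right (m := 1) le_rfl).differentiableAt one_ne_zero
  have e : ∀ a b : ℝ × V, fderiv ℝ (fun p => fderiv ℝ F p b) (t, z) a =
      fderiv ℝ (fderiv ℝ F) (t, z) a b := fun a b => by
    rw [fderiv_clm_apply hF' (differentiableAt_const b)]
    simp
  rw [(h.dd u).deriv_eq ht, h.deriv.dd_eq ht]
  have e1 : fderiv ℝ (fun p : ℝ × V => Deriv.dd u (f p.1) p.2) (t, z) =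
      fderiv ℝ (fun p => fderiv ℝ F p (0, u)) (t, z) :=
    Filter.EventuallyEq.fderiv_eq (Filter.eventually_of_mem
      (isOpen_dom.mem_nhds ⟨ht, trivial⟩) fun p hp => h.dd_eq hp.1 u p.2)
  have e2 : fderiv ℝ (fun p : ℝ × V => _root_.deriv (fun s => f s p.2) p.1) (t, z) =
      fderiv ℝ (fun p => fderiv ℝ F p (1, 0)) (t, z) :=
    Filter.EventuallyEq.fderiv_eq (Filter.eventually_of_mem
      (isOpen_dom.mem_nhds ⟨ht, trivial⟩) fun p hp => h.deriv_eq hp.1 p.2)
  rw [e1, e2, e, e]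
  exact (h2.isSymmSndFDerivAt (by simp [minSmoothness_of_isRCLikeNormedField])).eq _ _

theorem dd_comm (h : SmJ f) (u w : V) {t : ℝ} (ht : 0 < t) :
    Deriv.dd u (Deriv.dd w (f t)) = Deriv.dd w (Deriv.dd u (f t)) := by
  funext z
  have hc : ContDiff ℝ 2 (f t) := contDiffOn_univ.1 ((h 2).comp (f := fun z : V => (t, z))
    (contDiff_const.prodMk contDiff_id).contDiffOn fun _ _ => ⟨ht, trivial⟩)
  have h1 : DifferentiableAt ℝ (fderiv ℝ (f t)) z :=
    (hc.contDiffAt.fderiv_right (m := 1) le_rfl).differentiableAt one_ne_zero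
  have e : ∀ a b, fderiv ℝ (fun y => fderiv ℝ (f t) y b) z a =
      fderiv ℝ (fderiv ℝ (f t)) z a b := fun a b => by
    rw [fderiv_clm_apply h1 (differentiableAt_const b)]
    simp
  show fderiv ℝ (fun y => fderiv ℝ (f t) y w) z u = fderiv ℝ (fun y => fderiv ℝ (f t) y u) z w
  rw [e, e]
  exact (hc.contDiffAt.isSymmSndFDerivAt (by simp [minSmoothness_of_isRCLikeNormedField])).eq _ _

end SmJ

/-! ### Backward operators -/

/-- `∂_t - ∑ ∂_{e i}² + ∑ c i ∂_{e i}` -/
noncomputable def bG (e : Fin d → V) (c : Fin d → ℝ → V → ℝ) (f : ℝ → V → ℝ) (t : ℝ) (z : V) : ℝ :=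
  deriv (fun s => f s z) t - ∑ i, dd (e i) (dd (e i) (f t)) z + ∑ i, c i t z * dd (e i) (f t) z

variable {e : Fin d → V} {c : Fin d → ℝ → V → ℝ} {f g : ℝ → V → ℝ}

theorem SmJ.bG (hc : ∀ i, SmJ (c i)) (h : SmJ f) : SmJ (bG e c f) :=
  (h.deriv.sub (SmJ.sum _ fun i _ => (h.dd (e i)).dd (e i))).add
    (SmJ.sum _ fun i _ => (hc i).mul (h.dd (e i)))

theorem bG_congr (h : ∀ t, 0 < t → ∀ z, g t z = f t z) {t : ℝ} (ht : 0 < t) (z : V) :
    bG e c g t z = bG e c f t z := by
  have e1 : g t = f t := funext (h t ht)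
  have e2 : deriv (fun s => g s z) t = deriv (fun s => f s z) t :=
    Filter.EventuallyEq.deriv_eq (Filter.eventually_of_mem (isOpen_Ioi.mem_nhds ht)
      fun s hs => h s hs z)
  simp only [bG, e1, e2]

theorem bG_add (hf : SmJ f) (hg : SmJ g) {t : ℝ} (ht : 0 < t) (z : V) :
    bG e c (fun t z => f t z + g t z) t z = bG e c f t z + bG e c g t z := by
  have h1 := ((hf.hasDerivAt ht z).fun_add (hg.hasDerivAt ht z)).deriv
  have h2 : ∀ i, dd (e i) (fun z => f t z + g t z) =
      fun z => dd (e i) (f t) z + dd (e i) (g t) z :=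
    fun i => dd_add (hf.differentiable ht) (hg.differentiable ht) _
  have h3 : ∀ i, dd (e i) (fun z => dd (e i) (f t) z + dd (e i) (g t) z) =
      fun z => dd (e i) (dd (e i) (f t)) z + dd (e i) (dd (e i) (g t)) z :=
    fun i => dd_add ((hf.dd (e i)).differentiable ht) ((hg.dd (e i)).differentiable ht) _
  simp only [bG, h1, h2, h3, mul_add, Finset.sum_add_distrib]
  ring

theorem bG_mul (hf : SmJ f) (hg : SmJ g) {t : ℝ} (ht : 0 < t) (z : V) :
    bG e c (fun t z => f t z * g t z) t z = bG e c f t z * g t z + f t z * bG e c g t z -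
      2 * ∑ i, dd (e i) (f t) z * dd (e i) (g t) z := by
  have h1 := ((hf.hasDerivAt ht z).fun_mul (hg.hasDerivAt ht z)).deriv
  have h2 : ∀ i, dd (e i) (fun z => f t z * g t z) =
      fun z => dd (e i) (f t) z * g t z + f t z * dd (e i) (g t) z :=
    fun i => dd_mul (hf.differentiable ht) (hg.differentiable ht) _
  have h3 : ∀ i, dd (e i) (fun z => dd (e i) (f t) z * g t z + f t z * dd (e i) (g t) z) z =
      dd (e i) (dd (e i) (f t)) z * g t z + 2 * (dd (e i) (f t) z * dd (e i) (g t) z) +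
        f t z * dd (e i) (dd (e i) (g t)) z := fun i => by
    rw [dd_add (((hf.dd (e i)).mul hg).differentiable ht) ((hf.mul (hg.dd (e i))).differentiable ht),
      dd_mul ((hf.dd (e i)).differentiable ht) (hg.differentiable ht),
      dd_mul (hf.differentiable ht) ((hg.dd (e i)).differentiable ht)]
    ring
  simp only [bG, h1, h2, h3, mul_add, add_mul, sub_mul, mul_sub, Finset.sum_add_distrib,
    Finset.mul_sum, Finset.sum_mul]
  ring_nf

theorem bG_time_mul {k : ℝ → ℝ} (hk : ∀ n : ℕ, ContDiffOn ℝ n k (Ioi 0)) (hf : SmJ f) {t : ℝ}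
    (ht : 0 < t) (z : V) :
    bG e c (fun t z => k t * f t z) t z = deriv k t * f t z + k t * bG e c f t z := by
  rw [bG_mul (SmJ.time hk) hf ht]
  simp [bG, dd_const, Deriv.dd_const]

theorem bG_const_mul (k : ℝ) (hf : SmJ f) {t : ℝ} (ht : 0 < t) (z : V) :
    bG e c (fun t z => k * f t z) t z = k * bG e c f t z := by
  rw [bG_time_mul (k := fun _ => k) (fun _ => contDiffOn_const) hf ht]
  simp

theorem bG_sum {α : Type*} (s : Finset α) {F : α → ℝ → V → ℝ} (hF : ∀ a ∈ s, SmJ (F a)) {t : ℝ}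
    (ht : 0 < t) (z : V) :
    bG e c (fun t z => ∑ a ∈ s, F a t z) t z = ∑ a ∈ s, bG e c (F a) t z := by
  induction s using Finset.cons_induction with
  | empty => simp [bG, dd_const]
  | cons a s ha ih =>
    simp only [Finset.sum_cons]
    rw [bG_add (hF a (Finset.mem_cons_self a s))
      (SmJ.sum _ fun b hb => hF b (Finset.mem_cons_of_mem hb)) ht,
      ih fun b hb => hF b (Finset.mem_cons_of_mem hb)]

/-- commutation with a space derivative -/
theorem bG_dd (hc : ∀ i, SmJ (c i)) (hf : SmJ f) (u : V) {t : ℝ} (ht : 0 < t) (z : V) :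
    bG e c (fun t z => dd u (f t) z) t z =
      dd u (bG e c f t) z - ∑ i, dd u (c i t) z * dd (e i) (f t) z := by
  have hb : bG e c f t = fun z => (fun y => deriv (fun s => f s y) t) z -
      ∑ i, dd (e i) (dd (e i) (f t)) z + ∑ i, c i t z * dd (e i) (f t) z := rfl
  rw [hb, dd_add ((hf.deriv.sub (SmJ.sum _ fun i _ => (hf.dd (e i)).dd (e i))).differentiable ht)
      ((SmJ.sum _ fun i _ => (hc i).mul (hf.dd (e i))).differentiable ht),
    dd_sub (hf.deriv.differentiable ht)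
      ((SmJ.sum _ fun i _ => (hf.dd (e i)).dd (e i)).differentiable ht),
    dd_sum _ (fun i _ => ((hf.dd (e i)).dd (e i)).differentiable ht),
    dd_sum _ (fun i _ => ((hc i).mul (hf.dd (e i))).differentiable ht)]
  have e1 : ∀ i, dd u (dd (e i) (dd (e i) (f t))) = dd (e i) (dd (e i) (dd u (f t))) := fun i => by
    rw [(hf.dd (e i)).dd_comm u (e i) ht]
    exact congrArg (dd (e i)) (hf.dd_comm u (e i) ht)
  have e2 : ∀ i, dd u (fun z => c i t z * dd (e i) (f t) z) z =
      dd u (c i t) z * dd (e i) (f t) z + c i t z * dd (e i) (dd u (f t)) z := fun i => by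
    rw [dd_mul ((hc i).differentiable ht) ((hf.dd (e i)).differentiable ht),
      hf.dd_comm u (e i) ht]
  simp only [bG, e1, e2, hf.deriv_dd u ht, Finset.sum_add_distrib]
  ring

end Vale.Agent.P347.Zero
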