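import Vale.Agent.P347.Zero.Ten

/-!
# P347, exponent zero: Sobolev bounds for divergences and for multiplication by a flat tensor
-/

open MeasureTheory ProbabilityTheory Real Set Function
open scoped RealInnerProductSpace

namespace Vale.Agent.P347.Zero

open Deriv

variable {d : ℕ}

/-- divergence along the directions `u` with weights `p` -/
noncomputable def delG {α : Type} (u : Fin d → Z d) (p : Fin d → Z d → ℝ)
    (F : α × Fin d → Z d → ℝ) (a : α) (z : Z d) : ℝ :=
  ∑ j, (p j z * F (a, j) z - dd (u j) (F (a, j)) z)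

theorem good_delG {α : Type} {u : Fin d → Z d} {p : Fin d → Z d → ℝ} (hp : ∀ j n, Good n (p j))
    {F : α × Fin d → Z d → ℝ} (hF : ∀ i n, Good n (F i)) (a : α) (n : ℕ) :
    Good n (delG u p F a) :=
  Good.sum _ fun j _ => ((hp j n).mul (hF _ n)).sub ((hF _ (n + 1)).dd _)

theorem dd_delG {α : Type} {u : Fin d → Z d} {p : Fin d → Z d → ℝ} (hp : ∀ j n, Good n (p j))
    {F : α × Fin d → Z d → ℝ} (hF : ∀ i n, Good n (F i)) (a : α) (v : Z d) :
    dd v (delG u p F a) = fun z => delG u p (fun i => dd v (F i)) a z +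
      ∑ j, dd v (p j) z * F (a, j) z := by
  have h1 : ∀ j, Differentiable ℝ fun z => p j z * F (a, j) z := fun j =>
    ((hp j 1).mul (hF _ 1)).differentiable
  have h2 : ∀ j, Differentiable ℝ (dd (u j) (F (a, j))) := fun j =>
    ((hF _ 2).dd _).differentiable
  show dd v (fun z => ∑ j, (p j z * F (a, j) z - dd (u j) (F (a, j)) z)) = _
  rw [dd_sum _ fun j _ => (h1 j).fun_sub (h2 j)]
  funext z
  simp only [delG, ← Finset.sum_add_distrib]
  refine Finset.sum_congr rfl fun j _ => ?_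
  rw [dd_sub (h1 j) (h2 j), dd_mul (hp j 1).differentiable (hF _ 1).differentiable,
    dd_comm (hF _ 2) v (u j)]
  ring

/-- A divergence costs one order. -/
theorem exists_Q_delG_le (c : ℝ) (hc : 0 ≤ c) : ∀ r : ℕ, ∃ C : ℝ, 0 ≤ C ∧
    ∀ (d : ℕ) (η B : ℝ) (U : E d → ℝ) (u : Fin d → Z d) (p : Fin d → Z d → ℝ),
      Pert η B U → (u = ex ∨ u = ev) → (∀ j n, Good n (p j)) →
      (∀ j φ, Good 1 φ → ∫ z, dd (u j) φ z ∂mu U = ∫ z, p j z * φ z ∂mu U) →
      (∀ z (a : Fin d → ℝ), ∑ j, ∑ k, a j * a k * dd (u j) (p k) z ≤ c * ∑ j, a j ^ 2) →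
      (∀ (w : Fin d → Z d), (w = ex ∨ w = ev) → ∀ s < r, ∀ (α : Type) [Fintype α]
        (F : α × Fin d → Z d → ℝ), (∀ i n, Good n (F i)) →
        Deriv.Q U 1 s (fun q : α × Fin d => fun z => ∑ j, dd (w q.2) (p j) z * F (q.1, j) z) ≤
          c * Deriv.Q U 1 s F) →
      ∀ (α : Type) [Fintype α] (F : α × Fin d → Z d → ℝ), (∀ i n, Good n (F i)) →
        Deriv.Q U 1 r (delG u p F) ≤ C * Deriv.Q U 1 (r + 1) F
  | 0 => by
    refine ⟨c + 1, by positivity, fun d η B U u p hU hu hp hibp hq _ α _ F hF => ?_⟩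
    have h := Finset.sum_le_sum fun a (_ : a ∈ Finset.univ) =>
      bochner hU u p (fun j => hp j 1) hibp hq (a := fun j => F (a, j)) fun j => hF _ 2
    simp only [Finset.sum_add_distrib, ← Finset.mul_sum] at h
    refine le_trans h ?_
    have e1 : ∑ a, ss U (fun j => F (a, j)) = ss U F := by
      simp [ss, Fintype.sum_prod_type]
    have e2 : ∑ a, ∑ j, ∑ k, ∫ z, dd (u k) (F (a, j)) z ^ 2 ∂mu U ≤
        ss U (dX F) + ss U (dV F) := by
      have n1 := ss_nonneg U (dX F)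
      have n2 := ss_nonneg U (dV F)
      rcases hu with rfl | rfl
      · refine le_trans (le_of_eq ?_) (le_add_of_nonneg_right n2)
        simp [ss, dX, Fintype.sum_prod_type]
      · refine le_trans (le_of_eq ?_) (le_add_of_nonneg_left n1)
        simp [ss, dV, Fintype.sum_prod_type]
    rw [e1]
    simp only [Deriv.Q, one_pow, one_mul]
    nlinarith [ss_nonneg U F, ss_nonneg U (dX F), ss_nonneg U (dV F)]
  | r + 1 => by
    obtain ⟨C, hC, ih⟩ := exists_Q_delG_le c hc r
    refine ⟨c + 1 + 2 * C + 2 * C + 4 * c, by positivity,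
      fun d η B U u p hU hu hp hibp hq hK α _ F hF => ?_⟩
    have hK' : ∀ w : Fin d → Z d, (w = ex ∨ w = ev) → ∀ s < r, _ := fun w hw s hs =>
      hK w hw s (hs.trans (Nat.lt_succ_self r))
    have key : ∀ w : Fin d → Z d, (w = ex ∨ w = ev) →
        Deriv.Q U 1 r (fun q : α × Fin d => dd (w q.2) (delG u p F q.1)) ≤
          2 * C * Deriv.Q U 1 (r + 1) (fun q : (α × Fin d) × Fin d => dd (w q.2) (F q.1)) +
            2 * c * Deriv.Q U 1 r F := by
      intro w hw
      set G : (α × Fin d) × Fin d → Z d → ℝ := fun q =>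
        dd (w (swapLast α (Fin d) (Fin d) q).2) (F (swapLast α (Fin d) (Fin d) q).1) with hG
      set K : α × Fin d → Z d → ℝ := fun q z => ∑ j, dd (w q.2) (p j) z * F (q.1, j) z with hKd
      have hGg : ∀ i n, Good n (G i) := fun i n => (hF _ (n + 1)).dd _
      have hKg : ∀ i, Good r (K i) := fun i => Good.sum _ fun j _ =>
        ((hp j (r + 1)).dd _).mul (hF _ r)
      have e : (fun q : α × Fin d => dd (w q.2) (delG u p F q.1)) =
          fun q z => delG u p G q z + K q z := by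
        funext q
        rw [dd_delG hp hF]
        rfl
      rw [e]
      have h1 := Q_add_le (σ := 1) hU r _ K (fun q => good_delG (u := u) hp hGg q r) hKg
      have h2 := ih d η B U u p hU hu hp hibp hq hK' (α × Fin d) G hGg
      have h3 : Deriv.Q U 1 (r + 1) G = Deriv.Q U 1 (r + 1) (fun q : (α × Fin d) × Fin d =>
          dd (w q.2) (F q.1)) := Q_reindex (U := U) (σ := 1) (r + 1) (swapLast α (Fin d) (Fin d))
          (fun q : (α × Fin d) × Fin d => dd (w q.2) (F q.1))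
      have h4 := hK w hw r (Nat.lt_succ_self r) α F hF
      refine h1.trans ((add_le_add (mul_le_mul_of_nonneg_left
        (h2.trans_eq (congrArg (C * ·) h3)) two_pos.le)
        (mul_le_mul_of_nonneg_left h4 two_pos.le)).trans_eq ?_)
      ring
    have kx := key ex (Or.inl rfl)
    have kv := key ev (Or.inr rfl)
    have k0 : ss U (delG u p F) ≤ (c + 1) * Deriv.Q U 1 1 F := by
      have h := Finset.sum_le_sum fun a (_ : a ∈ Finset.univ) =>
        bochner hU u p (fun j => hp j 1) hibp hq (a := fun j => F (a, j)) fun j => hF _ 2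
      simp only [Finset.sum_add_distrib, ← Finset.mul_sum] at h
      refine le_trans h ?_
      have e1 : ∑ a, ss U (fun j => F (a, j)) = ss U F := by simp [ss, Fintype.sum_prod_type]
      have e2 : ∑ a, ∑ j, ∑ k, ∫ z, dd (u k) (F (a, j)) z ^ 2 ∂mu U ≤
          ss U (dX F) + ss U (dV F) := by
        rcases hu with rfl | rfl
        · refine le_trans (le_of_eq ?_) (le_add_of_nonneg_right (ss_nonneg U (dV F)))
          simp [ss, dX, Fintype.sum_prod_type]
        · refine le_trans (le_of_eq ?_) (le_add_of_nonneg_left (ss_nonneg U (dX F)))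
          simp [ss, dV, Fintype.sum_prod_type]
      rw [e1]
      simp only [Deriv.Q, one_pow, one_mul]
      nlinarith [ss_nonneg U F, ss_nonneg U (dX F), ss_nonneg U (dV F)]
    have q1 : Deriv.Q U 1 1 F ≤ Deriv.Q U 1 (r + 1 + 1) F := Q_mono (by omega) F
    have q2 : Deriv.Q U 1 r F ≤ Deriv.Q U 1 (r + 1 + 1) F := Q_mono (by omega) F
    show ss U (delG u p F) + (1 : ℝ) ^ 2 * Deriv.Q U 1 r (fun q : α × Fin d => dd (ex q.2) (delG u p F q.1))
      + Deriv.Q U 1 r (fun q : α × Fin d => dd (ev q.2) (delG u p F q.1)) ≤ _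
    have hs : Deriv.Q U 1 (r + 1) (dX F) + Deriv.Q U 1 (r + 1) (dV F) ≤ Deriv.Q U 1 (r + 1 + 1) F := by
      simp only [Deriv.Q, one_pow, one_mul]
      linarith [ss_nonneg U F]
    have n0 := Q_nonneg (U := U) (σ := 1) (r + 1) (dX F)
    have n1 := Q_nonneg (U := U) (σ := 1) (r + 1) (dV F)
    have m1 := mul_le_mul_of_nonneg_left q1 (show (0 : ℝ) ≤ c + 1 by positivity)
    have m2 := mul_le_mul_of_nonneg_left q2 hc
    have m3 := mul_le_mul_of_nonneg_left hs hC
    change _ ≤ (_ : ℝ)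
    simp only [one_pow, one_mul]
    change Deriv.Q U 1 r _ ≤ 2 * C * Deriv.Q U 1 (r + 1) (dX F) + _ at kx
    change Deriv.Q U 1 r _ ≤ 2 * C * Deriv.Q U 1 (r + 1) (dV F) + _ at kv
    have n2 := mul_nonneg hC (Q_nonneg (U := U) (σ := 1) (r + 1 + 1) F)
    nlinarith

/-- flatness of the divergence weights in position -/
theorem exists_Q_delX_le (c : ℝ) (hc : 0 ≤ c) (r : ℕ) : ∃ C : ℝ, 0 ≤ C ∧
    ∀ (d : ℕ) (η B : ℝ) (U : E d → ℝ), Pert η B U → (∀ n, Good n U) → Bd 1 c r (hessM U) →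
      ∀ (α : Type) [Fintype α] (F : α × Fin d → Z d → ℝ), (∀ i n, Good n (F i)) →
        Deriv.Q U 1 r (delG ex (px U) F) ≤ C * Deriv.Q U 1 (r + 1) F := by
  choose Cm hCm hmul using fun s => exists_Q_mulF_le c hc s
  set c' := 2 + c + ∑ s ∈ Finset.range r, (2 + 2 * Cm s) with hc'
  have hc'0 : 0 ≤ c' := by
    have := Finset.sum_nonneg fun s (_ : s ∈ Finset.range r) =>
      (show 0 ≤ 2 + 2 * Cm s by linarith [hCm s])
    linarith
  have hle : 2 + c ≤ c' := le_add_of_nonneg_right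
    (Finset.sum_nonneg fun s _ => by linarith [hCm s])
  obtain ⟨C, hC, h⟩ := exists_Q_delG_le c' hc'0 r
  refine ⟨C, hC, fun d η B U hU hg hM α _ F hF => h d η B U ex (px U) hU (Or.inl rfl)
    (fun j n => good_px (hg (n + 1)) j) (fun j φ hφ => ibp_x hU (hg 1) j hφ)
    (fun z a => (quad_px hM.opLe (hg 2) z a).trans
      (mul_le_mul_of_nonneg_right hle (Finset.sum_nonneg fun _ _ => sq_nonneg _)))
    ?_ α F hF⟩
  intro w hw s hs β _ G hG
  rcases hw with rfl | rfl
  · have e : (fun q : β × Fin d => fun z => ∑ j, dd (ex q.2) (px U j) z * G (q.1, j) z) =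
        fun q z => G q z + mulF (hessM U) G q z := by
      funext q z
      simp only [dd_px (hg 2), ex, add_mul, Finset.sum_add_distrib, inner_bas, mulF, hessM]
      congr 1
      simp [Prod.eta]
    rw [e]
    have hB : Bd 1 c s (hessM U) := hM.mono hs.le
    have hmg : ∀ i, Good s (mulF (hessM U) G i) := good_mulF hB.good fun i => hG i s
    refine (Q_add_le (σ := 1) hU s G _ (fun i => hG i s) hmg).trans ?_
    have := hmul s d 1 η B U hU (Fin d) (Fin d) β (hessM U) G hB fun i => hG i s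
    refine (add_le_add le_rfl (mul_le_mul_of_nonneg_left this two_pos.le)).trans ?_
    have h2 : 2 + 2 * Cm s ≤ c' := le_add_of_nonneg_of_le (by positivity)
      (Finset.single_le_sum (f := fun s => 2 + 2 * Cm s) (fun s _ => by linarith [hCm s])
        (Finset.mem_range.2 hs))
    refine le_trans (le_of_eq (by ring)) (mul_le_mul_of_nonneg_right h2 (Q_nonneg s G))
  · have e : (fun q : β × Fin d => fun z => ∑ j, dd (ev q.2) (px U j) z * G (q.1, j) z) =
        fun _ _ => 0 := by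
      funext q z
      simp only [dd_px (hg 2), ev]
      simp [Deriv.dd]
    rw [e, Q_zero]
    exact mul_nonneg hc'0 (Q_nonneg s G)

theorem exists_Q_delV_le (r : ℕ) : ∃ C : ℝ, 0 ≤ C ∧
    ∀ (d : ℕ) (η B : ℝ) (U : E d → ℝ), Pert η B U →
      ∀ (α : Type) [Fintype α] (F : α × Fin d → Z d → ℝ), (∀ i n, Good n (F i)) →
        Deriv.Q U 1 r (delG ev pv F) ≤ C * Deriv.Q U 1 (r + 1) F := by
  obtain ⟨C, hC, h⟩ := exists_Q_delG_le 1 zero_le_one r
  refine ⟨C, hC, fun d η B U hU α _ F hF => h d η B U ev pv hU (Or.inr rfl)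
    (fun j n => good_pv n j) (fun j φ hφ => ibp_v hU j hφ) (fun z a => ?_) ?_ α F hF⟩
  · simp only [dd_pv, ev, inner_bas, one_mul]
    simp [pow_two]
  intro w hw s _ β _ G hG
  rcases hw with rfl | rfl
  · have e : (fun q : β × Fin d => fun z => ∑ j, dd (ex q.2) (pv j) z * G (q.1, j) z) =
        fun _ _ => 0 := by
      funext q z
      simp [dd_pv, ex]
    rw [e, Q_zero, one_mul]
    exact Q_nonneg s G
  · have e : (fun q : β × Fin d => fun z => ∑ j, dd (ev q.2) (pv j) z * G (q.1, j) z) = G := by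
      funext q z
      simp [dd_pv, ev, inner_bas]
    rw [e, one_mul]

/-! ### Flat tensors as multipliers -/

theorem Bd.rows {σ c : ℝ} : ∀ {r : ℕ} {ι ι' κ : Type} [Fintype ι] [Fintype ι'] [Fintype κ]
    (f : ι' ≃ ι) {M : ι → κ → E d → ℝ}, Bd σ c r M → Bd σ c r (fun i k => M (f i) k)
  | 0, _, _, _, _, _, _, f, M, h => ⟨fun x a => (f.sum_comp fun i =>
      (∑ k, M i k x * a k) ^ 2).trans_le (h.1 x a), fun i k => h.2 _ k⟩
  | r + 1, _, _, _, _, _, _, f, M, h => ⟨fun x a => (f.sum_comp fun i =>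
      (∑ k, M i k x * a k) ^ 2).trans_le (h.1 x a), fun i k => h.2.1 _ k,
      Bd.rows (r := r) (f.prodCongr (Equiv.refl (Fin d))) h.2.2⟩

/-- the matrix of a split tensor -/
def flatM {L P Q : Type} (e : P ⊕ Q ≃ L) {d : ℕ} (T : E d → (L → Fin d) → ℝ) :
    (P → Fin d) → (Q → Fin d) → E d → ℝ :=
  fun a b y => T y fun l => Sum.elim a b (e.symm l)

theorem Bd.mono_const {σ c c' : ℝ} (hc : c ≤ c') : ∀ {r : ℕ} {ι κ : Type} [Fintype ι] [Fintype κ]
    {M : ι → κ → E d → ℝ}, Bd σ c r M → Bd σ c' r M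
  | 0, _, _, _, _, _, h => ⟨fun x a => (h.1 x a).trans
      (mul_le_mul_of_nonneg_right hc (Finset.sum_nonneg fun _ _ => sq_nonneg _)), h.2⟩
  | r + 1, _, _, _, _, _, h => ⟨fun x a => (h.1 x a).trans
      (mul_le_mul_of_nonneg_right hc (Finset.sum_nonneg fun _ _ => sq_nonneg _)), h.2.1,
      Bd.mono_const hc (r := r) h.2.2⟩

/-- operator norm of one flattening -/
theorem opLe_flat {L P Q : Type} [Fintype L] [Fintype P] [DecidableEq P] [Fintype Q]
    [DecidableEq Q] [Nonempty P] [Nonempty Q] (e : P ⊕ Q ≃ L) {d : ℕ} {T : (L → Fin d) → ℝ}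
    {C s κ : ℝ} (hT : Flat (C * s) T) (hC : 0 ≤ C) (hκ : 0 < κ) (hs : 0 ≤ s) (hle : s ≤ κ)
    (x : (Q → Fin d) → ℝ) :
    ∑ a : P → Fin d, (∑ b, κ⁻¹ * T (fun l => Sum.elim a b (e.symm l)) * x b) ^ 2 ≤
      C ^ 2 * ∑ b, x b ^ 2 := by
  have h := hT.op ((Equiv.sumComm Q P).trans e) x
  have el : ∀ (a : P → Fin d) (b : Q → Fin d) l,
      Sum.elim b a (((Equiv.sumComm Q P).trans e).symm l) = Sum.elim a b (e.symm l) :=
    fun a b l => by rcases hx : e.symm l with i | i <;> simp [hx]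
  simp only [el] at h
  have e1 : ∀ a : P → Fin d, (∑ b, κ⁻¹ * T (fun l => Sum.elim a b (e.symm l)) * x b) ^ 2 =
      (κ⁻¹) ^ 2 * (∑ b, x b * T fun l => Sum.elim a b (e.symm l)) ^ 2 := fun a => by
    rw [← mul_pow, Finset.mul_sum]
    exact congrArg (· ^ 2) (Finset.sum_congr rfl fun b _ => by ring)
  simp only [e1, ← Finset.mul_sum]
  refine (mul_le_mul_of_nonneg_left h (sq_nonneg κ⁻¹)).trans ?_
  rw [← mul_assoc, ← mul_pow]
  refine mul_le_mul_of_nonneg_right (pow_le_pow_left₀ (by positivity) ?_ 2)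
    (Finset.sum_nonneg fun _ _ => sq_nonneg _)
  rw [inv_mul_eq_div, div_le_iff₀ hκ]
  exact mul_le_mul_of_nonneg_left hle hC

theorem Ten.bd : ∀ (r : ℕ) {L P Q : Type} [Fintype L] [DecidableEq L] [Fintype P] [DecidableEq P]
    [Fintype Q] [DecidableEq Q] [Nonempty P] [Nonempty Q] (e : P ⊕ Q ≃ L) {T : TF L}, Ten L T →
    ∃ C : ℝ, 0 ≤ C ∧ ∀ (p : Par) (t : ℝ), 1 ≤ t → ∀ κ : ℝ, 0 < κ → p.η * exp (-t) ≤ κ →
      Bd 1 C r (flatM e fun y J => κ⁻¹ * T p t y J) := by
  intro r
  induction r with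
  | zero =>
    intro L P Q _ _ _ _ _ _ _ _ e T h
    obtain ⟨C, hC, hf⟩ := h.flat
    refine ⟨C ^ 2, sq_nonneg C, fun p t ht κ hκ hle => ⟨fun y x => ?_,
      fun a b => (h.good p (by linarith) _ 0).const_mul _⟩⟩
    exact opLe_flat e (by simpa [mul_assoc] using hf p t ht y) hC hκ
      (mul_nonneg p.pert.eta_nonneg (exp_pos _).le) hle x
  | succ r ih =>
    intro L P Q _ _ _ _ _ _ _ _ e T h
    obtain ⟨C, hC, hf⟩ := h.flat
    let e' : (P ⊕ Unit) ⊕ Q ≃ L ⊕ Unit :=
      (moveLeft P Q Unit).symm.trans (e.sumCongr (Equiv.refl Unit))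
    obtain ⟨C', hC', hb⟩ := ih e' h.dY
    refine ⟨max (C ^ 2) C', le_max_of_le_left (sq_nonneg C), fun p t ht κ hκ hle =>
      ⟨fun y x => ?_, fun a b => (h.good p (by linarith) _ _).const_mul _, ?_⟩⟩
    · exact (opLe_flat e (by simpa [mul_assoc] using hf p t ht y) hC hκ
        (mul_nonneg p.pert.eta_nonneg (exp_pos _).le) hle x).trans (mul_le_mul_of_nonneg_right (le_max_left _ _)
          (Finset.sum_nonneg fun _ _ => sq_nonneg _))
    have hb' := Bd.rows
      (((Equiv.sumArrowEquivProdArrow P Unit (Fin p.d)).trans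
        ((Equiv.refl _).prodCongr (Equiv.funUnique Unit (Fin p.d)))).symm) (hb p t ht κ hκ hle)
    refine (Bd.mono_const (le_max_right (C ^ 2) C') ?_)
    convert hb' using 1
    funext q b y
    simp only [dM, flatM, one_mul]
    have ht0 : 0 < t := by linarith
    show dd (bas q.2) (fun y => κ⁻¹ * T p t y fun l => Sum.elim q.1 b (e.symm l)) y = _
    rw [dd_const_mul (h.good p ht0 _ 1).differentiable]
    simp only [Zero.dY]
    congr 1
    congr 2
    funext y'; congr 1; funext l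
    obtain ⟨x, rfl⟩ := e.surjective l
    rcases x with x | x <;> simp [e', moveLeft, Equiv.sumArrowEquivProdArrow]

/-- multiplication by a split flat tensor -/
theorem exists_Q_flat_le {L P Q : Type} [Fintype L] [DecidableEq L] [Fintype P] [DecidableEq P]
    [Fintype Q] [DecidableEq Q] [Nonempty P] [Nonempty Q] (e : P ⊕ Q ≃ L) {T : TF L}
    (h : Ten L T) (r : ℕ) : ∃ C : ℝ, 0 ≤ C ∧
    ∀ (p : Par) (t : ℝ), 1 ≤ t → ∀ (lam : ℝ) (α : Type) [Fintype α]
      (F : α × (Q → Fin p.d) → Z p.d → ℝ), (∀ i n, Good n (F i)) →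
      Deriv.Q (tU p.W t) 1 r (mulF (flatM e fun y J => lam * T p t y J) F) ≤
        C * (lam * (p.η * exp (-t))) ^ 2 * Deriv.Q (tU p.W t) 1 r F := by
  obtain ⟨c, hc, hb⟩ := Ten.bd r e h
  obtain ⟨C, hC, hm⟩ := exists_Q_mulF_le c hc r
  refine ⟨C, hC, fun p t ht lam α _ F hF => ?_⟩
  have ht0 : 0 < t := by linarith
  set s := p.η * exp (-t)
  have hs : 0 ≤ s := mul_nonneg p.pert.eta_nonneg (exp_pos _).le
  have hU := pert_tU p.pert ht0
  set X := Deriv.Q (tU p.W t) 1 r (mulF (flatM e fun y J => lam * T p t y J) F)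
  have key : ∀ κ : ℝ, 0 < κ → s ≤ κ → X ≤ C * (lam * κ) ^ 2 * Deriv.Q (tU p.W t) 1 r F := by
    intro κ hκ hle
    have hB := hb p t ht κ hκ hle
    have e1 : mulF (flatM e fun y J => lam * T p t y J) F = fun q z =>
        lam * κ * mulF (flatM e fun y J => κ⁻¹ * T p t y J) F q z := by
      funext q z
      simp only [mulF, flatM, Finset.mul_sum]
      refine Finset.sum_congr rfl fun b _ => ?_
      field_simp
    show Deriv.Q (tU p.W t) 1 r (mulF (flatM e fun y J => lam * T p t y J) F) ≤ _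
    rw [e1, Q_smul (U := tU p.W t) (σ := 1) r _ (lam * κ)
      (good_mulF hB.good fun i => hF i r)]
    refine (mul_le_mul_of_nonneg_left
      (hm p.d 1 p.η _ (tU p.W t) hU _ _ α _ F hB fun i => hF i r) (sq_nonneg _)).trans_eq ?_
    ring
  have hlim : Filter.Tendsto (fun κ : ℝ => C * (lam * κ) ^ 2 * Deriv.Q (tU p.W t) 1 r F)
      (nhdsWithin s (Ioi s)) (nhds (C * (lam * s) ^ 2 * Deriv.Q (tU p.W t) 1 r F)) :=
    (Continuous.tendsto (by fun_prop) s).mono_left nhdsWithin_le_nhds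
  exact ge_of_tendsto hlim (eventually_nhdsWithin_of_forall fun κ hκ =>
    key κ (hs.trans_lt hκ) (le_of_lt hκ))

end Vale.Agent.P347.Zero
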