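import Vale.Agent.P347.Zero.Tensor
import Vale.Agent.P347.Zero.Smooth

/-!
# P347, exponent zero: a class of tensors closed under space derivatives and the backward operator

Members are built from the derivatives of `tU` by contractions in which both factors keep an
external leg; every member is flat at size `η exp (-t)` at times `t ≥ 1`.
-/

open MeasureTheory ProbabilityTheory Real Set Function
open scoped RealInnerProductSpace

namespace Vale.Agent.P347.Zero

open Deriv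

/-- the data of one instance -/
structure Par where
  /-- dimension -/
  d : ℕ
  /-- smoothness parameter -/
  η : ℝ
  /-- gradient bound -/
  B : ℝ
  /-- noise scale -/
  g : ℝ
  /-- perturbation -/
  W : E d → ℝ
  pert : Pert η B W

/-- families of tensor fields with legs `L` -/
abbrev TF (L : Type) : Type := (p : Par) → ℝ → E p.d → (L → Fin p.d) → ℝ

/-- the derivative tensor of `tU` -/
noncomputable def tD (L : Type) [Fintype L] : TF L :=
  fun p t y J => ddL (legs J) (tU p.W t) y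

/-- append a space derivative as a new leg -/
noncomputable def dY {L : Type} (T : TF L) : TF (L ⊕ Unit) :=
  fun p t y J => dd (bas (J (Sum.inr ()))) (fun y => T p t y fun l => J (Sum.inl l)) y

/-- the drift of the backward operator -/
noncomputable def drift (p : Par) (i : Fin p.d) (t : ℝ) (y : E p.d) : ℝ :=
  ⟪bas i, y⟫ + 2 * dd (bas i) (tU p.W t) y

/-- the backward operator on a function of time and position -/
noncomputable def bP (p : Par) (f : ℝ → E p.d → ℝ) : ℝ → E p.d → ℝ := bG bas (drift p) f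

/-- the backward operator on a tensor -/
noncomputable def bT' {L : Type} (T : TF L) : TF L :=
  fun p t y J => bP p (fun t y => T p t y J) t y

/-- contraction -/
def contr {L₁ L₂ Γ : Type} [Fintype Γ] [DecidableEq Γ] (T : TF (L₁ ⊕ Γ)) (S : TF (Γ ⊕ L₂)) :
    TF (L₁ ⊕ L₂) :=
  fun p t y J => ∑ G : Γ → Fin p.d, T p t y (Sum.elim (fun l => J (Sum.inl l)) G) *
    S p t y (Sum.elim G fun l => J (Sum.inr l))

/-- the class -/
inductive Ten : (L : Type) → [Fintype L] → [DecidableEq L] → TF L → Prop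
  | base {L : Type} [Fintype L] [DecidableEq L] (h : 2 ≤ Fintype.card L) :
      Ten L (tD L)
  | add {L : Type} [Fintype L] [DecidableEq L] {T S : TF L} :
      Ten L T → Ten L S → Ten L (fun p t y J => T p t y J + S p t y J)
  | smul {L : Type} [Fintype L] [DecidableEq L] (c : ℝ) {T : TF L} :
      Ten L T → Ten L (fun p t y J => c * T p t y J)
  | reindex {L L' : Type} [Fintype L] [DecidableEq L] [Fintype L'] [DecidableEq L']
      (e : L ≃ L') {T : TF L} : Ten L T → Ten L' (fun p t y J => T p t y fun l => J (e l))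
  | congr {L : Type} [Fintype L] [DecidableEq L] {T S : TF L}
      (h : ∀ p t, 0 < t → ∀ y J, S p t y J = T p t y J) : Ten L T → Ten L S
  | contr {L₁ L₂ Γ : Type} [Fintype L₁] [DecidableEq L₁] [Fintype L₂] [DecidableEq L₂]
      [Fintype Γ] [DecidableEq Γ] [Nonempty L₁] [Nonempty L₂] [Nonempty Γ]
      {T : TF (L₁ ⊕ Γ)} {S : TF (Γ ⊕ L₂)} :
      Ten (L₁ ⊕ Γ) T → Ten (Γ ⊕ L₂) S → Ten (L₁ ⊕ L₂) (contr T S)

theorem smJ_tU (p : Par) : SmJ (tU p.W) := fun _ => contDiffOn_tU p.pert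

theorem smJ_ddL {d : ℕ} {f : ℝ → E d → ℝ} (hf : SmJ f) :
    ∀ l : List (E d), SmJ fun t y => ddL l (f t) y
  | [] => hf
  | u :: l => (smJ_ddL hf l).dd u

theorem smJ_drift (p : Par) (i : Fin p.d) : SmJ (drift p i) :=
  (SmJ.space fun _ => (innerSL ℝ (bas i)).contDiff).add
    ((SmJ.const 2).mul ((smJ_tU p).dd _))

theorem good_drift (p : Par) (i : Fin p.d) {t : ℝ} (ht : 0 < t) (n : ℕ) : Good n (drift p i t) :=
  (good_linear n (innerSL ℝ (bas i))).add
    (((good_tU p.pert ht (n + 1)).dd _).const_mul 2)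

theorem Ten.smJ {L : Type} [Fintype L] [DecidableEq L] {T : TF L} (h : Ten L T)
    (p : Par) : ∀ J, SmJ fun t y => T p t y J := by
  induction h with
  | base _ => exact fun J => smJ_ddL (smJ_tU p) _
  | add _ _ ih1 ih2 => exact fun J => (ih1 J).add (ih2 J)
  | smul c _ ih => exact fun J => (SmJ.const c).mul (ih J)
  | reindex e _ ih => exact fun J => ih _
  | congr h _ ih => exact fun J => (ih J).congr fun t ht y => h p t ht y J
  | contr _ _ ih1 ih2 => exact fun J => SmJ.sum _ fun G _ => (ih1 _).mul (ih2 _)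

theorem Ten.good {L : Type} [Fintype L] [DecidableEq L] {T : TF L} (h : Ten L T)
    (p : Par) {t : ℝ} (ht : 0 < t) : ∀ J n, Good n fun y => T p t y J := by
  induction h with
  | base _ => exact fun J n => good_ddL (good_tU p.pert ht) _ n
  | add _ _ ih1 ih2 => exact fun J n => (ih1 J n).add (ih2 J n)
  | smul c _ ih => exact fun J n => (ih J n).const_mul c
  | reindex e _ ih => exact fun J n => ih _ n
  | congr h _ ih => intro J n; simp only [h p t ht]; exact ih J n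
  | contr _ _ ih1 ih2 => exact fun J n => Good.sum _ fun G _ => (ih1 _ n).mul (ih2 _ n)

/-! ### Space derivatives -/

/-- move a leg appended to a sum to its first part -/
def moveLeft (A C U : Type) : (A ⊕ C) ⊕ U ≃ (A ⊕ U) ⊕ C where
  toFun := Sum.elim (Sum.elim (fun a => Sum.inl (Sum.inl a)) Sum.inr) fun u => Sum.inl (Sum.inr u)
  invFun := Sum.elim (Sum.elim (fun a => Sum.inl (Sum.inl a)) Sum.inr) fun c => Sum.inl (Sum.inr c)
  left_inv := by rintro ((a | c) | u) <;> rfl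
  right_inv := by rintro ((a | u) | c) <;> rfl

theorem inv_bT_le_two {t : ℝ} (ht : 1 ≤ t) : (bT t)⁻¹ ≤ 2 := by
  have h : exp (-(2 * t)) ≤ 3 / 4 := by
    have h1 := add_one_le_exp (2 * t)
    rw [exp_neg, inv_le_comm₀ (exp_pos _) (by norm_num)]
    linarith
  have h2 : (1 / 2 : ℝ) ≤ bT t := Real.le_sqrt_of_sq_le (by linarith)
  rw [inv_le_comm₀ (by linarith) two_pos]
  linarith

theorem sq_add_le_of_sq_le {x y a b c S : ℝ} (hx : x ^ 2 ≤ a ^ 2 * S * c) (hy : y ^ 2 ≤ b ^ 2 * S * c)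
    (ha : 0 ≤ a) (hb : 0 ≤ b) {s : ℝ} (hs : s = a + b) : (x + y) ^ 2 ≤ s ^ 2 * S * c := by
  subst hs
  rcases ha.eq_or_lt with rfl | ha
  · have : x = 0 := pow_eq_zero_iff two_ne_zero |>.1 (le_antisymm (by simpa using hx) (sq_nonneg x))
    simpa [this] using hy
  rcases hb.eq_or_lt with rfl | hb
  · have : y = 0 := pow_eq_zero_iff two_ne_zero |>.1 (le_antisymm (by simpa using hy) (sq_nonneg y))
    simpa [this] using hx
  have hab : 0 < a * b := mul_pos ha hb
  nlinarith [sq_nonneg (b * x - a * y), mul_le_mul_of_nonneg_left hx (sq_nonneg b),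
    mul_le_mul_of_nonneg_left hy (sq_nonneg a)]

theorem Ten.dY {L : Type} [Fintype L] [DecidableEq L] {T : TF L} (h : Ten L T) :
    Ten (L ⊕ Unit) (Zero.dY T) := by
  induction h with
  | @base L _ _ hL =>
    refine Ten.congr (fun p t ht y J => ?_) (Ten.base (L := L ⊕ Unit) (by simp; omega))
    have hp : List.Perm (legs J) (bas (J (Sum.inr ())) :: legs fun l => J (Sum.inl l)) := by
      have e : J = Sum.elim (fun l => J (Sum.inl l)) fun _ => J (Sum.inr ()) := by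
        funext x; rcases x with l | ⟨⟩ <;> rfl
      conv_lhs => rw [e]
      refine (legs_sum _ _).trans ?_
      simpa [legs] using (List.perm_append_singleton (bas (J (Sum.inr ())))
        (legs fun l => J (Sum.inl l)))
    simp only [tD, ddL_perm (good_tU p.pert ht) hp]
    rfl
  | @add L _ _ T S hT hS ih1 ih2 =>
    refine Ten.congr (fun p t ht y J => ?_) (ih1.add ih2)
    exact congrFun (dd_add ((hT.good p ht _ 1).differentiable) ((hS.good p ht _ 1).differentiable) _) y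
  | @smul L _ _ c T hT ih =>
    refine Ten.congr (fun p t ht y J => ?_) (ih.smul c)
    exact congrFun (dd_const_mul (hT.good p ht _ 1).differentiable c _) y
  | @reindex L L' _ _ _ _ e T hT ih =>
    exact Ten.congr (fun p t ht y J => rfl) (ih.reindex (e.sumCongr (Equiv.refl Unit)))
  | @congr L _ _ T S h hT ih =>
    refine Ten.congr (fun p t ht y J => ?_) ih
    simp only [Zero.dY]
    congr 2
    exact funext fun y => h p t ht y _
  | @contr L₁ L₂ Γ _ _ _ _ _ _ _ _ _ T S hT hS ih1 ih2 =>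
    have h1 := ((ih1.reindex (moveLeft L₁ Γ Unit)).contr hS).reindex (moveLeft L₁ L₂ Unit).symm
    have h2 := (hT.contr (ih2.reindex (Equiv.sumAssoc Γ L₂ Unit))).reindex
      (Equiv.sumAssoc L₁ L₂ Unit).symm
    refine Ten.congr (fun p t ht y J => ?_) (h1.add h2)
    simp only [Zero.dY, Zero.contr]
    rw [dd_sum _ fun G _ => ((hT.good p ht _ 1).mul (hS.good p ht _ 1)).differentiable,
      ← Finset.sum_add_distrib]
    refine Finset.sum_congr rfl fun G _ => ?_
    rw [dd_mul (hT.good p ht _ 1).differentiable (hS.good p ht _ 1).differentiable]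
    dsimp only
    congr 1
    · congr 1
      congr 2
      funext y'; congr 1; funext l; rcases l with a | c <;> rfl
    · congr 1
      congr 2
      funext y'; congr 1; funext l; rcases l with c | b <;> rfl

/-! ### The backward operator on derivatives of `tU` -/

theorem bP_tU (p : Par) {t : ℝ} (ht : 0 < t) (y : E p.d) :
    bP p (tU p.W) t y = ∑ k, dd (bas k) (tU p.W t) y ^ 2 := by
  have e : ∀ k, dd (bas k) (tU p.W t) y = ⟪grad (tU p.W t) y, bas k⟫ := fun k => (inner_grad y _).symm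
  have e1 : ‖grad (tU p.W t) y‖ ^ 2 = ∑ k, dd (bas k) (tU p.W t) y ^ 2 := by
    simp only [e]
    exact ((EuclideanSpace.basisFun (Fin p.d) ℝ).sum_sq_inner_left _).symm
  have e2 : ⟪y, grad (tU p.W t) y⟫ = ∑ k, ⟪bas k, y⟫ * dd (bas k) (tU p.W t) y := by
    simp only [e]
    rw [← (EuclideanSpace.basisFun (Fin p.d) ℝ).sum_inner_mul_inner y]
    refine Finset.sum_congr rfl fun k _ => ?_
    show ⟪y, bas k⟫ * ⟪bas k, grad (tU p.W t) y⟫ = _
    rw [real_inner_comm y (bas k), real_inner_comm (grad (tU p.W t) y)]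
  simp only [bP, bG, drift, (hasDerivAt_tU p.pert ht y).deriv, e1, e2, add_mul, mul_assoc,
    Finset.sum_add_distrib, ← Finset.mul_sum, pow_two]
  ring

theorem dd_drift (p : Par) (i : Fin p.d) (u : E p.d) {t : ℝ} (ht : 0 < t) (y : E p.d) :
    dd u (drift p i t) y = ⟪bas i, u⟫ + 2 * dd u (dd (bas i) (tU p.W t)) y := by
  have hd := ((smJ_tU p).dd (bas i)).differentiable ht
  show dd u (fun y => innerSL ℝ (bas i) y + 2 * dd (bas i) (tU p.W t) y) y = _
  rw [dd_add (innerSL ℝ (bas i)).differentiable (hd.const_mul 2), dd_const_mul hd]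
  show fderiv ℝ (⇑(innerSL ℝ (bas i))) y u + _ = _
  rw [ContinuousLinearMap.fderiv]
  rfl

/-- commutation of the backward operator with a coordinate derivative -/
theorem bP_dd (p : Par) {f : ℝ → E p.d → ℝ} (hf : SmJ f) (j : Fin p.d) {t : ℝ} (ht : 0 < t)
    (y : E p.d) : bP p (fun t y => dd (bas j) (f t) y) t y =
      dd (bas j) (bP p f t) y - dd (bas j) (f t) y -
        2 * ∑ i, dd (bas j) (dd (bas i) (tU p.W t)) y * dd (bas i) (f t) y := by
  rw [bP, bG_dd (smJ_drift p) hf (bas j) ht, sub_sub]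
  congr 1
  simp only [dd_drift p _ _ ht, add_mul, Finset.sum_add_distrib, Finset.mul_sum, mul_assoc]
  congr 1
  simp [inner_bas]

theorem bP_dd_tU (p : Par) (i : Fin p.d) {t : ℝ} (ht : 0 < t) (y : E p.d) :
    bP p (fun t y => dd (bas i) (tU p.W t) y) t y = -dd (bas i) (tU p.W t) y := by
  have hU := smJ_tU p
  rw [bP_dd p hU i ht, show bP p (tU p.W) t = fun y => ∑ k, dd (bas k) (tU p.W t) y ^ 2 from
    funext (bP_tU p ht)]
  simp only [pow_two]
  rw [dd_sum _ fun k _ => ((hU.dd _).differentiable ht).fun_mul ((hU.dd _).differentiable ht)]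
  simp only [dd_mul ((hU.dd _).differentiable ht) ((hU.dd _).differentiable ht), Finset.mul_sum]
  rw [sub_right_comm, ← Finset.sum_sub_distrib, Finset.sum_eq_zero fun k _ => ?_, zero_sub]
  ring

theorem bP_dd2_tU (p : Par) (j i : Fin p.d) {t : ℝ} (ht : 0 < t) (y : E p.d) :
    bP p (fun t y => dd (bas j) (dd (bas i) (tU p.W t)) y) t y =
      -2 * dd (bas j) (dd (bas i) (tU p.W t)) y -
        2 * ∑ k, dd (bas j) (dd (bas k) (tU p.W t)) y * dd (bas k) (dd (bas i) (tU p.W t)) y := by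
  have hU := smJ_tU p
  rw [bP_dd p (hU.dd (bas i)) j ht,
    show bP p (fun t y => dd (bas i) (tU p.W t) y) t = fun y => -1 * dd (bas i) (tU p.W t) y from
      funext fun y => by rw [bP_dd_tU p i ht, neg_one_mul],
    dd_const_mul ((hU.dd _).differentiable ht)]
  ring

theorem bP_congr (p : Par) {f g : ℝ → E p.d → ℝ} (h : ∀ t, 0 < t → ∀ y, g t y = f t y) {t : ℝ}
    (ht : 0 < t) (y : E p.d) : bP p g t y = bP p f t y := bG_congr h ht y

/-- the backward operator on a derivative tensor, with `n + 2` legs -/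
theorem ten_bT_tD : ∀ n : ℕ, Ten (Fin (n + 2)) (bT' (tD (Fin (n + 2))))
  | 0 => by
    have h2 : Ten (Fin 2) (tD (Fin 2)) := Ten.base (by simp)
    have hu : Ten (Unit ⊕ Unit) (tD (Unit ⊕ Unit)) := Ten.base (by simp)
    have hc : Ten (Unit ⊕ Unit) (contr (tD (Unit ⊕ Unit)) (tD (Unit ⊕ Unit))) := hu.contr hu
    let e : Unit ⊕ Unit ≃ Fin 2 :=
      { toFun := Sum.elim (fun _ => 0) fun _ => 1
        invFun := fun i => if i = 0 then Sum.inl () else Sum.inr ()
        left_inv := by rintro (⟨⟩ | ⟨⟩) <;> simp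
        right_inv := fun i => by fin_cases i <;> simp }
    refine Ten.congr (fun p t ht y J => ?_) ((h2.smul (-2)).add ((hc.reindex e).smul (-2)))
    have hg := good_tU p.pert ht
    have e1 : ∀ t, 0 < t → ∀ y, tD (Fin 2) p t y J =
        dd (bas (J 0)) (dd (bas (J 1)) (tU p.W t)) y := fun t ht y => by
      simp only [tD]
      rw [ddL_perm (good_tU p.pert ht) (legs_fin J)]
      simp [bv, List.ofFn_succ, ddL]
    have e2 : ∀ a b : Unit → Fin p.d, ddL (legs (Sum.elim a b)) (tU p.W t) y =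
        dd (bas (a ())) (dd (bas (b ())) (tU p.W t)) y := fun a b => by
      rw [ddL_perm hg (legs_sum a b)]
      simp [legs, ddL]
    show bP p (fun t y => tD (Fin 2) p t y J) t y = _
    rw [bP_congr p e1 ht, bP_dd2_tU p _ _ ht, e1 t ht y]
    simp only [contr, tD, e2, sub_eq_add_neg, neg_mul]
    congr 3
    refine Fintype.sum_equiv (Equiv.funUnique Unit (Fin p.d)).symm _ _ fun k => ?_
    simp [e, Equiv.funUnique]
  | n + 1 => by
    have ih := ten_bT_tD n
    have hb : Ten (Fin (n + 2)) (tD (Fin (n + 2))) := Ten.base (by simp)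
    have hu : Ten (Unit ⊕ Unit) (tD (Unit ⊕ Unit)) := Ten.base (by simp)
    have hc := hu.contr (L₁ := Unit) (Γ := Unit) (L₂ := Fin (n + 2))
      (hb.dY.reindex (Equiv.sumComm (Fin (n + 2)) Unit))
    let e : Fin (n + 2) ⊕ Unit ≃ Fin (n + 1 + 2) :=
      ((Equiv.optionEquivSumPUnit _).symm).trans (finSuccEquiv (n + 2)).symm
    refine Ten.congr (fun p t ht y J => ?_)
      (((ih.dY.add (hb.dY.smul (-1))).add
        ((hc.reindex (Equiv.sumComm Unit (Fin (n + 2)))).smul (-2))).reindex e)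
    have hg := good_tU p.pert (t := t) ht
    set J' : Fin (n + 2) → Fin p.d := fun l => J (e (Sum.inl l))
    set j := J (e (Sum.inr ()))
    have e1 : ∀ t, 0 < t → ∀ y, tD (Fin (n + 1 + 2)) p t y J =
        dd (bas j) (fun y => tD (Fin (n + 2)) p t y J') y := fun t ht y => by
      simp only [tD]
      have hp : List.Perm (legs J) (bas j :: legs J') := by
        refine (legs_comp_equiv e J).symm.trans ?_
        rw [show (fun l => J (e l)) = Sum.elim J' (fun _ => j) from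
          funext fun x => by rcases x with l | ⟨⟩ <;> rfl]
        refine (legs_sum _ _).trans ?_
        simpa [legs] using List.perm_append_singleton (bas j) (legs J')
      rw [ddL_perm (good_tU p.pert ht) hp]
      rfl
    show bP p (fun t y => tD (Fin (n + 1 + 2)) p t y J) t y = _
    rw [bP_congr p e1 ht, bP_dd p (f := fun t y => tD (Fin (n + 2)) p t y J') (smJ_ddL (smJ_tU p) _) j ht]
    simp only [Zero.dY, contr, bT', tD, sub_eq_add_neg, neg_mul, one_mul]
    congr 3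
    refine Fintype.sum_equiv (Equiv.funUnique Unit (Fin p.d)).symm _ _ fun k => ?_
    have e2 : ddL (legs (Sum.elim (fun _ : Unit => j) fun _ : Unit => k)) (tU p.W t) y =
        dd (bas j) (dd (bas k) (tU p.W t)) y := by
      rw [ddL_perm hg (legs_sum _ _)]
      simp [legs, ddL]
    rw [← e2]
    rfl

/-! ### The backward operator on the class -/

theorem Ten.bT {L : Type} [Fintype L] [DecidableEq L] {T : TF L} (h : Ten L T) :
    Ten L (bT' T) := by
  induction h with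
  | @base L _ _ hL =>
    obtain ⟨n, hn⟩ := Nat.exists_eq_add_of_le' hL
    let e := Fintype.equivFinOfCardEq hn
    refine Ten.congr (fun p t ht y J => ?_) ((ten_bT_tD n).reindex e.symm)
    refine bP_congr p (fun t ht y => ?_) ht y
    simp only [tD]
    exact congrFun (ddL_perm (good_tU p.pert ht) (legs_comp_equiv e.symm J).symm) y
  | @add L _ _ T S hT hS ih1 ih2 =>
    exact Ten.congr (fun p t ht y J => bG_add (hT.smJ p J) (hS.smJ p J) ht y) (ih1.add ih2)
  | @smul L _ _ c T hT ih =>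
    exact Ten.congr (fun p t ht y J => bG_const_mul c (hT.smJ p J) ht y) (ih.smul c)
  | @reindex L L' _ _ _ _ e T hT ih => exact Ten.congr (fun p t ht y J => rfl) (ih.reindex e)
  | @congr L _ _ T S h hT ih =>
    exact Ten.congr (fun p t ht y J => bP_congr p (fun t ht y => h p t ht y J) ht y) ih
  | @contr L₁ L₂ Γ _ _ _ _ _ _ _ _ _ T S hT hS ih1 ih2 =>
    have h1 := ih1.contr hS
    have h2 := hT.contr ih2
    have h3 := (hT.dY.reindex (Equiv.sumAssoc L₁ Γ Unit)).contr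
      (hS.dY.reindex (moveLeft Γ L₂ Unit))
    refine Ten.congr (fun p t ht y J => ?_) ((h1.add h2).add (h3.smul (-2)))
    simp only [bT', Zero.contr]
    have hsum : ∀ G : Γ → Fin p.d, SmJ fun t y =>
        T p t y (Sum.elim (fun l => J (Sum.inl l)) G) *
          S p t y (Sum.elim G fun l => J (Sum.inr l)) :=
      fun G => (hT.smJ p _).mul (hS.smJ p _)
    rw [bP, bG_sum _ (fun G _ => hsum G) ht,
      Finset.sum_congr rfl fun G _ => bG_mul (hT.smJ p _) (hS.smJ p _) ht y,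
      Finset.sum_sub_distrib, Finset.sum_add_distrib, sub_eq_add_neg]
    congr 1
    rw [← Finset.mul_sum, ← neg_mul]
    congr 1
    rw [← ((Equiv.sumArrowEquivProdArrow Γ Unit (Fin p.d)).symm.sum_comp), Fintype.sum_prod_type]
    refine Finset.sum_congr rfl fun G _ => ?_
    rw [← (Equiv.funUnique Unit (Fin p.d)).symm.sum_comp]
    refine Finset.sum_congr rfl fun k _ => ?_
    congr 1
    · simp only [Zero.dY]
      congr 1
      congr 1
      funext y'; congr 1; funext l; rcases l with a | c <;> rfl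
    · simp only [Zero.dY]
      congr 1
      congr 1
      funext y'; congr 1; funext l; rcases l with c | b <;> rfl

/-! ### Flatness -/

theorem Flat.op {L : Type} [Fintype L] {c : ℝ} {d : ℕ} {T : (L → Fin d) → ℝ} (h : Flat c T)
    {P Q : Type} [Fintype P] [DecidableEq P] [Fintype Q] [DecidableEq Q] [Nonempty P] [Nonempty Q]
    (e : P ⊕ Q ≃ L) (A : (P → Fin d) → ℝ) :
    ∑ b, (∑ a, A a * T fun l => Sum.elim a b (e.symm l)) ^ 2 ≤ c ^ 2 * ∑ a, A a ^ 2 := by
  set X : (Q → Fin d) → ℝ := fun b => ∑ a, A a * T fun l => Sum.elim a b (e.symm l) with hX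
  have h1 := h P Q e A X
  have e1 : ∑ a, ∑ b, A a * X b * T (fun l => Sum.elim a b (e.symm l)) = ∑ b, X b ^ 2 := by
    rw [Finset.sum_comm]
    refine Finset.sum_congr rfl fun b _ => ?_
    rw [pow_two]
    nth_rw 3 [hX]
    rw [Finset.mul_sum]
    exact Finset.sum_congr rfl fun a _ => by ring
  rw [e1] at h1
  rcases (Finset.sum_nonneg fun b (_ : b ∈ Finset.univ) => sq_nonneg (X b)).eq_or_lt with h0 | h0
  · exact h0.symm.trans_le (by positivity)
  · exact le_of_mul_le_mul_right (by rw [← pow_two]; exact h1) h0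

theorem Flat.swap {L : Type} [Fintype L] {c : ℝ} {d : ℕ} {T : (L → Fin d) → ℝ}
    {L' : Type} [Fintype L'] (ε : L ≃ L') (h : Flat c T) :
    Flat c (fun J : L' → Fin d => T fun l => J (ε l)) := by
  intro P Q _ _ _ _ _ _ e A Bv
  refine le_of_eq_of_le ?_ (h P Q (e.trans ε.symm) A Bv)
  simp [Equiv.symm_trans_apply]

theorem Flat.mono {L : Type} [Fintype L] {c c' : ℝ} {d : ℕ} {T : (L → Fin d) → ℝ} (h : Flat c T)
    (hc : 0 ≤ c) (hle : c ≤ c') : Flat c' T := fun P Q _ _ _ _ _ _ e A Bv =>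
  (h P Q e A Bv).trans (mul_le_mul_of_nonneg_right (mul_le_mul_of_nonneg_right
    (pow_le_pow_left₀ hc hle 2) (Finset.sum_nonneg fun _ _ => sq_nonneg _))
    (Finset.sum_nonneg fun _ _ => sq_nonneg _))

/-- the split of a contraction with an `A` leg on the left and a `Bv` leg on the right -/
theorem flat_contr_aux {d : ℕ} {L₁ L₂ Γ : Type} [Fintype L₁] [Fintype L₂] [Fintype Γ]
    [DecidableEq L₁] [DecidableEq L₂] [DecidableEq Γ] [Nonempty Γ] {c₁ c₂ : ℝ}
    {T : (L₁ ⊕ Γ → Fin d) → ℝ} {S : (Γ ⊕ L₂ → Fin d) → ℝ} (hT : Flat c₁ T) (hS : Flat c₂ S)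
    {P₁ Q₁ P₂ Q₂ : Type} [Fintype P₁] [Fintype Q₁] [Fintype P₂] [Fintype Q₂]
    [DecidableEq P₁] [DecidableEq Q₁] [DecidableEq P₂] [DecidableEq Q₂]
    [Nonempty P₁] [Nonempty Q₂] (e₁ : P₁ ⊕ Q₁ ≃ L₁) (e₂ : P₂ ⊕ Q₂ ≃ L₂)
    (A : (P₁ → Fin d) → (P₂ → Fin d) → ℝ) (Bv : (Q₁ → Fin d) → (Q₂ → Fin d) → ℝ) :
    (∑ a₁, ∑ a₂, ∑ b₁, ∑ b₂, A a₁ a₂ * Bv b₁ b₂ * ∑ G,
        T (Sum.elim (fun l => Sum.elim a₁ b₁ (e₁.symm l)) G) *
          S (Sum.elim G fun l => Sum.elim a₂ b₂ (e₂.symm l))) ^ 2 ≤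
      (c₁ * c₂) ^ 2 * (∑ a₁, ∑ a₂, A a₁ a₂ ^ 2) * ∑ b₁, ∑ b₂, Bv b₁ b₂ ^ 2 := by
  let ε₁ : P₁ ⊕ (Q₁ ⊕ Γ) ≃ L₁ ⊕ Γ :=
    (Equiv.sumAssoc P₁ Q₁ Γ).symm.trans (e₁.sumCongr (Equiv.refl Γ))
  let ε₂ : Q₂ ⊕ (Γ ⊕ P₂) ≃ Γ ⊕ L₂ :=
    ((Equiv.sumComm Q₂ (Γ ⊕ P₂)).trans (Equiv.sumAssoc Γ P₂ Q₂)).trans
      ((Equiv.refl Γ).sumCongr e₂)
  set X : (P₂ → Fin d) → (Q₁ → Fin d) → (Γ → Fin d) → ℝ := fun a₂ b₁ G =>
    ∑ a₁, A a₁ a₂ * T (Sum.elim (fun l => Sum.elim a₁ b₁ (e₁.symm l)) G) with hX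
  set Y : (P₂ → Fin d) → (Q₁ → Fin d) → (Γ → Fin d) → ℝ := fun a₂ b₁ G =>
    ∑ b₂, Bv b₁ b₂ * S (Sum.elim G fun l => Sum.elim a₂ b₂ (e₂.symm l)) with hY
  have hXb : ∀ a₂, ∑ b₁, ∑ G, X a₂ b₁ G ^ 2 ≤ c₁ ^ 2 * ∑ a₁, A a₁ a₂ ^ 2 := fun a₂ => by
    refine le_of_eq_of_le ?_ (hT.op ε₁ fun a₁ => A a₁ a₂)
    rw [← (Equiv.sumArrowEquivProdArrow Q₁ Γ (Fin d)).symm.sum_comp, Fintype.sum_prod_type]
    refine Finset.sum_congr rfl fun b₁ _ => Finset.sum_congr rfl fun G _ => ?_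
    simp only [hX]
    congr 1
    refine Finset.sum_congr rfl fun a₁ _ => ?_
    congr 2
    funext l
    rcases l with l | g
    · obtain ⟨x, rfl⟩ := e₁.surjective l
      rcases x with x | x <;> simp [ε₁, Equiv.sumArrowEquivProdArrow]
    · simp [ε₁, Equiv.sumArrowEquivProdArrow]
  have hYb : ∀ b₁, ∑ a₂, ∑ G, Y a₂ b₁ G ^ 2 ≤ c₂ ^ 2 * ∑ b₂, Bv b₁ b₂ ^ 2 := fun b₁ => by
    refine le_of_eq_of_le ?_ (hS.op ε₂ fun b₂ => Bv b₁ b₂)
    rw [← (Equiv.sumArrowEquivProdArrow Γ P₂ (Fin d)).symm.sum_comp, Fintype.sum_prod_type,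
      Finset.sum_comm]
    refine Finset.sum_congr rfl fun G _ => Finset.sum_congr rfl fun a₂ _ => ?_
    simp only [hY]
    congr 1
    refine Finset.sum_congr rfl fun b₂ _ => ?_
    congr 2
    funext l
    rcases l with g | l
    · simp [ε₂, Equiv.sumArrowEquivProdArrow]
    · obtain ⟨x, rfl⟩ := e₂.surjective l
      rcases x with x | x <;> simp [ε₂, Equiv.sumArrowEquivProdArrow]
  have e0 : (∑ a₁, ∑ a₂, ∑ b₁, ∑ b₂, A a₁ a₂ * Bv b₁ b₂ * ∑ G,
        T (Sum.elim (fun l => Sum.elim a₁ b₁ (e₁.symm l)) G) *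
          S (Sum.elim G fun l => Sum.elim a₂ b₂ (e₂.symm l))) =
      ∑ q : (P₂ → Fin d) × (Q₁ → Fin d) × (Γ → Fin d),
        X q.1 q.2.1 q.2.2 * Y q.1 q.2.1 q.2.2 := by
    simp only [Fintype.sum_prod_type, hX, hY]
    conv_lhs => simp only [Finset.mul_sum]
    rw [Finset.sum_comm]
    refine Finset.sum_congr rfl fun a₂ _ => ?_
    rw [Finset.sum_comm]
    refine Finset.sum_congr rfl fun b₁ _ => ?_
    conv_lhs => enter [2, a₁]; rw [Finset.sum_comm]
    rw [Finset.sum_comm]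
    refine Finset.sum_congr rfl fun G _ => ?_
    rw [Finset.sum_mul_sum]
    exact Finset.sum_congr rfl fun a₁ _ => Finset.sum_congr rfl fun b₂ _ => by ring
  rw [e0]
  refine (Finset.sum_mul_sq_le_sq_mul_sq _ _ _).trans ?_
  have h1 : ∑ q : (P₂ → Fin d) × (Q₁ → Fin d) × (Γ → Fin d), X q.1 q.2.1 q.2.2 ^ 2 ≤
      c₁ ^ 2 * ∑ a₁, ∑ a₂, A a₁ a₂ ^ 2 := by
    simp only [Fintype.sum_prod_type]
    rw [Finset.sum_comm (f := fun a₁ a₂ => A a₁ a₂ ^ 2), Finset.mul_sum]
    exact Finset.sum_le_sum fun a₂ _ => hXb a₂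
  have h2 : ∑ q : (P₂ → Fin d) × (Q₁ → Fin d) × (Γ → Fin d), Y q.1 q.2.1 q.2.2 ^ 2 ≤
      c₂ ^ 2 * ∑ b₁, ∑ b₂, Bv b₁ b₂ ^ 2 := by
    simp only [Fintype.sum_prod_type]
    rw [Finset.sum_comm, Finset.mul_sum]
    exact Finset.sum_le_sum fun b₁ _ => hYb b₁
  refine (mul_le_mul h1 h2 (Finset.sum_nonneg fun q _ => sq_nonneg _) (by positivity)).trans_eq ?_
  ring

theorem exists_left_split {A₁ A₂ P Q : Type} (e : P ⊕ Q ≃ A₁ ⊕ A₂) :
    ∃ f : {l // (e.symm (Sum.inl l)).isLeft} ⊕ {l // (e.symm (Sum.inr l)).isLeft} ≃ P,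
      (∀ l, e.symm (Sum.inl l.1) = Sum.inl (f (Sum.inl l))) ∧
        ∀ l, e.symm (Sum.inr l.1) = Sum.inl (f (Sum.inr l)) := by
  refine ⟨Equiv.ofBijective (Sum.elim (fun l => (e.symm (Sum.inl l.1)).getLeft l.2)
    fun l => (e.symm (Sum.inr l.1)).getLeft l.2) ⟨?_, fun x => ?_⟩,
    fun l => (Sum.inl_getLeft _ _).symm, fun l => (Sum.inl_getLeft _ _).symm⟩
  · intro x y h
    have h' := congrArg (Sum.inl (β := Q)) h
    rcases x with ⟨a, ha⟩ | ⟨a, ha⟩ <;> rcases y with ⟨b, hb⟩ | ⟨b, hb⟩ <;>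
      simp only [Sum.elim_inl, Sum.elim_inr, Sum.inl_getLeft] at h' <;>
      have := e.symm.injective h' <;> simp_all
  · rcases hx : e (Sum.inl x) with l | l
    · exact ⟨Sum.inl ⟨l, by simp [← hx]⟩, by simp [← hx]⟩
    · exact ⟨Sum.inr ⟨l, by simp [← hx]⟩, by simp [← hx]⟩

theorem exists_right_split {A₁ A₂ P Q : Type} (e : P ⊕ Q ≃ A₁ ⊕ A₂) :
    ∃ f : {l // ¬ (e.symm (Sum.inl l)).isLeft} ⊕ {l // ¬ (e.symm (Sum.inr l)).isLeft} ≃ Q,
      (∀ l, e.symm (Sum.inl l.1) = Sum.inr (f (Sum.inl l))) ∧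
        ∀ l, e.symm (Sum.inr l.1) = Sum.inr (f (Sum.inr l)) := by
  refine ⟨Equiv.ofBijective (Sum.elim
      (fun l => (e.symm (Sum.inl l.1)).getRight (by simpa using l.2))
      fun l => (e.symm (Sum.inr l.1)).getRight (by simpa using l.2)) ⟨?_, fun x => ?_⟩,
    fun l => (Sum.inr_getRight _ _).symm, fun l => (Sum.inr_getRight _ _).symm⟩
  · intro x y h
    have h' := congrArg (Sum.inr (α := P)) h
    rcases x with ⟨a, ha⟩ | ⟨a, ha⟩ <;> rcases y with ⟨b, hb⟩ | ⟨b, hb⟩ <;>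
      simp only [Sum.elim_inl, Sum.elim_inr, Sum.inr_getRight] at h' <;>
      have := e.symm.injective h' <;> simp_all
  · rcases hx : e (Sum.inr x) with l | l
    · exact ⟨Sum.inl ⟨l, by simp [← hx]⟩, by simp [← hx]⟩
    · exact ⟨Sum.inr ⟨l, by simp [← hx]⟩, by simp [← hx]⟩

/-- split a sum over tuples -/
theorem sum_tuple_split {d : ℕ} {P P₁ P₂ : Type} [Fintype P] [Fintype P₁] [Fintype P₂] [DecidableEq P]
    [DecidableEq P₁] [DecidableEq P₂] (f : P₁ ⊕ P₂ ≃ P) (F : (P → Fin d) → ℝ) :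
    ∑ a, F a = ∑ a₁ : P₁ → Fin d, ∑ a₂ : P₂ → Fin d, F fun x => Sum.elim a₁ a₂ (f.symm x) :=
  (((Equiv.sumArrowEquivProdArrow P₁ P₂ (Fin d)).symm.trans
    (f.arrowCongr (Equiv.refl (Fin d)))).sum_comp F).symm.trans
      (Fintype.sum_prod_type _)

theorem Flat.contr {d : ℕ} {L₁ L₂ Γ : Type} [Fintype L₁] [Fintype L₂] [Fintype Γ]
    [DecidableEq L₁] [DecidableEq L₂] [DecidableEq Γ] [Nonempty L₁] [Nonempty L₂] [Nonempty Γ]
    {c₁ c₂ : ℝ} {T : (L₁ ⊕ Γ → Fin d) → ℝ} {S : (Γ ⊕ L₂ → Fin d) → ℝ} (hT : Flat c₁ T)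
    (hS : Flat c₂ S) :
    Flat (c₁ * c₂) (fun J : L₁ ⊕ L₂ → Fin d => ∑ G, T (Sum.elim (fun l => J (Sum.inl l)) G) *
      S (Sum.elim G fun l => J (Sum.inr l))) := by
  have main : ∀ (P Q : Type) [Fintype P] [DecidableEq P] [Fintype Q] [DecidableEq Q]
      (e : P ⊕ Q ≃ L₁ ⊕ L₂) (A : (P → Fin d) → ℝ) (Bv : (Q → Fin d) → ℝ),
      (∃ l₁, (e.symm (Sum.inl l₁)).isLeft) → (∃ l₂, ¬ (e.symm (Sum.inr l₂)).isLeft) →
      (∑ a, ∑ b, A a * Bv b * ∑ G,
        T (Sum.elim (fun l => Sum.elim a b (e.symm (Sum.inl l))) G) *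
          S (Sum.elim G fun l => Sum.elim a b (e.symm (Sum.inr l)))) ^ 2 ≤
        (c₁ * c₂) ^ 2 * (∑ a, A a ^ 2) * ∑ b, Bv b ^ 2 := by
    intro P Q _ _ _ _ e A Bv h1 h2
    let p₁ : L₁ → Prop := fun l => (e.symm (Sum.inl l)).isLeft
    let p₂ : L₂ → Prop := fun l => (e.symm (Sum.inr l)).isLeft
    have : Nonempty {l // p₁ l} := h1.elim fun l h => ⟨⟨l, h⟩⟩
    have : Nonempty {l // ¬ p₂ l} := h2.elim fun l h => ⟨⟨l, h⟩⟩
    obtain ⟨eP, hPl, hPr⟩ := exists_left_split e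
    obtain ⟨eQ, hQl, hQr⟩ := exists_right_split e
    have h := flat_contr_aux hT hS (Equiv.sumCompl p₁) (Equiv.sumCompl p₂)
      (fun a₁ a₂ => A fun x => Sum.elim a₁ a₂ (eP.symm x))
      (fun b₁ b₂ => Bv fun x => Sum.elim b₁ b₂ (eQ.symm x))
    rw [sum_tuple_split eP, sum_tuple_split eP (fun a => A a ^ 2), sum_tuple_split eQ (fun b => Bv b ^ 2)]
    refine le_of_eq_of_le ?_ h
    congr 1
    refine Finset.sum_congr rfl fun a₁ _ => Finset.sum_congr rfl fun a₂ _ => ?_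
    rw [sum_tuple_split eQ]
    refine Finset.sum_congr rfl fun b₁ _ => Finset.sum_congr rfl fun b₂ _ => ?_
    congr 1
    refine Finset.sum_congr rfl fun G _ => ?_
    have hl : ∀ l, Sum.elim (fun x => Sum.elim a₁ a₂ (eP.symm x))
        (fun x => Sum.elim b₁ b₂ (eQ.symm x)) (e.symm (Sum.inl l)) =
        Sum.elim a₁ b₁ ((Equiv.sumCompl p₁).symm l) := fun l => by
      by_cases h : p₁ l
      · rw [Equiv.sumCompl_symm_apply_of_pos h, hPl ⟨l, h⟩]; simp
      · rw [Equiv.sumCompl_symm_apply_of_neg h, hQl ⟨l, h⟩]; simp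
    have hr : ∀ l, Sum.elim (fun x => Sum.elim a₁ a₂ (eP.symm x))
        (fun x => Sum.elim b₁ b₂ (eQ.symm x)) (e.symm (Sum.inr l)) =
        Sum.elim a₂ b₂ ((Equiv.sumCompl p₂).symm l) := fun l => by
      by_cases h : p₂ l
      · rw [Equiv.sumCompl_symm_apply_of_pos h, hPr ⟨l, h⟩]; simp
      · rw [Equiv.sumCompl_symm_apply_of_neg h, hQr ⟨l, h⟩]; simp
    simp only [hl, hr]
  intro P Q _ _ _ _ hP hQ e A Bv
  by_cases h : (∃ l₁, (e.symm (Sum.inl l₁)).isLeft) ∧ ∃ l₂, ¬ (e.symm (Sum.inr l₂)).isLeft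
  · exact main P Q e A Bv h.1 h.2
  let e' := (Equiv.sumComm Q P).trans e
  have hs : ∀ x, (e'.symm x).isLeft = !(e.symm x).isLeft := fun x => by
    rcases hx : e.symm x with p | q <;> simp [e', hx]
  have hn : (∃ l₁, (e'.symm (Sum.inl l₁)).isLeft) ∧ ∃ l₂, ¬ (e'.symm (Sum.inr l₂)).isLeft := by
    simp only [hs, Bool.not_eq_true, Bool.not_eq_eq_eq_not, Bool.not_false]
    rcases not_and_or.1 h with h' | h' <;> push Not at h'
    · refine ⟨⟨Classical.arbitrary L₁, by simpa using h' _⟩, ?_⟩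
      obtain ⟨p⟩ := hP
      rcases hp : e (Sum.inl p) with l | l
      · exact absurd (h' l) (by simp [← hp])
      · exact ⟨l, by simp [← hp]⟩
    · refine ⟨?_, ⟨Classical.arbitrary L₂, by simpa using h' _⟩⟩
      obtain ⟨q⟩ := hQ
      rcases hq : e (Sum.inr q) with l | l
      · exact ⟨l, by simp [← hq]⟩
      · exact absurd (h' l) (by simp [← hq])
  have key := main Q P e' Bv A hn.1 hn.2
  rw [Finset.sum_comm]
  refine le_of_eq_of_le ?_ (key.trans_eq (by ring))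
  congr 1
  refine Finset.sum_congr rfl fun b _ => Finset.sum_congr rfl fun a _ => ?_
  have hel : ∀ x, Sum.elim b a (e'.symm x) = Sum.elim a b (e.symm x) := fun x => by
    rcases hx : e.symm x with p | q <;> simp [e', hx]
  simp only [hel]
  ring

/-- Every member of the class is flat. -/
theorem Ten.flat {L : Type} [Fintype L] [DecidableEq L] {T : TF L} (h : Ten L T) :
    ∃ C : ℝ, 0 ≤ C ∧ ∀ (p : Par) (t : ℝ), 1 ≤ t → ∀ y, Flat (C * p.η * exp (-t)) (T p t y) := by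
  induction h with
  | @base L _ _ hL =>
    obtain ⟨C, hC, hf⟩ := exists_flat_tU (Fintype.card L)
    refine ⟨C * 2 ^ (Fintype.card L - 2), by positivity, fun p t ht y => ?_⟩
    have hη := p.pert.eta_nonneg
    have hb : (Zero.bT t)⁻¹ ≤ 2 := inv_bT_le_two ht
    have hb0 : 0 ≤ (Zero.bT t)⁻¹ := inv_nonneg.2 (Real.sqrt_nonneg _)
    have he : exp (-t) ^ Fintype.card L ≤ exp (-t) :=
      pow_le_of_le_one (exp_pos _).le (exp_le_one_iff.2 (by linarith)) (by omega)
    refine (hf p.d p.η p.B p.W t y L p.pert (by linarith) rfl).mono (by positivity) ?_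
    calc C * p.η * exp (-t) ^ Fintype.card L * (Zero.bT t)⁻¹ ^ (Fintype.card L - 2)
        ≤ C * p.η * exp (-t) * 2 ^ (Fintype.card L - 2) := by gcongr
      _ = _ := by ring
  | @add L _ _ T S _ _ ih1 ih2 =>
    obtain ⟨C₁, h₁, f₁⟩ := ih1
    obtain ⟨C₂, h₂, f₂⟩ := ih2
    refine ⟨C₁ + C₂, add_nonneg h₁ h₂, fun p t ht y P Q _ _ _ _ _ _ e A Bv => ?_⟩
    have hs : 0 ≤ p.η * exp (-t) := mul_nonneg p.pert.eta_nonneg (exp_pos _).le
    have a := f₁ p t ht y P Q e A Bv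
    have b := f₂ p t ht y P Q e A Bv
    simp only [mul_add, Finset.sum_add_distrib]
    exact sq_add_le_of_sq_le a b (by rw [mul_assoc]; positivity) (by rw [mul_assoc]; positivity)
      (by ring)
  | @smul L _ _ c T _ ih =>
    obtain ⟨C, hC, f⟩ := ih
    refine ⟨|c| * C, by positivity, fun p t ht y P Q _ _ _ _ _ _ e A Bv => ?_⟩
    have a := mul_le_mul_of_nonneg_left (f p t ht y P Q e A Bv) (sq_nonneg c)
    refine le_of_eq_of_le ?_ (a.trans_eq (by rw [← sq_abs c]; ring))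
    rw [← mul_pow]
    simp only [Finset.mul_sum]
    exact congrArg (· ^ 2) (Finset.sum_congr rfl fun a _ => Finset.sum_congr rfl fun b _ => by ring)
  | @reindex L L' _ _ _ _ e T _ ih =>
    obtain ⟨C, hC, f⟩ := ih
    exact ⟨C, hC, fun p t ht y => (f p t ht y).swap e⟩
  | @congr L _ _ T S h _ ih =>
    obtain ⟨C, hC, f⟩ := ih
    refine ⟨C, hC, fun p t ht y => ?_⟩
    rw [funext (h p t (by linarith) y)]
    exact f p t ht y
  | @contr L₁ L₂ Γ _ _ _ _ _ _ _ _ _ T S _ _ ih1 ih2 =>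
    obtain ⟨C₁, h₁, f₁⟩ := ih1
    obtain ⟨C₂, h₂, f₂⟩ := ih2
    refine ⟨C₁ * C₂, mul_nonneg h₁ h₂, fun p t ht y => ?_⟩
    have hη := p.pert.eta_nonneg
    have hs : p.η * exp (-t) ≤ 1 :=
      mul_le_one₀ p.pert.eta_le_one (exp_pos _).le (exp_le_one_iff.2 (by linarith))
    have hs0 : 0 ≤ p.η * exp (-t) := mul_nonneg hη (exp_pos _).le
    refine ((f₁ p t ht y).contr (f₂ p t ht y)).mono (by positivity) ?_
    calc C₁ * p.η * exp (-t) * (C₂ * p.η * exp (-t))
        = C₁ * C₂ * ((p.η * exp (-t)) * (p.η * exp (-t))) := by ring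
      _ ≤ C₁ * C₂ * (p.η * exp (-t)) := by
          exact mul_le_mul_of_nonneg_left (mul_le_of_le_one_left hs0 hs) (mul_nonneg h₁ h₂)
      _ = _ := by ring

end Vale.Agent.P347.Zero
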