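import Vale.Agent.P347.Zero.Flat
import Vale.Agent.P347.Zero.Family
import Vale.Agent.P347.Deriv

/-!
# P347, exponent zero: every flattening of the derivatives of `tU`

`Flat c T` says that each split of the legs of `T` into two nonempty groups gives a matrix of norm
at most `c`. The derivatives of `tU W t` of order `n` are flat at size
`η exp (-n t) bT t ^ (-(n - 2))`.
-/

open MeasureTheory ProbabilityTheory Real Set Function
open scoped RealInnerProductSpace

namespace Vale.Agent.P347.Zero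

open Deriv

variable {d : ℕ}

/-! ### Derivatives along a list -/

/-- derivatives along a list of directions, outermost first -/
noncomputable def ddL {V : Type*} [NormedAddCommGroup V] [NormedSpace ℝ V] (l : List V)
    (f : V → ℝ) : V → ℝ :=
  l.foldr dd f

theorem good_ddL {V : Type*} [NormedAddCommGroup V] [NormedSpace ℝ V] {f : V → ℝ}
    (hf : ∀ n, Good n f) : ∀ (l : List V) (n : ℕ), Good n (ddL l f)
  | [], n => hf n
  | u :: l, n => (good_ddL hf l (n + 1)).dd u

theorem ddL_append {V : Type*} [NormedAddCommGroup V] [NormedSpace ℝ V] (l l' : List V)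
    (f : V → ℝ) : ddL (l ++ l') f = ddL l (ddL l' f) :=
  List.foldr_append

theorem ddL_perm {f : E d → ℝ} (hf : ∀ n, Good n f) {l l' : List (E d)} (h : List.Perm l l') :
    ddL l f = ddL l' f := by
  induction h with
  | nil => rfl
  | cons a _ ih => exact congrArg (dd a) ih
  | swap a b l => exact dd_comm (good_ddL hf l 2) b a
  | trans _ _ ih1 ih2 => exact ih1.trans ih2

theorem ddN_eq_ddL {f : E d → ℝ} : ∀ (r : ℕ) (v : Fin r → E d),
    ddN r v f = ddL (List.ofFn v) f
  | 0, _ => by simp [ddN, ddL]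
  | r + 1, v => by
    rw [List.ofFn_succ]
    simp only [ddN, ddN_eq_ddL r, ddL, List.foldr_cons]
    rfl

theorem ddL_smul {f : E d → ℝ} (hf : ∀ n, Good n f) (c : ℝ) : ∀ l : List (E d),
    ddL l (fun x => c * f x) = fun x => c * ddL l f x
  | [] => rfl
  | u :: l => by
    show dd u (ddL l fun x => c * f x) = _
    rw [ddL_smul hf c l]
    exact dd_const_mul (good_ddL hf l 1).differentiable c u

theorem ddL_tiltAt {g : E d → ℝ} (hg : ∀ n, Good n g) (b : ℝ) : ∀ l : List (E d),
    ddL l (fun u => g (tiltAt b d u)) =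
      fun u => (cosB b / b) ^ l.length * ddL l g (tiltAt b d u)
  | [] => by simp [ddL]
  | v :: l => by
    show dd v (ddL l fun u => g (tiltAt b d u)) = _
    rw [ddL_tiltAt hg b l]
    have hd := (good_ddL hg l 1).differentiable
    rw [dd_const_mul (f := fun u => ddL l g (tiltAt b d u)) (hd.comp (tiltAt b d).differentiable),
      dd_comp hd]
    funext u
    simp [ddL, tiltAt_apply, Deriv.dd, List.length_cons, pow_succ]
    ring

/-- the directions of a leg assignment -/
noncomputable def legs {L : Type} [Fintype L] (J : L → Fin d) : List (E d) :=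
  (Finset.univ : Finset L).toList.map fun l => bas (J l)

theorem legs_comp_equiv {L L' : Type} [Fintype L] [Fintype L'] (e : L ≃ L') (J : L' → Fin d) :
    List.Perm (legs fun l => J (e l)) (legs J) := by
  have h : List.Perm ((Finset.univ : Finset L).toList.map e) (Finset.univ : Finset L').toList :=
    (List.perm_ext_iff_of_nodup ((Finset.nodup_toList _).map e.injective)
      (Finset.nodup_toList _)).2 fun x => by simpa using ⟨e.symm x, e.apply_symm_apply x⟩
  simpa [legs, List.map_map, Function.comp_def] using h.map fun l => bas (J l)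

theorem legs_sum {P Q : Type} [Fintype P] [Fintype Q] (a : P → Fin d) (b : Q → Fin d) :
    List.Perm (legs (Sum.elim a b)) (legs a ++ legs b) := by
  have h : List.Perm (Finset.univ : Finset (P ⊕ Q)).toList
      ((Finset.univ : Finset P).toList.map Sum.inl ++ (Finset.univ : Finset Q).toList.map Sum.inr) :=
    (List.perm_ext_iff_of_nodup (Finset.nodup_toList _) (List.nodup_append.2
      ⟨(Finset.nodup_toList _).map Sum.inl_injective, (Finset.nodup_toList _).map Sum.inr_injective,
        fun x hx y hy => by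
          simp only [List.mem_map] at hx hy
          obtain ⟨u, -, rfl⟩ := hx; obtain ⟨v, -, rfl⟩ := hy; simp⟩)).2 fun x => by
      cases x <;> simp
  simpa [legs, List.map_map, List.map_append, Function.comp_def] using
    h.map fun l => bas (Sum.elim a b l)

theorem legs_fin {n : ℕ} (J : Fin n → Fin d) : List.Perm (legs J) (List.ofFn (bv J)) := by
  have h : List.Perm (Finset.univ : Finset (Fin n)).toList (List.ofFn id) :=
    (List.perm_ext_iff_of_nodup (Finset.nodup_toList _) (List.nodup_ofFn.2 injective_id)).2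
      fun x => by simp
  unfold bv
  simpa [legs, List.map_ofFn, Function.comp_def] using h.map fun l => bas (J l)

/-! ### Flattenings of a vector field with a Lipschitz bound -/

/-- operator bound for a vector field that is only continuously differentiable -/
structure OpF1 (L : ℝ) (f : Fin d → E d → ℝ) : Prop where
  nonneg : 0 ≤ L
  good : ∀ i, Good 1 (f i)
  lip : ∀ i x y, |f i x - f i y| ≤ L * ‖x - y‖
  op : OpLe (L ^ 2) (fun p i => dd (bas p) (f i))

theorem OpF1.sm {L : ℝ} {f : Fin d → E d → ℝ} (hf : OpF1 L f) {σ : ℝ} (hσ : σ ≠ 0) :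
    OpF L (fun i => P347.sm σ (f i)) where
  nonneg := hf.nonneg
  good i := good_sm (n := 0) (hf.good i) hσ
  op z a := by
    have h := opLe_sm (t := σ) hf.op (fun p i => (hf.good i).dd _) z a
    simp only [dd_sm (hf.good _)]
    refine le_of_eq_of_le (Finset.sum_congr rfl fun p _ => ?_) h
    congr 1
    exact Finset.sum_congr rfl fun i _ => mul_comm _ _

variable {η B : ℝ} {W : E d → ℝ}

theorem tendsto_tm_sm (hW : Pert η B W) {L : ℝ} {f : E d → ℝ} (hfc : Continuous f)
    (hfp : PolyBd f) (hlip : ∀ x y, |f x - f y| ≤ L * ‖x - y‖) (hL : 0 ≤ L) {H : Z d → ℝ}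
    (hH : Good 0 H) (ξ : E d) :
    ∀ σ : ℝ, |tm W (P347.sm σ f) H ξ - tm W f H ξ| ≤
      |σ| * (L * ∫ z, ‖z‖ ∂stdGaussian (E d)) * ∫ z, |H (ξ, z)| ∂law (tilt W ξ) := by
  intro σ
  have hP := hW.pert_tilt ξ
  have := hP.isProbabilityMeasure_law
  have hn : Integrable (fun z : E d => ‖z‖) (stdGaussian (E d)) :=
    PolyBd.id.norm.integrable _ continuous_norm.aestronglyMeasurable
  have hdiff : ∀ x, |P347.sm σ f x - f x| ≤ |σ| * (L * ∫ z, ‖z‖ ∂stdGaussian (E d)) := by
    intro x
    have hi := integrable_shift hfc hfp σ x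
    have e : P347.sm σ f x - f x = ∫ z, (f (x + σ • z) - f x) ∂stdGaussian (E d) := by
      rw [integral_sub hi (integrable_const _)]
      simp [P347.sm]
    rw [e, ← integral_const_mul, ← integral_const_mul, ← Real.norm_eq_abs]
    refine (norm_integral_le_of_norm_le ((hn.const_mul L).const_mul |σ|)
      (ae_of_all _ fun z => ?_))
    refine (hlip _ _).trans_eq ?_
    rw [add_sub_cancel_left, norm_smul, Real.norm_eq_abs]
    ring
  have hc : Continuous (P347.sm σ f) := by
    refine continuous_iff_continuousAt.2 fun x => ?_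
    have hl : LipschitzWith ⟨L, hL⟩ (P347.sm σ f) := LipschitzWith.of_dist_le_mul fun a b => by
      rw [Real.dist_eq, P347.sm, P347.sm, ← integral_sub (integrable_shift hfc hfp σ a)
        (integrable_shift hfc hfp σ b), dist_eq_norm]
      rw [← Real.norm_eq_abs]
      refine (norm_integral_le_of_norm_le (integrable_const (L * ‖a - b‖))
        (ae_of_all _ fun z => ?_)).trans_eq ?_
      · exact (hlip _ _).trans_eq (by simp)
      · simp; exact Or.inl rfl
    exact hl.continuous.continuousAt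
  have i1 := hW.integrable_tm hc (sm_polyBd hfp σ) hH ξ
  have i2 := hW.integrable_tm hfc hfp hH ξ
  simp only [tm]
  rw [← integral_sub i1 i2, ← integral_const_mul, ← Real.norm_eq_abs]
  refine (norm_integral_le_of_norm_le ((hP.integrable_law (hH.sect ξ).polyBd.norm
    (hH.sect ξ).continuous.norm).const_mul _) (ae_of_all _ fun z => ?_))
  rw [← sub_mul, Real.norm_eq_abs, abs_mul]
  exact mul_le_mul_of_nonneg_right (hdiff z) (abs_nonneg _)

/-- Every flattening, for a vector field with a Lipschitz bound. -/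
theorem exists_flat1 (a b : ℕ) : ∃ C : ℝ, 0 ≤ C ∧
    ∀ (d : ℕ) (η B : ℝ) (W : E d → ℝ) (L : ℝ) (f : Fin d → E d → ℝ) (ξ : E d)
      (A : Fin d × Tup d a → ℝ) (Bv : Tup d (b + 1) → ℝ), Pert η B W → OpF1 L f →
      (∑ x, ∑ K, A x * Bv K *
          ddN a (bv x.2) (ddN (b + 1) (bv K) (tm W (f x.1) fun _ => 1)) ξ) ^ 2 ≤
        C * L ^ 2 * (∑ x, A x ^ 2) * ∑ K, Bv K ^ 2 := by
  obtain ⟨C, hC, h⟩ := exists_flat a b
  refine ⟨C, hC, fun d η B W L f ξ A Bv hW hf => ?_⟩
  set H : Fin d × Tup d a → Tup d (b + 1) → Z d → ℝ :=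
    fun x K => qg W (qf W (b + 1) (bv K)) a (bv x.2)
  have gH : ∀ x K n, Good n (H x K) := fun x K => good_qg hW (hW.good_qf _ _) a _
  have rep : ∀ g : E d → ℝ, Continuous g → PolyBd g → ∀ (x : Fin d × Tup d a) K,
      ddN a (bv x.2) (ddN (b + 1) (bv K) (tm W g fun _ => 1)) ξ = tm W g (H x K) ξ := by
    intro g hg hgp x K
    rw [hW.ddN_tm hg hgp, ddN_tm_qg hW hg hgp (hW.good_qf _ _)]
  set X : (Fin d → E d → ℝ) → ℝ := fun g => ∑ x, ∑ K, A x * Bv K * tm W (g x.1) (H x K) ξ
  have hX : ∀ g, (∀ i, Continuous (g i)) → (∀ i, PolyBd (g i)) → ∑ x, ∑ K, A x * Bv K *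
      ddN a (bv x.2) (ddN (b + 1) (bv K) (tm W (g x.1) fun _ => 1)) ξ = X g := fun g hg hgp =>
    Finset.sum_congr rfl fun x _ => Finset.sum_congr rfl fun K _ => by
      rw [rep _ (hg _) (hgp _)]
  rw [hX f (fun i => (hf.good i).continuous) fun i => (hf.good i).polyBd]
  set M : ℝ := ∑ x, ∑ K, |A x * Bv K| *
    ((L * ∫ z, ‖z‖ ∂stdGaussian (E d)) * ∫ z, |H x K (ξ, z)| ∂law (tilt W ξ))
  have hlim : Filter.Tendsto (fun n : ℕ => X fun i => P347.sm (1 / ((n : ℝ) + 1)) (f i))
      Filter.atTop (nhds (X f)) := by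
    have h0 : Filter.Tendsto (fun n : ℕ => |1 / ((n : ℝ) + 1)| * M) Filter.atTop (nhds 0) := by
      simpa using (tendsto_one_div_add_atTop_nhds_zero_nat (𝕜 := ℝ)).abs.mul_const M
    rw [tendsto_iff_norm_sub_tendsto_zero]
    refine squeeze_zero (fun n => norm_nonneg _) (fun n => ?_) h0
    simp only [X, ← Finset.sum_sub_distrib, Real.norm_eq_abs, M, Finset.mul_sum]
    refine (Finset.abs_sum_le_sum_abs _ _).trans (Finset.sum_le_sum fun x _ =>
      (Finset.abs_sum_le_sum_abs _ _).trans (Finset.sum_le_sum fun K _ => ?_))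
    rw [← mul_sub, abs_mul]
    refine (mul_le_mul_of_nonneg_left (tendsto_tm_sm hW (hf.good _).continuous (hf.good _).polyBd
      (hf.lip _) hf.nonneg (gH x K 0) ξ _) (abs_nonneg _)).trans_eq ?_
    ring
  refine le_of_tendsto (hlim.pow 2) (Filter.Eventually.of_forall fun n => ?_)
  have hn : (1 / ((n : ℝ) + 1)) ≠ 0 := by positivity
  have hs := hf.sm hn
  have hb := h d η B W L _ ξ A hW hs
  rw [← hX _ (fun i => (hs.good i).continuous) fun i => (hs.good i).polyBd]
  rw [Finset.sum_comm]
  set Y := fun K => ∑ x, A x *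
    ddN a (bv x.2) (ddN (b + 1) (bv K) (tm W (P347.sm (1 / ((n : ℝ) + 1)) (f x.1)) fun _ => 1)) ξ
  calc (∑ K, ∑ x, A x * Bv K * ddN a (bv x.2) (ddN (b + 1) (bv K)
        (tm W (P347.sm (1 / ((n : ℝ) + 1)) (f x.1)) fun _ => 1)) ξ) ^ 2
      = (∑ K, Bv K * Y K) ^ 2 := by
        congr 1
        refine Finset.sum_congr rfl fun K _ => ?_
        simp only [Y, Finset.mul_sum]
        exact Finset.sum_congr rfl fun x _ => by ring
    _ ≤ (∑ K, Bv K ^ 2) * ∑ K, Y K ^ 2 := Finset.sum_mul_sq_le_sq_mul_sq _ _ _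
    _ ≤ _ := by
        refine (mul_le_mul_of_nonneg_left hb (Finset.sum_nonneg fun K _ => sq_nonneg _)).trans_eq ?_
        ring

/-! ### Flat tensors -/

/-- every split of the legs into two nonempty groups has norm at most `c` -/
def Flat {L : Type} [Fintype L] (c : ℝ) (T : (L → Fin d) → ℝ) : Prop :=
  ∀ (P Q : Type) [Fintype P] [DecidableEq P] [Fintype Q] [DecidableEq Q] [Nonempty P] [Nonempty Q] (e : P ⊕ Q ≃ L)
    (A : (P → Fin d) → ℝ) (Bv : (Q → Fin d) → ℝ),
    (∑ a, ∑ b, A a * Bv b * T (fun l => Sum.elim a b (e.symm l))) ^ 2 ≤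
      c ^ 2 * (∑ a, A a ^ 2) * ∑ b, Bv b ^ 2

theorem opF1_gcrd (hW : Pert η B W) {b : ℝ} (hb : 0 < b) :
    OpF1 (η * b) (fun i : Fin d => gcrd b W (bas i)) := by
  have hη := hW.eta_nonneg
  have hgd := hW.contDiff_grad.differentiable one_ne_zero
  have hd : ∀ i z u, fderiv ℝ (gcrd b W (bas i)) z u =
      ⟪b • fderiv ℝ (grad W) (b • z) u, bas i⟫ := by
    intro i z u
    have h1 : HasFDerivAt (fun z => grad W (b • z))
        ((fderiv ℝ (grad W) (b • z)).comp (b • ContinuousLinearMap.id ℝ (E d))) z :=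
      (hgd _).hasFDerivAt.comp z ((hasFDerivAt_id z).const_smul b)
    show fderiv ℝ (fun z => ⟪grad W (b • z), bas i⟫) z u = _
    rw [fderiv_inner_apply ℝ h1.differentiableAt (differentiableAt_const _), h1.fderiv]
    simp
  refine ⟨by positivity, fun i => ?_, fun i x y => ?_, fun z a => ?_⟩
  · refine ⟨(hgd.comp (differentiable_id.const_smul b)).inner ℝ (differentiable_const _),
      hW.polyBd_gcrd b _, fun u => ?_⟩
    rw [show dd u (gcrd b W (bas i)) =
      fun z => ⟪b • fderiv ℝ (grad W) (b • z) u, bas i⟫ from funext fun z => hd i z u]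
    refine ⟨?_, ?_⟩
    · exact ((((hW.contDiff_grad.continuous_fderiv one_ne_zero).comp
        (continuous_id.const_smul b)).clm_apply continuous_const).const_smul b).inner
          continuous_const
    · refine PolyBd.of_bound (B := b * ‖u‖) fun z => ?_
      refine (norm_inner_le_norm _ _).trans ?_
      rw [norm_smul, Real.norm_eq_abs, abs_of_pos hb,
        show ‖bas (d := d) i‖ = 1 from (EuclideanSpace.basisFun (Fin d) ℝ).orthonormal.1 i, mul_one]
      exact mul_le_mul_of_nonneg_left ((hW.norm_hess_apply_le _ _).trans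
        (mul_le_of_le_one_left (norm_nonneg _) hW.eta_le_one)) hb.le
  · have h := (hW.gcrd_wlip hb (bas i)).2.2 x y
    rw [show ‖bas (d := d) i‖ = 1 from (EuclideanSpace.basisFun (Fin d) ℝ).orthonormal.1 i] at h
    simpa [mul_comm] using h
  · set w : E d := ∑ i, a i • bas i with hw
    have hsum : ∀ p, ∑ i, dd (bas p) (gcrd b W (bas i)) z * a i =
        b * ⟪bas p, fderiv ℝ (grad W) (b • z) w⟫ := by
      intro p
      rw [← hW.hess_symm, hw, inner_sum, Finset.mul_sum]
      refine Finset.sum_congr rfl fun i _ => ?_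
      rw [Deriv.dd, hd, real_inner_smul_left, real_inner_smul_right]
      ring
    simp only [hsum, mul_pow, ← Finset.mul_sum]
    rw [show ∑ p, ⟪bas p, fderiv ℝ (grad W) (b • z) w⟫ ^ 2 = ‖fderiv ℝ (grad W) (b • z) w‖ ^ 2 from
      (EuclideanSpace.basisFun (Fin d) ℝ).sum_sq_inner_right _]
    have hw2 : ‖w‖ ^ 2 = ∑ k, a k ^ 2 := by
      rw [← real_inner_self_eq_norm_sq, hw,
        show (⟪∑ k, a k • bas k, ∑ k, a k • bas k⟫ : ℝ) = ∑ k, starRingEnd ℝ (a k) * a k from
          (EuclideanSpace.basisFun (Fin d) ℝ).orthonormal.inner_sum a a Finset.univ]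
      simp [pow_two]
    rw [← hw2, show η ^ 2 * b ^ 2 * ‖w‖ ^ 2 = b ^ 2 * (η * ‖w‖) ^ 2 by ring]
    exact mul_le_mul_of_nonneg_left (pow_le_pow_left₀ (norm_nonneg _)
      (hW.norm_hess_apply_le _ _) 2) (sq_nonneg b)

/-- tuples with the leg `0` split off -/
def tupEquiv {P : Type} {a : ℕ} (e : P ≃ Fin (a + 1)) : (Fin d × Tup d a) ≃ (P → Fin d) :=
  (Fin.consEquiv fun _ : Fin (a + 1) => Fin d).trans (e.symm.arrowCongr (Equiv.refl _))

/-- Every flattening of a derivative of `tU`. -/
theorem exists_flat_tU (n : ℕ) : ∃ C : ℝ, 0 ≤ C ∧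
    ∀ (d : ℕ) (η B : ℝ) (W : E d → ℝ) (t : ℝ) (u : E d) (L : Type) [Fintype L],
      Pert η B W → 0 < t → Fintype.card L = n →
      Flat (C * η * exp (-t) ^ n * (bT t)⁻¹ ^ (n - 2))
        (fun J : L → Fin d => ddL (legs J) (tU W t) u) := by
  choose C hC hf using fun a b => exists_flat1 a b
  refine ⟨∑ a ∈ Finset.range n, ∑ b ∈ Finset.range n, √(C a b), by positivity,
    fun d η B W t u L _ hW ht hn P Q _ _ _ _ _ _ e A Bv => ?_⟩
  set a := Fintype.card P - 1 with ha
  set b := Fintype.card Q - 1 with hb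
  have hPa : Fintype.card P = a + 1 := by
    have := Fintype.card_pos (α := P); omega
  have hQb : Fintype.card Q = b + 1 := by
    have := Fintype.card_pos (α := Q); omega
  have hnab : n = a + b + 2 := by
    rw [← hn, ← Fintype.card_congr e, Fintype.card_sum, hPa, hQb]; omega
  set eP := Fintype.equivFinOfCardEq hPa
  set eQ := Fintype.equivFinOfCardEq hQb
  set β := bT t
  have hβ : 0 < β := bT_pos ht
  have hS := hW.scl_pert hβ (bT_lt_one ht)
  set ξ := tiltAt β d u
  have hgood := good_tU hW ht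
  have hterm : ∀ (x : Fin d × Tup d a) (K : Tup d (b + 1)),
      ddL (legs fun l => Sum.elim (tupEquiv eP x)
          (fun q => K (eQ q)) (e.symm l)) (tU W t) u =
        exp (-t) * (exp (-t) / β) ^ (a + b + 1) *
          ddN a (bv x.2) (ddN (b + 1) (bv K) (tm (scl β W) (gcrd β W (bas x.1)) fun _ => 1)) ξ := by
    intro x K
    have hg := fun k => hS.good_tm (hW.continuous_gcrd β (bas x.1)) (hW.polyBd_gcrd β (bas x.1)) k
      fun j => good_const j 1
    set g := tm (scl β W) (gcrd β W (bas x.1)) fun _ => 1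
    have hp : List.Perm
        (legs fun l => Sum.elim (tupEquiv eP x) (fun q => K (eQ q)) (e.symm l))
        ((List.ofFn (bv x.2) ++ List.ofFn (bv K)) ++ [bas x.1]) := by
      refine (legs_comp_equiv e.symm _).trans ((legs_sum _ _).trans ?_)
      have h1 : List.Perm (legs (tupEquiv eP x)) (bas x.1 :: List.ofFn (bv x.2)) := by
        have := (legs_comp_equiv eP (Fin.cons x.1 x.2 : Tup d (a + 1))).trans (legs_fin _)
        rwa [bv_cons, List.ofFn_cons] at this
      refine (h1.append ((legs_comp_equiv eQ K).trans (legs_fin K))).trans ?_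
      exact (List.perm_append_singleton _ _).symm
    rw [ddL_perm hgood hp, ddL_append]
    have h0 : ddL [bas x.1] (tU W t) = fun u => exp (-t) * g (tiltAt β d u) := by
      funext u
      rw [← cosB_bT ht]
      exact (hW.hasFDerivAt_lsm hβ (bT_lt_one ht) u).2 (bas x.1)
    rw [h0, ddL_smul (f := fun u => g (tiltAt β d u)) (fun k => (hg k).comp _), ddL_tiltAt hg,
      ddL_append, ← ddN_eq_ddL, ← ddN_eq_ddL, cosB_bT ht]
    simp [ξ, List.length_append]
    ring_nf
  rw [← (tupEquiv eP).sum_comp]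
  have eQsum : ∀ g : (Q → Fin d) → ℝ, ∑ q, g q = ∑ K : Tup d (b + 1), g fun q => K (eQ q) :=
    fun g => ((eQ.symm.arrowCongr (Equiv.refl (Fin d))).sum_comp g).symm
  have eA : ∑ p, A p ^ 2 = ∑ x, A (tupEquiv eP x) ^ 2 :=
    ((tupEquiv eP).sum_comp fun p => A p ^ 2).symm
  rw [eA, eQsum fun q => Bv q ^ 2]
  simp only [eQsum, hterm]
  set s := exp (-t) * (exp (-t) / β) ^ (a + b + 1)
  have hh := hf a b d 1 B (scl β W) (η * β) (fun i => gcrd β W (bas i)) ξ
    (fun x => A (tupEquiv eP x)) (fun K => Bv fun q => K (eQ q)) hS (opF1_gcrd hW hβ)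
  calc (∑ x, ∑ K : Tup d (b + 1), A (tupEquiv eP x) * Bv (fun q => K (eQ q)) *
        (s * ddN a (bv x.2) (ddN (b + 1) (bv K) (tm (scl β W) (gcrd β W (bas x.1)) fun _ => 1)) ξ)) ^ 2
      = s ^ 2 * (∑ x, ∑ K : Tup d (b + 1), A (tupEquiv eP x) * Bv (fun q => K (eQ q)) *
        ddN a (bv x.2) (ddN (b + 1) (bv K) (tm (scl β W) (gcrd β W (bas x.1)) fun _ => 1)) ξ) ^ 2 := by
        rw [← mul_pow]
        congr 1
        simp only [Finset.mul_sum]
        exact Finset.sum_congr rfl fun x _ => Finset.sum_congr rfl fun K _ => by ring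
    _ ≤ s ^ 2 * (C a b * (η * β) ^ 2 * (∑ x, A (tupEquiv eP x) ^ 2) *
          ∑ K : Tup d (b + 1), Bv (fun q => K (eQ q)) ^ 2) :=
        mul_le_mul_of_nonneg_left hh (sq_nonneg s)
    _ ≤ _ := by
        set S := ∑ a ∈ Finset.range n, ∑ b ∈ Finset.range n, √(C a b)
        have hS1 : √(C a b) ≤ S := le_trans
          (Finset.single_le_sum (f := fun b => √(C a b)) (fun i _ => Real.sqrt_nonneg _)
            (Finset.mem_range.2 (show b < n by omega)))
          (Finset.single_le_sum (f := fun a => ∑ b ∈ Finset.range n, √(C a b))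
            (fun i _ => Finset.sum_nonneg fun j _ => Real.sqrt_nonneg _)
            (Finset.mem_range.2 (show a < n by omega)))
        have hC2 : C a b ≤ S ^ 2 := by
          rw [← Real.sq_sqrt (hC a b)]
          exact pow_le_pow_left₀ (Real.sqrt_nonneg _) hS1 2
        have es : s ^ 2 * (η * β) ^ 2 = (η * exp (-t) ^ n * β⁻¹ ^ (n - 2)) ^ 2 := by
          rw [← mul_pow]
          congr 1
          simp only [s]
          rw [hnab, show a + b + 2 - 2 = a + b by omega, div_pow, inv_pow]
          field_simp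
          ring
        calc s ^ 2 * (C a b * (η * β) ^ 2 * (∑ x, A (tupEquiv eP x) ^ 2) *
              ∑ K : Tup d (b + 1), Bv (fun q => K (eQ q)) ^ 2)
            = C a b * (s ^ 2 * (η * β) ^ 2) * ((∑ x, A (tupEquiv eP x) ^ 2) *
              ∑ K : Tup d (b + 1), Bv (fun q => K (eQ q)) ^ 2) := by ring
          _ ≤ S ^ 2 * (s ^ 2 * (η * β) ^ 2) * ((∑ x, A (tupEquiv eP x) ^ 2) *
              ∑ K : Tup d (b + 1), Bv (fun q => K (eQ q)) ^ 2) := by
              refine mul_le_mul_of_nonneg_right (mul_le_mul_of_nonneg_right hC2 (by positivity))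
                (mul_nonneg (Finset.sum_nonneg fun i _ => sq_nonneg _)
                  (Finset.sum_nonneg fun i _ => sq_nonneg _))
          _ = _ := by rw [es]; ring

end Vale.Agent.P347.Zero
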